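import Crest.Agent.R225.LoBern

/-!
# Row 225: second moment inside groups, independence between groups
-/

open Finset

namespace Crest.Agent.R225.Lo

namespace B

variable {G : Type} [Fintype G]

/-- abstract second moment bound -/
lemma second_moment {p : ℝ} (h0 : 0 ≤ p) (h1 : p ≤ 1) (T : ℕ) (E : Fin T → Finset G → Prop)
    (Λ : ℝ) (hP : ∀ i, Real.exp (-Λ) ≤ pr p (E i))
    (hpair : ∀ i i', i ≠ i' → pr p (fun S => E i S ∧ E i' S) ≤ pr p (E i) * pr p (E i') * Real.exp 1)
    (hT : Real.exp Λ ≤ T) :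
    pr p (fun S => ∀ i, ¬ E i S) ≤ 3 / 4 := by
  classical
  have hTpos : (0 : ℝ) < T := (Real.exp_pos _).trans_le hT
  have hPpos : ∀ i, 0 < pr p (E i) := fun i => (Real.exp_pos _).trans_le (hP i)
  set Z : Finset G → ℝ := fun S => ∑ i, ind (E i S) * (pr p (E i))⁻¹ with hZ
  have hEZ : ex p Z = T := by
    rw [hZ, ex_sum]
    have : ∀ i, ex p (fun S => ind (E i S) * (pr p (E i))⁻¹) = 1 := fun i => by
      rw [ex_mul_const, ← pr_eq, mul_inv_cancel₀ (hPpos i).ne']
    simp [this]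
  have he : Real.exp 1 ≤ 3 := Real.exp_one_lt_three.le
  have hEZ2 : ex p (fun S => Z S ^ 2) ≤ 4 * (T : ℝ) ^ 2 := by
    have e1 : ∀ S, Z S ^ 2 = ∑ i, ∑ i', ind (E i S ∧ E i' S) *
        ((pr p (E i))⁻¹ * (pr p (E i'))⁻¹) := by
      intro S
      rw [hZ, sq, Finset.sum_mul_sum]
      refine Finset.sum_congr rfl fun i _ => Finset.sum_congr rfl fun i' _ => ?_
      rw [ind_and]; ring
    rw [ex_congr p e1, ex_sum]
    have e2 : ∀ i, ex p (fun S => ∑ i', ind (E i S ∧ E i' S) *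
        ((pr p (E i))⁻¹ * (pr p (E i'))⁻¹)) ≤ 4 * T := by
      intro i
      rw [ex_sum]
      have e3 : ∀ i', ex p (fun S => ind (E i S ∧ E i' S) *
          ((pr p (E i))⁻¹ * (pr p (E i'))⁻¹)) ≤ 3 + if i' = i then (T : ℝ) else 0 := by
        intro i'
        rw [ex_mul_const, ← pr_eq]
        by_cases h : i' = i
        · subst h
          rw [if_pos rfl, pr_congr p (fun S => and_self_iff (a := E i' S)), ← mul_assoc]
          change pr p (E i') * _ * _ ≤ _
          rw [mul_inv_cancel₀ (hPpos i').ne', one_mul]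
          have : (pr p (E i'))⁻¹ ≤ Real.exp Λ := by
            rw [inv_le_comm₀ (hPpos i') (Real.exp_pos _), ← Real.exp_neg]
            exact hP i'
          linarith
        · rw [if_neg h, add_zero]
          have h2 := hpair i i' (Ne.symm h)
          have hi := hPpos i
          have hi' := hPpos i'
          calc _ ≤ (pr p (E i) * pr p (E i') * Real.exp 1) *
                ((pr p (E i))⁻¹ * (pr p (E i'))⁻¹) :=
                mul_le_mul_of_nonneg_right h2 (by positivity)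
            _ = Real.exp 1 := by field_simp
            _ ≤ 3 := he
      refine (Finset.sum_le_sum fun i' _ => e3 i').trans (le_of_eq ?_)
      rw [Finset.sum_add_distrib]
      simp
      ring
    refine (Finset.sum_le_sum fun i _ => e2 i).trans (le_of_eq ?_)
    simp
    ring
  have key : ∀ S, ind (∀ i, ¬ E i S) ≤
      1 - (2 * (4 * (T : ℝ))⁻¹) * Z S + ((4 * (T : ℝ))⁻¹) ^ 2 * Z S ^ 2 := by
    intro S
    by_cases h : ∀ i, ¬ E i S
    · have : Z S = 0 := Finset.sum_eq_zero fun i _ => by rw [ind_neg (h i), zero_mul]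
      rw [ind_pos h, this]; simp
    · rw [ind_neg h]
      nlinarith [sq_nonneg (1 - (4 * (T : ℝ))⁻¹ * Z S)]
  have h2 := ex_mono h0 h1 key
  rw [ex_add, ex_sub, ex_const, ex_const_mul, ex_const_mul, hEZ] at h2
  rw [pr_eq]
  refine h2.trans ?_
  have h3 : ((4 * (T : ℝ))⁻¹) ^ 2 * ex p (fun S => Z S ^ 2) ≤
      ((4 * (T : ℝ))⁻¹) ^ 2 * (4 * (T : ℝ) ^ 2) := mul_le_mul_of_nonneg_left hEZ2 (by positivity)
  have h4 : ((4 * (T : ℝ))⁻¹) ^ 2 * (4 * (T : ℝ) ^ 2) = 1 / 4 := by field_simp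
  have h5 : (2 * (4 * (T : ℝ))⁻¹) * T = 1 / 2 := by field_simp; norm_num
  linarith

end B

theorem abs (_hB : BernStmt) (hP : PairStmt) : AbsStmt := by
  intro G J _ _ p h0 h1 L T R act A c O Λ κ hR hAR hc0 hΛ hκ hc hO hcO hcO' hsmall hT
  classical
  obtain ⟨hP1, hP2⟩ := hP G J p h0 h1
  have grp : ∀ l, pr p (fun S => ∀ i, ¬ Hit (act l i) (A l i) S) ≤ 3 / 4 := by
    intro l
    refine B.second_moment h0 h1 T (fun i => Hit (act l i) (A l i)) Λ (fun i => ?_)
      (fun i i' h => ?_) hT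
    · exact (Real.exp_le_exp.mpr (neg_le_neg (hΛ l i))).trans (hP1 _ _ _ (hc l i))
    · refine (hP2 _ _ _ _ (c l i) (c l i') (O l i i') κ (hO l i i' h) (hc0 l i) (hc0 l i')
        (hcO l i i' h) (hcO' l i i' h) (hκ l i) (hκ l i')).trans ?_
      exact mul_le_mul_of_nonneg_left (Real.exp_le_exp.mpr (hsmall l i i' h))
        (mul_nonneg (B.pr_nonneg h0 h1 _) (B.pr_nonneg h0 h1 _))
  have loc : ∀ l i (S : Finset G), Hit (act l i) (A l i) (S ∩ R l) ↔ Hit (act l i) (A l i) S := by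
    intro l i S
    refine forall_congr' fun j => forall_congr' fun hj => ?_
    rw [Finset.inter_assoc, Finset.inter_eq_right.mpr (hAR l i j hj)]
  have h2 := B.ex_prod p L R (fun l S => B.ind (∀ i, ¬ Hit (act l i) (A l i) S)) hR
  simp only [loc] at h2
  have h3 : pr p (fun S => ∀ l i, ¬ Hit (act l i) (A l i) S) =
      ex p (fun S => ∏ l, B.ind (∀ i, ¬ Hit (act l i) (A l i) S)) := by
    rw [B.pr_eq]
    refine B.ex_congr p fun S => ?_
    by_cases h : ∀ l i, ¬ Hit (act l i) (A l i) S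
    · rw [B.ind_pos h]
      exact (Finset.prod_eq_one fun l _ => B.ind_pos (h l)).symm
    · rw [B.ind_neg h]
      obtain ⟨l, hl⟩ := not_forall.mp h
      exact (Finset.prod_eq_zero (Finset.mem_univ l) (B.ind_neg hl)).symm
  rw [h3, h2]
  calc _ ≤ ∏ _l : Fin L, (3 / 4 : ℝ) :=
        Finset.prod_le_prod (fun l _ => B.pr_nonneg h0 h1 _) (fun l _ => grp l)
    _ = _ := by rw [Finset.prod_const, Finset.card_univ, Fintype.card_fin]

end Crest.Agent.R225.Lo
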