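import Crest.Agent.R225.LoDefs

/-!
# Row 225: Bernoulli subsets toolkit
-/

open Finset

namespace Crest.Agent.R225.Lo

namespace B

variable {G : Type} [Fintype G]

/-- weight of `S` -/
noncomputable def wt (p : ℝ) (S : Finset G) : ℝ := p ^ S.card * (1 - p) ^ (Fintype.card G - S.card)

lemma ex_eq (p : ℝ) (f : Finset G → ℝ) : ex p f = ∑ S : Finset G, wt p S * f S := rfl

lemma wt_nonneg {p : ℝ} (h0 : 0 ≤ p) (h1 : p ≤ 1) (S : Finset G) : 0 ≤ wt p S :=
  mul_nonneg (pow_nonneg h0 _) (pow_nonneg (by linarith) _)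

lemma sum_wt (p : ℝ) : ∑ S : Finset G, wt p S = 1 := by
  classical
  have h := Finset.sum_pow_mul_eq_add_pow p (1 - p) (Finset.univ : Finset G)
  rw [Finset.powerset_univ, Finset.card_univ] at h
  simp only [wt]
  rw [h]; simp

lemma ex_const (p c : ℝ) : ex p (fun _ : Finset G => c) = c := by
  rw [ex_eq, ← Finset.sum_mul, sum_wt, one_mul]

lemma ex_mono {p : ℝ} (h0 : 0 ≤ p) (h1 : p ≤ 1) {f g : Finset G → ℝ} (h : ∀ S, f S ≤ g S) :
    ex p f ≤ ex p g :=
  Finset.sum_le_sum fun S _ => mul_le_mul_of_nonneg_left (h S) (wt_nonneg h0 h1 S)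

lemma ex_congr (p : ℝ) {f g : Finset G → ℝ} (h : ∀ S, f S = g S) : ex p f = ex p g := by
  rw [show f = g from funext h]

lemma ex_nonneg {p : ℝ} (h0 : 0 ≤ p) (h1 : p ≤ 1) {f : Finset G → ℝ} (h : ∀ S, 0 ≤ f S) :
    0 ≤ ex p f := by
  have := ex_mono h0 h1 (f := fun _ : Finset G => (0 : ℝ)) (g := f) h
  rwa [ex_const] at this

lemma ex_add (p : ℝ) (f g : Finset G → ℝ) : ex p (fun S => f S + g S) = ex p f + ex p g := by
  simp only [ex_eq, mul_add, Finset.sum_add_distrib]

lemma ex_sub (p : ℝ) (f g : Finset G → ℝ) : ex p (fun S => f S - g S) = ex p f - ex p g := by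
  simp only [ex_eq, mul_sub, Finset.sum_sub_distrib]

lemma ex_const_mul (p c : ℝ) (f : Finset G → ℝ) : ex p (fun S => c * f S) = c * ex p f := by
  simp only [ex_eq, Finset.mul_sum]
  exact Finset.sum_congr rfl fun S _ => by ring

lemma ex_mul_const (p c : ℝ) (f : Finset G → ℝ) : ex p (fun S => f S * c) = ex p f * c := by
  simp only [ex_eq, Finset.sum_mul]
  exact Finset.sum_congr rfl fun S _ => by ring

lemma ex_sum {ι : Type*} (p : ℝ) (s : Finset ι) (f : ι → Finset G → ℝ) :
    ex p (fun S => ∑ i ∈ s, f i S) = ∑ i ∈ s, ex p (f i) := by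
  simp only [ex_eq, Finset.mul_sum]
  exact Finset.sum_comm

open Classical in
/-- indicator -/
noncomputable def ind (P : Prop) : ℝ := if P then 1 else 0

lemma pr_eq (p : ℝ) (A : Finset G → Prop) : pr p A = ex p (fun S => ind (A S)) := rfl

lemma ind_nonneg (P : Prop) : 0 ≤ ind P := by unfold ind; split_ifs <;> norm_num
lemma ind_le_one (P : Prop) : ind P ≤ 1 := by unfold ind; split_ifs <;> norm_num
lemma ind_pos {P : Prop} (h : P) : ind P = 1 := by unfold ind; simp [h]
lemma ind_neg {P : Prop} (h : ¬ P) : ind P = 0 := by unfold ind; simp [h]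
lemma ind_mono {P Q : Prop} (h : P → Q) : ind P ≤ ind Q := by
  by_cases hP : P
  · rw [ind_pos hP, ind_pos (h hP)]
  · rw [ind_neg hP]; exact ind_nonneg _
lemma ind_congr {P Q : Prop} (h : P ↔ Q) : ind P = ind Q := by rw [propext h]
lemma ind_and (P Q : Prop) : ind (P ∧ Q) = ind P * ind Q := by
  by_cases hP : P <;> by_cases hQ : Q <;> simp [ind, hP, hQ]
lemma ind_not (P : Prop) : ind (¬ P) = 1 - ind P := by
  by_cases hP : P <;> simp [ind, hP]

lemma pr_mono {p : ℝ} (h0 : 0 ≤ p) (h1 : p ≤ 1) {A A' : Finset G → Prop} (h : ∀ S, A S → A' S) :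
    pr p A ≤ pr p A' :=
  ex_mono h0 h1 fun S => ind_mono (h S)

lemma pr_congr (p : ℝ) {A A' : Finset G → Prop} (h : ∀ S, A S ↔ A' S) : pr p A = pr p A' :=
  ex_congr p fun S => ind_congr (h S)

lemma pr_nonneg {p : ℝ} (h0 : 0 ≤ p) (h1 : p ≤ 1) (A : Finset G → Prop) : 0 ≤ pr p A :=
  ex_nonneg h0 h1 fun _ => ind_nonneg _

lemma pr_le_one {p : ℝ} (h0 : 0 ≤ p) (h1 : p ≤ 1) (A : Finset G → Prop) : pr p A ≤ 1 := by
  have := ex_mono h0 h1 (f := fun S : Finset G => ind (A S)) (g := fun _ => (1 : ℝ))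
    fun S => ind_le_one _
  rwa [ex_const] at this

lemma pr_not (p : ℝ) (A : Finset G → Prop) : pr p (fun S => ¬ A S) = 1 - pr p A := by
  rw [pr_eq, pr_eq, ex_congr p (fun S => ind_not (A S)), ex_sub, ex_const]

lemma pr_true (p : ℝ) {A : Finset G → Prop} (h : ∀ S, A S) : pr p A = 1 := by
  rw [pr_eq, ex_congr p (fun S => ind_pos (h S)), ex_const]

variable [DecidableEq G]

/-- relative weight -/
noncomputable def w (p : ℝ) (A T : Finset G) : ℝ := p ^ T.card * (1 - p) ^ (A.card - T.card)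

omit [Fintype G] [DecidableEq G] in
lemma sum_w (p : ℝ) (A : Finset G) : ∑ T ∈ A.powerset, w p A T = 1 := by
  have h := Finset.sum_pow_mul_eq_add_pow p (1 - p) A
  simp only [w]
  rw [h]; simp

lemma ex_split (p : ℝ) (A : Finset G) (F : Finset G → Finset G → ℝ) :
    ex p (fun S => F (S ∩ A) (S \ A)) =
      ∑ T ∈ A.powerset, ∑ U ∈ Aᶜ.powerset, w p A T * w p Aᶜ U * F T U := by
  rw [ex_eq, ← Finset.sum_product']
  refine Finset.sum_nbij' (fun S => (S ∩ A, S \ A)) (fun x => x.1 ∪ x.2) ?_ ?_ ?_ ?_ ?_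
  · intro S _
    simp only [Finset.mem_product, Finset.mem_powerset]
    refine ⟨Finset.inter_subset_right, fun x hx => ?_⟩
    simp only [Finset.mem_sdiff] at hx
    simpa using hx.2
  · intro x _; simp
  · intro S _; ext x; simp only [Finset.mem_union, Finset.mem_inter, Finset.mem_sdiff]; tauto
  · intro x hx
    simp only [Finset.mem_product, Finset.mem_powerset] at hx
    obtain ⟨h1, h2⟩ := hx
    have h1' : ∀ y ∈ x.1, y ∈ A := fun y hy => h1 hy
    have h2' : ∀ y ∈ x.2, y ∉ A := fun y hy => by simpa using h2 hy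
    refine Prod.ext ?_ ?_
    · ext y; simp only [Finset.mem_union, Finset.mem_inter]
      constructor
      · rintro ⟨h | h, h'⟩
        · exact h
        · exact absurd h' (h2' y h)
      · intro h; exact ⟨Or.inl h, h1' y h⟩
    · ext y; simp only [Finset.mem_union, Finset.mem_sdiff]
      constructor
      · rintro ⟨h | h, h'⟩
        · exact absurd (h1' y h) h'
        · exact h
      · intro h; exact ⟨Or.inr h, h2' y h⟩
  · intro S _
    congr 1
    have e1 : S.card = (S ∩ A).card + (S \ A).card := (Finset.card_inter_add_card_sdiff S A).symm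
    have e2 : (S ∩ A).card ≤ A.card := Finset.card_le_card Finset.inter_subset_right
    have e3 : (S \ A).card ≤ Aᶜ.card := Finset.card_le_card fun x hx => by
      simp only [Finset.mem_sdiff] at hx
      simpa using hx.2
    have e4 : A.card + Aᶜ.card = Fintype.card G := Finset.card_add_card_compl A
    have e5 : Fintype.card G - S.card = (A.card - (S ∩ A).card) + (Aᶜ.card - (S \ A).card) := by
      omega
    simp only [wt, w]
    rw [e5, pow_add]
    conv_lhs => rw [e1, pow_add]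
    ring

lemma ex_inter (p : ℝ) (A : Finset G) (f : Finset G → ℝ) :
    ex p (fun S => f (S ∩ A)) = ∑ T ∈ A.powerset, w p A T * f T := by
  rw [ex_split p A (fun T _ => f T)]
  refine Finset.sum_congr rfl fun T _ => ?_
  have : ∀ U, w p A T * w p Aᶜ U * f T = (w p A T * f T) * w p Aᶜ U := fun U => by ring
  simp only [this]
  rw [← Finset.mul_sum, sum_w, mul_one]

lemma ex_sdiff (p : ℝ) (A : Finset G) (g : Finset G → ℝ) :
    ex p (fun S => g (S \ A)) = ∑ U ∈ Aᶜ.powerset, w p Aᶜ U * g U := by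
  rw [ex_split p A (fun _ U => g U), Finset.sum_comm]
  refine Finset.sum_congr rfl fun U _ => ?_
  have : ∀ T, w p A T * w p Aᶜ U * g U = (w p Aᶜ U * g U) * w p A T := fun T => by ring
  simp only [this]
  rw [← Finset.mul_sum, sum_w, mul_one]

/-- conditioning on `S ∩ A` -/
lemma ex_cond (p : ℝ) (A : Finset G) (F : Finset G → Finset G → ℝ) :
    ex p (fun S => F (S ∩ A) (S \ A)) =
      ex p (fun S => ex p (fun S' => F (S ∩ A) (S' \ A))) := by
  rw [ex_split, ex_inter p A (fun T => ex p (fun S' => F T (S' \ A)))]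
  refine Finset.sum_congr rfl fun T _ => ?_
  rw [ex_sdiff p A (fun U => F T U), Finset.mul_sum]
  exact Finset.sum_congr rfl fun U _ => by ring

lemma ex_indep (p : ℝ) (A : Finset G) (f g : Finset G → ℝ) :
    ex p (fun S => f (S ∩ A) * g (S \ A)) =
      ex p (fun S => f (S ∩ A)) * ex p (fun S => g (S \ A)) := by
  rw [ex_cond p A (fun T U => f T * g U)]
  simp only [ex_const_mul]
  rw [ex_mul_const]

lemma ex_pow (p : ℝ) (A : Finset G) (H : ℝ) :
    ex p (fun S => H ^ (S ∩ A).card) = (1 - p + p * H) ^ A.card := by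
  rw [ex_inter p A (fun T => H ^ T.card), add_comm, ← Finset.sum_pow_mul_eq_add_pow]
  refine Finset.sum_congr rfl fun T _ => ?_
  simp only [w, mul_pow]; ring

lemma pr_empty (p : ℝ) (A : Finset G) : pr p (fun S => S ∩ A = ∅) = (1 - p) ^ A.card := by
  have h := ex_pow p A 0
  rw [mul_zero, add_zero] at h
  rw [← h, pr_eq]
  refine ex_congr p fun S => ?_
  by_cases hS : S ∩ A = ∅
  · rw [ind_pos hS, hS]; simp
  · rw [ind_neg hS, zero_pow]
    exact fun h => hS (Finset.card_eq_zero.mp h)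

lemma ex_prod (p : ℝ) : ∀ (L : ℕ) (R : Fin L → Finset G) (f : Fin L → Finset G → ℝ),
    (∀ l l', l ≠ l' → Disjoint (R l) (R l')) →
    ex p (fun S => ∏ l, f l (S ∩ R l)) = ∏ l, ex p (fun S => f l (S ∩ R l)) := by
  intro L
  induction L with
  | zero => intro R f _; simp [ex_const]
  | succ L ih =>
    intro R f hR
    have key : ∀ (S : Finset G) (l : Fin L), (S \ R 0) ∩ R l.succ = S ∩ R l.succ := by
      intro S l
      have hd := hR 0 l.succ (Fin.succ_ne_zero l).symm
      ext x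
      simp only [Finset.mem_inter, Finset.mem_sdiff]
      constructor
      · rintro ⟨⟨h1, _⟩, h3⟩; exact ⟨h1, h3⟩
      · rintro ⟨h1, h3⟩; exact ⟨⟨h1, fun h => Finset.disjoint_left.mp hd h h3⟩, h3⟩
    have h1 := ex_indep p (R 0) (f 0) (fun U => ∏ l : Fin L, f l.succ (U ∩ R l.succ))
    simp only [key] at h1
    simp only [Fin.prod_univ_succ]
    rw [h1, ih (fun l => R l.succ) (fun l => f l.succ)
      (fun l l' h => hR _ _ fun h' => h (Fin.succ_injective _ h'))]

end B

theorem bern : BernStmt := by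
  intro G _ _ p _ _
  exact ⟨B.ex_indep p, B.ex_pow p, B.pr_empty p, B.ex_prod p⟩

end Crest.Agent.R225.Lo
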