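import Crest.Agent.R225.LoDefs

/-!
# Row 225, S0348: CAP (volumes of caps of the unit ball)
-/

open MeasureTheory Finset
open scoped ENNReal RealInnerProductSpace Pointwise

namespace Crest.Agent.R225.Lo

lemma inner_e0 {n : ℕ} (hn : 1 ≤ n) (u : E n) : ⟪e0 n, u⟫ = u ⟨0, hn⟩ := by
  rw [PiLp.inner_apply, Finset.sum_eq_single (⟨0, hn⟩ : Fin n)]
  · simp [e0]
  · intro i _ hi
    have : i.val ≠ 0 := fun h => hi (Fin.ext h)
    simp [e0, this]
  · simp

lemma e0_apply {n : ℕ} (i : Fin n) : e0 n i = if i.val = 0 then 1 else 0 := rfl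

lemma norm_e0 {n : ℕ} (hn : 1 ≤ n) : ‖e0 n‖ = 1 := by
  have h : ⟪e0 n, e0 n⟫ = 1 := by rw [inner_e0 hn]; simp [e0_apply]
  rw [real_inner_self_eq_norm_sq] at h
  have h0 := norm_nonneg (e0 n)
  nlinarith

/-- the cap as a set -/
def capS (n : ℕ) (s : ℝ) : Set (E n) := {u : E n | ‖u‖ ≤ 1 ∧ s < ⟪e0 n, u⟫}

lemma capv_eq (n : ℕ) (s : ℝ) : capv n s = (volume (capS n s)).toReal := rfl

lemma capS_ne_top (n : ℕ) (s : ℝ) : volume (capS n s) ≠ ∞ := by
  refine ne_top_of_le_ne_top (b := volume (Metric.closedBall (0 : E n) 1))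
    (MeasureTheory.measure_closedBall_lt_top).ne (measure_mono ?_)
  intro u hu
  simpa using hu.1

lemma capS_measurable (n : ℕ) (s : ℝ) : MeasurableSet (capS n s) := by
  have h1 : IsClosed {u : E n | ‖u‖ ≤ 1} := isClosed_le continuous_norm continuous_const
  have h2 : IsOpen {u : E n | s < ⟪e0 n, u⟫} :=
    isOpen_lt continuous_const (continuous_const.inner continuous_id)
  exact h1.measurableSet.inter h2.measurableSet

lemma capv_anti (n : ℕ) {s t : ℝ} (h : s ≤ t) : capv n t ≤ capv n s := by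
  rw [capv_eq, capv_eq]
  refine ENNReal.toReal_mono (capS_ne_top n s) (measure_mono ?_)
  intro u hu
  exact ⟨hu.1, lt_of_le_of_lt h hu.2⟩

lemma capv_nonneg (n : ℕ) (s : ℝ) : 0 ≤ capv n s := ENNReal.toReal_nonneg

lemma cap_rot {n : ℕ} (hn : 1 ≤ n) (w : E n) (hw : ‖w‖ = 1) (s : ℝ) :
    volume {u : E n | ‖u‖ ≤ 1 ∧ s < ⟪w, u⟫} = volume (capS n s) := by
  have hnorm : ‖w‖ = ‖e0 n‖ := by rw [hw, norm_e0 hn]
  set R : E n ≃ₗᵢ[ℝ] E n := Submodule.reflection (ℝ ∙ (w - e0 n))ᗮ with hR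
  have hRw : R w = e0 n := Submodule.reflection_sub hnorm
  have hset : {u : E n | ‖u‖ ≤ 1 ∧ s < ⟪w, u⟫} = R ⁻¹' capS n s := by
    ext u
    simp only [capS, Set.mem_ofPred_eq, Set.mem_preimage, LinearIsometryEquiv.norm_map]
    rw [← hRw, LinearIsometryEquiv.inner_map_map]
  rw [hset]
  exact R.measurePreserving.measure_preimage (capS_measurable n s).nullMeasurableSet

lemma cap_one {n : ℕ} (hn : 1 ≤ n) (w : E n) (ρ s : ℝ) (hw : w ≠ 0) (hρ : 0 < ρ) :
    (volume {u : E n | ‖u‖ ≤ ρ ∧ s < ⟪w, u⟫}).toReal = ρ ^ n * capv n (s / (ρ * ‖w‖)) := by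
  have hw0 : 0 < ‖w‖ := norm_pos_iff.2 hw
  set w' : E n := ‖w‖⁻¹ • w with hw'
  have hw1 : ‖w'‖ = 1 := by
    rw [hw', norm_smul, norm_inv, norm_norm, inv_mul_cancel₀ hw0.ne']
  have hset : {u : E n | ‖u‖ ≤ ρ ∧ s < ⟪w, u⟫} =
      ρ • {u : E n | ‖u‖ ≤ 1 ∧ s / (ρ * ‖w‖) < ⟪w', u⟫} := by
    ext u
    rw [Set.mem_smul_set_iff_inv_smul_mem₀ hρ.ne']
    simp only [Set.mem_ofPred_eq, hw', norm_smul, norm_inv, Real.norm_eq_abs, abs_of_pos hρ,
      real_inner_smul_left, real_inner_smul_right]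
    rw [inv_mul_le_iff₀ hρ, mul_one, div_lt_iff₀ (mul_pos hρ hw0)]
    have : ρ⁻¹ * (‖w‖⁻¹ * ⟪w, u⟫) * (ρ * ‖w‖) = ⟪w, u⟫ := by field_simp
    first
      | rw [this]
      | (have this' : ‖w‖⁻¹ * (ρ⁻¹ * ⟪w, u⟫) * (ρ * ‖w‖) = ⟪w, u⟫ := by field_simp
         rw [this'])
  rw [hset, Measure.addHaar_smul_of_nonneg _ hρ.le, cap_rot hn w' hw1, ENNReal.toReal_mul,
    ENNReal.toReal_ofReal (by positivity), capv_eq]
  simp

lemma cap_two {n : ℕ} (hn : 1 ≤ n) (s δ : ℝ) (hδ : 0 ≤ δ) (hs : s + δ < 1) :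
    ((1 - s - δ) / (1 - s)) ^ n * capv n s ≤ capv n (s + δ) := by
  have h1 : 0 < 1 - s := by linarith
  set k : ℝ := (1 - s - δ) / (1 - s) with hk
  have hk0 : 0 < k := div_pos (by linarith) h1
  have hk1 : k ≤ 1 := by rw [hk, div_le_one h1]; linarith
  have hks : k * (1 - s) = 1 - s - δ := by rw [hk]; field_simp
  have hsub : AffineMap.homothety (e0 n) k '' capS n s ⊆ capS n (s + δ) := by
    rintro _ ⟨u, hu, rfl⟩
    have he : AffineMap.homothety (e0 n) k u = k • u + (1 - k) • e0 n := by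
      rw [AffineMap.homothety_apply]
      simp only [vsub_eq_sub, vadd_eq_add, smul_sub, sub_smul, one_smul]
      abel
    rw [he]
    refine ⟨?_, ?_⟩
    · calc ‖k • u + (1 - k) • e0 n‖ ≤ ‖k • u‖ + ‖(1 - k) • e0 n‖ := norm_add_le _ _
        _ = k * ‖u‖ + (1 - k) := by
          rw [norm_smul, norm_smul, norm_e0 hn, Real.norm_eq_abs, Real.norm_eq_abs,
            abs_of_pos hk0, abs_of_nonneg (by linarith), mul_one]
        _ ≤ 1 := by nlinarith [hu.1]
    · have h2 : ⟪e0 n, e0 n⟫ = 1 := by rw [real_inner_self_eq_norm_sq, norm_e0 hn]; norm_num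
      rw [inner_add_right, real_inner_smul_right, real_inner_smul_right, h2]
      have := mul_lt_mul_of_pos_left hu.2 hk0
      nlinarith
  have h := measure_mono (μ := volume) hsub
  rw [Measure.addHaar_image_homothety] at h
  have h' := ENNReal.toReal_mono (capS_ne_top n (s + δ)) h
  rw [ENNReal.toReal_mul, ENNReal.toReal_ofReal (abs_nonneg _), finrank_euclideanSpace,
    Fintype.card_fin, abs_of_pos (pow_pos hk0 n)] at h'
  exact h'

lemma cap_three {n : ℕ} (hn : 1 ≤ n) (s δ : ℝ) (hs0 : 0 ≤ s) (hs1 : s ≤ 1) (hδ0 : 0 ≤ δ)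
    (hδ1 : δ ≤ 1) : (1 + s * δ / 3) ^ (n - 1) * capv n (s + δ) ≤ capv n s := by
  set k : ℝ := 1 + s * δ / 3 with hk
  have hsd : 0 ≤ s * δ := mul_nonneg hs0 hδ0
  have hsd1 : s * δ ≤ 1 := by nlinarith
  have hk1 : 1 ≤ k := by rw [hk]; linarith
  set i0 : Fin n := ⟨0, hn⟩ with hi0
  set d : Fin n → ℝ := fun i => if i = i0 then 1 else k with hd
  set L : E n →ₗ[ℝ] E n := Matrix.toLpLin 2 2 (Matrix.diagonal d) with hL
  have hLa : ∀ (u : E n) (i : Fin n), L u i = d i * u i := by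
    intro u i
    simp [hL, Matrix.toLpLin_apply, Matrix.mulVec_diagonal]
  have hdet : LinearMap.det L = k ^ (n - 1) := by
    rw [hL, Matrix.toLpLin_eq_toLin, LinearMap.det_toLin, Matrix.det_diagonal,
      ← Finset.mul_prod_erase _ _ (Finset.mem_univ i0)]
    have : ∏ i ∈ Finset.univ.erase i0, d i = ∏ i ∈ Finset.univ.erase i0, k := by
      refine Finset.prod_congr rfl fun i hi => ?_
      simp [hd, (Finset.mem_erase.1 hi).1]
    rw [this, Finset.prod_const, Finset.card_erase_of_mem (Finset.mem_univ _)]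
    simp [hd]
  have hsub : L '' capS n (s + δ) ⊆ (fun u => u + (-δ) • e0 n) ⁻¹' capS n s := by
    rintro _ ⟨u, hu, rfl⟩
    have hu2 : s + δ < u i0 := by have := hu.2; rwa [inner_e0 hn] at this
    have hu1 : ∑ i, u i ^ 2 ≤ 1 := by
      have h := hu.1
      have h2 : ‖u‖ ^ 2 ≤ 1 := by nlinarith [norm_nonneg u]
      rw [EuclideanSpace.real_norm_sq_eq] at h2
      exact h2
    rw [← Finset.add_sum_erase _ _ (Finset.mem_univ i0)] at hu1
    have hco : ∀ i, (L u + (-δ) • e0 n) i = if i = i0 then u i0 - δ else k * u i := by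
      intro i
      rw [PiLp.add_apply, PiLp.smul_apply, hLa, e0_apply]
      by_cases hi : i = i0
      · subst hi; simp [hd, hi0]; ring
      · have : i.val ≠ 0 := fun h => hi (Fin.ext h)
        simp [hd, hi, this]
    refine ⟨?_, ?_⟩
    · have h2 : ‖L u + (-δ) • e0 n‖ ^ 2 ≤ 1 := by
        rw [EuclideanSpace.real_norm_sq_eq, ← Finset.add_sum_erase _ _ (Finset.mem_univ i0)]
        have : ∑ i ∈ Finset.univ.erase i0, ((L u + (-δ) • e0 n) i) ^ 2 =
            k ^ 2 * ∑ i ∈ Finset.univ.erase i0, u i ^ 2 := by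
          rw [Finset.mul_sum]
          refine Finset.sum_congr rfl fun i hi => ?_
          rw [hco, if_neg (Finset.mem_erase.1 hi).1]; ring
        rw [this, hco, if_pos rfl]
        set B := ∑ i ∈ Finset.univ.erase i0, u i ^ 2 with hB
        have hB0 : 0 ≤ B := Finset.sum_nonneg fun i _ => sq_nonneg _
        have hB1 : B ≤ 1 := by nlinarith [sq_nonneg (u i0)]
        have hk2 : k ^ 2 - 1 ≤ s * δ := by rw [hk]; nlinarith
        have h3 : (k ^ 2 - 1) * B ≤ s * δ := by nlinarith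
        have h4 : s * δ ≤ δ * (2 * u i0 - δ) := by nlinarith
        nlinarith
      nlinarith [norm_nonneg (L u + (-δ) • e0 n)]
    · rw [inner_e0 hn, hco, if_pos rfl]; linarith
  have h := measure_mono (μ := volume) hsub
  rw [Measure.addHaar_image_linearMap, measure_preimage_add_right, hdet] at h
  have h' := ENNReal.toReal_mono (capS_ne_top n s) h
  rw [ENNReal.toReal_mul, ENNReal.toReal_ofReal (abs_nonneg _),
    abs_of_pos (pow_pos (by linarith) _)] at h'
  exact h'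

lemma cap_four {n : ℕ} (hn : 1 ≤ n) (s : ℝ) (hs : s < 1) : 0 < capv n s := by
  rw [capv_eq]
  refine ENNReal.toReal_pos ?_ (capS_ne_top n s)
  have h1 : IsOpen {u : E n | ‖u‖ < 1} := isOpen_lt continuous_norm continuous_const
  have h2 : IsOpen {u : E n | s < ⟪e0 n, u⟫} :=
    isOpen_lt continuous_const (continuous_const.inner continuous_id)
  have ho : IsOpen {u : E n | ‖u‖ < 1 ∧ s < ⟪e0 n, u⟫} := h1.inter h2
  have hm : max s 0 < 1 := max_lt hs one_pos
  have hne : {u : E n | ‖u‖ < 1 ∧ s < ⟪e0 n, u⟫}.Nonempty := by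
    refine ⟨((1 + max s 0) / 2) • e0 n, ?_, ?_⟩
    · rw [norm_smul, norm_e0 hn, Real.norm_eq_abs,
        abs_of_nonneg (by have := le_max_right s 0; linarith)]
      linarith
    · rw [real_inner_smul_right, real_inner_self_eq_norm_sq, norm_e0 hn]
      have := le_max_left s 0
      linarith
  refine ne_of_gt (lt_of_lt_of_le (ho.measure_pos volume hne) (measure_mono ?_))
  intro u hu
  exact ⟨hu.1.le, hu.2⟩

theorem cap : CapStmt := fun _ hn =>
  ⟨fun w ρ s hw hρ => cap_one hn w ρ s hw hρ, fun s δ h1 h2 => cap_two hn s δ h1 h2,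
    fun s δ h1 h2 h3 h4 => cap_three hn s δ h1 h2 h3 h4, fun s hs => cap_four hn s hs⟩

end Crest.Agent.R225.Lo
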