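import Crest.Agent.R225.LoDefs

/-!
# Row 225, S0348: CNT (counting data from CAP and NET)
-/

open MeasureTheory Finset
open scoped ENNReal RealInnerProductSpace

namespace Crest.Agent.R225.Lo

lemma cnt_capv_anti (n : ℕ) {s t : ℝ} (h : s ≤ t) : capv n t ≤ capv n s := by
  unfold capv
  refine ENNReal.toReal_mono ?_ (measure_mono ?_)
  · refine ne_top_of_le_ne_top (b := volume (Metric.closedBall (0 : E n) 1))
      (MeasureTheory.measure_closedBall_lt_top).ne (measure_mono ?_)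
    intro u hu
    simpa using hu.1
  · intro u hu
    exact ⟨hu.1, lt_of_le_of_lt h hu.2⟩

lemma cnt_exp_le {x : ℝ} (h0 : 0 ≤ x) (h1 : x ≤ 1 / 2) : Real.exp (-(2 * x)) ≤ 1 - x := by
  have h2 : 1 + 2 * x ≤ Real.exp (2 * x) := by linarith [Real.add_one_le_exp (2 * x)]
  rw [Real.exp_neg, inv_le_comm₀ (Real.exp_pos _) (by linarith)]
  refine le_trans ?_ h2
  rw [inv_le_iff_one_le_mul₀ (by linarith)]
  nlinarith

lemma cnt_pow_ge {x : ℝ} (h0 : 0 ≤ x) (h1 : x ≤ 1 / 2) (n : ℕ) :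
    Real.exp (-(2 * n * x)) ≤ (1 - x) ^ n := by
  have : Real.exp (-(2 * n * x)) = Real.exp (-(2 * x)) ^ n := by
    rw [← Real.exp_nat_mul]; ring_nf
  rw [this]
  exact pow_le_pow_left₀ (Real.exp_pos _).le (cnt_exp_le h0 h1) n

/-- lower ratio around `tt` -/
lemma cnt_ratio (hcap : CapStmt) {n : ℕ} (hn : 1 ≤ n) {s δ : ℝ} (hδ : 0 ≤ δ)
    (hδ1 : δ ≤ 1 / (2 * 10 ^ 7)) (hs : s ≤ tt) (hs1 : s + δ < 1) :
    Real.exp (-(2 * n * (10 ^ 7 * δ))) * capv n s ≤ capv n (s + δ) := by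
  refine le_trans ?_ ((hcap n hn).2.1 s δ hδ hs1)
  refine mul_le_mul_of_nonneg_right ?_ ENNReal.toReal_nonneg
  refine (cnt_pow_ge (by positivity) (by linarith) n).trans ?_
  have h1 : 1 / 10 ^ 7 ≤ 1 - s := by unfold tt at hs; linarith
  refine pow_le_pow_left₀ (by linarith) ?_ n
  rw [le_div_iff₀ (by linarith)]
  nlinarith

set_option maxHeartbeats 1600000 in
theorem cnt (hcap : CapStmt) (hnet : NetStmt) : CntStmt := by
  refine ⟨10 ^ 8, by norm_num, fun n hn => ?_⟩
  have hn1 : 1 ≤ n := by omega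
  have hnR : (2 : ℝ) ≤ n := by exact_mod_cast hn
  have htt1 : tt < 1 := by unfold tt; norm_num
  have htt0 : 999 / 1000 ≤ tt := by unfold tt; norm_num
  have htt : tt = 1 - 1 / 10 ^ 7 := rfl
  obtain ⟨hc1, hc2, hc3, hc4⟩ := hcap n hn1
  have hcp : 0 < capv n tt := hc4 tt htt1
  set ξ : ℝ := min (capv n tt / 2) (1 / (10 ^ 9 * n)) with hξdef
  have hξ0 : 0 < ξ := lt_min (by positivity) (by positivity)
  have hξ1 : ξ ≤ capv n tt / 2 := min_le_left _ _
  have hξ2 : n * ξ ≤ 1 / 10 ^ 9 := by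
    have : ξ ≤ 1 / (10 ^ 9 * n) := min_le_right _ _
    rw [le_div_iff₀ (by positivity)] at this
    rw [le_div_iff₀ (by positivity)]
    linarith
  have hξ3 : ξ ≤ 1 / 10 ^ 9 := by nlinarith
  clear_value ξ
  obtain ⟨U, ω, hω0, hωξ, hU, hcount⟩ := hnet n ξ hn1 hξ0
  refine ⟨U, ω / capv n tt, by positivity, ?_, hU, ?_, ?_⟩
  · rw [div_le_iff₀ hcp]; linarith
  · intro z δ₁ δ₂ h1 h2 h12 hz1 hz2
    have hz0 : 0 < ‖z‖ := by linarith
    have hl := (hcount z (tt + δ₂) hz2).2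
    rw [hc1 z (1 - ξ) _ (norm_pos_iff.1 hz0) (by linarith)] at hl
    set δ : ℝ := 2 * (δ₁ + δ₂ + 2 * ξ) with hδ
    have hδ0 : 0 ≤ δ := by positivity
    have hs : (tt + δ₂ + ξ) / ((1 - ξ) * ‖z‖) ≤ tt + δ := by
      have hpos : 0 < (1 - ξ) * ‖z‖ := mul_pos (by linarith) hz0
      rw [div_le_iff₀ hpos]
      have h3 : 1 - ξ - δ₁ ≤ (1 - ξ) * ‖z‖ := by
        have : (1 - ξ) * (1 - δ₁) ≤ (1 - ξ) * ‖z‖ := mul_le_mul_of_nonneg_left hz1 (by linarith)
        nlinarith [mul_nonneg hξ0.le h1]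
      have h4 : (tt + δ) * (1 - ξ - δ₁) ≤ (tt + δ) * ((1 - ξ) * ‖z‖) :=
        mul_le_mul_of_nonneg_left h3 (by linarith)
      refine le_trans ?_ h4
      have h5 : δ * (1 / 2) ≤ δ * (1 - ξ - δ₁) := mul_le_mul_of_nonneg_left (by linarith) hδ0
      have h6 : tt * (ξ + δ₁) ≤ ξ + δ₁ := by nlinarith
      nlinarith
    have hA := cnt_capv_anti n hs
    have hB := cnt_ratio hcap hn1 hδ0 (by linarith) (le_refl tt) (by linarith)
    have hC := cnt_pow_ge hξ0.le (by linarith) n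
    rw [div_mul_eq_mul_div, le_div_iff₀ hcp]
    refine le_trans ?_ hl
    calc Real.exp (-(10 ^ 8 * n * (δ₁ + δ₂)) - 1) * capv n tt
        ≤ (Real.exp (-(2 * n * ξ)) * Real.exp (-(2 * n * (10 ^ 7 * δ)))) * capv n tt := by
          refine mul_le_mul_of_nonneg_right ?_ hcp.le
          rw [← Real.exp_add, Real.exp_le_exp, hδ]
          have : 0 ≤ (n : ℝ) * (δ₁ + δ₂) := by positivity
          nlinarith
      _ = Real.exp (-(2 * n * ξ)) * (Real.exp (-(2 * n * (10 ^ 7 * δ))) * capv n tt) := by ring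
      _ ≤ (1 - ξ) ^ n * capv n ((tt + δ₂ + ξ) / ((1 - ξ) * ‖z‖)) :=
          mul_le_mul hC (hB.trans hA) (by positivity) (pow_nonneg (by linarith) n)
  · intro w δ hδ0 hδ1 hw
    by_cases hw0 : w = 0
    · have : U.filter (fun u => tt < ⟪w, u⟫) = ∅ := by
        refine Finset.filter_eq_empty_iff.2 fun u _ => ?_
        rw [hw0, inner_zero_left]; linarith
      rw [this]; simp; positivity
    have hwp : 0 < ‖w‖ := norm_pos_iff.2 hw0
    have hu := (hcount w tt (by linarith)).1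
    rw [hc1 w (1 + ξ) _ hw0 (by linarith)] at hu
    set s0 : ℝ := (tt - ξ) / (1 + ξ) with hs0
    have hs0e : s0 * (1 + ξ) = tt - ξ := by rw [hs0]; field_simp
    have hs01 : 99 / 100 ≤ s0 := by rw [hs0, le_div_iff₀ (by linarith)]; linarith
    clear_value s0
    have hs02 : s0 ≤ tt := by nlinarith
    have hs03 : tt - s0 ≤ 2 * ξ := by nlinarith
    have hs : s0 + s0 * δ ≤ (tt - ξ) / ((1 + ξ) * ‖w‖) := by
      rw [le_div_iff₀ (by positivity), ← hs0e]
      have h1 : (1 + δ) * ‖w‖ ≤ 1 := by nlinarith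
      have h2 : 0 ≤ s0 * (1 + ξ) := by positivity
      nlinarith
    have hA := cnt_capv_anti n hs
    have hB := hc3 s0 (s0 * δ) (by linarith) (by linarith) (by positivity) (by nlinarith)
    have hC := cnt_ratio hcap hn1 (s := s0) (δ := tt - s0) (by linarith) (by linarith) hs02
      (by linarith)
    rw [add_sub_cancel] at hC
    -- the growth factor
    have hD : Real.exp (n * δ / 8) ≤ (1 + s0 * (s0 * δ) / 3) ^ (n - 1) := by
      have h1 : Real.exp (δ / 4) ≤ 1 + s0 * (s0 * δ) / 3 := by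
        have h2 := Real.abs_exp_sub_one_sub_id_le (x := δ / 4)
          (by rw [abs_of_nonneg (by positivity)]; linarith)
        have h3 := (abs_le.1 h2).2
        have h4 : 96 / 100 * δ ≤ s0 * (s0 * δ) := by
          have : 96 / 100 ≤ s0 * s0 := by nlinarith
          nlinarith
        nlinarith
      refine le_trans ?_ (pow_le_pow_left₀ (Real.exp_pos _).le h1 (n - 1))
      rw [← Real.exp_nat_mul, Real.exp_le_exp, Nat.cast_sub hn1]
      push_cast
      nlinarith
    have hE : (1 + ξ) ^ n ≤ Real.exp (n * ξ) := by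
      rw [Real.exp_nat_mul]
      exact pow_le_pow_left₀ (by linarith) (by linarith [Real.add_one_le_exp ξ]) n
    have hF : Real.exp (n * ξ) * Real.exp (2 * n * (10 ^ 7 * (tt - s0))) ≤ 2 := by
      rw [← Real.exp_add]
      have h1 : n * ξ + 2 * n * (10 ^ 7 * (tt - s0)) ≤ 1 / 2 := by
        have : (n : ℝ) * (tt - s0) ≤ n * (2 * ξ) := mul_le_mul_of_nonneg_left hs03 (by linarith)
        nlinarith
      refine (Real.exp_le_exp.2 h1).trans ?_
      have := cnt_exp_le (x := 1 / 2) (by norm_num) le_rfl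
      have h2 := Real.abs_exp_sub_one_sub_id_le (x := 1 / 2) (by norm_num [abs_of_nonneg])
      have h3 := (abs_le.1 h2).2
      linarith
    have hG : capv n s0 ≤ Real.exp (2 * n * (10 ^ 7 * (tt - s0))) * capv n tt := by
      have := mul_le_mul_of_nonneg_left hC (Real.exp_pos (2 * n * (10 ^ 7 * (tt - s0)))).le
      rwa [← mul_assoc, ← Real.exp_add, add_neg_cancel, Real.exp_zero, one_mul] at this
    have hH : capv n (s0 + s0 * δ) ≤ Real.exp (-(n * δ / 8)) * capv n s0 := by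
      have h1 : Real.exp (n * δ / 8) * capv n (s0 + s0 * δ) ≤ capv n s0 :=
        (mul_le_mul_of_nonneg_right hD ENNReal.toReal_nonneg).trans hB
      have := mul_le_mul_of_nonneg_left h1 (Real.exp_pos (-(n * δ / 8))).le
      rwa [← mul_assoc, ← Real.exp_add, neg_add_cancel, Real.exp_zero, one_mul] at this
    rw [div_mul_eq_mul_div, div_le_iff₀ hcp]
    refine hu.trans ?_
    calc (1 + ξ) ^ n * capv n ((tt - ξ) / ((1 + ξ) * ‖w‖))
        ≤ Real.exp (n * ξ) * (Real.exp (-(n * δ / 8)) *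
            (Real.exp (2 * n * (10 ^ 7 * (tt - s0))) * capv n tt)) := by
          refine mul_le_mul hE (hA.trans (hH.trans ?_)) ENNReal.toReal_nonneg (Real.exp_pos _).le
          exact mul_le_mul_of_nonneg_left hG (Real.exp_pos _).le
      _ = (Real.exp (n * ξ) * Real.exp (2 * n * (10 ^ 7 * (tt - s0)))) *
            Real.exp (-(n * δ / 8)) * capv n tt := by ring
      _ ≤ 2 * Real.exp (-(n * δ / 8)) * capv n tt := by
          refine mul_le_mul_of_nonneg_right ?_ hcp.le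
          exact mul_le_mul_of_nonneg_right hF (Real.exp_pos _).le

end Crest.Agent.R225.Lo
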