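import Mathlib

/-!
# Row 225, S0348 (lower bound): definitions and statements of the sub-tasks

`K_S = {x : ‖x‖ ≤ 1, |⟪x,u⟫| ≤ tt for (u,col) ∈ S}` with `S` a Bernoulli subset of a finite ground set.
-/

open MeasureTheory Finset
open scoped ENNReal RealInnerProductSpace

namespace Crest.Agent.R225.Lo

abbrev E (n : ℕ) := EuclideanSpace ℝ (Fin n)

/-- the slab threshold -/
noncomputable def tt : ℝ := 1 - 1 / 10 ^ 7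

/-- first coordinate vector -/
noncomputable def e0 (n : ℕ) : E n := WithLp.toLp 2 (fun i => if i.val = 0 then 1 else 0)

/-- volume of a cap of the unit ball -/
noncomputable def capv (n : ℕ) (s : ℝ) : ℝ :=
  (volume {u : E n | ‖u‖ ≤ 1 ∧ s < ⟪e0 n, u⟫}).toReal

/-- CAP: rotation + scaling, lower ratio (homothety about the pole `e0`), upper ratio
(map `(u₁,u') ↦ (u₁-δ, (1+sδ/3) u')`), positivity. -/
def CapStmt : Prop := ∀ n : ℕ, 1 ≤ n →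
  (∀ (w : E n) (ρ s : ℝ), w ≠ 0 → 0 < ρ →
      (volume {u : E n | ‖u‖ ≤ ρ ∧ s < ⟪w, u⟫}).toReal = ρ ^ n * capv n (s / (ρ * ‖w‖))) ∧
  (∀ s δ : ℝ, 0 ≤ δ → s + δ < 1 → ((1 - s - δ) / (1 - s)) ^ n * capv n s ≤ capv n (s + δ)) ∧
  (∀ s δ : ℝ, 0 ≤ s → s ≤ 1 → 0 ≤ δ → δ ≤ 1 →
      (1 + s * δ / 3) ^ (n - 1) * capv n (s + δ) ≤ capv n s) ∧
  (∀ s : ℝ, s < 1 → 0 < capv n s)

/-- NET: a fine grid in the unit ball; counts of caps against volumes. -/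
def NetStmt : Prop := ∀ (n : ℕ) (ξ : ℝ), 1 ≤ n → 0 < ξ →
  ∃ (U : Finset (E n)) (ω : ℝ), 0 < ω ∧ ω ≤ ξ ∧ (∀ u ∈ U, ‖u‖ ≤ 1) ∧
    ∀ (w : E n) (s : ℝ), ‖w‖ ≤ 2 →
      ω * ((U.filter (fun u => s < ⟪w, u⟫)).card : ℝ) ≤
          (volume {u : E n | ‖u‖ ≤ 1 + ξ ∧ s - ξ < ⟪w, u⟫}).toReal ∧
      (volume {u : E n | ‖u‖ ≤ 1 - ξ ∧ s + ξ < ⟪w, u⟫}).toReal ≤
          ω * ((U.filter (fun u => s < ⟪w, u⟫)).card : ℝ)

/-- the counting data used by all later steps -/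
structure Cnt (C : ℝ) (n : ℕ) (U : Finset (E n)) (π : ℝ) : Prop where
  pos : 0 < π
  half : π ≤ 1 / 2
  ball : ∀ u ∈ U, ‖u‖ ≤ 1
  lower : ∀ (z : E n) (δ₁ δ₂ : ℝ), 0 ≤ δ₁ → 0 ≤ δ₂ → δ₁ + δ₂ ≤ 1 / 10 ^ 8 → 1 - δ₁ ≤ ‖z‖ → ‖z‖ ≤ 2 →
    Real.exp (-(C * n * (δ₁ + δ₂)) - 1) ≤ π * ((U.filter (fun u => tt + δ₂ < ⟪z, u⟫)).card : ℝ)
  upper : ∀ (w : E n) (δ : ℝ), 0 ≤ δ → δ ≤ 1 → ‖w‖ ≤ 1 - δ →
    π * ((U.filter (fun u => tt < ⟪w, u⟫)).card : ℝ) ≤ 2 * Real.exp (-(n * δ / 8))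

/-- CNT (from CAP and NET; take `π = ω / capv n tt`, `ξ` tiny; `C = 10^8` works). -/
def CntStmt : Prop := ∃ C : ℝ, 1 ≤ C ∧ ∀ n : ℕ, 2 ≤ n → ∃ (U : Finset (E n)) (π : ℝ), Cnt C n U π

/-! ### Bernoulli subsets of a finite type -/

/-- expectation for a `p`-random subset -/
noncomputable def ex {G : Type} [Fintype G] (p : ℝ) (f : Finset G → ℝ) : ℝ :=
  ∑ S : Finset G, p ^ S.card * (1 - p) ^ (Fintype.card G - S.card) * f S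

open Classical in
/-- probability for a `p`-random subset -/
noncomputable def pr {G : Type} [Fintype G] (p : ℝ) (A : Finset G → Prop) : ℝ :=
  ex p (fun S => if A S then 1 else 0)

/-- BERN: toolkit. -/
def BernStmt : Prop := ∀ (G : Type) [Fintype G] [DecidableEq G] (p : ℝ), 0 ≤ p → p ≤ 1 →
  (∀ (A : Finset G) (f g : Finset G → ℝ),
      ex p (fun S => f (S ∩ A) * g (S \ A)) = ex p (fun S => f (S ∩ A)) * ex p (fun S => g (S \ A))) ∧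
  (∀ (A : Finset G) (H : ℝ), ex p (fun S => H ^ (S ∩ A).card) = (1 - p + p * H) ^ A.card) ∧
  (∀ (A : Finset G), pr p (fun S => S ∩ A = ∅) = (1 - p) ^ A.card) ∧
  (∀ (L : ℕ) (R : Fin L → Finset G) (f : Fin L → Finset G → ℝ),
      (∀ l l', l ≠ l' → Disjoint (R l) (R l')) →
      ex p (fun S => ∏ l, f l (S ∩ R l)) = ∏ l, ex p (fun S => f l (S ∩ R l)))

/-- all active units are hit -/
def Hit {G J : Type} [DecidableEq G] (act : Finset J) (A : J → Finset G) (S : Finset G) : Prop :=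
  ∀ j ∈ act, (S ∩ A j).Nonempty

/-- PAIR: Harris type lower bound, and the pair correlation bound. -/
def PairStmt : Prop := ∀ (G J : Type) [Fintype G] [DecidableEq G] (p : ℝ), 0 ≤ p → p ≤ 1 →
  (∀ (act : Finset J) (A : J → Finset G) (c : J → ℝ),
      (∀ j ∈ act, Real.exp (-c j) ≤ 1 - (1 - p) ^ (A j).card) →
      Real.exp (-∑ j ∈ act, c j) ≤ pr p (Hit act A)) ∧
  (∀ (act act' : Finset J) (A A' : J → Finset G) (c c' : J → ℝ) (O : Finset G) (κ : ℝ),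
      (∀ j ∈ act, ∀ j' ∈ act', A j ∩ A' j' ⊆ O) →
      (∀ j ∈ act, 0 ≤ c j) → (∀ j ∈ act', 0 ≤ c' j) →
      (∀ j ∈ act, Real.exp (-c j) ≤ 1 - (1 - p) ^ (A j \ O).card) →
      (∀ j ∈ act', Real.exp (-c' j) ≤ 1 - (1 - p) ^ (A' j \ O).card) →
      (∀ g : G, ∑ j ∈ act.filter (fun j => g ∈ A j), c j ≤ κ) →
      (∀ g : G, ∑ j ∈ act'.filter (fun j => g ∈ A' j), c' j ≤ κ) →
      pr p (fun S => Hit act A S ∧ Hit act' A' S) ≤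
        pr p (Hit act A) * pr p (Hit act' A') * Real.exp (p * O.card * Real.exp (2 * κ)))

/-- ABS: second moment inside each group, independence between the groups. -/
def AbsStmt : Prop := ∀ (G J : Type) [Fintype G] [DecidableEq G] (p : ℝ), 0 ≤ p → p ≤ 1 →
  ∀ (L T : ℕ) (R : Fin L → Finset G) (act : Fin L → Fin T → Finset J)
    (A : Fin L → Fin T → J → Finset G) (c : Fin L → Fin T → J → ℝ)
    (O : Fin L → Fin T → Fin T → Finset G) (Λ κ : ℝ),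
    (∀ l l', l ≠ l' → Disjoint (R l) (R l')) →
    (∀ l i, ∀ j ∈ act l i, A l i j ⊆ R l) →
    (∀ l i, ∀ j ∈ act l i, 0 ≤ c l i j) →
    (∀ l i, ∑ j ∈ act l i, c l i j ≤ Λ) →
    (∀ l i (g : G), ∑ j ∈ (act l i).filter (fun j => g ∈ A l i j), c l i j ≤ κ) →
    (∀ l i, ∀ j ∈ act l i, Real.exp (-c l i j) ≤ 1 - (1 - p) ^ (A l i j).card) →
    (∀ l i i', i ≠ i' → ∀ j ∈ act l i, ∀ j' ∈ act l i', A l i j ∩ A l i' j' ⊆ O l i i') →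
    (∀ l i i', i ≠ i' → ∀ j ∈ act l i, Real.exp (-c l i j) ≤ 1 - (1 - p) ^ (A l i j \ O l i i').card) →
    (∀ l i i', i ≠ i' → ∀ j ∈ act l i', Real.exp (-c l i' j) ≤ 1 - (1 - p) ^ (A l i' j \ O l i i').card) →
    (∀ l i i', i ≠ i' → p * (O l i i').card * Real.exp (2 * κ) ≤ 1) →
    Real.exp Λ ≤ T →
    pr p (fun S => ∀ l i, ¬ Hit (act l i) (A l i) S) ≤ (3 / 4 : ℝ) ^ L

/-! ### Units for one witness point -/

/-- UNITS: clusters (greedy, radius `φ`, at least `K'` members, one colour each) and sparse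
candidates (cap minus the caps of the far sparse candidates, all colours). -/
def UnitsStmt : Prop := ∀ (C : ℝ) (n : ℕ) (U : Finset (E n)) (π : ℝ), 1 ≤ C → Cnt C n U π →
  ∀ (N K' : ℕ) (μ φ δm o : ℝ) (J : Type) [Fintype J] [DecidableEq J] (cand : Finset J)
    (z : J → E n) (δ : J → ℝ),
    1 ≤ N → 1 ≤ K' → cand.card ≤ N → 0 ≤ μ → 0 ≤ φ → 0 ≤ δm → 100 * μ ≤ φ ^ 2 →
    δm + μ + φ ≤ 1 / 10 ^ 8 →
    (∀ j ∈ cand, 0 ≤ δ j ∧ δ j ≤ δm ∧ 1 - δ j ≤ ‖z j‖ ∧ ‖z j‖ ≤ 1 + μ) →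
    0 ≤ o →
    N * (2 * Real.exp (-(n * φ ^ 2 / 80))) + o ≤ Real.exp (-(C * n * (δm + μ)) - 1) / 2 →
    o ≤ Real.exp (-(C * n * (δm + μ + φ)) - 1) / N / 2 →
    ∃ (act : Finset J) (A : J → Finset (U × Fin N)) (c : J → ℝ),
      act ⊆ cand ∧
      (∀ j ∈ act, ∀ g ∈ A j, tt + μ < ⟪z j, (g.1 : E n)⟫) ∧
      (∀ S : Finset (U × Fin N), Hit act A S → ∀ j ∈ cand, ∃ g ∈ S, tt + μ < ⟪z j, (g.1 : E n)⟫) ∧
      (∀ j ∈ act, 0 ≤ c j) ∧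
      (∀ j ∈ act, ∀ O : Finset (U × Fin N), π / N * O.card ≤ o →
          Real.exp (-c j) ≤ 1 - (1 - π / N) ^ (A j \ O).card) ∧
      (∑ j ∈ act, c j ≤ ∑ j ∈ cand, (C * n * (δ j + μ) + 3) +
          (cand.card : ℝ) / K' * (C * n * (δm + μ + φ) + 3 + Real.log N)) ∧
      (∀ g : U × Fin N, ∑ j ∈ act.filter (fun j => g ∈ A j), c j ≤
          K' * (C * n * (δm + μ) + 3) + (C * n * (δm + μ + φ) + 3 + Real.log N))

/-! ### Selection of centres and witness points -/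

/-- PACK: greedy packing (no measurability needed). -/
def PackStmt : Prop := ∀ (α : Type) [MeasurableSpace α] (m : Measure α) (Gd : Set α)
    (rel : α → α → Prop) (β : ℝ≥0∞) (T : ℕ),
    (∀ a b, rel a b → rel b a) → (∀ a, m {b | rel a b} ≤ β) → (T : ℝ≥0∞) * β < m Gd →
    ∃ f : Fin T → α, (∀ i, f i ∈ Gd) ∧ ∀ i j, i ≠ j → ¬ rel (f i) (f j)

/-- depth potential -/
noncomputable def psi (n : ℕ) (r : ℝ) (z : E n) : ℝ≥0∞ :=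
  ∑ i ∈ range (n + 1), (Metric.closedBall (0 : E n) (r - i / n)).indicator
    (fun _ => ENNReal.ofReal ((3 / 2 : ℝ) ^ i)) z

/-- the doubly averaged potential of a configuration -/
noncomputable def avg (n : ℕ) (r : ℝ) {M : ℕ} (X : Fin M → E n) : ℝ≥0∞ :=
  ∫⁻ c in Metric.closedBall (0 : E n) 1, ∫⁻ w in Metric.closedBall (0 : E n) (1 / 1000),
    ∑ x, psi n r (c + w - X x)

/-- volume of the closed ball -/
noncomputable def vb (n : ℕ) (r : ℝ) : ℝ≥0∞ := volume (Metric.closedBall (0 : E n) r)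

/-- SEL (from PACK; Markov at both levels). -/
def SelStmt : Prop := ∀ (n : ℕ) (r η Λ₀ : ℝ) (M L T : ℕ) (X : Fin M → E n), 0 < Λ₀ → 0 < η →
    avg n r X ≤ ENNReal.ofReal Λ₀ * vb n 1 * vb n (1 / 1000) →
    (L : ℝ) * M ^ 2 * (1 / 250) ^ n < 1 / 2 → (T : ℝ) * M ^ 2 * (1000 * η) ^ n < 1 / 2 →
    ∃ (c : Fin L → E n) (y : Fin L → Fin T → E n),
      (∀ l, ‖c l‖ ≤ 1) ∧ (∀ l i, ‖y l i - c l‖ ≤ 1 / 1000) ∧
      (∀ l i, ∑ x, psi n r (y l i - X x) ≤ ENNReal.ofReal (4 * Λ₀)) ∧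
      (∀ l l', l ≠ l' → ∀ x x', 1 / 250 < ‖(c l - X x) - (c l' - X x')‖) ∧
      (∀ l i i', i ≠ i' → ∀ x x', η < ‖(y l i - X x) - (y l i' - X x')‖)

/-! ### Parameters -/

/-- all numerical parameters of the construction in dimension `n` -/
structure Par where
  (μ φ η δm o Λ₀ : ℝ)
  (N K' M L T Gc : ℕ)

/-- the numerical constraints; `lam` is the bound on `density * vol(ball)` -/
structure Par.Ok (P : Par) (C : ℝ) (n : ℕ) (lam : ℝ) : Prop where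
  n4 : 4 ≤ n
  mu : P.μ = 1 / (n : ℝ) ^ 2
  N1 : 1 ≤ P.N
  K1 : 1 ≤ P.K'
  phi0 : 0 ≤ P.φ
  dm0 : 0 ≤ P.δm
  muphi : 100 * P.μ ≤ P.φ ^ 2
  eta0 : 0 < P.η
  eta1 : P.η ≤ 1
  mueta : 100 * P.μ ≤ P.η ^ 2
  small : P.δm + P.μ + P.φ ≤ 1 / 10 ^ 8
  lam0 : 0 < lam
  Lam : P.Λ₀ = 20 * lam
  /-- number of candidates -/
  candN : 4 * P.Λ₀ ≤ P.N
  /-- depth: `(3/2)^i ≤ 4Λ₀` forces `(i+1)/n ≤ δm` and `i < n` -/
  depth : ∀ i : ℕ, (3 / 2 : ℝ) ^ i ≤ 4 * P.Λ₀ → ((i : ℝ) + 1) / n ≤ P.δm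
  o0 : 0 ≤ P.o
  o1 : P.N * (2 * Real.exp (-(n * P.φ ^ 2 / 80))) + P.o ≤ Real.exp (-(C * n * (P.δm + P.μ)) - 1) / 2
  o2 : P.o ≤ Real.exp (-(C * n * (P.δm + P.μ + P.φ)) - 1) / P.N / 2
  o3 : (P.N : ℝ) ^ 2 * (2 * Real.exp (-(n * P.η ^ 2 / 80))) ≤ P.o
  o4 : P.o * Real.exp (2 * (P.K' * (C * n * (P.δm + P.μ) + 3) +
        (C * n * (P.δm + P.μ + P.φ) + 3 + Real.log P.N))) ≤ 1
  T1 : Real.exp (C * (8 * P.Λ₀) + 4 * P.Λ₀ * (C * n * P.μ + 3) +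
        4 * P.Λ₀ / P.K' * (C * n * (P.δm + P.μ + P.φ) + 3 + Real.log P.N)) ≤ P.T
  packL : (P.L : ℝ) * P.M ^ 2 * (1 / 250) ^ n < 1 / 2
  packT : (P.T : ℝ) * P.M ^ 2 * (1000 * P.η) ^ n < 1 / 2
  Mbig : 4 * lam * 3 ^ n ≤ P.M
  Gbig : (7 * (n : ℝ) ^ 3) ^ n + 1 ≤ P.Gc
  union : (P.Gc : ℝ) ^ P.M * (3 / 4) ^ P.L < Real.exp (-8) / 2

/-- NUM: e.g. `φ = n^(-2/5)`, `η = n^(-1/10)`, `δm = n^(-19/20)`, `K' = ⌈n^(3/5)⌉`, `N = n^2`,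
`o = exp(-n^(7/10))`, `M = 4^n`, `L = 5^n`, `T = ⌈exp(..)⌉`, `lam = c n log n`. -/
def NumStmt : Prop := ∀ C : ℝ, 1 ≤ C → ∃ c : ℝ, 0 < c ∧ ∃ n₀ : ℕ, ∀ n : ℕ, n₀ ≤ n →
  ∃ P : Par, P.Ok C n (c * n * Real.log n)

/-- robust witness for the rounded configuration -/
def Wit {n N M : ℕ} {U : Finset (E n)} (μ : ℝ) (X : Fin M → E n) (S : Finset (U × Fin N))
    (y : E n) : Prop :=
  ‖y‖ ≤ 3 / 2 ∧ ∀ x, ‖y - X x‖ ≤ 1 + μ → ∃ g ∈ S, tt + μ < ⟪y - X x, (g.1 : E n)⟫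

/-- MAIN (from SEL, UNITS, ABS): one fixed rounded configuration. -/
def MainStmt : Prop := ∀ (C : ℝ) (n : ℕ) (U : Finset (E n)) (π lam : ℝ) (P : Par), 1 ≤ C →
    Cnt C n U π → P.Ok C n lam → ∀ X : Fin P.M → E n,
    avg n (1 + P.μ) X ≤ ENNReal.ofReal P.Λ₀ * vb n 1 * vb n (1 / 1000) →
    pr (π / P.N) (fun S : Finset (U × Fin P.N) => ¬ ∃ y, Wit P.μ X S y) ≤ (3 / 4 : ℝ) ^ P.L

/-- PSI: integral of the potential. -/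
def PsiStmt : Prop := ∀ (n : ℕ) (r : ℝ), 4 ≤ n → r ≤ 1 + 2 / (n : ℝ) ^ 2 →
    Measurable (psi n r) ∧ ∫⁻ z, psi n r z ≤ 5 * vb n 1

/-- RND: a `1/n²`-net of the ball of radius 3, with one far dummy point. -/
def RndStmt : Prop := ∀ n : ℕ, 2 ≤ n → ∃ 𝒢 : Finset (E n),
    (𝒢.card : ℝ) ≤ (7 * (n : ℝ) ^ 3) ^ n + 1 ∧ (∃ d ∈ 𝒢, 10 ≤ ‖d‖) ∧
    ∀ x : E n, ‖x‖ ≤ 3 → ∃ x' ∈ 𝒢, ‖x - x'‖ ≤ 1 / (n : ℝ) ^ 2

/-- DENS (from PSI): averaging over the position of the window. -/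
def DensStmt : Prop := ∀ (n : ℕ) (X : Set (E n)) (D : ℝ), 4 ≤ n → 0 < D →
    (∀ R : ℝ, (X ∩ {x | ∀ i, |x i| ≤ R}).Finite) →
    Filter.limsup (fun R : ℝ => ((X ∩ {x | ∀ i, |x i| ≤ R}).ncard : ℝ≥0∞) /
        ENNReal.ofReal ((2 * R) ^ n)) Filter.atTop < ENNReal.ofReal D →
    ∃ (o : E n) (F : Finset (E n)), (∀ x, x ∈ F ↔ x ∈ X ∧ ‖x - o‖ ≤ 3) ∧
      (F.card : ℝ≥0∞) ≤ ENNReal.ofReal (4 * D) * vb n 3 ∧
      ∫⁻ c in Metric.closedBall (0 : E n) 1, ∫⁻ w in Metric.closedBall (0 : E n) (1 / 1000),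
          ∑ x ∈ F, psi n (1 + 2 / (n : ℝ) ^ 2) (c + w - (x - o)) ≤
        ENNReal.ofReal (20 * D) * vb n 1 * vb n 1 * vb n (1 / 1000)

/-- the random body -/
def body {n N : ℕ} {U : Finset (E n)} (S : Finset (U × Fin N)) : Set (E n) :=
  {x | ‖x‖ ≤ 1 ∧ ∀ g ∈ S, |⟪x, (g.1 : E n)⟫| ≤ tt}

/-- VOL (from BERN): the body is a symmetric convex body, and is large with fixed probability. -/
def VolStmt : Prop := ∀ (C : ℝ) (n N : ℕ) (U : Finset (E n)) (π : ℝ), 1 ≤ N → Cnt C n U π →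
    (∀ S : Finset (U × Fin N), IsCompact (body S) ∧ Convex ℝ (body S) ∧
      (interior (body S)).Nonempty ∧ ∀ x ∈ body S, -x ∈ body S) ∧
    Real.exp (-8) / 2 ≤ pr (π / N) (fun S : Finset (U × Fin N) =>
      ENNReal.ofReal (Real.exp (-8) / 2) * vb n 1 ≤ volume (body S))

/-- the Euclidean-space form of S0348 -/
def EucStmt : Prop := ∃ c : ℝ, 0 < c ∧ ∃ n₀ : ℕ, ∀ n : ℕ, n₀ ≤ n →
    ∃ K : Set (E n), IsCompact K ∧ Convex ℝ K ∧ (interior K).Nonempty ∧ (∀ x ∈ K, -x ∈ K) ∧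
      ∀ X : Set (E n), (∀ R : ℝ, (X ∩ {x | ∀ i, |x i| ≤ R}).Finite) →
        (∀ y : E n, ∃ x ∈ X, y - x ∈ K) →
        ENNReal.ofReal (c * n * Real.log n) ≤
          volume K * Filter.limsup (fun R : ℝ => ((X ∩ {x | ∀ i, |x i| ≤ R}).ncard : ℝ≥0∞) /
            ENNReal.ofReal ((2 * R) ^ n)) Filter.atTop

end Crest.Agent.R225.Lo
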