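import Crest.Agent.R225.LoDefs

/-!
# Row 225, S0348: the potential integral, the rounding net and the averaging over windows
-/

open MeasureTheory Finset
open scoped ENNReal RealInnerProductSpace

namespace Crest.Agent.R225.Lo

theorem psi_measurable (n : ℕ) (r : ℝ) : Measurable (psi n r) := by
  unfold psi
  exact Finset.measurable_sum _ fun i _ =>
    measurable_const.indicator Metric.isClosed_closedBall.measurableSet

theorem vol_ball_le (n : ℕ) (ρ x : ℝ) (h : ρ ≤ 1 + x) :
    volume (Metric.closedBall (0 : E n) ρ) ≤ ENNReal.ofReal (Real.exp (n * x)) * vb n 1 := by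
  rcases lt_or_ge ρ 0 with hρ | hρ
  · rw [Metric.closedBall_eq_empty.2 hρ]; simp
  · rw [Measure.addHaar_closedBall' volume (0 : E n) hρ]
    unfold vb
    gcongr
    rw [finrank_euclideanSpace, Fintype.card_fin, Real.exp_nat_mul]
    exact pow_le_pow_left₀ hρ (h.trans (by linarith [Real.add_one_le_exp x])) n

theorem psiInt : PsiStmt := by
  intro n r hn hr
  refine ⟨psi_measurable n r, ?_⟩
  have hn0 : (0 : ℝ) < n := by exact_mod_cast (by omega : 0 < n)
  have hn4 : (4 : ℝ) ≤ n := by exact_mod_cast hn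
  unfold psi
  rw [lintegral_finsetSum _ fun i _ =>
    measurable_const.indicator Metric.isClosed_closedBall.measurableSet]
  have hterm : ∀ i ∈ range (n + 1),
      ∫⁻ z, (Metric.closedBall (0 : E n) (r - i / n)).indicator
        (fun _ => ENNReal.ofReal ((3 / 2 : ℝ) ^ i)) z ≤
      ENNReal.ofReal (2 * (5 / 9 : ℝ) ^ i) * vb n 1 := by
    intro i _
    rw [lintegral_indicator Metric.isClosed_closedBall.measurableSet, setLIntegral_const]
    have h1 := vol_ball_le n (r - i / n) (2 / (n : ℝ) ^ 2 - i / n) (by linarith)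
    refine (mul_le_mul_right h1 _).trans ?_
    rw [← mul_assoc, ← ENNReal.ofReal_mul (by positivity)]
    refine mul_le_mul_left (ENNReal.ofReal_le_ofReal ?_) _
    have e1 : (n : ℝ) * (2 / (n : ℝ) ^ 2 - i / n) = 2 / n + i * (-1) := by field_simp; ring
    rw [e1, Real.exp_add, Real.exp_nat_mul]
    have h2 : Real.exp (2 / n) ≤ 2 := by
      have : (2 : ℝ) / n ≤ 1 / 2 := by rw [div_le_iff₀ hn0]; linarith
      have h3 : Real.exp (1 / 2) ≤ 2 := by
        have h4 : Real.exp (1 / 2) ^ 2 = Real.exp 1 := by rw [← Real.exp_nat_mul]; norm_num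
        have h5 := Real.exp_one_lt_d9
        nlinarith [Real.exp_pos (1 / 2 : ℝ)]
      exact (Real.exp_le_exp.2 this).trans h3
    have h3 : (3 / 2 : ℝ) * Real.exp (-1) ≤ 5 / 9 := by
      have h4 := Real.exp_one_gt_d9
      rw [Real.exp_neg]
      have : (Real.exp 1)⁻¹ ≤ 10 / 27 := by
        rw [inv_le_comm₀ (Real.exp_pos 1) (by norm_num)]; linarith
      linarith
    calc (3 / 2 : ℝ) ^ i * (Real.exp (2 / n) * Real.exp (-1) ^ i)
        = Real.exp (2 / n) * ((3 / 2 : ℝ) * Real.exp (-1)) ^ i := by rw [mul_pow]; ring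
      _ ≤ 2 * (5 / 9 : ℝ) ^ i := by gcongr
  refine (Finset.sum_le_sum hterm).trans ?_
  rw [← Finset.sum_mul, ← ENNReal.ofReal_sum_of_nonneg fun i _ => by positivity]
  gcongr
  rw [show (5 : ℝ≥0∞) = ENNReal.ofReal 5 by simp]
  apply ENNReal.ofReal_le_ofReal
  rw [← Finset.mul_sum, geom_sum_eq (by norm_num)]
  have : (0 : ℝ) ≤ (5 / 9 : ℝ) ^ (n + 1) := by positivity
  have e : ((5 / 9 : ℝ) ^ (n + 1) - 1) / (5 / 9 - 1) = (1 - (5 / 9 : ℝ) ^ (n + 1)) * (9 / 4) := by
    field_simp; ring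
  rw [e]; linarith

theorem rnd : RndStmt := by
  classical
  intro n hn
  have hn0 : (0 : ℝ) < n := by exact_mod_cast (by omega : 0 < n)
  have hn1 : (1 : ℝ) ≤ n := by exact_mod_cast (by omega : 1 ≤ n)
  let d : E n := WithLp.toLp 2 (fun _ => (10 : ℝ))
  let pt : (Fin n → ℤ) → E n := fun k => WithLp.toLp 2 (fun i => (k i : ℝ) / (n : ℝ) ^ 3)
  let I : Finset ℤ := Finset.Icc (-(3 * (n : ℤ) ^ 3)) (3 * (n : ℤ) ^ 3)
  refine ⟨insert d ((Fintype.piFinset fun _ : Fin n => I).image pt), ?_, ⟨d, mem_insert_self _ _, ?_⟩,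
    ?_⟩
  · have h1 : (insert d ((Fintype.piFinset fun _ : Fin n => I).image pt)).card ≤ I.card ^ n + 1 := by
      refine (card_insert_le _ _).trans ?_
      gcongr
      refine card_image_le.trans ?_
      rw [Fintype.card_piFinset]; simp
    have h2 : (I.card : ℝ) ≤ 7 * (n : ℝ) ^ 3 := by
      have h3 : (I.card : ℤ) = 6 * (n : ℤ) ^ 3 + 1 := by
        simp only [I, Int.card_Icc]
        have : (0 : ℤ) ≤ (n : ℤ) ^ 3 := by positivity
        rw [Int.toNat_of_nonneg (by linarith)]; ring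
      have h4 : (I.card : ℝ) = 6 * (n : ℝ) ^ 3 + 1 := by exact_mod_cast h3
      have h5 : (1 : ℝ) ≤ (n : ℝ) ^ 3 := one_le_pow₀ hn1
      linarith
    calc ((insert d ((Fintype.piFinset fun _ : Fin n => I).image pt)).card : ℝ)
        ≤ (I.card : ℝ) ^ n + 1 := by exact_mod_cast h1
      _ ≤ (7 * (n : ℝ) ^ 3) ^ n + 1 := by gcongr
  · have := PiLp.norm_apply_le d ⟨0, by omega⟩
    simpa [d] using this
  · intro x hx
    have hn3 : (0 : ℝ) < (n : ℝ) ^ 3 := by positivity
    refine ⟨pt fun i => ⌊x i * (n : ℝ) ^ 3⌋, mem_insert_of_mem (mem_image_of_mem _ ?_), ?_⟩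
    · rw [Fintype.mem_piFinset]
      intro i
      have h1 : |x i| ≤ 3 := by
        have := PiLp.norm_apply_le x i
        rw [Real.norm_eq_abs] at this; linarith
      rw [abs_le] at h1
      simp only [I, Finset.mem_Icc]
      constructor
      · rw [Int.le_floor]; push_cast; nlinarith
      · have h2 : x i * (n : ℝ) ^ 3 ≤ ((3 * (n : ℤ) ^ 3 : ℤ) : ℝ) := by push_cast; nlinarith
        exact (Int.floor_le_floor h2).trans (by rw [Int.floor_intCast])
    · have hc : ∀ i, ‖(x - pt fun i => ⌊x i * (n : ℝ) ^ 3⌋) i‖ ^ 2 ≤ (1 / (n : ℝ) ^ 3) ^ 2 := by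
        intro i
        have e : (x - pt fun i => ⌊x i * (n : ℝ) ^ 3⌋) i =
            (x i * (n : ℝ) ^ 3 - ⌊x i * (n : ℝ) ^ 3⌋) / (n : ℝ) ^ 3 := by
          simp only [pt, PiLp.sub_apply]; field_simp
        rw [e, Real.norm_eq_abs, abs_of_nonneg
          (div_nonneg (by linarith [Int.floor_le (x i * (n : ℝ) ^ 3)]) hn3.le)]
        have h1 : x i * (n : ℝ) ^ 3 - ⌊x i * (n : ℝ) ^ 3⌋ ≤ 1 := by
          linarith [Int.lt_floor_add_one (x i * (n : ℝ) ^ 3)]
        have h0 : 0 ≤ x i * (n : ℝ) ^ 3 - ⌊x i * (n : ℝ) ^ 3⌋ := by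
          linarith [Int.floor_le (x i * (n : ℝ) ^ 3)]
        gcongr
      have h1 : ‖x - pt fun i => ⌊x i * (n : ℝ) ^ 3⌋‖ ^ 2 ≤ (1 / (n : ℝ) ^ 2) ^ 2 := by
        rw [PiLp.norm_sq_eq_of_L2]
        refine (Finset.sum_le_sum fun i _ => hc i).trans ?_
        rw [Finset.sum_const, card_univ, Fintype.card_fin, nsmul_eq_mul]
        have e : (n : ℝ) * (1 / (n : ℝ) ^ 3) ^ 2 = (1 / (n : ℝ) ^ 2) ^ 2 * (1 / n) := by
          field_simp
        rw [e]
        have : 1 / (n : ℝ) ≤ 1 := by rw [div_le_one hn0]; exact hn1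
        have h2 : (0 : ℝ) ≤ (1 / (n : ℝ) ^ 2) ^ 2 := by positivity
        nlinarith
      exact (pow_le_pow_iff_left₀ (norm_nonneg _) (by positivity) two_ne_zero).1 h1

/-- the cube -/
def cube (n : ℕ) (R : ℝ) : Set (E n) := {x | ∀ i, |x i| ≤ R}

theorem cube_eq (n : ℕ) (R : ℝ) :
    cube n R = (WithLp.ofLp : E n → (Fin n → ℝ)) ⁻¹' Set.Icc (fun _ => -R) (fun _ => R) := by
  ext x
  simp only [cube, Set.mem_ofPred_eq, Set.mem_preimage, Set.mem_Icc, Pi.le_def, abs_le, forall_and]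

theorem cube_meas (n : ℕ) (R : ℝ) : MeasurableSet (cube n R) := by
  rw [cube_eq]
  exact (PiLp.volume_preserving_ofLp (Fin n)).measurable measurableSet_Icc

theorem vol_cube (n : ℕ) (R : ℝ) (hR : 0 ≤ R) :
    volume (cube n R) = ENNReal.ofReal ((2 * R) ^ n) := by
  rw [cube_eq, (PiLp.volume_preserving_ofLp (Fin n)).measure_preimage
    measurableSet_Icc.nullMeasurableSet, Real.volume_Icc_pi]
  rw [Finset.prod_const, card_univ, Fintype.card_fin, ← ENNReal.ofReal_pow (by linarith)]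
  congr 2; ring

theorem vb_ne_top (n : ℕ) (r : ℝ) : vb n r ≠ ∞ := measure_closedBall_lt_top.ne

theorem vb_ne_zero (n : ℕ) (r : ℝ) (hr : 0 < r) : vb n r ≠ 0 :=
  (Metric.measure_closedBall_pos volume _ hr).ne'

/-- Tonelli bound for the averaged potential -/
theorem triple_le (n : ℕ) (ψ : E n → ℝ≥0∞) (hψ : Measurable ψ) (Y : Finset (E n)) (s t : Set (E n)) :
    ∫⁻ o, ∫⁻ c in s, ∫⁻ w in t, ∑ x ∈ Y, ψ (c + w - (x - o)) =
      (Y.card : ℝ≥0∞) * (∫⁻ z, ψ z) * volume t * volume s := by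
  have hm : Measurable fun p : (E n × E n) × E n => ∑ x ∈ Y, ψ (p.1.2 + p.2 - (x - p.1.1)) :=
    Finset.measurable_sum _ fun x _ => hψ.comp (by fun_prop)
  rw [lintegral_lintegral_swap]
  · have h1 : ∀ c : E n, ∫⁻ o, ∫⁻ w in t, ∑ x ∈ Y, ψ (c + w - (x - o)) =
        (Y.card : ℝ≥0∞) * (∫⁻ z, ψ z) * volume t := by
      intro c
      rw [lintegral_lintegral_swap]
      · have h2 : ∀ w : E n, ∫⁻ o, ∑ x ∈ Y, ψ (c + w - (x - o)) = (Y.card : ℝ≥0∞) * (∫⁻ z, ψ z) := by
          intro w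
          rw [lintegral_finsetSum (f := fun x o => ψ (c + w - (x - o))) _
            fun x _ => hψ.comp (by fun_prop)]
          have h3 : ∀ x ∈ Y, ∫⁻ o, ψ (c + w - (x - o)) = ∫⁻ z, ψ z := by
            intro x _
            rw [← lintegral_add_left_eq_self ψ (c + w - x)]
            congr 1; ext o; congr 1; abel
          rw [Finset.sum_congr rfl h3, Finset.sum_const, nsmul_eq_mul]
        simp only [h2]
        rw [setLIntegral_const]
      · exact (Finset.measurable_sum _ fun x _ => hψ.comp (by fun_prop)).aemeasurable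
    simp only [h1]
    rw [setLIntegral_const]
  · exact (hm.lintegral_prod_right' (ν := volume.restrict t)).aemeasurable

theorem dens (hP : PsiStmt) : DensStmt := by
  classical
  intro n X D hn hD hfin hlim
  obtain ⟨hψm, hψi⟩ := hP n (1 + 2 / (n : ℝ) ^ 2) hn le_rfl
  set ψ := psi n (1 + 2 / (n : ℝ) ^ 2) with hψ
  have hev := Filter.eventually_lt_of_limsup_lt hlim
  -- choose `R`
  have hlim2 : Filter.Tendsto (fun R : ℝ => (1 - 3 / R) ^ n) Filter.atTop (nhds ((1 - 0) ^ n)) :=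
    (tendsto_const_nhds.sub (tendsto_const_nhds.div_atTop Filter.tendsto_id)).pow n
  have hev2 : ∀ᶠ R : ℝ in Filter.atTop, 1 / 2 < (1 - 3 / R) ^ n :=
    hlim2.eventually (lt_mem_nhds (by norm_num))
  obtain ⟨R, hR1, hR2, hR3⟩ := (hev.and (hev2.and (Filter.eventually_gt_atTop 3))).exists
  have hR0 : 0 < R := by linarith
  set Y : Finset (E n) := (hfin R).toFinset with hY
  have hYc : (Y.card : ℝ≥0∞) < ENNReal.ofReal (2 * D) * volume (cube n (R - 3)) := by
    rw [vol_cube n _ (by linarith), ← ENNReal.ofReal_mul (by linarith)]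
    rw [ENNReal.div_lt_iff (Or.inl (by simp; positivity)) (Or.inl ENNReal.ofReal_ne_top),
      ← ENNReal.ofReal_mul hD.le, Set.ncard_eq_toFinset_card _ (hfin R)] at hR1
    refine hR1.trans_le (ENNReal.ofReal_le_ofReal ?_)
    have e : (2 * (R - 3)) ^ n = (1 - 3 / R) ^ n * (2 * R) ^ n := by
      rw [← mul_pow]; congr 1; field_simp
    rw [e]
    have : 0 < D * (2 * R) ^ n := by positivity
    nlinarith
  set A : ℝ≥0∞ := ENNReal.ofReal (4 * D) * vb n 3 with hA
  set B : ℝ≥0∞ := ENNReal.ofReal (20 * D) * vb n 1 * vb n 1 * vb n (1 / 1000) with hB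
  have hA0 : A ≠ 0 := mul_ne_zero (by simp; positivity) (vb_ne_zero n 3 (by norm_num))
  have hAt : A ≠ ∞ := ENNReal.mul_ne_top ENNReal.ofReal_ne_top (vb_ne_top n 3)
  have hB0 : B ≠ 0 := mul_ne_zero (mul_ne_zero (mul_ne_zero (by simp; positivity)
    (vb_ne_zero n 1 (by norm_num))) (vb_ne_zero n 1 (by norm_num))) (vb_ne_zero n _ (by norm_num))
  have hBt : B ≠ ∞ := ENNReal.mul_ne_top (ENNReal.mul_ne_top (ENNReal.mul_ne_top
    ENNReal.ofReal_ne_top (vb_ne_top n 1)) (vb_ne_top n 1)) (vb_ne_top n _)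
  let a : E n → ℝ≥0∞ := fun o => ∑ x ∈ Y, (Metric.closedBall x 3).indicator 1 o
  let b : E n → ℝ≥0∞ := fun o => ∫⁻ c in Metric.closedBall (0 : E n) 1,
    ∫⁻ w in Metric.closedBall (0 : E n) (1 / 1000), ∑ x ∈ Y, ψ (c + w - (x - o))
  have ham : Measurable a := Finset.measurable_sum _ fun x _ =>
    measurable_one.indicator Metric.isClosed_closedBall.measurableSet
  have hai : ∫⁻ o, a o = Y.card * vb n 3 := by
    simp only [a]
    rw [lintegral_finsetSum _ fun x _ =>
      measurable_one.indicator Metric.isClosed_closedBall.measurableSet]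
    have : ∀ x ∈ Y, ∫⁻ o, (Metric.closedBall x 3).indicator 1 o = vb n 3 := by
      intro x _
      rw [lintegral_indicator_one Metric.isClosed_closedBall.measurableSet,
        Measure.addHaar_closedBall_center]
      rfl
    rw [Finset.sum_congr rfl this, Finset.sum_const, nsmul_eq_mul]
  have hbi : ∫⁻ o, b o ≤ Y.card * (5 * vb n 1) * vb n (1 / 1000) * vb n 1 := by
    simp only [b]
    rw [triple_le n ψ hψm Y]
    unfold vb at *
    gcongr
  have hex : ∃ o ∈ cube n (R - 3), a o * B + b o * A < A * B := by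
    by_contra hcon
    push Not at hcon
    have h1 : A * B * volume (cube n (R - 3)) ≤ ∫⁻ o, (a o * B + b o * A) := by
      rw [← setLIntegral_const]
      exact (setLIntegral_mono' (cube_meas n _) hcon).trans (setLIntegral_le_lintegral _ _)
    rw [lintegral_add_left (ham.mul_const B), lintegral_mul_const' _ _ hBt,
      lintegral_mul_const' _ _ hAt, hai] at h1
    set V : ℝ≥0∞ := ENNReal.ofReal (40 * D) * (vb n 3 * vb n 1 * vb n 1 * vb n (1 / 1000)) with hV
    have hV0 : V ≠ 0 := mul_ne_zero (by simp; positivity) (mul_ne_zero (mul_ne_zero (mul_ne_zero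
      (vb_ne_zero n 3 (by norm_num)) (vb_ne_zero n 1 (by norm_num))) (vb_ne_zero n 1 (by norm_num)))
      (vb_ne_zero n _ (by norm_num)))
    have hVt : V ≠ ∞ := ENNReal.mul_ne_top ENNReal.ofReal_ne_top (ENNReal.mul_ne_top
      (ENNReal.mul_ne_top (ENNReal.mul_ne_top (vb_ne_top n 3) (vb_ne_top n 1)) (vb_ne_top n 1))
      (vb_ne_top n _))
    have hd : ∀ k : ℕ, ENNReal.ofReal (k * D) = k * ENNReal.ofReal D := fun k => by
      rw [ENNReal.ofReal_mul (by positivity)]; simp
    have h2 : (Y.card : ℝ≥0∞) * vb n 3 * B + (Y.card * (5 * vb n 1) * vb n (1 / 1000) * vb n 1) * A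
        = Y.card * V := by
      have e4 := hd 4
      have e20 := hd 20
      have e40 := hd 40
      push_cast at e4 e20 e40
      rw [hA, hB, hV, e4, e20, e40]; ring
    have h3 : A * B * volume (cube n (R - 3)) =
        ENNReal.ofReal (2 * D) * volume (cube n (R - 3)) * V := by
      have e4 := hd 4
      have e20 := hd 20
      have e40 := hd 40
      have e2 := hd 2
      push_cast at e4 e20 e40 e2
      rw [hA, hB, hV, e4, e20, e40, e2]; ring
    have h4 : ENNReal.ofReal (2 * D) * volume (cube n (R - 3)) * V ≤ Y.card * V := by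
      rw [← h3, ← h2]
      refine h1.trans ?_
      gcongr
    exact absurd (ENNReal.mul_lt_mul_left hV0 hVt hYc) (not_lt.2 h4)
  obtain ⟨o, ho, hlt⟩ := hex
  have haA : a o ≤ A := by
    have : a o * B ≤ A * B := le_self_add.trans hlt.le
    exact (ENNReal.mul_le_mul_iff_left hB0 hBt).1 this
  have hbB : b o ≤ B := by
    have : b o * A ≤ B * A := by rw [mul_comm B]; exact le_add_self.trans hlt.le
    exact (ENNReal.mul_le_mul_iff_left hA0 hAt).1 this
  refine ⟨o, Y.filter fun x => ‖x - o‖ ≤ 3, ?_, ?_, ?_⟩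
  · intro x
    simp only [mem_filter, hY, Set.Finite.mem_toFinset, Set.mem_inter_iff, Set.mem_ofPred_eq]
    constructor
    · rintro ⟨⟨h1, -⟩, h2⟩; exact ⟨h1, h2⟩
    · rintro ⟨h1, h2⟩
      refine ⟨⟨h1, fun i => ?_⟩, h2⟩
      have h3 := PiLp.norm_apply_le (x - o) i
      rw [Real.norm_eq_abs, PiLp.sub_apply] at h3
      have h4 := ho i
      have h5 := abs_add_le (x i - o i) (o i)
      rw [sub_add_cancel] at h5
      linarith
  · refine le_trans (le_of_eq ?_) haA
    simp only [a]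
    rw [Finset.card_filter]; push_cast
    refine Finset.sum_congr rfl fun x _ => ?_
    rw [Set.indicator_apply]
    simp only [Metric.mem_closedBall, dist_eq_norm, norm_sub_rev o x, Pi.one_apply]
  · refine le_trans ?_ hbB
    simp only [b]
    refine lintegral_mono fun c => lintegral_mono fun w => ?_
    exact Finset.sum_le_sum_of_subset (filter_subset _ _)

end Crest.Agent.R225.Lo
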