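import Crest.Agent.R225.LoDefs

/-!
# Row 225, S0348: greedy packing and the selection of centres and witness points
-/

open MeasureTheory Finset
open scoped ENNReal RealInnerProductSpace

namespace Crest.Agent.R225.Lo

theorem pack : PackStmt := by
  intro α _ m Gd rel β T hsym hβ
  induction T with
  | zero => intro _; exact ⟨Fin.elim0, fun i => i.elim0, fun i => i.elim0⟩
  | succ T ih =>
    intro hT
    have hT' : (T : ℝ≥0∞) * β < m Gd :=
      lt_of_le_of_lt (mul_le_mul_left (by exact_mod_cast Nat.le_succ T) β) hT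
    obtain ⟨f, hf, hrel⟩ := ih hT'
    have hU : m (⋃ i, {b | rel (f i) b}) ≤ (T : ℝ≥0∞) * β := by
      refine (measure_iUnion_fintype_le m _).trans ?_
      calc ∑ i, m {b | rel (f i) b} ≤ ∑ _i : Fin T, β := sum_le_sum fun i _ => hβ _
        _ = _ := by rw [sum_const, card_univ, Fintype.card_fin, nsmul_eq_mul]
    obtain ⟨b, hb, hbU⟩ : ∃ b ∈ Gd, b ∉ ⋃ i, {b | rel (f i) b} := by
      by_contra hc
      push Not at hc
      exact absurd ((measure_mono hc).trans hU) (not_le.2 hT')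
    have hb' : ∀ i, ¬ rel (f i) b := fun i h => hbU (Set.mem_iUnion.2 ⟨i, h⟩)
    refine ⟨Fin.cons b f, fun i => ?_, fun i j hij => ?_⟩
    · refine Fin.cases ?_ (fun i => ?_) i
      · exact hb
      · exact hf i
    · revert hij
      refine Fin.cases ?_ (fun i => ?_) i <;> refine Fin.cases ?_ (fun j => ?_) j
      · intro h; exact absurd rfl h
      · intro _ h; exact hb' j (hsym _ _ h)
      · intro _ h; exact hb' i h
      · intro h; exact hrel i j fun e => h (congrArg _ e)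

namespace SEL

theorem psi_meas (n : ℕ) (r : ℝ) : Measurable (psi n r) := by
  unfold psi
  exact Finset.measurable_sum _ fun i _ => measurable_const.indicator measurableSet_closedBall

theorem vb_eq (n : ℕ) (x : E n) {r : ℝ} (hr : 0 ≤ r) :
    volume (Metric.closedBall x r) = ENNReal.ofReal (r ^ n) * vb n 1 := by
  rw [Measure.addHaar_closedBall' volume x hr, vb]
  simp

theorem vb_pos (n : ℕ) {r : ℝ} (hr : 0 < r) : vb n r ≠ 0 :=
  (Metric.measure_closedBall_pos volume _ hr).ne'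

theorem vb_fin (n : ℕ) (r : ℝ) : vb n r ≠ ⊤ := measure_closedBall_lt_top.ne

/-- Markov: at least half of the ball is good. -/
theorem half {n : ℕ} (B : Set (E n)) (hB : MeasurableSet B) (hfin : volume B ≠ ⊤)
    (f : E n → ℝ≥0∞) (hf : Measurable f) (a : ℝ≥0∞) (ha : a ≠ 0) (ha' : a ≠ ⊤)
    (h : ∫⁻ x in B, f x ≤ a * volume B) :
    volume B ≤ 2 * volume {x | x ∈ B ∧ f x ≤ 2 * a} := by
  have h1 : 2 * a * (volume.restrict B) {x | 2 * a ≤ f x} ≤ ∫⁻ x in B, f x :=
    mul_meas_ge_le_lintegral₀ hf.aemeasurable _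
  rw [Measure.restrict_apply' hB] at h1
  set b := volume ({x | 2 * a ≤ f x} ∩ B) with hb
  set g := volume {x | x ∈ B ∧ f x ≤ 2 * a} with hg
  have h2 : 2 * b ≤ volume B := by
    have : a * (2 * b) ≤ a * volume B := by
      calc a * (2 * b) = 2 * a * b := by ring
        _ ≤ _ := h1.trans h
    exact (ENNReal.mul_le_mul_iff_right ha ha').1 this
  have h3 : volume B ≤ g + b := by
    refine le_trans (measure_mono ?_) (measure_union_le _ _)
    intro x hx
    rcases le_total (f x) (2 * a) with h | h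
    · exact Or.inl ⟨hx, h⟩
    · exact Or.inr ⟨h, hx⟩
  have h4 : volume B + volume B ≤ 2 * g + volume B := by
    calc volume B + volume B = 2 * volume B := (two_mul _).symm
      _ ≤ 2 * (g + b) := mul_le_mul_right h3 _
      _ = 2 * g + 2 * b := mul_add _ _ _
      _ ≤ _ := add_le_add le_rfl h2
  exact (ENNReal.add_le_add_iff_right hfin).1 h4

theorem sel1 (hP : PackStmt) {n M : ℕ} (X : Fin M → E n) (ρ η : ℝ) (hρ : 0 < ρ) (hη : 0 < η)
    (T : ℕ) (f : E n → ℝ≥0∞) (hf : Measurable f) (a : ℝ≥0∞) (ha : a ≠ 0) (ha' : a ≠ ⊤)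
    (h : ∫⁻ x in Metric.closedBall (0 : E n) ρ, f x ≤ a * vb n ρ)
    (hT : (T : ℝ) * M ^ 2 * (η / ρ) ^ n < 1 / 2) :
    ∃ g : Fin T → E n, (∀ i, ‖g i‖ ≤ ρ ∧ f (g i) ≤ 2 * a) ∧
      ∀ i j, i ≠ j → ∀ x x', η < ‖(g i - X x) - (g j - X x')‖ := by
  have h1 := half (Metric.closedBall (0 : E n) ρ) measurableSet_closedBall (vb_fin n ρ) f hf a ha
    ha' h
  obtain ⟨g, hg, hrel⟩ := hP (E n) volume {x | x ∈ Metric.closedBall (0 : E n) ρ ∧ f x ≤ 2 * a}
    (fun u v => ∃ x x', ‖(u - X x) - (v - X x')‖ ≤ η)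
    (ENNReal.ofReal ((M : ℝ) ^ 2 * (η / ρ) ^ n) * vb n ρ) T
    (by
      rintro u v ⟨x, x', h⟩
      exact ⟨x', x, by rwa [norm_sub_rev]⟩)
    (by
      intro u
      have e : {v | ∃ x x', ‖(u - X x) - (v - X x')‖ ≤ η} =
          ⋃ p : Fin M × Fin M, Metric.closedBall (u - X p.1 + X p.2) η := by
        ext v
        simp only [Set.mem_setOf_eq, Set.mem_iUnion, Metric.mem_closedBall, dist_comm v,
          dist_eq_norm, Prod.exists]
        refine exists_congr fun x => exists_congr fun x' => ?_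
        rw [show u - X x - (v - X x') = u - X x + X x' - v by abel]
      rw [e]
      refine (measure_iUnion_fintype_le _ _).trans (le_of_eq ?_)
      simp only [vb_eq n _ hη.le]
      rw [sum_const, card_univ, Fintype.card_prod, Fintype.card_fin, nsmul_eq_mul,
        show vb n ρ = ENNReal.ofReal (ρ ^ n) * vb n 1 from vb_eq n 0 hρ.le, ← mul_assoc,
        ← mul_assoc, ← ENNReal.ofReal_mul (by positivity), ← ENNReal.ofReal_natCast,
        ← ENNReal.ofReal_mul (by positivity)]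
      congr 2
      rw [div_pow]
      push_cast
      field_simp)
    (by
      have h2 : 2 * ((T : ℝ≥0∞) * (ENNReal.ofReal ((M : ℝ) ^ 2 * (η / ρ) ^ n) * vb n ρ)) <
          vb n ρ := by
        have e : 2 * ((T : ℝ≥0∞) * (ENNReal.ofReal ((M : ℝ) ^ 2 * (η / ρ) ^ n) * vb n ρ)) =
            ENNReal.ofReal (2 * ((T : ℝ) * M ^ 2 * (η / ρ) ^ n)) * vb n ρ := by
          rw [mul_assoc (T : ℝ), ENNReal.ofReal_mul (by norm_num : (0 : ℝ) ≤ 2),
            ENNReal.ofReal_mul (Nat.cast_nonneg T), ENNReal.ofReal_natCast, ENNReal.ofReal_ofNat]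
          ring
        rw [e]
        calc _ < 1 * vb n ρ := by
              refine ENNReal.mul_lt_mul_left (vb_pos n hρ) (vb_fin n ρ) ?_
              rw [ENNReal.ofReal_lt_one]
              linarith
          _ = _ := one_mul _
      exact (ENNReal.mul_lt_mul_iff_right (by norm_num) (by norm_num)).1 (h2.trans_le h1))
  refine ⟨g, fun i => ⟨mem_closedBall_zero_iff.1 (hg i).1, (hg i).2⟩, fun i j hij x x' => ?_⟩
  by_contra hc
  exact hrel i j hij ⟨x, x', not_lt.1 hc⟩

end SEL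

theorem sel (hP : PackStmt) : SelStmt := by
  intro n r η Λ₀ M L T X hΛ hη havg hL hT
  have hΛ' : ENNReal.ofReal Λ₀ ≠ 0 := (ENNReal.ofReal_pos.2 hΛ).ne'
  have hm : Measurable fun p : E n × E n => ∑ x, psi n r (p.1 + p.2 - X x) :=
    Finset.measurable_sum _ fun x _ => (SEL.psi_meas n r).comp (by fun_prop)
  obtain ⟨c, hc, hcc⟩ := SEL.sel1 hP X 1 (1 / 250) one_pos (by norm_num) L
    (fun c => ∫⁻ w in Metric.closedBall (0 : E n) (1 / 1000), ∑ x, psi n r (c + w - X x))
    (Measurable.lintegral_prod_right (f := fun c w => ∑ x, psi n r (c + w - X x)) hm)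
    (ENNReal.ofReal Λ₀ * vb n (1 / 1000)) (mul_ne_zero hΛ' (SEL.vb_pos n (by norm_num)))
    (ENNReal.mul_ne_top ENNReal.ofReal_ne_top (SEL.vb_fin n _))
    (havg.trans (le_of_eq (by ring))) (by rwa [div_one])
  have hy : ∀ l, ∃ g : Fin T → E n, (∀ i, ‖g i‖ ≤ 1 / 1000 ∧
      ∑ x, psi n r (c l + g i - X x) ≤ 2 * (2 * ENNReal.ofReal Λ₀)) ∧
      ∀ i j, i ≠ j → ∀ x x', η < ‖(g i - X x) - (g j - X x')‖ := fun l =>
    SEL.sel1 hP X (1 / 1000) η (by norm_num) hη T (fun w => ∑ x, psi n r (c l + w - X x))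
      (Finset.measurable_sum _ fun x _ => (SEL.psi_meas n r).comp (by fun_prop))
      (2 * ENNReal.ofReal Λ₀) (mul_ne_zero two_ne_zero hΛ')
      (ENNReal.mul_ne_top (by norm_num) ENNReal.ofReal_ne_top)
      ((hc l).2.trans (le_of_eq (by ring)))
      (by rwa [show η / (1 / 1000) = 1000 * η by ring])
  choose g hg hgg using hy
  refine ⟨c, fun l i => c l + g l i, fun l => (hc l).1, fun l i => ?_, fun l i => ?_, hcc,
    fun l i i' hii x x' => ?_⟩
  · rw [add_sub_cancel_left]; exact (hg l i).1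
  · refine (hg l i).2.trans (le_of_eq ?_)
    rw [ENNReal.ofReal_mul (by norm_num : (0 : ℝ) ≤ 4), ENNReal.ofReal_ofNat, ← mul_assoc]
    norm_num
  · rw [show c l + g l i - X x - (c l + g l i' - X x') = g l i - X x - (g l i' - X x') by abel]
    exact hgg l i i' hii x x'

end Crest.Agent.R225.Lo
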