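import Crest.Agent.R225.LoMain
import Crest.Agent.R225.LoSel

/-!
# Row 225, S0348: the union bound and the Euclidean-space form
-/

open MeasureTheory Finset
open scoped ENNReal RealInnerProductSpace

namespace Crest.Agent.R225.Lo

namespace EUC

theorem pr_union {G I : Type} [Fintype G] [Fintype I] {p : ℝ} (h0 : 0 ≤ p) (h1 : p ≤ 1)
    (B : I → Finset G → Prop) : pr p (fun S => ∃ i, B i S) ≤ ∑ i, pr p (B i) := by
  classical
  unfold pr ex
  rw [sum_comm]
  refine sum_le_sum fun S _ => ?_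
  rw [← mul_sum]
  refine mul_le_mul_of_nonneg_left ?_ (mul_nonneg (pow_nonneg h0 _) (pow_nonneg (by linarith) _))
  by_cases h : ∃ i, B i S
  · obtain ⟨i, hi⟩ := h
    have h' : ∃ i, B i S := ⟨i, hi⟩
    simp only [h', if_true]
    refine le_trans (le_of_eq ?_) (single_le_sum (f := fun i => if B i S then (1 : ℝ) else 0)
      (fun j _ => by split_ifs <;> norm_num) (mem_univ i))
    simp [hi]
  · simp only [h, if_false]
    exact sum_nonneg fun j _ => by split_ifs <;> norm_num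

theorem pr_false {G : Type} [Fintype G] (p : ℝ) {A : Finset G → Prop} (h : ∀ S, ¬ A S) :
    pr p A = 0 := by
  unfold pr ex
  simp [h]

theorem psi_mono (n : ℕ) (r μ : ℝ) (z z' : E n) (h : ‖z - z'‖ ≤ μ) :
    psi n r z' ≤ psi n (r + μ) z := by
  unfold psi
  refine sum_le_sum fun i _ => ?_
  by_cases hz : z' ∈ Metric.closedBall (0 : E n) (r - i / n)
  · have : z ∈ Metric.closedBall (0 : E n) (r + μ - i / n) := by
      rw [mem_closedBall_zero_iff] at hz ⊢
      have := norm_add_le (z - z') z'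
      rw [sub_add_cancel] at this
      linarith
    rw [Set.indicator_of_mem hz, Set.indicator_of_mem this]
  · rw [Set.indicator_of_notMem hz]
    exact zero_le

theorem psi_far (n : ℕ) (r : ℝ) (z : E n) (h : r < ‖z‖) : psi n r z = 0 := by
  unfold psi
  refine sum_eq_zero fun i _ => Set.indicator_of_notMem ?_ _
  rw [mem_closedBall_zero_iff, not_le]
  have : (0 : ℝ) ≤ i / n := by positivity
  linarith

theorem transfer (h : EucStmt) :
    ∃ c : ℝ, 0 < c ∧ ∃ n₀ : ℕ, ∀ n : ℕ, n₀ ≤ n →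
      ∃ K : Set (Fin n → ℝ), IsCompact K ∧ Convex ℝ K ∧ (interior K).Nonempty ∧
        (∀ x ∈ K, -x ∈ K) ∧
        ∀ X : Set (Fin n → ℝ), (∀ R : ℝ, (X ∩ {x | ∀ i, |x i| ≤ R}).Finite) →
          (∀ y : Fin n → ℝ, ∃ x ∈ X, y - x ∈ K) →
          ENNReal.ofReal (c * n * Real.log n) ≤
            volume K * Filter.limsup (fun R : ℝ => ((X ∩ {x | ∀ i, |x i| ≤ R}).ncard : ℝ≥0∞) /
              ENNReal.ofReal ((2 * R) ^ n)) Filter.atTop := by
  obtain ⟨c, hc, n₀, h⟩ := h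
  refine ⟨c, hc, n₀, fun n hn => ?_⟩
  obtain ⟨K, h1, h2, h3, h4, h5⟩ := h n hn
  let e : E n ≃L[ℝ] (Fin n → ℝ) := EuclideanSpace.equiv (Fin n) ℝ
  refine ⟨e.symm ⁻¹' K, ?_, h2.linear_preimage (e.symm : (Fin n → ℝ) →ₗ[ℝ] E n), ?_, ?_, ?_⟩
  · exact e.symm.toHomeomorph.isCompact_preimage.2 h1
  · obtain ⟨x, hx⟩ := h3
    refine ⟨e x, ?_⟩
    have := e.symm.toHomeomorph.preimage_interior K
    have h' : e x ∈ e.symm.toHomeomorph ⁻¹' interior K := by
      show e.symm (e x) ∈ interior K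
      rwa [e.symm_apply_apply]
    rw [this] at h'
    exact h'
  · intro x hx
    show e.symm (-x) ∈ K
    rw [map_neg]
    exact h4 _ hx
  · intro X hX hcov
    have hinj : Function.Injective e.symm := e.symm.injective
    have him : ∀ R : ℝ, (e.symm '' X) ∩ {x : E n | ∀ i, |x i| ≤ R} =
        e.symm '' (X ∩ {x | ∀ i, |x i| ≤ R}) := by
      intro R
      ext x
      constructor
      · rintro ⟨⟨y, hy, rfl⟩, hR⟩
        exact ⟨y, ⟨hy, hR⟩, rfl⟩
      · rintro ⟨y, ⟨hy, hR⟩, rfl⟩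
        exact ⟨⟨y, hy, rfl⟩, hR⟩
    have h6 := h5 (e.symm '' X) (fun R => by rw [him]; exact (hX R).image _) (fun y => by
      obtain ⟨x, hx, hyx⟩ := hcov (e y)
      refine ⟨e.symm x, ⟨x, hx, rfl⟩, ?_⟩
      have : e.symm (e y - x) ∈ K := hyx
      rwa [map_sub, e.symm_apply_apply] at this)
    simp only [him, Set.ncard_image_of_injective _ hinj] at h6
    have hv : volume (e.symm ⁻¹' K) = volume K :=
      (PiLp.volume_preserving_toLp (Fin n)).measure_preimage h1.measurableSet.nullMeasurableSet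
    rw [hv]
    exact h6

end EUC

theorem euc (hCnt : CntStmt) (hNum : NumStmt) (hMain : MainStmt) (hRnd : RndStmt)
    (hDens : DensStmt) (hVol : VolStmt) : EucStmt := by
  classical
  obtain ⟨C, hC, hCnt⟩ := hCnt
  obtain ⟨c', hc', n₀, hNum⟩ := hNum C hC
  refine ⟨c' * (Real.exp (-8) / 2), by positivity, max n₀ 4, fun n hn => ?_⟩
  have hn4 : 4 ≤ n := (le_max_right _ _).trans hn
  obtain ⟨U, π, hU⟩ := hCnt n (by omega)
  obtain ⟨P, hP⟩ := hNum n ((le_max_left _ _).trans hn)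
  set lam : ℝ := c' * n * Real.log n with hlam
  obtain ⟨𝒢, h𝒢, ⟨d, hd, hd10⟩, hrnd⟩ := hRnd n (by omega)
  obtain ⟨hbody, hvol⟩ := hVol C n P.N U π hP.N1 hU
  have hN0 : (0 : ℝ) < P.N := by exact_mod_cast hP.N1
  have hN1 : (1 : ℝ) ≤ P.N := by exact_mod_cast hP.N1
  have hp1 : π / P.N ≤ 1 := by
    rw [div_le_one hN0]
    linarith [hU.half]
  have hp0 : 0 ≤ π / P.N := div_nonneg hU.pos.le hN0.le
  let B : (Fin P.M → 𝒢) → Finset (U × Fin P.N) → Prop := fun X S =>
    avg n (1 + P.μ) (fun j => (X j : E n)) ≤ ENNReal.ofReal P.Λ₀ * vb n 1 * vb n (1 / 1000) ∧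
      ¬ ∃ y, Wit P.μ (fun j => (X j : E n)) S y
  have hB : ∀ X, pr (π / P.N) (B X) ≤ (3 / 4 : ℝ) ^ P.L := by
    intro X
    by_cases h : avg n (1 + P.μ) (fun j => (X j : E n)) ≤
        ENNReal.ofReal P.Λ₀ * vb n 1 * vb n (1 / 1000)
    · exact (MAIN.pr_mono hp0 hp1 fun S hS => hS.2).trans (hMain C n U π lam P hC hU hP _ h)
    · rw [EUC.pr_false _ fun S hS => h hS.1]
      positivity
  have hbad : pr (π / P.N) (fun S => ∃ X, B X S) < Real.exp (-8) / 2 := by
    refine lt_of_le_of_lt ((EUC.pr_union hp0 hp1 B).trans ((sum_le_sum fun X _ => hB X).trans ?_))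
      hP.union
    rw [sum_const, card_univ, nsmul_eq_mul, Fintype.card_fun, Fintype.card_fin, Fintype.card_coe]
    push_cast
    exact mul_le_mul_of_nonneg_right
      (pow_le_pow_left₀ (Nat.cast_nonneg _) (h𝒢.trans hP.Gbig) _) (by positivity)
  obtain ⟨S, hS1, hS2⟩ : ∃ S : Finset (U × Fin P.N),
      ENNReal.ofReal (Real.exp (-8) / 2) * vb n 1 ≤ volume (body S) ∧ ¬ ∃ X, B X S := by
    by_contra hc
    push Not at hc
    exact absurd (hvol.trans (MAIN.pr_mono hp0 hp1 hc)) (not_le.2 hbad)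
  obtain ⟨b1, b2, b3, b4⟩ := hbody S
  refine ⟨body S, b1, b2, b3, b4, fun X hX hcov => ?_⟩
  by_contra hlt
  rw [not_le] at hlt
  set s := Filter.limsup (fun R : ℝ => ((X ∩ {x | ∀ i, |x i| ≤ R}).ncard : ℝ≥0∞) /
    ENNReal.ofReal ((2 * R) ^ n)) Filter.atTop with hs
  set v : ℝ := (vb n 1).toReal with hv
  have hv0 : 0 < v := ENNReal.toReal_pos (SEL.vb_pos n one_pos) (SEL.vb_fin n 1)
  have hvv : vb n 1 = ENNReal.ofReal v := (ENNReal.ofReal_toReal (SEL.vb_fin n 1)).symm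
  have hlam0 : 0 < lam := hP.lam0
  have hsD : s < ENNReal.ofReal (lam / v) := by
    by_contra hc
    rw [not_lt] at hc
    refine absurd hlt (not_lt.2 (le_trans (le_of_eq ?_) (mul_le_mul' hS1 hc)))
    rw [hvv, ← ENNReal.ofReal_mul (by positivity), ← ENNReal.ofReal_mul (by positivity)]
    congr 1
    rw [hlam]
    field_simp
  obtain ⟨o, F, hF, hFc, hFa⟩ := hDens n X (lam / v) hn4 (by positivity) hX hsD
  have hFM : F.card ≤ P.M := by
    rw [show vb n 3 = ENNReal.ofReal (3 ^ n) * vb n 1 from SEL.vb_eq n 0 (by norm_num), hvv,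
      ← ENNReal.ofReal_mul (by positivity), ← ENNReal.ofReal_mul (by positivity),
      ← ENNReal.ofReal_natCast, ENNReal.ofReal_le_ofReal_iff (by positivity)] at hFc
    have e : 4 * (lam / v) * (3 ^ n * v) = 4 * lam * 3 ^ n := by field_simp
    rw [e] at hFc
    exact_mod_cast hFc.trans hP.Mbig
  have hr : ∀ x : F, ∃ x' : 𝒢, ‖(x : E n) - o - x'‖ ≤ P.μ := by
    intro x
    obtain ⟨x', h1, h2⟩ := hrnd ((x : E n) - o) ((hF x).1 x.2).2
    exact ⟨⟨x', h1⟩, by rw [hP.mu]; exact h2⟩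
  choose r hr using hr
  let ι : F → Fin P.M := fun x => Fin.castLE hFM (F.equivFin x)
  have hι : Function.Injective ι := fun a b h => F.equivFin.injective (Fin.castLE_injective _ h)
  let X' : Fin P.M → 𝒢 := Function.extend ι r fun _ => ⟨d, hd⟩
  have hX'1 : ∀ x, X' (ι x) = r x := fun x => hι.extend_apply _ _ x
  have hX'2 : ∀ j, j ∉ Set.range ι → X' j = ⟨d, hd⟩ := fun j hj =>
    Function.extend_apply' _ _ _ hj
  have hμ1 : P.μ ≤ 1 := by
    have : (1 : ℝ) / 10 ^ 8 ≤ 1 := by norm_num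
    linarith [hP.small, hP.phi0, hP.dm0]
  have havg : avg n (1 + P.μ) (fun j => (X' j : E n)) ≤
      ENNReal.ofReal P.Λ₀ * vb n 1 * vb n (1 / 1000) := by
    refine le_trans ?_ (hFa.trans (le_of_eq ?_))
    · unfold avg
      refine setLIntegral_mono' measurableSet_closedBall fun c hc => ?_
      refine setLIntegral_mono' measurableSet_closedBall fun w hw => ?_
      rw [mem_closedBall_zero_iff] at hc hw
      rw [← Fintype.sum_of_injective ι hι (fun x => psi n (1 + P.μ) (c + w - r x))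
        (fun j => psi n (1 + P.μ) (c + w - X' j)) ?_ (fun x => by rw [hX'1]),
        ← sum_coe_sort F]
      · refine sum_le_sum fun x _ => ?_
        rw [show 1 + 2 / (n : ℝ) ^ 2 = 1 + P.μ + P.μ by rw [hP.mu]; ring]
        refine EUC.psi_mono n _ _ _ _ ?_
        rw [show c + w - ((x : E n) - o) - (c + w - r x) = -((x : E n) - o - r x) by abel, norm_neg]
        exact hr x
      · intro j hj
        refine EUC.psi_far n _ _ ?_
        rw [hX'2 j hj]
        have h1 := norm_sub_le (c + w) (c + w - d)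
        rw [sub_sub_cancel] at h1
        have h2 := norm_add_le c w
        show 1 + P.μ < ‖c + w - d‖
        linarith
    · congr 2
      rw [hvv, ← ENNReal.ofReal_mul (by positivity), hP.Lam]
      congr 1
      field_simp
  obtain ⟨y, hy1, hy2⟩ : ∃ y, Wit P.μ (fun j => (X' j : E n)) S y := by
    by_contra hc
    exact hS2 ⟨X', havg, hc⟩
  obtain ⟨x, hx, hk1, hk2⟩ := hcov (y + o)
  have hxF : x ∈ F := by
    refine (hF x).2 ⟨hx, ?_⟩
    have h1 := norm_sub_le y (y + o - x)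
    rw [show y - (y + o - x) = x - o by abel] at h1
    linarith
  have e : y - (r ⟨x, hxF⟩ : E n) = (y + o - x) + (x - o - r ⟨x, hxF⟩) := by abel
  obtain ⟨g, hg, hg'⟩ := hy2 (ι ⟨x, hxF⟩) (by
    show ‖y - (X' (ι ⟨x, hxF⟩) : E n)‖ ≤ 1 + P.μ
    rw [hX'1, e]
    exact (norm_add_le _ _).trans (add_le_add hk1 (hr ⟨x, hxF⟩)))
  have hg'' : tt + P.μ < ⟪y - (X' (ι ⟨x, hxF⟩) : E n), (g.1 : E n)⟫ := hg'
  rw [hX'1, e, inner_add_left] at hg''
  have h1 := (abs_le.1 (hk2 g hg)).2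
  have h2 := real_inner_le_norm (x - o - r ⟨x, hxF⟩) (g.1 : E n)
  have h3 : ‖x - o - r ⟨x, hxF⟩‖ * ‖(g.1 : E n)‖ ≤ P.μ * 1 :=
    mul_le_mul (hr ⟨x, hxF⟩) (hU.ball _ g.1.2) (norm_nonneg _) ((norm_nonneg _).trans (hr ⟨x, hxF⟩))
  linarith

end Crest.Agent.R225.Lo
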