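import Crest.Agent.R225.LoUnits

/-!
# Row 225, S0348: one fixed rounded configuration
-/

open MeasureTheory Finset
open scoped ENNReal RealInnerProductSpace

namespace Crest.Agent.R225.Lo

namespace MAIN

theorem pr_mono {G : Type} [Fintype G] {p : ℝ} (h0 : 0 ≤ p) (h1 : p ≤ 1) {A B : Finset G → Prop}
    (h : ∀ S, A S → B S) : pr p A ≤ pr p B := by
  unfold pr ex
  refine sum_le_sum fun S _ => mul_le_mul_of_nonneg_left ?_
    (mul_nonneg (pow_nonneg h0 _) (pow_nonneg (by linarith) _))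
  by_cases hA : A S
  · simp [hA, h S hA]
  · simp only [hA, if_false]
    split_ifs <;> norm_num

/-- the depth of a point of the ball -/
theorem depth (n : ℕ) (r : ℝ) (z : E n) (hz : ‖z‖ ≤ r) :
    ∃ i : ℕ, ENNReal.ofReal ((3 / 2 : ℝ) ^ i) ≤ psi n r z ∧
      (i + 1 ≤ n → r - ((i : ℝ) + 1) / n < ‖z‖) := by
  classical
  obtain ⟨i, hi, hmax⟩ := exists_max_image
    ((range (n + 1)).filter fun i : ℕ => ‖z‖ ≤ r - (i : ℝ) / n) id
    ⟨0, mem_filter.2 ⟨mem_range.2 (Nat.succ_pos n), by simpa using hz⟩⟩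
  obtain ⟨hi1, hi2⟩ := mem_filter.1 hi
  refine ⟨i, ?_, fun h => ?_⟩
  · unfold psi
    refine le_trans (le_of_eq ?_) (single_le_sum (f := fun i : ℕ =>
      (Metric.closedBall (0 : E n) (r - i / n)).indicator
        (fun _ => ENNReal.ofReal ((3 / 2 : ℝ) ^ i)) z) (fun _ _ => zero_le) hi1)
    rw [Set.indicator_of_mem (mem_closedBall_zero_iff.2 hi2)]
  · by_contra hc
    have := hmax (i + 1) (mem_filter.2 ⟨mem_range.2 (by omega), by push_cast; exact not_lt.1 hc⟩)
    simp at this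

theorem near {n : ℕ} (z u : E n) (μ : ℝ) (hμ : 0 ≤ μ) (hμ1 : μ ≤ 1 / 10 ^ 8) (hz : ‖z‖ ≤ 1 + μ)
    (hu : ‖u‖ ≤ 1) (h : tt + μ < ⟪z, u⟫) : ‖u - z‖ ≤ 1 / 1000 := by
  rw [norm_sub_rev]
  have h1 := norm_sub_sq_real z u
  have h2 : ‖z‖ ^ 2 ≤ (1 + μ) ^ 2 := pow_le_pow_left₀ (norm_nonneg _) hz 2
  have h3 : ‖u‖ ^ 2 ≤ 1 ^ 2 := pow_le_pow_left₀ (norm_nonneg _) hu 2
  unfold tt at h
  refine (pow_le_pow_iff_left₀ (norm_nonneg _) (by norm_num) two_ne_zero).1 ?_
  nlinarith

end MAIN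

theorem main (hS : SelStmt) (hUn : UnitsStmt) (hA : AbsStmt) : MainStmt := by
  intro C n U π lam P hC hU hP X havg
  classical
  have hn4 := hP.n4
  have hn0 : (0 : ℝ) < n := by exact_mod_cast (show 0 < n by omega)
  have hΛ : 0 < P.Λ₀ := by rw [hP.Lam]; linarith [hP.lam0]
  have hμ : 0 ≤ P.μ := by rw [hP.mu]; positivity
  have hsm := hP.small
  have hφ := hP.phi0
  have hδm := hP.dm0
  have hN0 : (0 : ℝ) < P.N := by exact_mod_cast hP.N1
  have hN1 : (1 : ℝ) ≤ P.N := by exact_mod_cast hP.N1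
  have hC0 : 0 ≤ C := by linarith
  obtain ⟨c, y, hc, hy, hpsi, hcc, hyy⟩ :=
    hS n (1 + P.μ) P.η P.Λ₀ P.M P.L P.T X hΛ hP.eta0 havg hP.packL hP.packT
  let cand : Fin P.L → Fin P.T → Finset (Fin P.M) := fun l i =>
    univ.filter fun x => ‖y l i - X x‖ ≤ 1 + P.μ
  have hcand : ∀ l i x, x ∈ cand l i ↔ ‖y l i - X x‖ ≤ 1 + P.μ := fun l i x => by simp [cand]
  have hd : ∀ l i x, ∃ d : ℕ, x ∈ cand l i →
      ENNReal.ofReal ((3 / 2 : ℝ) ^ d) ≤ psi n (1 + P.μ) (y l i - X x) ∧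
      (d + 1 ≤ n → 1 + P.μ - ((d : ℝ) + 1) / n < ‖y l i - X x‖) := by
    intro l i x
    by_cases h : x ∈ cand l i
    · obtain ⟨d, hd⟩ := MAIN.depth n _ _ ((hcand l i x).1 h)
      exact ⟨d, fun _ => hd⟩
    · exact ⟨0, fun h' => absurd h' h⟩
  choose d hd using hd
  have hsum : ∀ l i, ∑ x ∈ cand l i, (3 / 2 : ℝ) ^ d l i x ≤ 4 * P.Λ₀ := by
    intro l i
    rw [← ENNReal.ofReal_le_ofReal_iff (by positivity),
      ENNReal.ofReal_sum_of_nonneg fun _ _ => by positivity]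
    exact ((sum_le_sum fun x hx => (hd l i x hx).1).trans
      (sum_le_sum_of_subset (subset_univ _))).trans (hpsi l i)
  have hcard : ∀ l i, ((cand l i).card : ℝ) ≤ 4 * P.Λ₀ := by
    intro l i
    refine le_trans ?_ (hsum l i)
    rw [card_eq_sum_ones]
    push_cast
    exact sum_le_sum fun x _ => one_le_pow₀ (by norm_num)
  have hcardN : ∀ l i, (cand l i).card ≤ P.N := fun l i => by
    exact_mod_cast (hcard l i).trans hP.candN
  have hδ : ∀ l i, ∀ x ∈ cand l i, 0 ≤ ((d l i x : ℝ) + 1) / n ∧ ((d l i x : ℝ) + 1) / n ≤ P.δm ∧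
      1 - ((d l i x : ℝ) + 1) / n ≤ ‖y l i - X x‖ ∧ ‖y l i - X x‖ ≤ 1 + P.μ := by
    intro l i x hx
    have h1 := hP.depth (d l i x) (le_trans (single_le_sum
      (f := fun x => (3 / 2 : ℝ) ^ d l i x) (fun _ _ => by positivity) hx) (hsum l i))
    refine ⟨by positivity, h1, ?_, (hcand l i x).1 hx⟩
    have h2 : ((d l i x : ℝ) + 1) / n ≤ 1 := by
      have : (1 : ℝ) / 10 ^ 8 ≤ 1 := by norm_num
      linarith
    rw [div_le_one hn0] at h2
    have h3 := (hd l i x hx).2 (by exact_mod_cast h2)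
    linarith
  have hun := fun l i => hUn C n U π hC hU P.N P.K' P.μ P.φ P.δm P.o (Fin P.M) (cand l i)
    (fun x => y l i - X x) (fun x => ((d l i x : ℝ) + 1) / n) hP.N1 hP.K1 (hcardN l i) hμ hφ hδm
    hP.muphi hsm (hδ l i) hP.o0 hP.o1 hP.o2
  choose act A cc h1 h2 h3 h4 h5 h6 h7 using hun
  have hp1 : π / P.N ≤ 1 := by
    rw [div_le_one hN0]
    linarith [hU.half]
  have hp0 : 0 ≤ π / P.N := div_nonneg hU.pos.le hN0.le
  let R : Fin P.L → Finset (U × Fin P.N) := fun l =>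
    univ.filter fun g => ∃ x, ‖(g.1 : E n) - (c l - X x)‖ ≤ 1 / 500
  let O : Fin P.L → Fin P.T → Fin P.T → Finset (U × Fin P.N) := fun l i i' =>
    univ.filter fun g => (∃ x ∈ cand l i, tt + P.μ < ⟪y l i - X x, (g.1 : E n)⟫) ∧
      ∃ x ∈ cand l i', tt + P.μ < ⟪y l i' - X x, (g.1 : E n)⟫
  have hO : ∀ l i i', i ≠ i' → π / P.N * (O l i i').card ≤ P.o := by
    intro l i i' hii
    let Q : Fin P.M × Fin P.M → E n → Prop := fun p u =>
      tt + P.μ < ⟪y l i - X p.1, u⟫ ∧ tt + P.μ < ⟪y l i' - X p.2, u⟫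
    have e1 : (O l i i').card ≤ ∑ p ∈ cand l i ×ˢ cand l i', (U.filter (Q p)).card * P.N := by
      refine le_trans (card_le_card (t := (cand l i ×ˢ cand l i').biUnion fun p =>
        (univ.filter fun u : U => Q p u) ×ˢ univ) ?_) (card_biUnion_le.trans (le_of_eq ?_))
      · intro g hg
        obtain ⟨⟨x, hx, a⟩, x', hx', b⟩ := (mem_filter.1 hg).2
        exact mem_biUnion.2 ⟨(x, x'), mem_product.2 ⟨hx, hx'⟩,
          mem_product.2 ⟨mem_filter.2 ⟨mem_univ _, a, b⟩, mem_univ _⟩⟩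
      · refine sum_congr rfl fun p _ => ?_
        rw [card_product, card_univ, Fintype.card_fin, UNITS.card_sub U (Q p)]
    have e2 : ((O l i i').card : ℝ) ≤
        ∑ p ∈ cand l i ×ˢ cand l i', ((U.filter (Q p)).card : ℝ) * P.N := by exact_mod_cast e1
    have e3 : π / P.N * ∑ p ∈ cand l i ×ˢ cand l i', ((U.filter (Q p)).card : ℝ) * P.N ≤
        (P.N : ℝ) ^ 2 * (2 * Real.exp (-(n * P.η ^ 2 / 80))) := by
      rw [mul_sum]
      calc _ ≤ ∑ _p ∈ cand l i ×ˢ cand l i', 2 * Real.exp (-(n * P.η ^ 2 / 80)) := by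
            refine sum_le_sum fun p hp => ?_
            obtain ⟨p1, p2⟩ := mem_product.1 hp
            rw [show π / P.N * (((U.filter (Q p)).card : ℝ) * P.N) = π * (U.filter (Q p)).card by
              field_simp]
            exact UNITS.overlap hU _ _ P.μ P.η hμ hP.eta0.le hP.eta1 hP.mueta
              ((hcand l i _).1 p1) ((hcand l i' _).1 p2) (hyy l i i' hii _ _)
        _ = ((cand l i).card * (cand l i').card : ℕ) * (2 * Real.exp (-(n * P.η ^ 2 / 80))) := by
            rw [sum_const, nsmul_eq_mul, card_product]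
        _ ≤ _ := by
            refine mul_le_mul_of_nonneg_right ?_ (by positivity)
            rw [sq]
            exact_mod_cast Nat.mul_le_mul (hcardN l i) (hcardN l i')
    exact ((mul_le_mul_of_nonneg_left e2 hp0).trans e3).trans hP.o3
  have key := hA (U × Fin P.N) (Fin P.M) (π / P.N) hp0 hp1 P.L P.T R act A cc O
    (C * (8 * P.Λ₀) + 4 * P.Λ₀ * (C * n * P.μ + 3) +
        4 * P.Λ₀ / P.K' * (C * n * (P.δm + P.μ + P.φ) + 3 + Real.log P.N))
    (P.K' * (C * n * (P.δm + P.μ) + 3) + (C * n * (P.δm + P.μ + P.φ) + 3 + Real.log P.N))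
    ?_ ?_ h4 ?_ h7 ?_ ?_ ?_ ?_ ?_ hP.T1
  · refine le_trans (MAIN.pr_mono hp0 hp1 fun S hS l i hH => hS ⟨y l i, ?_, fun x hx => ?_⟩) key
    · have := norm_add_le (y l i - c l) (c l)
      rw [sub_add_cancel] at this
      linarith [hc l, hy l i]
    · exact h3 l i S hH x ((hcand l i x).2 hx)
  · intro l l' hll
    rw [disjoint_left]
    intro g hg hg'
    obtain ⟨x, hx⟩ := (mem_filter.1 hg).2
    obtain ⟨x', hx'⟩ := (mem_filter.1 hg').2
    have e := hcc l l' hll x x'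
    have := norm_sub_le ((g.1 : E n) - (c l' - X x')) ((g.1 : E n) - (c l - X x))
    rw [show (g.1 : E n) - (c l' - X x') - ((g.1 : E n) - (c l - X x)) =
      c l - X x - (c l' - X x') by abel] at this
    linarith
  · intro l i j hj g hg
    refine mem_filter.2 ⟨mem_univ _, j, ?_⟩
    have a := MAIN.near (y l i - X j) (g.1 : E n) P.μ hμ (by linarith)
      ((hcand l i j).1 (h1 l i hj)) (hU.ball _ g.1.2) (h2 l i j hj g hg)
    have := norm_add_le ((g.1 : E n) - (y l i - X j)) (y l i - c l)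
    rw [show (g.1 : E n) - (y l i - X j) + (y l i - c l) = (g.1 : E n) - (c l - X j) by abel]
      at this
    linarith [hy l i]
  · intro l i
    refine (h6 l i).trans (add_le_add ?_ ?_)
    · have e : ∑ x ∈ cand l i, (C * n * (((d l i x : ℝ) + 1) / n + P.μ) + 3) =
          C * ∑ x ∈ cand l i, ((d l i x : ℝ) + 1) + (cand l i).card * (C * n * P.μ + 3) := by
        rw [mul_sum, ← nsmul_eq_mul, ← sum_const, ← sum_add_distrib]
        refine sum_congr rfl fun x _ => ?_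
        field_simp
        ring
      rw [e]
      refine add_le_add (mul_le_mul_of_nonneg_left ?_ hC0)
        (mul_le_mul_of_nonneg_right (hcard l i) (by positivity))
      calc _ ≤ ∑ x ∈ cand l i, 2 * (3 / 2 : ℝ) ^ d l i x := by
            refine sum_le_sum fun x _ => ?_
            have := one_add_mul_le_pow (show (-2 : ℝ) ≤ 1 / 2 by norm_num) (d l i x)
            rw [show (1 : ℝ) + 1 / 2 = 3 / 2 by norm_num] at this
            linarith
        _ ≤ _ := by rw [← mul_sum]; linarith [hsum l i]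
    · have := Real.log_nonneg hN1
      exact mul_le_mul_of_nonneg_right
        (div_le_div_of_nonneg_right (hcard l i) (Nat.cast_nonneg _)) (by positivity)
  · intro l i j hj
    have := h5 l i j hj ∅ (by simpa using hP.o0)
    rwa [sdiff_empty] at this
  · intro l i i' _ j hj j' hj' g hg
    obtain ⟨a, b⟩ := mem_inter.1 hg
    exact mem_filter.2 ⟨mem_univ _, ⟨j, h1 l i hj, h2 l i j hj g a⟩,
      j', h1 l i' hj', h2 l i' j' hj' g b⟩
  · intro l i i' hii j hj
    exact h5 l i j hj _ (hO l i i' hii)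
  · intro l i i' hii j hj
    exact h5 l i' j hj _ (hO l i i' hii)
  · intro l i i' hii
    exact (mul_le_mul_of_nonneg_right (hO l i i' hii) (Real.exp_pos _).le).trans hP.o4

end Crest.Agent.R225.Lo
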