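import Crest.Agent.R225.LoDefs

/-!
# Row 225, S0348: NET (a fine grid in the unit ball)
-/

open MeasureTheory Finset
open scoped ENNReal RealInnerProductSpace

namespace Crest.Agent.R225.Lo

/-- the half-open cell with lower corner `u` -/
def netCell {n : ℕ} (η : ℝ) (u : E n) : Set (E n) := {x | ∀ i, x i ∈ Set.Ico (u i) (u i + η)}

/-- the grid point with integer coordinates `k` -/
noncomputable def netPt {n : ℕ} (η : ℝ) (k : Fin n → ℤ) : E n :=
  WithLp.toLp 2 (fun i => η * (k i : ℝ))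

lemma netCell_eq {n : ℕ} (η : ℝ) (u : E n) : netCell η u =
    (WithLp.ofLp : E n → (Fin n → ℝ)) ⁻¹' (Set.univ.pi fun i => Set.Ico (u i) (u i + η)) := by
  ext x; simp [netCell]

lemma netCell_measurable {n : ℕ} (η : ℝ) (u : E n) : MeasurableSet (netCell η u) := by
  rw [netCell_eq]
  exact (PiLp.volume_preserving_ofLp (Fin n)).measurable
    (MeasurableSet.univ_pi fun i => measurableSet_Ico)

lemma netCell_vol {n : ℕ} {η : ℝ} (hη : 0 ≤ η) (u : E n) :
    volume (netCell η u) = ENNReal.ofReal (η ^ n) := by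
  rw [netCell_eq, (PiLp.volume_preserving_ofLp (Fin n)).measure_preimage
    (MeasurableSet.univ_pi fun i => measurableSet_Ico).nullMeasurableSet, Real.volume_pi_Ico]
  simp [ENNReal.ofReal_pow hη]

lemma netCell_dist {n : ℕ} {η : ℝ} (hη : 0 ≤ η) (u x : E n) (hx : x ∈ netCell η u) :
    ‖x - u‖ ≤ n * η := by
  have h1 : ‖x - u‖ ^ 2 ≤ (n * η) ^ 2 := by
    rw [EuclideanSpace.real_norm_sq_eq]
    have : ∀ i, ((x - u) i) ^ 2 ≤ η ^ 2 := by
      intro i
      have := hx i
      rw [PiLp.sub_apply]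
      have h1 := this.1
      have h2 := this.2
      nlinarith
    calc ∑ i, ((x - u) i) ^ 2 ≤ ∑ _i : Fin n, η ^ 2 := Finset.sum_le_sum fun i _ => this i
      _ = n * η ^ 2 := by simp
      _ ≤ (n * η) ^ 2 := by
        rw [mul_pow]
        refine mul_le_mul_of_nonneg_right ?_ (sq_nonneg _)
        have : (n : ℝ) ≤ (n : ℝ) ^ 2 := by exact_mod_cast Nat.le_self_pow two_ne_zero n
        exact this
  exact (pow_le_pow_iff_left₀ (norm_nonneg _) (by positivity) two_ne_zero).1 h1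

lemma mem_netCell_iff {n : ℕ} {η : ℝ} (hη : 0 < η) (k : Fin n → ℤ) (x : E n) :
    x ∈ netCell η (netPt η k) ↔ ∀ i, ⌊x i / η⌋ = k i := by
  refine forall_congr' fun i => ?_
  rw [Int.floor_eq_iff, le_div_iff₀ hη, div_lt_iff₀ hη]
  simp only [netPt, Set.mem_Ico]
  constructor
  · rintro ⟨h1, h2⟩; constructor <;> linarith
  · rintro ⟨h1, h2⟩; constructor <;> linarith

lemma netPt_finite (n : ℕ) {η : ℝ} (hη : 0 < η) :
    {k : Fin n → ℤ | ‖netPt η k‖ ≤ 1}.Finite := by
  refine (Set.Finite.pi' (fun _ : Fin n => Set.finite_Icc (-⌈1 / η⌉) ⌈1 / η⌉)).subset ?_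
  intro k hk i
  have h1 : |η * (k i : ℝ)| ≤ 1 := by
    have := PiLp.norm_apply_le (netPt η k) i
    have h2 : ‖netPt η k‖ ≤ 1 := hk
    simpa [netPt] using this.trans h2
  rw [abs_mul, abs_of_pos hη] at h1
  have h2 : |(k i : ℝ)| ≤ 1 / η := by rw [le_div_iff₀ hη]; linarith
  have h3 : |(k i : ℝ)| ≤ (⌈1 / η⌉ : ℤ) := h2.trans (Int.le_ceil _)
  have h4 : |k i| ≤ ⌈1 / η⌉ := by exact_mod_cast h3
  exact abs_le.1 h4

lemma net_vol {n : ℕ} {η : ℝ} (hη : 0 < η) (V : Finset (E n))
    (hV : ∀ u ∈ V, ∃ k, u = netPt η k) :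
    volume (⋃ u ∈ V, netCell η u) = ENNReal.ofReal (η ^ n * V.card) := by
  rw [measure_biUnion_finset]
  · simp only [netCell_vol hη.le, Finset.sum_const, nsmul_eq_mul]
    rw [ENNReal.ofReal_mul (by positivity), mul_comm]
    simp
  · intro u hu v hv huv
    obtain ⟨k, rfl⟩ := hV u hu
    obtain ⟨l, rfl⟩ := hV v hv
    refine Set.disjoint_left.2 fun x hx hx' => huv ?_
    rw [mem_netCell_iff hη] at hx hx'
    congr 1
    funext i
    rw [← hx i, ← hx' i]
  · intro u _
    exact netCell_measurable η u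

theorem net : NetStmt := by
  classical
  intro n ξ hn hξ
  have hn' : (1 : ℝ) ≤ n := by exact_mod_cast hn
  set η : ℝ := min 1 (ξ / (2 * n)) with hηdef
  have hη : 0 < η := lt_min one_pos (by positivity)
  have hη1 : η ≤ 1 := min_le_left _ _
  have hη2 : 2 * (n * η) ≤ ξ := by
    have : η ≤ ξ / (2 * n) := min_le_right _ _
    rw [le_div_iff₀ (by positivity)] at this
    linarith
  have hnη : 0 ≤ n * η := by positivity
  refine ⟨((netPt_finite n hη).toFinset).image (netPt η), η ^ n, by positivity, ?_, ?_, ?_⟩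
  · have h1 : η ^ n ≤ η := pow_le_of_le_one hη.le hη1 (by omega)
    nlinarith
  · intro u hu
    obtain ⟨k, hk, rfl⟩ := Finset.mem_image.1 hu
    simpa using hk
  intro w s hw
  set V := (((netPt_finite n hη).toFinset).image (netPt η)).filter (fun u => s < ⟪w, u⟫) with hVdef
  have hV : ∀ u ∈ V, ∃ k, u = netPt η k := by
    intro u hu
    obtain ⟨k, _, rfl⟩ := Finset.mem_image.1 (Finset.mem_filter.1 hu).1
    exact ⟨k, rfl⟩
  have hvol := net_vol hη V hV
  have hclose : ∀ u x : E n, x ∈ netCell η u → ‖x - u‖ ≤ ξ ∧ |⟪w, x⟫ - ⟪w, u⟫| ≤ ξ := by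
    intro u x hx
    have h1 := netCell_dist hη.le u x hx
    refine ⟨by linarith, ?_⟩
    rw [← inner_sub_right]
    refine (abs_real_inner_le_norm _ _).trans ?_
    calc ‖w‖ * ‖x - u‖ ≤ 2 * (n * η) := mul_le_mul hw h1 (norm_nonneg _) (by norm_num)
      _ ≤ ξ := hη2
  constructor
  · have hsub : (⋃ u ∈ V, netCell η u) ⊆ {u : E n | ‖u‖ ≤ 1 + ξ ∧ s - ξ < ⟪w, u⟫} := by
      intro x hx
      simp only [Set.mem_iUnion] at hx
      obtain ⟨u, hu, hx⟩ := hx
      obtain ⟨h1, h2⟩ := hclose u x hx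
      obtain ⟨hu1, hu2⟩ := Finset.mem_filter.1 hu
      obtain ⟨k, hk, rfl⟩ := Finset.mem_image.1 hu1
      have hk' : ‖netPt η k‖ ≤ 1 := by simpa using hk
      refine ⟨?_, ?_⟩
      · have := norm_add_le (x - netPt η k) (netPt η k)
        rw [sub_add_cancel] at this
        linarith
      · have := (abs_le.1 h2).1
        linarith
    have h := measure_mono (μ := volume) hsub
    have hfin : volume {u : E n | ‖u‖ ≤ 1 + ξ ∧ s - ξ < ⟪w, u⟫} ≠ ∞ := by
      refine ne_top_of_le_ne_top (b := volume (Metric.closedBall (0 : E n) (1 + ξ)))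
        (MeasureTheory.measure_closedBall_lt_top).ne (measure_mono ?_)
      intro u hu
      simpa using hu.1
    have h' := ENNReal.toReal_mono hfin h
    rwa [hvol, ENNReal.toReal_ofReal (by positivity)] at h'
  · have hsub : {u : E n | ‖u‖ ≤ 1 - ξ ∧ s + ξ < ⟪w, u⟫} ⊆ (⋃ u ∈ V, netCell η u) := by
      intro x hx
      have hx' : x ∈ netCell η (netPt η (fun i => ⌊x i / η⌋)) :=
        (mem_netCell_iff hη _ _).2 fun i => rfl
      obtain ⟨h1, h2⟩ := hclose _ x hx'
      simp only [Set.mem_iUnion]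
      refine ⟨_, Finset.mem_filter.2 ⟨Finset.mem_image.2 ⟨_, ?_, rfl⟩, ?_⟩, hx'⟩
      · rw [Set.Finite.mem_toFinset]
        have := norm_sub_le x (x - netPt η (fun i => ⌊x i / η⌋))
        rw [sub_sub_cancel] at this
        have h3 := hx.1
        show ‖netPt η (fun i => ⌊x i / η⌋)‖ ≤ 1
        linarith
      · have := (abs_le.1 h2).2
        have h3 := hx.2
        linarith
    have h := measure_mono (μ := volume) hsub
    have h' := ENNReal.toReal_mono (by rw [hvol]; exact ENNReal.ofReal_ne_top) h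
    rwa [hvol, ENNReal.toReal_ofReal (by positivity)] at h'

end Crest.Agent.R225.Lo
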