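import Crest.Agent.R225.LoDefs

/-!
# Row 225, S0348: the numerical parameters
-/

open Finset

namespace Crest.Agent.R225.Lo

namespace NUM

theorem two_le_exp : (2 : ℝ) ≤ Real.exp 1 := by linarith [Real.add_one_le_exp (1 : ℝ)]

theorem le_half {x y : ℝ} (h : x + 1 ≤ y) : Real.exp x ≤ Real.exp y / 2 := by
  have h1 : Real.exp (x + 1) ≤ Real.exp y := Real.exp_le_exp.2 h
  rw [Real.exp_add] at h1
  nlinarith [two_le_exp, Real.exp_pos x]

theorem two_mul_le {x y : ℝ} (h : x + 1 ≤ y) : 2 * Real.exp x ≤ Real.exp y := by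
  linarith [le_half h]

theorem union_ok (n : ℕ) (hn : 1 ≤ n) (h54 : 68 * (n : ℝ) ^ 4 < (5 / 4) ^ n) :
    ((((7 * n ^ 3) ^ n + 1 : ℕ) : ℝ)) ^ (4 ^ n) * (3 / 4) ^ (5 ^ n) < Real.exp (-8) / 2 := by
  have hn1 : (1 : ℝ) ≤ n := by exact_mod_cast hn
  have h3 : (1 : ℝ) ≤ (n : ℝ) ^ 3 := one_le_pow₀ hn1
  have h4 : (1 : ℝ) ≤ (n : ℝ) ^ 4 := one_le_pow₀ hn1
  have hG : (((7 * n ^ 3) ^ n + 1 : ℕ) : ℝ) ≤ Real.exp (8 * (n : ℝ) ^ 4) := by
    push_cast
    have h1 : (7 * (n : ℝ) ^ 3) ^ n ≤ Real.exp (7 * (n : ℝ) ^ 4) := by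
      calc (7 * (n : ℝ) ^ 3) ^ n ≤ (Real.exp (7 * (n : ℝ) ^ 3)) ^ n :=
            pow_le_pow_left₀ (by positivity) (by linarith [Real.add_one_le_exp (7 * (n : ℝ) ^ 3)]) n
        _ = Real.exp (7 * (n : ℝ) ^ 4) := by rw [← Real.exp_nat_mul]; congr 1; ring
    have h2 : (1 : ℝ) ≤ Real.exp (7 * (n : ℝ) ^ 4) := Real.one_le_exp (by positivity)
    have h5 := two_mul_le (x := 7 * (n : ℝ) ^ 4) (y := 8 * (n : ℝ) ^ 4) (by linarith)
    linarith
  have hq : (3 / 4 : ℝ) ≤ Real.exp (-(1 / 4)) := by linarith [Real.add_one_le_exp (-(1 / 4) : ℝ)]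
  have h44 : (1 : ℝ) ≤ 4 ^ n := one_le_pow₀ (by norm_num)
  have h55 : 68 * (n : ℝ) ^ 4 * 4 ^ n < 5 ^ n := by
    have e : (5 : ℝ) ^ n = (5 / 4) ^ n * 4 ^ n := by rw [← mul_pow]; norm_num
    rw [e]; gcongr
  calc ((((7 * n ^ 3) ^ n + 1 : ℕ) : ℝ)) ^ (4 ^ n) * (3 / 4) ^ (5 ^ n)
      ≤ (Real.exp (8 * (n : ℝ) ^ 4)) ^ (4 ^ n) * (Real.exp (-(1 / 4))) ^ (5 ^ n) := by gcongr
    _ = Real.exp (4 ^ n * (8 * (n : ℝ) ^ 4) + 5 ^ n * (-(1 / 4))) := by
        rw [← Real.exp_nat_mul, ← Real.exp_nat_mul, ← Real.exp_add]; push_cast; rfl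
    _ < Real.exp (-9) := by
        apply Real.exp_lt_exp.2
        have : (1 : ℝ) ≤ (n : ℝ) ^ 4 * 4 ^ n := one_le_mul_of_one_le_of_one_le h4 h44
        nlinarith
    _ ≤ Real.exp (-8) / 2 := le_half (by norm_num)

set_option maxHeartbeats 2000000 in
theorem core (C t : ℝ) (n : ℕ) (hC : 1 ≤ C) (ht : 64000 * C ≤ t) (hn : (n : ℝ) = t ^ 20)
    (h43 : (n : ℝ) ^ 2 ≤ (4 / 3) ^ n) (h54 : 68 * (n : ℝ) ^ 4 < (5 / 4) ^ n) :
    ∃ P : Par, P.Ok C n (1 / (20800 * C) * n * Real.log n) := by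
  have ht1 : 64000 ≤ t := by linarith
  have ht0 : 0 < t := by linarith
  have hp : ∀ {i j : ℕ}, i ≤ j → t ^ i ≤ t ^ j := fun h => pow_le_pow_right₀ (by linarith) h
  have hp1 : ∀ j : ℕ, 1 ≤ t ^ j := fun j => one_le_pow₀ (by linarith)
  have hpt : ∀ j : ℕ, 64000 * t ^ j ≤ t ^ (j + 1) := fun j => by
    rw [pow_succ']; gcongr
  have hpC : ∀ j : ℕ, 64000 * (C * t ^ j) ≤ t ^ (j + 1) := fun j => by
    rw [pow_succ', ← mul_assoc]; gcongr
  have hCp : ∀ j : ℕ, t ^ j ≤ C * t ^ j := fun j => le_mul_of_one_le_left (by positivity) hC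
  have hCij : ∀ {i j : ℕ}, i ≤ j → C * t ^ i ≤ C * t ^ j := fun h => by gcongr; linarith
  have hnt : t ≤ n := by rw [hn]; simpa using hp (show 1 ≤ 20 by norm_num)
  have hn0 : (0 : ℝ) < n := by linarith
  have hn4 : 4 ≤ n := by exact_mod_cast (show (4 : ℝ) ≤ n by linarith)
  have hlt : Real.log t ≤ t := (Real.log_le_sub_one_of_pos ht0).trans (by linarith)
  have hlt0 : 0 < Real.log t := Real.log_pos (by linarith)
  have hln : Real.log n = 20 * Real.log t := by rw [hn, Real.log_pow]; norm_num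
  have hlnn : Real.log n ≤ n := (Real.log_le_sub_one_of_pos hn0).trans (by linarith)
  set lam : ℝ := 1 / (20800 * C) * n * Real.log n with hlam
  have hlam0 : 0 < lam := by rw [hlam, hln]; positivity
  have hlamC : 1040 * C * lam = n * Real.log t := by rw [hlam, hln]; field_simp; norm_num
  have hlamn : 80 * lam ≤ (n : ℝ) ^ 2 := by
    have h1 : 80 * lam ≤ 1040 * C * lam := by gcongr; linarith
    have h2 : n * Real.log t ≤ n * n := by gcongr; linarith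
    rw [sq]; linarith
  set μ : ℝ := 1 / (n : ℝ) ^ 2 with hμ
  set φ : ℝ := 1 / t ^ 8 with hφ
  set η : ℝ := 1 / t ^ 2 with hη
  set δm : ℝ := 1 / t ^ 18 with hδ
  have hμt : μ = 1 / t ^ 40 := by rw [hμ, hn]; ring
  have hnμ : n * μ = 1 / t ^ 20 := by rw [hμt, hn]; field_simp
  have hnμ1 : n * μ ≤ 1 := by rw [hnμ, div_le_one (by positivity)]; exact hp1 20
  have hnμ0 : 0 ≤ n * μ := by positivity
  have hnδ : n * δm = t ^ 2 := by rw [hδ, hn]; field_simp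
  have hnφ : n * φ = t ^ 12 := by rw [hφ, hn]; field_simp
  have hnφ2 : n * φ ^ 2 = t ^ 4 := by rw [hφ, hn]; field_simp
  have hnη2 : n * η ^ 2 = t ^ 16 := by rw [hη, hn]; field_simp
  set a : ℝ := C * n * (δm + μ) with ha
  set b : ℝ := C * n * (δm + μ + φ) with hb
  have ha1 : a ≤ 2 * (C * t ^ 2) := by
    have e : a = C * (t ^ 2 + n * μ) := by rw [ha, ← hnδ]; ring
    have h1 : t ^ 2 + n * μ ≤ 2 * t ^ 2 := by have := hp1 2; linarith
    calc a = C * (t ^ 2 + n * μ) := e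
      _ ≤ C * (2 * t ^ 2) := by gcongr
      _ = _ := by ring
  have ha0 : 0 ≤ a := by positivity
  have hb1 : b ≤ 3 * (C * t ^ 12) := by
    have e : b = C * (t ^ 2 + n * μ + t ^ 12) := by rw [hb, ← hnδ, ← hnφ]; ring
    have h1 : t ^ 2 + n * μ + t ^ 12 ≤ 3 * t ^ 12 := by
      have := hp1 12; have := hp (show 2 ≤ 12 by norm_num); linarith
    calc b = C * (t ^ 2 + n * μ + t ^ 12) := e
      _ ≤ C * (3 * t ^ 12) := by gcongr
      _ = _ := by ring
  have hb0 : 0 ≤ b := by positivity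
  set ℓ : ℝ := Real.log ((n ^ 2 : ℕ) : ℝ) with hℓ
  have hℓe : ℓ = 40 * Real.log t := by rw [hℓ]; push_cast; rw [Real.log_pow, hln]; push_cast; ring
  have hℓ1 : ℓ ≤ 40 * t := by linarith
  have hℓ0 : 0 ≤ ℓ := by linarith
  have hN : ((n ^ 2 : ℕ) : ℝ) = Real.exp ℓ := by
    rw [hℓ, Real.exp_log]; push_cast; positivity
  set K : ℕ := ⌈t ^ 12⌉₊ with hK
  have hK1 : t ^ 12 ≤ K := Nat.le_ceil _
  have hK2 : (K : ℝ) ≤ 2 * t ^ 12 := by
    have := Nat.ceil_lt_add_one (show 0 ≤ t ^ 12 by positivity)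
    have := hp1 12
    linarith
  set Ex : ℝ := C * (8 * (20 * lam)) + 4 * (20 * lam) * (C * n * μ + 3) +
    4 * (20 * lam) / K * (b + 3 + ℓ) with hEx
  have ht1' : t ^ 1 = t := pow_one t
  have hExle : Ex ≤ n * Real.log t := by
    have h1 : b + 3 + ℓ ≤ (3 * C + 4) * K := by
      have h2 : 40 * t ≤ t ^ 12 := by
        have := hpt 1; have := hp (show 2 ≤ 12 by norm_num); norm_num at *; linarith
      have h3 : C * t ^ 12 ≤ C * K := by gcongr
      have := hp1 12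
      have e : (3 * C + 4) * K = 3 * (C * K) + 4 * K := by ring
      rw [e]; linarith
    have hK0 : (0 : ℝ) < K := by have := hp1 12; linarith
    have h2 : 4 * (20 * lam) / K * (b + 3 + ℓ) ≤ 4 * (20 * lam) * (3 * C + 4) := by
      rw [div_mul_eq_mul_div, div_le_iff₀ hK0, mul_assoc (4 * (20 * lam))]
      gcongr
    have h3 : C * n * μ ≤ C := by
      rw [mul_assoc]; exact mul_le_of_le_one_right (by linarith) hnμ1
    have h4 : 4 * (20 * lam) * (C * n * μ + 3) ≤ 4 * (20 * lam) * (C + 3) := by gcongr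
    have h5 : lam ≤ C * lam := le_mul_of_one_le_left hlam0.le hC
    have e1 : C * (8 * (20 * lam)) = 160 * (C * lam) := by ring
    have e2 : 4 * (20 * lam) * (C + 3) = 80 * (C * lam) + 240 * lam := by ring
    have e3 : 4 * (20 * lam) * (3 * C + 4) = 240 * (C * lam) + 320 * lam := by ring
    have e4 : 1040 * C * lam = 1040 * (C * lam) := by ring
    rw [hEx, ← hlamC]
    linarith
  have hEx0 : 0 ≤ Ex := by positivity
  refine ⟨⟨μ, φ, η, δm, Real.exp (-t ^ 15), 20 * lam, n ^ 2, K, 4 ^ n, 5 ^ n, ⌈Real.exp Ex⌉₊,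
    (7 * n ^ 3) ^ n + 1⟩, ?_⟩
  refine
    { n4 := hn4, mu := rfl, N1 := Nat.one_le_pow _ _ (by omega), K1 := ?_, phi0 := by positivity,
      dm0 := by positivity, muphi := ?_, eta0 := by positivity, eta1 := ?_, mueta := ?_,
      small := ?_, lam0 := hlam0, Lam := rfl, candN := ?_, depth := ?_,
      o0 := (Real.exp_pos _).le, o1 := ?_, o2 := ?_, o3 := ?_, o4 := ?_, T1 := Nat.le_ceil _,
      packL := ?_, packT := ?_, Mbig := ?_, Gbig := ?_, union := union_ok n (by omega) h54 }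
  · show 1 ≤ K
    exact_mod_cast (hp1 12).trans hK1
  · show 100 * μ ≤ φ ^ 2
    rw [hμt, hφ, div_pow, one_pow, ← pow_mul, mul_one_div, div_le_div_iff₀ (by positivity)
      (by positivity)]
    have := hpt 16; have := hp (show 17 ≤ 40 by norm_num); have := hp1 16
    norm_num at *; linarith
  · show η ≤ 1
    rw [hη, div_le_one (by positivity)]; exact hp1 2
  · show 100 * μ ≤ η ^ 2
    rw [hμt, hη, div_pow, one_pow, ← pow_mul, mul_one_div, div_le_div_iff₀ (by positivity)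
      (by positivity)]
    have := hpt 4; have := hp (show 5 ≤ 40 by norm_num); have := hp1 4
    norm_num at *; linarith
  · show δm + μ + φ ≤ 1 / 10 ^ 8
    have h2 : (64000 : ℝ) ^ 2 ≤ t ^ 2 := by gcongr
    have h3 : ∀ j : ℕ, 2 ≤ j → 1 / t ^ j ≤ 1 / 64000 ^ 2 := fun j hj =>
      one_div_le_one_div_of_le (by norm_num) (h2.trans (hp hj))
    have := h3 18 (by norm_num); have := h3 40 (by norm_num); have := h3 8 (by norm_num)
    rw [hμt]; norm_num at *; linarith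
  · show 4 * (20 * lam) ≤ ((n ^ 2 : ℕ) : ℝ)
    push_cast; linarith
  · show ∀ i : ℕ, (3 / 2 : ℝ) ^ i ≤ 4 * (20 * lam) → ((i : ℝ) + 1) / n ≤ δm
    intro i hi
    have h1 : (3 / 2 : ℝ) ^ i ≤ Real.exp ℓ := by rw [← hN]; push_cast; linarith
    have h2 : Real.exp (1 / 3) ≤ (3 / 2 : ℝ) := by
      have h3 := Real.add_one_le_exp (-(1 / 3) : ℝ)
      rw [Real.exp_neg] at h3
      have h4 := Real.exp_pos (1 / 3 : ℝ)
      have h5 : (Real.exp (1 / 3 : ℝ))⁻¹ * Real.exp (1 / 3) = 1 := inv_mul_cancel₀ h4.ne'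
      nlinarith
    have h3 : Real.exp (i * (1 / 3)) ≤ Real.exp ℓ := by
      rw [Real.exp_nat_mul]
      exact (pow_le_pow_left₀ (Real.exp_pos _).le h2 i).trans h1
    have h4 := Real.exp_le_exp.1 h3
    rw [div_le_iff₀ hn0, mul_comm, hnδ]
    have := hpt 1
    norm_num at *; linarith
  · show ((n ^ 2 : ℕ) : ℝ) * (2 * Real.exp (-(n * φ ^ 2 / 80))) + Real.exp (-t ^ 15) ≤
      Real.exp (-a - 1) / 2
    rw [hN, hnφ2]
    have h1 : Real.exp ℓ * (2 * Real.exp (-(t ^ 4 / 80))) ≤ Real.exp (-a - 2) / 2 := by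
      have e : Real.exp ℓ * (2 * Real.exp (-(t ^ 4 / 80))) = 2 * Real.exp (ℓ - t ^ 4 / 80) := by
        rw [sub_eq_add_neg, Real.exp_add]; ring
      rw [e]
      refine (two_mul_le (y := -a - 3) ?_).trans (le_half (by linarith))
      have := hpC 2; have := hpt 3; have := hp (show 1 ≤ 3 by norm_num); have := hp1 3
      norm_num at *; linarith
    have h2 : Real.exp (-t ^ 15) ≤ Real.exp (-a - 2) / 2 := by
      apply le_half
      have := hpC 2; have := hpt 3; have := hp (show 4 ≤ 15 by norm_num); have := hp1 3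
      norm_num at *; linarith
    have h3 : Real.exp (-a - 2) ≤ Real.exp (-a - 1) / 2 := le_half (by linarith)
    linarith
  · show Real.exp (-t ^ 15) ≤ Real.exp (-b - 1) / ((n ^ 2 : ℕ) : ℝ) / 2
    rw [hN, ← Real.exp_sub]
    apply le_half
    have := hpC 12; have := hpt 13; have := hp (show 14 ≤ 15 by norm_num)
    have := hp (show 1 ≤ 13 by norm_num); have := hp1 13
    norm_num at *; linarith
  · show ((n ^ 2 : ℕ) : ℝ) ^ 2 * (2 * Real.exp (-(n * η ^ 2 / 80))) ≤ Real.exp (-t ^ 15)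
    rw [hN, hnη2]
    have e : Real.exp ℓ ^ 2 * (2 * Real.exp (-(t ^ 16 / 80))) =
        2 * Real.exp (ℓ + ℓ + -(t ^ 16 / 80)) := by
      rw [Real.exp_add, Real.exp_add]; ring
    rw [e]
    apply two_mul_le
    have := hpt 15; have := hp (show 1 ≤ 15 by norm_num); have := hp1 15
    norm_num at *; linarith
  · show Real.exp (-t ^ 15) * Real.exp (2 * (K * (a + 3) + (b + 3 + ℓ))) ≤ 1
    rw [← Real.exp_add, Real.exp_le_one_iff]
    have h1 : (K : ℝ) * (a + 3) ≤ 2 * t ^ 12 * (5 * (C * t ^ 2)) := by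
      have := hCp 2; have := hp1 2
      gcongr; linarith
    have e : 2 * t ^ 12 * (5 * (C * t ^ 2)) = 10 * (C * t ^ 14) := by ring
    have := hpC 14; have := hCij (show 12 ≤ 14 by norm_num); have := hCp 14
    have := hp (show 1 ≤ 14 by norm_num); have := hp1 14
    norm_num at *; linarith
  · show ((5 ^ n : ℕ) : ℝ) * ((4 ^ n : ℕ) : ℝ) ^ 2 * (1 / 250) ^ n < 1 / 2
    push_cast
    have e : (5 : ℝ) ^ n * (4 ^ n) ^ 2 * (1 / 250) ^ n = (8 / 25) ^ n := by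
      rw [← pow_mul, mul_comm n 2, pow_mul, ← mul_pow, ← mul_pow]; norm_num
    rw [e]
    calc (8 / 25 : ℝ) ^ n ≤ (8 / 25) ^ 1 :=
          pow_le_pow_of_le_one (by norm_num) (by norm_num) (by omega)
      _ < 1 / 2 := by norm_num
  · show (⌈Real.exp Ex⌉₊ : ℝ) * ((4 ^ n : ℕ) : ℝ) ^ 2 * (1000 * η) ^ n < 1 / 2
    push_cast
    have h1 : (⌈Real.exp Ex⌉₊ : ℝ) ≤ 2 * t ^ n := by
      have h2 := Nat.ceil_lt_add_one (Real.exp_pos Ex).le
      have h3 : Real.exp Ex ≤ t ^ n := by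
        refine (Real.exp_le_exp.2 hExle).trans (le_of_eq ?_)
        rw [Real.exp_nat_mul, Real.exp_log ht0]
      have := hp1 n
      linarith
    calc (⌈Real.exp Ex⌉₊ : ℝ) * (4 ^ n) ^ 2 * (1000 * η) ^ n
        ≤ 2 * t ^ n * (4 ^ n) ^ 2 * (1000 * η) ^ n := by gcongr
      _ = 2 * (16000 / t) ^ n := by
          rw [← pow_mul, mul_comm n 2, pow_mul, mul_assoc, mul_assoc, ← mul_pow, ← mul_pow, hη]
          congr 2; field_simp; norm_num
      _ ≤ 2 * (1 / 4) ^ n := by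
          gcongr 2 * ?_ ^ n; rw [div_le_div_iff₀ ht0 (by norm_num)]; linarith
      _ ≤ 2 * (1 / 4) ^ 2 := by
          gcongr 2 * ?_
          exact pow_le_pow_of_le_one (by norm_num) (by norm_num) (by omega)
      _ < 1 / 2 := by norm_num
  · show 4 * lam * 3 ^ n ≤ ((4 ^ n : ℕ) : ℝ)
    push_cast
    have e : (4 : ℝ) ^ n = (4 / 3) ^ n * 3 ^ n := by rw [← mul_pow]; norm_num
    rw [e]
    gcongr; linarith
  · show (7 * (n : ℝ) ^ 3) ^ n + 1 ≤ (((7 * n ^ 3) ^ n + 1 : ℕ) : ℝ)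
    push_cast; exact le_rfl

end NUM

theorem num : NumStmt := by
  intro C hC
  refine ⟨1 / (20800 * C), by positivity, ?_⟩
  have h1 := (tendsto_pow_const_div_const_pow_of_one_lt 2 (show (1 : ℝ) < 4 / 3 by norm_num)).eventually
    (gt_mem_nhds (show (0 : ℝ) < 1 by norm_num))
  have h2 := (tendsto_pow_const_div_const_pow_of_one_lt 4 (show (1 : ℝ) < 5 / 4 by norm_num)).eventually
    (gt_mem_nhds (show (0 : ℝ) < 1 / 68 by norm_num))
  have h3 : ∀ᶠ n : ℕ in Filter.atTop, (64000 * C) ^ 20 ≤ (n : ℝ) :=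
    tendsto_natCast_atTop_atTop.eventually_ge_atTop _
  obtain ⟨n₀, hn₀⟩ := Filter.eventually_atTop.1 (h1.and (h2.and h3))
  refine ⟨n₀, fun n hn => ?_⟩
  obtain ⟨a1, a2, a3⟩ := hn₀ n hn
  have hn0 : (0 : ℝ) ≤ n := Nat.cast_nonneg n
  have ht : ((n : ℝ) ^ ((20 : ℕ) : ℝ)⁻¹) ^ 20 = n := Real.rpow_inv_natCast_pow hn0 (by norm_num)
  refine NUM.core C ((n : ℝ) ^ ((20 : ℕ) : ℝ)⁻¹) n hC ?_ ht.symm ?_ ?_
  · rw [← ht] at a3
    exact (pow_le_pow_iff_left₀ (by positivity) (by positivity) (by norm_num)).1 a3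
  · rw [div_lt_one (by positivity)] at a1; exact a1.le
  · rw [div_lt_iff₀ (by positivity)] at a2; linarith

end Crest.Agent.R225.Lo
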