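import Crest.Agent.R225.LoBern

/-!
# Row 225: Harris step and pair correlation
-/

open Finset

namespace Crest.Agent.R225.Lo

namespace B

variable {G J : Type} [Fintype G] [DecidableEq G]

omit [Fintype G] in
lemma hit_mono {act : Finset J} {A : J → Finset G} {S S' : Finset G} (h : S ⊆ S')
    (hS : Hit act A S) : Hit act A S' := fun j hj =>
  (hS j hj).mono (Finset.inter_subset_inter_right h)

lemma harris_step {p : ℝ} (h0 : 0 ≤ p) (h1 : p ≤ 1) (E : Finset G → Prop)
    (hE : ∀ S S', S ⊆ S' → E S → E S') (A : Finset G) :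
    (1 - (1 - p) ^ A.card) * pr p E ≤ pr p (fun S => E S ∧ (S ∩ A).Nonempty) := by
  have e1 : pr p (fun S => E S ∧ (S ∩ A).Nonempty) =
      pr p E - pr p (fun S => S ∩ A = ∅ ∧ E S) := by
    rw [pr_eq, pr_eq, pr_eq, ← ex_sub]
    refine ex_congr p fun S => ?_
    rw [ind_and, ind_and, ind_congr (Finset.nonempty_iff_ne_empty (s := S ∩ A)), ind_not]
    ring
  have e2 : pr p (fun S => S ∩ A = ∅ ∧ E S) =
      pr p (fun S => S ∩ A = ∅) * pr p (fun S => E (S \ A)) := by
    rw [pr_eq, pr_eq, pr_eq, ← ex_indep p A (fun T => ind (T = ∅)) (fun U => ind (E U))]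
    refine ex_congr p fun S => ?_
    rw [← ind_and]
    refine ind_congr (and_congr_right fun h => ?_)
    rw [Finset.sdiff_eq_self_of_disjoint (Finset.disjoint_iff_inter_eq_empty.mpr h)]
  have e3 : pr p (fun S => E (S \ A)) ≤ pr p E :=
    pr_mono h0 h1 fun S h => hE _ _ Finset.sdiff_subset h
  rw [e1, e2, pr_empty]
  have : 0 ≤ (1 - p) ^ A.card := pow_nonneg (by linarith) _
  nlinarith [mul_le_mul_of_nonneg_left e3 this]

lemma harris {p : ℝ} (h0 : 0 ≤ p) (h1 : p ≤ 1) (E : Finset G → Prop)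
    (hE : ∀ S S', S ⊆ S' → E S → E S') (A : J → Finset G) (c : J → ℝ) (act : Finset J)
    (hc : ∀ j ∈ act, Real.exp (-c j) ≤ 1 - (1 - p) ^ (A j).card) :
    Real.exp (-∑ j ∈ act, c j) * pr p E ≤ pr p (fun S => E S ∧ Hit act A S) := by
  classical
  induction act using Finset.induction_on with
  | empty =>
    simp only [Finset.sum_empty, neg_zero, Real.exp_zero, one_mul]
    exact pr_mono h0 h1 fun S h => ⟨h, fun j hj => absurd hj (Finset.notMem_empty j)⟩
  | insert j act hj ih =>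
    have ih' := ih fun i hi => hc i (Finset.mem_insert_of_mem hi)
    have hs := harris_step h0 h1 (fun S => E S ∧ Hit act A S)
      (fun S S' h hS => ⟨hE _ _ h hS.1, hit_mono h hS.2⟩) (A j)
    have hcj := hc j (Finset.mem_insert_self j act)
    rw [Finset.sum_insert hj, neg_add, Real.exp_add, mul_assoc]
    calc Real.exp (-c j) * (Real.exp (-∑ i ∈ act, c i) * pr p E)
        ≤ Real.exp (-c j) * pr p (fun S => E S ∧ Hit act A S) :=
          mul_le_mul_of_nonneg_left ih' (Real.exp_pos _).le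
      _ ≤ (1 - (1 - p) ^ (A j).card) * pr p (fun S => E S ∧ Hit act A S) :=
          mul_le_mul_of_nonneg_right hcj (pr_nonneg h0 h1 _)
      _ ≤ _ := hs
      _ ≤ _ := by
          refine pr_mono h0 h1 fun S h => ⟨h.1.1, fun i hi => ?_⟩
          rcases Finset.mem_insert.mp hi with rfl | hi
          · exact h.2
          · exact h.1.2 i hi

/-- dropping the units met by `T` costs at most `exp (κ |T|)` -/
lemma drop {p : ℝ} (h0 : 0 ≤ p) (h1 : p ≤ 1) (act : Finset J) (A : J → Finset G) (c : J → ℝ)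
    (O : Finset G) (κ : ℝ) (hc0 : ∀ j ∈ act, 0 ≤ c j)
    (hc : ∀ j ∈ act, Real.exp (-c j) ≤ 1 - (1 - p) ^ (A j \ O).card)
    (hκ : ∀ g : G, ∑ j ∈ act.filter (fun j => g ∈ A j), c j ≤ κ) (T : Finset G) :
    pr p (Hit (act.filter (fun j => T ∩ A j = ∅)) (fun j => A j \ O)) ≤
      Real.exp (κ * T.card) * pr p (Hit act A) := by
  classical
  set act1 := act.filter (fun j => ¬ (T ∩ A j = ∅)) with hact1
  have hh := harris h0 h1 (Hit (act.filter (fun j => T ∩ A j = ∅)) (fun j => A j \ O))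
    (fun S S' h hS => hit_mono h hS) (fun j => A j \ O) c act1
    (fun j hj => hc j (Finset.mem_filter.mp hj).1)
  have h2 : pr p (fun S => Hit (act.filter (fun j => T ∩ A j = ∅)) (fun j => A j \ O) S ∧
      Hit act1 (fun j => A j \ O) S) ≤ pr p (Hit act A) := by
    refine pr_mono h0 h1 fun S h j hj => ?_
    have : (S ∩ (A j \ O)).Nonempty := by
      by_cases hT : T ∩ A j = ∅
      · exact h.1 j (Finset.mem_filter.mpr ⟨hj, hT⟩)
      · exact h.2 j (Finset.mem_filter.mpr ⟨hj, hT⟩)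
    exact this.mono (Finset.inter_subset_inter_left Finset.sdiff_subset)
  have h3 : ∑ j ∈ act1, c j ≤ κ * T.card := by
    calc ∑ j ∈ act1, c j ≤ ∑ j ∈ act1, ∑ g ∈ T, if g ∈ A j then c j else 0 := by
          refine Finset.sum_le_sum fun j hj => ?_
          obtain ⟨hj1, hj2⟩ := Finset.mem_filter.mp hj
          obtain ⟨g, hg⟩ := Finset.nonempty_iff_ne_empty.mpr hj2
          obtain ⟨hg1, hg2⟩ := Finset.mem_inter.mp hg
          have := Finset.single_le_sum (f := fun g => if g ∈ A j then c j else 0) (s := T)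
            (fun g _ => by
              split_ifs
              · exact hc0 j hj1
              · exact le_rfl) hg1
          simpa [hg2] using this
      _ ≤ ∑ j ∈ act, ∑ g ∈ T, if g ∈ A j then c j else 0 := by
          refine Finset.sum_le_sum_of_subset_of_nonneg (Finset.filter_subset _ _) fun j hj _ => ?_
          refine Finset.sum_nonneg fun g _ => ?_
          split_ifs
          · exact hc0 j hj
          · exact le_rfl
      _ = ∑ g ∈ T, ∑ j ∈ act.filter (fun j => g ∈ A j), c j := by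
          rw [Finset.sum_comm]
          exact Finset.sum_congr rfl fun g _ => (Finset.sum_filter _ _).symm
      _ ≤ ∑ _g ∈ T, κ := Finset.sum_le_sum fun g _ => hκ g
      _ = κ * T.card := by simp [mul_comm]
  have h4 := hh.trans h2
  have h5 : 1 ≤ Real.exp (κ * T.card) * Real.exp (-∑ j ∈ act1, c j) := by
    rw [← Real.exp_add]; exact Real.one_le_exp (by linarith)
  have h6 := pr_nonneg h0 h1 (Hit (act.filter (fun j => T ∩ A j = ∅)) (fun j => A j \ O))
  calc _ ≤ (Real.exp (κ * T.card) * Real.exp (-∑ j ∈ act1, c j)) *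
        pr p (Hit (act.filter (fun j => T ∩ A j = ∅)) (fun j => A j \ O)) :=
        le_mul_of_one_le_left h6 h5
    _ ≤ _ := by
        rw [mul_assoc]
        exact mul_le_mul_of_nonneg_left h4 (Real.exp_pos _).le

/-- disjoint units give independent events -/
lemma hit_indep (p : ℝ) (act act' : Finset J) (A A' : J → Finset G)
    (h : ∀ j ∈ act, ∀ j' ∈ act', Disjoint (A j) (A' j')) :
    pr p (fun S => Hit act A S ∧ Hit act' A' S) = pr p (Hit act A) * pr p (Hit act' A') := by
  classical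
  set B := act.biUnion A with hB
  have k1 : ∀ S : Finset G, Hit act A (S ∩ B) ↔ Hit act A S := by
    intro S
    refine forall_congr' fun j => forall_congr' fun hj => ?_
    have : S ∩ B ∩ A j = S ∩ A j := by
      rw [Finset.inter_assoc, Finset.inter_eq_right.mpr (Finset.subset_biUnion_of_mem A hj)]
    rw [this]
  have k2 : ∀ S : Finset G, Hit act' A' (S \ B) ↔ Hit act' A' S := by
    intro S
    refine forall_congr' fun j => forall_congr' fun hj => ?_
    have : (S \ B) ∩ A' j = S ∩ A' j := by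
      ext x
      simp only [Finset.mem_inter, Finset.mem_sdiff, hB, Finset.mem_biUnion]
      constructor
      · rintro ⟨⟨h1, _⟩, h3⟩; exact ⟨h1, h3⟩
      · rintro ⟨h1, h3⟩
        exact ⟨⟨h1, fun ⟨i, hi, hx⟩ => Finset.disjoint_left.mp (h i hi j hj) hx h3⟩, h3⟩
    rw [this]
  have h1 := ex_indep p B (fun T => ind (Hit act A T)) (fun U => ind (Hit act' A' U))
  simp only [k1, k2] at h1
  rw [pr_eq, pr_eq, pr_eq, ← h1]
  exact ex_congr p fun S => ind_and _ _

lemma pair2 {p : ℝ} (h0 : 0 ≤ p) (h1 : p ≤ 1)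
    (act act' : Finset J) (A A' : J → Finset G) (c c' : J → ℝ) (O : Finset G) (κ : ℝ)
    (hO : ∀ j ∈ act, ∀ j' ∈ act', A j ∩ A' j' ⊆ O)
    (hc0 : ∀ j ∈ act, 0 ≤ c j) (hc0' : ∀ j ∈ act', 0 ≤ c' j)
    (hc : ∀ j ∈ act, Real.exp (-c j) ≤ 1 - (1 - p) ^ (A j \ O).card)
    (hc' : ∀ j ∈ act', Real.exp (-c' j) ≤ 1 - (1 - p) ^ (A' j \ O).card)
    (hκ : ∀ g : G, ∑ j ∈ act.filter (fun j => g ∈ A j), c j ≤ κ)
    (hκ' : ∀ g : G, ∑ j ∈ act'.filter (fun j => g ∈ A' j), c' j ≤ κ) :
    pr p (fun S => Hit act A S ∧ Hit act' A' S) ≤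
      pr p (Hit act A) * pr p (Hit act' A') * Real.exp (p * O.card * Real.exp (2 * κ)) := by
  classical
  have red : ∀ (act : Finset J) (A : J → Finset G) (S : Finset G), Hit act A S →
      Hit (act.filter (fun j => (S ∩ O) ∩ A j = ∅)) (fun j => A j \ O) (S \ O) := by
    intro act A S hS j hj
    obtain ⟨hj1, hj2⟩ := Finset.mem_filter.mp hj
    obtain ⟨x, hx⟩ := hS j hj1
    obtain ⟨hx1, hx2⟩ := Finset.mem_inter.mp hx
    have hxO : x ∉ O := fun hxO => by
      have : x ∈ (S ∩ O) ∩ A j := Finset.mem_inter.mpr ⟨Finset.mem_inter.mpr ⟨hx1, hxO⟩, hx2⟩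
      rw [hj2] at this
      exact absurd this (Finset.notMem_empty x)
    exact ⟨x, Finset.mem_inter.mpr ⟨Finset.mem_sdiff.mpr ⟨hx1, hxO⟩, Finset.mem_sdiff.mpr ⟨hx2, hxO⟩⟩⟩
  set F : Finset G → Finset G → ℝ := fun T U =>
    ind (Hit (act.filter (fun j => T ∩ A j = ∅)) (fun j => A j \ O) U ∧
      Hit (act'.filter (fun j => T ∩ A' j = ∅)) (fun j => A' j \ O) U) with hF
  have s1 : pr p (fun S => Hit act A S ∧ Hit act' A' S) ≤ ex p (fun S => F (S ∩ O) (S \ O)) :=
    ex_mono h0 h1 fun S => ind_mono fun h => ⟨red act A S h.1, red act' A' S h.2⟩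
  have s2 : ∀ T : Finset G, ex p (fun S' => F T (S' \ O)) ≤
      (pr p (Hit act A) * pr p (Hit act' A')) * (Real.exp (2 * κ)) ^ T.card := by
    intro T
    have a1 : ex p (fun S' => F T (S' \ O)) ≤
        pr p (fun U => Hit (act.filter (fun j => T ∩ A j = ∅)) (fun j => A j \ O) U ∧
          Hit (act'.filter (fun j => T ∩ A' j = ∅)) (fun j => A' j \ O) U) :=
      ex_mono h0 h1 fun S => ind_mono fun h =>
        ⟨hit_mono Finset.sdiff_subset h.1, hit_mono Finset.sdiff_subset h.2⟩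
    rw [hit_indep] at a1
    · have b1 := drop h0 h1 act A c O κ hc0 hc hκ T
      have b2 := drop h0 h1 act' A' c' O κ hc0' hc' hκ' T
      refine a1.trans ((mul_le_mul b1 b2 (pr_nonneg h0 h1 _)
        (mul_nonneg (Real.exp_pos _).le (pr_nonneg h0 h1 _))).trans (le_of_eq ?_))
      rw [← Real.exp_nat_mul, show (T.card : ℝ) * (2 * κ) = κ * T.card + κ * T.card by ring,
        Real.exp_add]
      ring
    · intro j hj j' hj'
      rw [Finset.disjoint_left]
      intro x hx hx'
      obtain ⟨hx1, hx2⟩ := Finset.mem_sdiff.mp hx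
      exact hx2 (hO j (Finset.mem_filter.mp hj).1 j' (Finset.mem_filter.mp hj').1
        (Finset.mem_inter.mpr ⟨hx1, (Finset.mem_sdiff.mp hx').1⟩))
  rw [ex_cond] at s1
  have s3 := ex_mono h0 h1 fun S : Finset G => s2 (S ∩ O)
  rw [ex_const_mul, ex_pow] at s3
  refine s1.trans (s3.trans (mul_le_mul_of_nonneg_left ?_
    (mul_nonneg (pr_nonneg h0 h1 _) (pr_nonneg h0 h1 _))))
  have hH := Real.exp_pos (2 * κ)
  have e1 : 1 - p + p * Real.exp (2 * κ) ≤ Real.exp (p * Real.exp (2 * κ)) := by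
    have := Real.add_one_le_exp (p * Real.exp (2 * κ))
    linarith
  have e0 : 0 ≤ 1 - p + p * Real.exp (2 * κ) := by
    have := mul_nonneg h0 hH.le
    linarith
  calc _ ≤ (Real.exp (p * Real.exp (2 * κ))) ^ O.card := pow_le_pow_left₀ e0 e1 _
    _ = _ := by rw [← Real.exp_nat_mul]; congr 1; ring

end B

theorem pair (_hB : BernStmt) : PairStmt := by
  intro G J _ _ p h0 h1
  refine ⟨fun act A c hc => ?_, B.pair2 h0 h1⟩
  have h := B.harris h0 h1 (fun _ : Finset G => True) (fun _ _ _ _ => trivial) A c act hc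
  rw [B.pr_true p (fun _ => trivial), mul_one] at h
  exact h.trans (B.pr_mono h0 h1 fun S h => h.2)

end Crest.Agent.R225.Lo
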