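import Crest.Agent.R225.LoDefs

/-!
# Row 225, S0348: units (clusters and sparse candidates) for one witness point
-/

open MeasureTheory Finset
open scoped ENNReal RealInnerProductSpace

namespace Crest.Agent.R225.Lo

namespace UNITS

/-- greedy clustering -/
theorem greedy {n : ℕ} {J : Type} [DecidableEq J] (z : J → E n) (φ : ℝ) (hφ : 0 ≤ φ) (K' : ℕ)
    (hK : 1 ≤ K') (D : Finset J) :
    ∃ Cl Sp : Finset J, Cl ⊆ D ∧ Sp ⊆ D ∧ Disjoint Cl Sp ∧
      (∀ j ∈ D, j ∈ Sp ∨ ∃ k ∈ Cl, ‖z j - z k‖ ≤ φ) ∧ Cl.card * K' ≤ D.card ∧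
      ∀ j ∈ Sp, (Sp.filter fun k => ‖z k - z j‖ ≤ φ).card < K' := by
  induction D using Finset.strongInduction with
  | H D ih =>
    by_cases h : ∃ j ∈ D, K' ≤ (D.filter fun k => ‖z k - z j‖ ≤ φ).card
    · obtain ⟨j, hj, hK'⟩ := h
      set B := D.filter fun k => ‖z k - z j‖ ≤ φ with hB
      have hjB : j ∈ B := mem_filter.2 ⟨hj, by simpa using hφ⟩
      obtain ⟨Cl, Sp, h1, h2, h3, h4, h5, h6⟩ :=
        ih (D \ B) (sdiff_ssubset (filter_subset _ _) ⟨j, hjB⟩)
      refine ⟨insert j Cl, Sp, insert_subset hj (h1.trans sdiff_subset), h2.trans sdiff_subset,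
        disjoint_insert_left.2 ⟨fun h => (mem_sdiff.1 (h2 h)).2 hjB, h3⟩, fun k hk => ?_, ?_, h6⟩
      · by_cases hkB : k ∈ B
        · exact Or.inr ⟨j, mem_insert_self _ _, (mem_filter.1 hkB).2⟩
        · rcases h4 k (mem_sdiff.2 ⟨hk, hkB⟩) with h | ⟨l, hl, h⟩
          · exact Or.inl h
          · exact Or.inr ⟨l, mem_insert_of_mem hl, h⟩
      · have e := card_sdiff_add_card_eq_card (filter_subset (fun k => ‖z k - z j‖ ≤ φ) D)
        rw [← hB] at e
        have := Nat.mul_le_mul_right K' (card_insert_le j Cl)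
        rw [Nat.add_mul, one_mul] at this
        omega
    · push Not at h
      exact ⟨∅, D, empty_subset _, subset_rfl, disjoint_empty_left _, fun j hj => Or.inl hj,
        by simp, h⟩

theorem mid_norm {n : ℕ} (a b : E n) (μ φ : ℝ) (hμ : 0 ≤ μ) (hφ : 0 ≤ φ) (hφ1 : φ ≤ 1)
    (h : 100 * μ ≤ φ ^ 2) (ha : ‖a‖ ≤ 1 + μ) (hb : ‖b‖ ≤ 1 + μ) (hab : φ < ‖a - b‖) :
    ‖(1 / 2 : ℝ) • (a + b)‖ ≤ 1 - φ ^ 2 / 10 := by
  have h1 := parallelogram_law_with_norm ℝ a b
  have h2 : φ ^ 2 ≤ 1 := by nlinarith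
  have h3 : ‖a‖ * ‖a‖ ≤ (1 + μ) * (1 + μ) := mul_self_le_mul_self (norm_nonneg _) ha
  have h4 : ‖b‖ * ‖b‖ ≤ (1 + μ) * (1 + μ) := mul_self_le_mul_self (norm_nonneg _) hb
  have h5 : φ * φ ≤ ‖a - b‖ * ‖a - b‖ := mul_self_le_mul_self hφ hab.le
  rw [norm_smul, Real.norm_eq_abs, abs_of_pos (by norm_num : (0 : ℝ) < 1 / 2)]
  refine abs_le_abs (a := 1 / 2 * ‖a + b‖) (b := 1 - φ ^ 2 / 10) ?_ ?_ |>.trans' (le_abs_self _)
    |>.trans (le_of_eq (abs_of_nonneg (by linarith)))
  · refine (pow_le_pow_iff_left₀ (by positivity) (by linarith) two_ne_zero).1 ?_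
    nlinarith [sq_nonneg (φ ^ 2)]
  · have : 0 ≤ 1 / 2 * ‖a + b‖ := by positivity
    linarith

/-- two far caps overlap little -/
theorem overlap {C : ℝ} {n : ℕ} {U : Finset (E n)} {π : ℝ} (hU : Cnt C n U π) (a b : E n)
    (μ φ : ℝ) (hμ : 0 ≤ μ) (hφ : 0 ≤ φ) (hφ1 : φ ≤ 1)
    (h : 100 * μ ≤ φ ^ 2) (ha : ‖a‖ ≤ 1 + μ) (hb : ‖b‖ ≤ 1 + μ) (hab : φ < ‖a - b‖) :
    π * ((U.filter fun u => tt + μ < ⟪a, u⟫ ∧ tt + μ < ⟪b, u⟫).card : ℝ) ≤
      2 * Real.exp (-(n * φ ^ 2 / 80)) := by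
  have h1 := hU.upper ((1 / 2 : ℝ) • (a + b)) (φ ^ 2 / 10) (by positivity) (by nlinarith)
    (mid_norm a b μ φ hμ hφ hφ1 h ha hb hab)
  rw [show (n : ℝ) * (φ ^ 2 / 10) / 8 = n * φ ^ 2 / 80 by ring] at h1
  refine le_trans (mul_le_mul_of_nonneg_left ?_ hU.pos.le) h1
  refine Nat.cast_le.2 (card_le_card fun u hu => ?_)
  obtain ⟨h2, h3, h4⟩ := mem_filter.1 hu
  refine mem_filter.2 ⟨h2, ?_⟩
  rw [real_inner_smul_left, inner_add_left]
  linarith

theorem card_sub {n : ℕ} (U : Finset (E n)) (P : E n → Prop) [DecidablePred P] :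
    (univ.filter fun u : U => P u).card = (U.filter P).card := by
  refine card_bij (fun u _ => (u : E n)) (fun u hu => mem_filter.2 ⟨u.2, (mem_filter.1 hu).2⟩)
    (fun u _ v _ h => Subtype.ext h) fun v hv => ?_
  obtain ⟨h1, h2⟩ := mem_filter.1 hv
  exact ⟨⟨v, h1⟩, mem_filter.2 ⟨mem_univ _, h2⟩, rfl⟩

theorem hit_prob (p a : ℝ) (k : ℕ) (hp : p ≤ 1) (ha : 0 ≤ a) (ha1 : a ≤ 1) (h : a / 2 ≤ p * k) :
    a * Real.exp (-2) ≤ 1 - (1 - p) ^ k := by
  have h1 : (1 - p) ^ k ≤ Real.exp (-(a / 2)) := by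
    calc (1 - p) ^ k ≤ Real.exp (-p) ^ k :=
          pow_le_pow_left₀ (by linarith) (by linarith [Real.add_one_le_exp (-p)]) k
      _ = Real.exp (-(p * k)) := by rw [← Real.exp_nat_mul]; congr 1; ring
      _ ≤ _ := Real.exp_le_exp.2 (by linarith)
  have h2 : Real.exp (-(a / 2)) * (1 + a / 2) ≤ 1 := by
    have := Real.add_one_le_exp (a / 2)
    calc Real.exp (-(a / 2)) * (1 + a / 2) ≤ Real.exp (-(a / 2)) * Real.exp (a / 2) :=
          mul_le_mul_of_nonneg_left (by linarith) (Real.exp_pos _).le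
      _ = 1 := by rw [← Real.exp_add]; simp
  have h3 : Real.exp (-2) ≤ 1 / 4 := by
    have e1 := Real.add_one_le_exp (1 : ℝ)
    have e2 : Real.exp (-2) * (Real.exp 1 * Real.exp 1) = 1 := by
      rw [← Real.exp_add, ← Real.exp_add]; norm_num
    have e3 : 4 ≤ Real.exp 1 * Real.exp 1 := by nlinarith
    nlinarith [Real.exp_pos (-2)]
  have h4 : Real.exp (-(a / 2)) ≤ 1 - a / 4 := by
    by_contra hc
    push Not at hc
    nlinarith
  nlinarith

end UNITS

theorem units : UnitsStmt := by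
  intro C n U π hC hU N K' μ φ δm o J _ _ cand z δ hN hK hcN hμ hφ hδm hμφ hsm hz ho ho1 ho2
  classical
  obtain ⟨Cl, Sp, hCl, hSp, hdis, hcov, hClc, hSpc⟩ := UNITS.greedy z φ hφ K' hK cand
  have hφ1 : φ ≤ 1 := by
    have : (1 : ℝ) / 10 ^ 8 ≤ 1 := by norm_num
    linarith
  have hN0 : (0 : ℝ) < N := by exact_mod_cast hN
  have hN1 : (1 : ℝ) ≤ N := by exact_mod_cast hN
  have hC0 : 0 ≤ C := by linarith
  have hCn : 0 ≤ C * n := by positivity
  obtain ⟨col, hcol⟩ : ∃ col : J → Fin N, Set.InjOn col cand := by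
    refine ⟨fun j => if h : j ∈ cand then Fin.castLE hcN (cand.equivFin ⟨j, h⟩) else ⟨0, hN⟩, ?_⟩
    intro a ha b hb h
    have ha' : a ∈ cand := ha
    have hb' : b ∈ cand := hb
    simp only [ha', hb', dif_pos] at h
    exact congrArg Subtype.val (cand.equivFin.injective (Fin.castLE_injective _ h))
  set cC : ℝ := C * n * (δm + μ + φ) + 3 + Real.log N with hcC
  have hlog : 0 ≤ Real.log N := Real.log_nonneg hN1
  have hcC0 : 0 ≤ cC := by rw [hcC]; positivity
  let PS : J → E n → Prop := fun j u =>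
    tt + μ < ⟪z j, u⟫ ∧ ∀ k ∈ Sp, φ < ‖z k - z j‖ → ¬ tt + μ < ⟪z k, u⟫
  let A : J → Finset (U × Fin N) := fun j =>
    if j ∈ Cl then (univ.filter fun u : U => tt + (μ + φ) < ⟪z j, (u : E n)⟫) ×ˢ {col j}
    else (univ.filter fun u : U => PS j u) ×ˢ univ
  let c : J → ℝ := fun j => if j ∈ Cl then cC else C * n * (δ j + μ) + 3
  have hAC : ∀ j ∈ Cl, ∀ g, g ∈ A j ↔ tt + (μ + φ) < ⟪z j, (g.1 : E n)⟫ ∧ g.2 = col j := by
    intro j hj g
    simp only [A, hj, if_true, mem_product, mem_filter, mem_univ, true_and, mem_singleton]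
  have hAS : ∀ j ∈ Sp, ∀ g, g ∈ A j ↔ PS j g.1 := by
    intro j hj g
    have hj' : j ∉ Cl := disjoint_right.1 hdis hj
    simp only [A, hj', if_false, mem_product, mem_filter, mem_univ, true_and, and_true]
  have hcCl : ∀ j ∈ Cl, c j = cC := fun j hj => by simp only [c, hj, if_true]
  have hcSp : ∀ j ∈ Sp, c j = C * n * (δ j + μ) + 3 := fun j hj => by
    simp only [c, disjoint_right.1 hdis hj, if_false]
  have hp1 : π / N ≤ 1 := by
    rw [div_le_one hN0]
    linarith [hU.half]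
  have hp0 : 0 ≤ π / N := div_nonneg hU.pos.le hN0.le
  have hsd : ∀ (B O : Finset (U × Fin N)), π / N * O.card ≤ o →
      π / N * B.card - o ≤ π / N * ((B \ O).card : ℕ) := by
    intro B O hO
    have h1 : (B.card : ℝ) ≤ ((B \ O).card : ℕ) + O.card := by
      exact_mod_cast card_le_card_sdiff_add_card
    nlinarith
  refine ⟨Cl ∪ Sp, A, c, union_subset hCl hSp, ?_, ?_, ?_, ?_, ?_, ?_⟩
  · intro j hj g hg
    rcases mem_union.1 hj with hj | hj
    · linarith [((hAC j hj g).1 hg).1]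
    · exact ((hAS j hj g).1 hg).1
  · intro S hS j hj
    rcases hcov j hj with h | ⟨k, hk, h⟩
    · obtain ⟨g, hg⟩ := hS j (mem_union_right _ h)
      exact ⟨g, (mem_inter.1 hg).1, ((hAS j h g).1 (mem_inter.1 hg).2).1⟩
    · obtain ⟨g, hg⟩ := hS k (mem_union_left _ hk)
      refine ⟨g, (mem_inter.1 hg).1, ?_⟩
      have h1 := ((hAC k hk g).1 (mem_inter.1 hg).2).1
      have h2 := abs_real_inner_le_norm (z j - z k) (g.1 : E n)
      have h3 : ‖z j - z k‖ * ‖(g.1 : E n)‖ ≤ φ * 1 :=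
        mul_le_mul h (hU.ball _ g.1.2) (norm_nonneg _) hφ
      rw [inner_sub_left] at h2
      linarith [neg_abs_le (⟪z j, (g.1 : E n)⟫ - ⟪z k, (g.1 : E n)⟫)]
  · intro j hj
    rcases mem_union.1 hj with hj | hj
    · rw [hcCl j hj]; exact hcC0
    · rw [hcSp j hj]
      have := (hz j (hSp hj)).1
      positivity
  · intro j hj O hO
    rcases mem_union.1 hj with hj | hj
    · obtain ⟨d0, d1, d2, d3⟩ := hz j (hCl hj)
      have h1 := hU.lower (z j) δm (μ + φ) hδm (by positivity) (by linarith) (by linarith)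
        (by linarith)
      have h2 : ((A j).card : ℝ) = (U.filter fun u => tt + (μ + φ) < ⟪z j, u⟫).card := by
        simp only [A, hj, if_true, card_product, card_singleton, mul_one]
        rw [UNITS.card_sub U fun u => tt + (μ + φ) < ⟪z j, u⟫]
      rw [← h2, ← add_assoc δm] at h1
      set a : ℝ := Real.exp (-(C * n * (δm + μ + φ)) - 1) / N with ha
      have ha1 : a ≤ 1 := by
        rw [ha, div_le_one hN0]
        refine le_trans (Real.exp_le_one_iff.2 ?_) hN1
        have : 0 ≤ C * n * (δm + μ + φ) := by positivity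
        linarith
      have h3 : a ≤ π / N * (A j).card := by
        rw [ha, div_mul_eq_mul_div]
        exact div_le_div_of_nonneg_right h1 hN0.le
      have h4 := UNITS.hit_prob (π / N) a (A j \ O).card hp1 (by positivity) ha1
        (by linarith [hsd (A j) O hO])
      refine le_trans (le_of_eq ?_) h4
      rw [hcCl j hj, ha, hcC, div_mul_eq_mul_div, ← Real.exp_add, eq_div_iff hN0.ne']
      conv_lhs => rw [← Real.exp_log hN0]
      rw [Real.log_exp, ← Real.exp_add]
      congr 1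
      ring
    · obtain ⟨d0, d1, d2, d3⟩ := hz j (hSp hj)
      have hj' : j ∉ Cl := disjoint_right.1 hdis hj
      have h1 := hU.lower (z j) (δ j) μ d0 hμ (by linarith) d2 (by linarith)
      have h2 : π / N * ((A j).card : ℝ) = π * (U.filter (PS j)).card := by
        simp only [A, hj', if_false, card_product, card_univ, Fintype.card_fin]
        rw [UNITS.card_sub U (PS j)]
        push_cast
        field_simp
      set F := Sp.filter fun k => φ < ‖z k - z j‖ with hF
      have h3 : (U.filter fun u => tt + μ < ⟪z j, u⟫).card ≤ (U.filter (PS j)).card +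
          ∑ k ∈ F, (U.filter fun u => tt + μ < ⟪z k, u⟫ ∧ tt + μ < ⟪z j, u⟫).card := by
        refine le_trans (card_le_card (t := U.filter (PS j) ∪
          F.biUnion fun k => U.filter fun u => tt + μ < ⟪z k, u⟫ ∧ tt + μ < ⟪z j, u⟫) ?_)
          ((card_union_le _ _).trans (Nat.add_le_add_left card_biUnion_le _))
        intro u hu
        obtain ⟨hu1, hu2⟩ := mem_filter.1 hu
        by_cases hP : PS j u
        · exact mem_union_left _ (mem_filter.2 ⟨hu1, hP⟩)
        · refine mem_union_right _ ?_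
          simp only [PS, not_and, not_forall, not_not] at hP
          obtain ⟨k, hk, hk1, hk2⟩ := hP hu2
          exact mem_biUnion.2 ⟨k, mem_filter.2 ⟨hk, hk1⟩, mem_filter.2 ⟨hu1, hk2, hu2⟩⟩
      have h4 : ∑ k ∈ F, π * ((U.filter fun u => tt + μ < ⟪z k, u⟫ ∧ tt + μ < ⟪z j, u⟫).card : ℝ) ≤
          N * (2 * Real.exp (-(n * φ ^ 2 / 80))) := by
        have hFN : (F.card : ℝ) ≤ N := by
          exact_mod_cast (card_le_card ((filter_subset _ _).trans hSp)).trans hcN
        calc _ ≤ ∑ _k ∈ F, 2 * Real.exp (-(n * φ ^ 2 / 80)) := sum_le_sum fun k hk =>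
              UNITS.overlap hU (z k) (z j) μ φ hμ hφ hφ1 hμφ (hz k (hSp (mem_filter.1 hk).1)).2.2.2
                d3 (mem_filter.1 hk).2
          _ = F.card * (2 * Real.exp (-(n * φ ^ 2 / 80))) := by rw [sum_const, nsmul_eq_mul]
          _ ≤ _ := mul_le_mul_of_nonneg_right hFN (by positivity)
      rw [← mul_sum] at h4
      have h5 : ((U.filter fun u => tt + μ < ⟪z j, u⟫).card : ℝ) ≤ (U.filter (PS j)).card +
          ∑ k ∈ F, ((U.filter fun u => tt + μ < ⟪z k, u⟫ ∧ tt + μ < ⟪z j, u⟫).card : ℝ) := by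
        exact_mod_cast h3
      have h6 := mul_le_mul_of_nonneg_left h5 hU.pos.le
      set a : ℝ := Real.exp (-(C * n * (δ j + μ)) - 1) with ha
      have ha1 : a ≤ 1 := by
        refine Real.exp_le_one_iff.2 ?_
        have : 0 ≤ C * n * (δ j + μ) := by positivity
        linarith
      have ha2 : Real.exp (-(C * n * (δm + μ)) - 1) ≤ a := by
        refine Real.exp_le_exp.2 ?_
        have := mul_le_mul_of_nonneg_left (show δ j + μ ≤ δm + μ by linarith) hCn
        linarith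
      have h7 := UNITS.hit_prob (π / N) a (A j \ O).card hp1 (by positivity) ha1
        (by linarith [hsd (A j) O hO])
      refine le_trans (le_of_eq ?_) h7
      rw [hcSp j hj, ha, ← Real.exp_add]
      congr 1
      ring
  · rw [sum_union hdis, sum_congr rfl hcCl, sum_congr rfl hcSp, sum_const, nsmul_eq_mul]
    have h1 : ∑ j ∈ Sp, (C * n * (δ j + μ) + 3) ≤ ∑ j ∈ cand, (C * n * (δ j + μ) + 3) :=
      sum_le_sum_of_subset_of_nonneg hSp fun j hj _ => by
        have := (hz j hj).1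
        positivity
    have hK0 : (0 : ℝ) < K' := by exact_mod_cast hK
    have h2 : (Cl.card : ℝ) ≤ (cand.card : ℝ) / K' := by
      rw [le_div_iff₀ hK0]
      exact_mod_cast hClc
    have h3 := mul_le_mul_of_nonneg_right h2 hcC0
    linarith
  · intro g
    rw [filter_union, sum_union (disjoint_filter_filter hdis)]
    have h1 : ∑ j ∈ Cl.filter (fun j => g ∈ A j), c j ≤ cC := by
      rw [sum_congr rfl fun j hj => hcCl j (mem_filter.1 hj).1, sum_const, nsmul_eq_mul]
      have : (Cl.filter fun j => g ∈ A j).card ≤ 1 := by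
        refine card_le_one.2 fun a ha b hb => ?_
        obtain ⟨a1, a2⟩ := mem_filter.1 ha
        obtain ⟨b1, b2⟩ := mem_filter.1 hb
        exact hcol (hCl a1) (hCl b1) (((hAC a a1 g).1 a2).2.symm.trans ((hAC b b1 g).1 b2).2)
      have : ((Cl.filter fun j => g ∈ A j).card : ℝ) ≤ 1 := by exact_mod_cast this
      nlinarith
    have h2 : ∑ j ∈ Sp.filter (fun j => g ∈ A j), c j ≤ K' * (C * n * (δm + μ) + 3) := by
      have h3 : (Sp.filter fun j => g ∈ A j).card ≤ K' := by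
        rcases (Sp.filter fun j => g ∈ A j).eq_empty_or_nonempty with h | ⟨j, hj⟩
        · rw [h, card_empty]; exact Nat.zero_le _
        · obtain ⟨j1, j2⟩ := mem_filter.1 hj
          refine le_trans (card_le_card fun k hk => ?_) (hSpc j j1).le
          obtain ⟨k1, k2⟩ := mem_filter.1 hk
          refine mem_filter.2 ⟨k1, ?_⟩
          by_contra hc
          exact ((hAS j j1 g).1 j2).2 k k1 (not_le.1 hc) ((hAS k k1 g).1 k2).1
      have h4 : ((Sp.filter fun j => g ∈ A j).card : ℝ) ≤ K' := by exact_mod_cast h3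
      calc _ ≤ ∑ _j ∈ Sp.filter (fun j => g ∈ A j), (C * n * (δm + μ) + 3) := by
            refine sum_le_sum fun j hj => ?_
            have j1 := (mem_filter.1 hj).1
            rw [hcSp j j1]
            have := mul_le_mul_of_nonneg_left
              (show δ j + μ ≤ δm + μ by linarith [(hz j (hSp j1)).2.1]) hCn
            linarith
        _ = _ * (C * n * (δm + μ) + 3) := by rw [sum_const, nsmul_eq_mul]
        _ ≤ _ := mul_le_mul_of_nonneg_right h4 (by positivity)
    linarith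

end Crest.Agent.R225.Lo
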