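import Crest.Agent.R225.LoBern

/-!
# Row 225: the random body is a symmetric convex body and is large with fixed probability
-/

open MeasureTheory Finset
open scoped ENNReal RealInnerProductSpace

namespace Crest.Agent.R225.Lo

namespace V

variable {n N : ℕ} {U : Finset (E n)}

lemma tt_pos : 0 < tt := by unfold tt; norm_num
lemma tt_lt : tt < 1 := by unfold tt; norm_num

lemma body_closed (S : Finset (U × Fin N)) : IsClosed (body S) := by
  have : body S = {x : E n | ‖x‖ ≤ 1} ∩ ⋂ g ∈ S, {x : E n | |⟪x, (g.1 : E n)⟫| ≤ tt} := by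
    ext x; simp [body]
  rw [this]
  refine (isClosed_le continuous_norm continuous_const).inter
    (isClosed_biInter fun g _ => isClosed_le ?_ continuous_const)
  fun_prop

lemma body_sub (S : Finset (U × Fin N)) : body S ⊆ Metric.closedBall (0 : E n) 1 := fun x hx => by
  simpa using hx.1

lemma body_compact (S : Finset (U × Fin N)) : IsCompact (body S) :=
  (isCompact_closedBall (0 : E n) 1).of_isClosed_subset (body_closed S) (body_sub S)

lemma body_convex (S : Finset (U × Fin N)) : Convex ℝ (body S) := by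
  intro x hx y hy a b ha hb hab
  refine ⟨?_, fun g hg => ?_⟩
  · calc ‖a • x + b • y‖ ≤ ‖a • x‖ + ‖b • y‖ := norm_add_le _ _
      _ = a * ‖x‖ + b * ‖y‖ := by rw [norm_smul, norm_smul, Real.norm_of_nonneg ha,
          Real.norm_of_nonneg hb]
      _ ≤ a * 1 + b * 1 := add_le_add (mul_le_mul_of_nonneg_left hx.1 ha)
          (mul_le_mul_of_nonneg_left hy.1 hb)
      _ = 1 := by linarith
  · rw [inner_add_left, real_inner_smul_left, real_inner_smul_left]
    have h1 := abs_le.mp (hx.2 g hg)
    have h2 := abs_le.mp (hy.2 g hg)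
    rw [abs_le]
    constructor <;> nlinarith [mul_le_mul_of_nonneg_left h1.1 ha, mul_le_mul_of_nonneg_left h1.2 ha,
      mul_le_mul_of_nonneg_left h2.1 hb, mul_le_mul_of_nonneg_left h2.2 hb]

lemma body_int (hU : ∀ u ∈ U, ‖u‖ ≤ 1) (S : Finset (U × Fin N)) :
    (interior (body S)).Nonempty := by
  refine ⟨0, mem_interior.mpr ⟨Metric.ball 0 tt, fun x hx => ?_, Metric.isOpen_ball,
    Metric.mem_ball_self tt_pos⟩⟩
  have hx' : ‖x‖ < tt := by simpa using hx
  refine ⟨by linarith [tt_lt], fun g _ => ?_⟩
  calc _ ≤ ‖x‖ * ‖(g.1 : E n)‖ := abs_real_inner_le_norm _ _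
    _ ≤ ‖x‖ * 1 := mul_le_mul_of_nonneg_left (hU _ g.1.2) (norm_nonneg _)
    _ ≤ tt := by linarith

lemma body_symm (S : Finset (U × Fin N)) (x : E n) (hx : x ∈ body S) : -x ∈ body S :=
  ⟨by simpa using hx.1, fun g hg => by simpa [inner_neg_left] using hx.2 g hg⟩

lemma exp_le {p : ℝ} (h0 : 0 ≤ p) (h1 : p ≤ 1 / 2) : Real.exp (-(2 * p)) ≤ 1 - p := by
  rw [Real.exp_neg, inv_le_comm₀ (Real.exp_pos _) (by linarith)]
  have := Real.add_one_le_exp (2 * p)
  refine le_trans ?_ this
  rw [inv_le_iff_one_le_mul₀ (by linarith)]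
  nlinarith

/-- a point of the unit ball survives with probability at least `exp (-8)` -/
lemma survive {C π : ℝ} (hN : 1 ≤ N) (hC : Cnt C n U π) (x : E n) (hx : ‖x‖ ≤ 1) :
    Real.exp (-8) ≤ pr (π / N) (fun S : Finset (U × Fin N) => x ∈ body S) := by
  classical
  have hNpos : (0 : ℝ) < N := by exact_mod_cast hN
  have hN1 : (1 : ℝ) ≤ N := by exact_mod_cast hN
  have h0 : 0 ≤ π / N := div_nonneg hC.pos.le hNpos.le
  have h1 : π / N ≤ 1 / 2 := (div_le_self hC.pos.le hN1).trans hC.half
  set Cut : Finset (U × Fin N) := Finset.univ.filter (fun g => tt < |⟪x, (g.1 : E n)⟫|) with hCut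
  have e1 : pr (π / N) (fun S : Finset (U × Fin N) => x ∈ body S) =
      pr (π / N) (fun S => S ∩ Cut = ∅) := by
    refine B.pr_congr _ fun S => ?_
    simp only [body, Set.mem_setOf_eq, hx, true_and, Finset.eq_empty_iff_forall_notMem,
      Finset.mem_inter, hCut, Finset.mem_filter, Finset.mem_univ, not_and, not_lt]
  rw [e1, B.pr_empty]
  have hcard : (Cut.card : ℝ) ≤ ((U.filter (fun u => tt < ⟪x, u⟫)).card +
      (U.filter (fun u => tt < ⟪-x, u⟫)).card) * N := by
    have : Cut.card ≤ (((U.filter (fun u => tt < ⟪x, u⟫)) ∪ (U.filter (fun u => tt < ⟪-x, u⟫))) ×ˢ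
        (Finset.univ : Finset (Fin N))).card := by
      refine Finset.card_le_card_of_injOn (fun g => ((g.1 : E n), g.2)) (fun g hg => ?_) ?_
      · simp only [hCut, Finset.coe_filter, Finset.mem_univ, true_and, Set.mem_setOf_eq] at hg
        simp only [Finset.coe_product, Finset.coe_union, Finset.coe_filter, Set.mem_prod,
          Set.mem_union, Set.mem_setOf_eq, Finset.coe_univ, Set.mem_univ, and_true,
          inner_neg_left]
        rcases lt_abs.mp hg with h | h
        · exact Or.inl ⟨g.1.2, h⟩
        · exact Or.inr ⟨g.1.2, h⟩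
      · intro g _ g' _ h
        simp only [Prod.mk.injEq] at h
        exact Prod.ext (Subtype.ext h.1) h.2
    rw [Finset.card_product, Finset.card_univ, Fintype.card_fin] at this
    have h2 := Finset.card_union_le (U.filter (fun u => tt < ⟪x, u⟫))
      (U.filter (fun u => tt < ⟪-x, u⟫))
    have h3 := this.trans (Nat.mul_le_mul_right N h2)
    exact_mod_cast h3
  have u1 := hC.upper x 0 le_rfl zero_le_one (by simpa using hx)
  have u2 := hC.upper (-x) 0 le_rfl zero_le_one (by simpa using hx)
  simp only [mul_zero, zero_div, neg_zero, Real.exp_zero, mul_one] at u1 u2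
  have hk : π / N * Cut.card ≤ 4 := by
    calc π / N * Cut.card ≤ π / N * (((U.filter (fun u => tt < ⟪x, u⟫)).card +
          (U.filter (fun u => tt < ⟪-x, u⟫)).card) * N) := mul_le_mul_of_nonneg_left hcard h0
      _ = π * (U.filter (fun u => tt < ⟪x, u⟫)).card +
          π * (U.filter (fun u => tt < ⟪-x, u⟫)).card := by field_simp
      _ ≤ 4 := by linarith
  calc Real.exp (-8) ≤ Real.exp (Cut.card * (-(2 * (π / N)))) :=
        Real.exp_le_exp.mpr (by nlinarith)
    _ = (Real.exp (-(2 * (π / N)))) ^ Cut.card := Real.exp_nat_mul _ _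
    _ ≤ _ := pow_le_pow_left₀ (Real.exp_pos _).le (exp_le h0 h1) _

end V

theorem vol (_hB : BernStmt) : VolStmt := by
  intro C n N U π hN hC
  refine ⟨fun S => ⟨V.body_compact S, V.body_convex S, V.body_int hC.ball S, V.body_symm S⟩, ?_⟩
  classical
  have hNpos : (0 : ℝ) < N := by exact_mod_cast hN
  have hN1 : (1 : ℝ) ≤ N := by exact_mod_cast hN
  have h0 : 0 ≤ π / N := div_nonneg hC.pos.le hNpos.le
  have h1 : π / N ≤ 1 := ((div_le_self hC.pos.le hN1).trans hC.half).trans (by norm_num)
  set p := π / N with hp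
  have hfin : vb n 1 ≠ ⊤ := (isCompact_closedBall (0 : E n) 1).measure_lt_top.ne
  have hpos : vb n 1 ≠ 0 := (Metric.measure_closedBall_pos volume (0 : E n) one_pos).ne'
  set v : ℝ := (vb n 1).toReal with hv
  have hvpos : 0 < v := ENNReal.toReal_pos hpos hfin
  have hmeas : ∀ S : Finset (U × Fin N), MeasurableSet (body S) :=
    fun S => (V.body_closed S).measurableSet
  have hbfin : ∀ S : Finset (U × Fin N), volume (body S) ≠ ⊤ :=
    fun S => (V.body_compact S).measure_lt_top.ne
  have hint : ∀ S : Finset (U × Fin N),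
      Integrable ((body S).indicator (fun _ : E n => B.wt p S)) volume := fun S =>
    (integrable_indicator_iff (hmeas S)).mpr (integrableOn_const (hbfin S))
  have hE : Real.exp (-8) * v ≤ ex p (fun S : Finset (U × Fin N) => (volume (body S)).toReal) := by
    have e1 : ex p (fun S : Finset (U × Fin N) => (volume (body S)).toReal) =
        ∫ x, ∑ S : Finset (U × Fin N), (body S).indicator (fun _ : E n => B.wt p S) x := by
      rw [integral_finset_sum _ fun S _ => hint S, B.ex_eq]
      refine Finset.sum_congr rfl fun S _ => ?_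
      rw [integral_indicator_const _ (hmeas S), smul_eq_mul, mul_comm]
      rfl
    have e2 : Real.exp (-8) * v =
        ∫ x, (Metric.closedBall (0 : E n) 1).indicator (fun _ : E n => Real.exp (-8)) x := by
      rw [integral_indicator_const _ measurableSet_closedBall, smul_eq_mul, mul_comm]
      rfl
    rw [e1, e2]
    refine integral_mono ((integrable_indicator_iff measurableSet_closedBall).mpr
      (integrableOn_const hfin)) (integrable_finset_sum _ fun S _ => hint S) fun x => ?_
    have e3 : ∑ S : Finset (U × Fin N), (body S).indicator (fun _ : E n => B.wt p S) x =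
        pr p (fun S : Finset (U × Fin N) => x ∈ body S) := by
      rw [B.pr_eq, B.ex_eq]
      refine Finset.sum_congr rfl fun S _ => ?_
      by_cases hx : x ∈ body S
      · rw [Set.indicator_of_mem hx, B.ind_pos hx, mul_one]
      · rw [Set.indicator_of_notMem hx, B.ind_neg hx, mul_zero]
    simp only
    rw [e3]
    by_cases hx : x ∈ Metric.closedBall (0 : E n) 1
    · rw [Set.indicator_of_mem hx]
      exact V.survive hN hC x (by simpa using hx)
    · rw [Set.indicator_of_notMem hx]
      exact B.pr_nonneg h0 h1 _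
  have ha : 0 < Real.exp (-8) / 2 := by positivity
  have hpt : ∀ S : Finset (U × Fin N), (volume (body S)).toReal ≤
      v * B.ind (ENNReal.ofReal (Real.exp (-8) / 2) * vb n 1 ≤ volume (body S)) +
        Real.exp (-8) / 2 * v := by
    intro S
    by_cases h : ENNReal.ofReal (Real.exp (-8) / 2) * vb n 1 ≤ volume (body S)
    · rw [B.ind_pos h, mul_one]
      have : (volume (body S)).toReal ≤ v :=
        ENNReal.toReal_mono hfin (measure_mono (V.body_sub S))
      nlinarith [mul_pos ha hvpos]
    · rw [B.ind_neg h, mul_zero, zero_add]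
      have := ENNReal.toReal_mono (ENNReal.mul_ne_top ENNReal.ofReal_ne_top hfin) (not_le.mp h).le
      rwa [ENNReal.toReal_mul, ENNReal.toReal_ofReal ha.le] at this
  have h2 := B.ex_mono h0 h1 hpt
  rw [B.ex_add, B.ex_const, B.ex_const_mul, ← B.pr_eq] at h2
  have h3 := hE.trans h2
  refine le_of_mul_le_mul_left ?_ hvpos
  linarith

end Crest.Agent.R225.Lo
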