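import Mathlib

/-!
# Row 225, S0347 (upper bound), part A: finite probability (multi-stage hashing)

Points `x : ι` carry vectors `X x : P → ZMod Q` with `X x p0 = 1`; a stage draws `θ : P → ZMod Q`
uniformly and gives `x` the label `(val X θ x).val / (Q / G l)`.  A *tree* `W x lab l` is the
conditional probability that `x` is finally hit, given the labels of the levels `≥ l`.
-/

open Finset

namespace Crest.Agent.R225.Up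

/-- uniform average over a finite type -/
noncomputable def av {Ω : Type} [Fintype Ω] (f : Ω → ℝ) : ℝ := (∑ ω, f ω) / Fintype.card Ω

open Classical in
/-- uniform probability -/
noncomputable def prob {Ω : Type} [Fintype Ω] (E : Ω → Prop) : ℝ :=
  av (fun ω => if E ω then 1 else 0)

open Classical in
/-- normalised weighted count of the members of a family of sets -/
noncomputable def Fam {ι : Type} (F : Finset ι → Prop) (u : ℕ) (A : Finset ι) (w : ι → ℝ) (V : ℝ) : ℝ :=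
  ∑ C ∈ A.powerset.filter (fun C => C.card ≤ u ∧ F C), (C.card.factorial : ℝ) * (∏ x ∈ C, w x) / V ^ C.card

open Classical in
/-- SUB: supersets of members of a family.
`∑_{U ⊇ C, |U| = j} w(U) ≤ w(C) V^(j-|C|)/(j-|C|)!` and `j!/(j-c)! ≤ 2^j c!`. -/
def SubStmt : Prop := ∀ (ι : Type) [DecidableEq ι] (F : Finset ι → Prop) (A : Finset ι) (w : ι → ℝ)
    (V : ℝ) (j : ℕ), 0 < V → (∀ x ∈ A, 0 ≤ w x) → ∑ x ∈ A, w x ≤ V →
    (j.factorial : ℝ) * ∑ U ∈ (A.powersetCard j).filter (fun U => ∃ C ⊆ U, F C), ∏ x ∈ U, w x ≤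
      2 ^ j * V ^ j * Fam F j A w V

/-- `U` is `B`-dissociated -/
def Dis {ι P : Type} {Q : ℕ} (X : ι → P → ZMod Q) (B : ℕ) (U : Finset ι) : Prop :=
  ∀ c : ι → ℤ, (∀ x ∈ U, |c x| ≤ B) → ∑ x ∈ U, c x • X x = 0 → ∀ x ∈ U, c x = 0

/-- minimal non-dissociated set -/
def Circ {ι P : Type} [DecidableEq ι] {Q : ℕ} (X : ι → P → ZMod Q) (B : ℕ) (C : Finset ι) : Prop :=
  ¬ Dis X B C ∧ ∀ x ∈ C, Dis X B (C.erase x)

noncomputable def Phi {ι P : Type} [DecidableEq ι] {Q : ℕ} (X : ι → P → ZMod Q) (B u : ℕ)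
    (A : Finset ι) (w : ι → ℝ) (V : ℝ) : ℝ := Fam (Circ X B) u A w V

noncomputable def Nu {ι P : Type} {Q : ℕ} (X : ι → P → ZMod Q) (B u : ℕ)
    (A : Finset ι) (w : ι → ℝ) (V : ℝ) : ℝ := Fam (fun C => ¬ Dis X B C) u A w V

/-- the hash value of `x` -/
def val {ι P : Type} [Fintype P] {Q : ℕ} (X : ι → P → ZMod Q) (θ : P → ZMod Q) (x : ι) : ZMod Q :=
  ∑ p, θ p * X x p

/-- real trigonometric polynomial of degree `≤ B` on `ZMod Q` -/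
def Trig (Q : ℕ) [NeZero Q] (B : ℕ) (f : ZMod Q → ℝ) : Prop :=
  ∃ a : ℤ → ℂ, ∀ u : ZMod Q,
    (f u : ℂ) = ∑ w ∈ Finset.Icc (-(B : ℤ)) B, a w * ZMod.stdAddChar ((w : ZMod Q) * u)

/-- TRIG: closure properties, uniform marginals, independence on dissociated sets
(expand the product; `av_θ χ(∑_p θ p * y p) = [y = 0]`). -/
def TrigStmt : Prop := ∀ (Q : ℕ) [NeZero Q],
  (∀ (B B' : ℕ) (f : ZMod Q → ℝ), B ≤ B' → Trig Q B f → Trig Q B' f) ∧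
  (∀ (B : ℕ) (f : ZMod Q → ℝ) (c : ℝ), Trig Q B f → Trig Q B (fun u => f u - c)) ∧
  (∀ (B : ℕ) (f g : ZMod Q → ℝ), Trig Q B f → Trig Q B g → Trig Q (2 * B) (fun u => f u * g u)) ∧
  (∀ (ι P : Type) [Fintype P] [DecidableEq P] (X : ι → P → ZMod Q) (x : ι) (p0 : P), X x p0 = 1 →
      ∀ f : ZMod Q → ℝ, av (fun θ : P → ZMod Q => f (val X θ x)) = av f) ∧
  (∀ (ι P : Type) [Fintype P] [DecidableEq P] (X : ι → P → ZMod Q) (B : ℕ) (U : Finset ι)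
      (f : ι → ZMod Q → ℝ), B < Q → Dis X B U → (∀ x ∈ U, Trig Q B (f x)) →
      av (fun θ : P → ZMod Q => ∏ x ∈ U, f x (val X θ x)) = ∏ x ∈ U, av (f x))

/-- FEJ: trigonometric minorant and majorant of a step function `φ u = F (u.val / c)` (`G` steps of
length `c`).  `K` = Fejér kernel of order `B` (mean 1, mean of `K(u)(1 - cos(2πu/Q))` is `1/B`, so
the mass `τ` of `K` outside the cyclic window `|u| ≤ ρ := ⌊δ c/4⌋` is `≤ 2G²/(δ²B)`, using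
`1 - cos(2πx) ≥ 8x²` for `|x| ≤ 1/2`); `m = av φ`, `φ ≤ G m`; `φ⁻ = φ·1[ρ-interior of its step]`,
`φ⁺ = ∑_a F a ·1[within ρ of step a]`; `lo = K*φ⁻ - τ G m`, `hi = K*φ⁺ + τ G m`. -/
def FejStmt : Prop := ∀ (Q c G B : ℕ) [NeZero Q] (F : ℕ → ℝ) (δ : ℝ), Q = c * G →
    (∀ a, 0 ≤ F a) → 0 < δ → δ ≤ 1 / 2 → 32 * (G : ℝ) ^ 3 ≤ δ ^ 3 * B → B < Q →
    ∃ lo hi : ZMod Q → ℝ, Trig Q B lo ∧ Trig Q B hi ∧
      (∀ u, lo u ≤ F (u.val / c) ∧ F (u.val / c) ≤ hi u) ∧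
      (1 - δ) * av (fun u : ZMod Q => F (u.val / c)) ≤ av lo ∧
      av hi ≤ (1 + δ) * av (fun u : ZMod Q => F (u.val / c)) ∧
      (∀ s : ℝ, (∀ a, a < G → F a ≤ s) → ∀ u, |lo u| ≤ s) ∧
      av (fun u => |lo u|) ≤ 2 * av (fun u : ZMod Q => F (u.val / c))

/-- LT: lower tail from moments over *distinct* points.  Colour `A` uniformly with `T` colours.  With
probability `≥ 1/2` over the colouring, `∑_c (μ(A_c) - ∑μ/T)² ≤ 2 S2` (Markov), and then any `< t`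
classes carry `μ`-mass `≤ t ∑μ/T + √(2 t S2)`.  On the event at least `t` classes have
`Z(A_c) < -ϑ` (other classes contribute `≥ μ(A_c) - ϑ`, bad ones `≥ 0`), so
`1 ≤ ∑_{|C| = t} ∏_{c ∈ C} (Z(A_c)/ϑ)²`; expand, average over colouring and `ω`. -/
def LTStmt : Prop := ∀ (ι Ω : Type) [DecidableEq ι] [Fintype Ω] [Nonempty Ω] (A : Finset ι)
    (X Y : ι → Ω → ℝ) (μ : ι → ℝ) (S2 ϑ : ℝ) (t T : ℕ) (β : Finset ι → ℕ → ℝ),
    (∀ x ∈ A, ∀ ω, 0 ≤ X x ω ∧ Y x ω ≤ X x ω) → (∀ x ∈ A, 0 ≤ μ x) →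
    ∑ x ∈ A, μ x ^ 2 ≤ S2 → 1 ≤ t → t ≤ T → 0 < ϑ →
    (∀ (i : ℕ) (U D : Finset ι), i ≤ t → U ⊆ A → D ⊆ U → U.card = t + i → D.card = t - i →
        |av (fun ω => (∏ x ∈ D, (Y x ω - μ x) ^ 2) * ∏ x ∈ U \ D, (Y x ω - μ x))| ≤ β U i) →
    prob (fun ω => ∑ x ∈ A, X x ω <
        ∑ x ∈ A, μ x - t * (∑ x ∈ A, μ x) / T - Real.sqrt (2 * t * S2) - T * ϑ) ≤
      2 * (T.choose t : ℝ) / ϑ ^ (2 * t) * ∑ i ∈ range (t + 1),
        (t.choose i : ℝ) * ((t + i).factorial : ℝ) / (T : ℝ) ^ (t + i) *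
          ∑ U ∈ A.powersetCard (t + i), β U i

/-- the martingale tree of one point -/
structure Tree (G : ℕ → ℕ) (M : ℕ) (W : (ℕ → ℕ) → ℕ → ℝ) : Prop where
  nonneg : ∀ j l, 0 ≤ W j l
  le : ∀ j l, l ≤ M → W j l ≤ (1 / 2) ^ l
  avg : ∀ j l, l < M → W j (l + 1) = (∑ a ∈ range (G l), W (Function.update j l a) l) / G l

/-- new labels after drawing `θ` at level `l` -/
def relab {ι P : Type} [Fintype P] {Q : ℕ} (X : ι → P → ZMod Q) (G : ℕ → ℕ) (l : ℕ)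
    (lab : ι → ℕ → ℕ) (θ : P → ZMod Q) : ι → ℕ → ℕ :=
  fun x => Function.update (lab x) l ((val X θ x).val / (Q / G l))

open Classical in
/-- failure probability when the levels `< l` are still to be drawn -/
noncomputable def fail {ι P : Type} [Fintype P] [DecidableEq P] {Q : ℕ} [NeZero Q]
    (X : ι → P → ZMod Q) (G : ℕ → ℕ) (W : ι → (ℕ → ℕ) → ℕ → ℝ) (A : Finset ι) :
    ℕ → (ι → ℕ → ℕ) → ℝ
  | 0, lab => if ∀ x ∈ A, W x (lab x) 0 = 0 then 1 else 0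
  | l + 1, lab => av (fun θ : P → ZMod Q => fail X G W A l (relab X G l lab θ))

/-- all labels at once -/
def labs {ι P : Type} [Fintype P] {Q : ℕ} (X : ι → P → ZMod Q) (G : ℕ → ℕ) {M : ℕ}
    (θ : Fin M → P → ZMod Q) (x : ι) : ℕ → ℕ :=
  fun l => if h : l < M then (val X (θ ⟨l, h⟩) x).val / (Q / G l) else 0

/-- LINK (generalise over the starting labels; induction on `M` with `Fin.snocEquiv`). -/
def LinkStmt : Prop := ∀ (ι P : Type) [Fintype P] [DecidableEq P] (Q : ℕ) [NeZero Q]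
    (X : ι → P → ZMod Q) (G : ℕ → ℕ) (W : ι → (ℕ → ℕ) → ℕ → ℝ) (A : Finset ι) (M : ℕ),
    prob (fun θ : Fin M → P → ZMod Q => ∀ x ∈ A, W x (labs X G θ x) 0 = 0) =
      fail X G W A M (fun _ _ => 0)

/-- the statement carried through the levels -/
def Lev {ι P : Type} [DecidableEq ι] [Fintype P] [DecidableEq P] {Q : ℕ} [NeZero Q]
    (X : ι → P → ZMod Q) (G : ℕ → ℕ) (W : ι → (ℕ → ℕ) → ℕ → ℝ) (l : ℕ) (V α β : ℝ) (B u : ℕ) : Prop :=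
  ∀ (A : Finset ι) (lab : ι → ℕ → ℕ), V ≤ ∑ x ∈ A, W x (lab x) l → ∑ x ∈ A, W x (lab x) l ≤ V + 1 →
    fail X G W A l lab ≤ α + β * Phi X B u A (fun x => W x (lab x) l) (V + 1)

noncomputable def mainT (l t T : ℕ) (δ V : ℝ) : ℝ :=
  2 * (T.choose t : ℝ) * (6 * (1 / 2) ^ l * T * (V + 1) / (δ ^ 2 * V ^ 2)) ^ t

noncomputable def errT (g t T : ℕ) (δ V : ℝ) : ℝ :=
  2 * (T.choose t : ℝ) * 2 ^ t * (4 * g * (V + 1) / (δ * V)) ^ (2 * t)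

/-- STAGE (from SUB, TRIG, FEJ, LT).  `w x = W x (lab x) (l+1) = av φ_x`,
`φ_x u = W x (update (lab x) l (u.val/c)) l ≤ min (2^-l) (G w x)`, `c = Q / G l`.
LT with `X = φ_x(val)`, `Y = lo_x(val)`, `μ = av lo_x ∈ [(1-δ)w, w]`, `S2 = 2^-l V`, `ϑ = δV/T`:
threshold `≥ (1-4δ)V`.  `β U i` = `(6·2^-l)^t w(U)` if `i = 0` / `0` if `i > 0` when `U` is
`2B`-dissociated (`|Z| ≤ 2·2^-l`, `av|Z| ≤ 3w`), else `(2·2^-l)^(t-i) (2G)^(t+i) w(U)` and SUB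
(a non-dissociated set contains a `Circ`).  If the new mass is `≥ V'`, trim `A` to mass in
`[V', V'+1]` (weights `≤ 1`; `fail` is antitone in `A`, `Phi` monotone) and use the hypothesis;
`av_θ` of the new weight of a circuit `C ∋ x0` is `≤ G (1+δ)^|C| w(C)` (`hi` on `C.erase x0`). -/
def StageStmt : Prop := ∀ (ι P : Type) [DecidableEq ι] [Fintype P] [DecidableEq P] (Q : ℕ) [NeZero Q]
    (X : ι → P → ZMod Q) (p0 : P) (G : ℕ → ℕ) (M : ℕ) (W : ι → (ℕ → ℕ) → ℕ → ℝ) (l B t T : ℕ)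
    (V δ α β : ℝ), (∀ x, X x p0 = 1) → (∀ x, Tree G M (W x)) → l < M → G l ∣ Q →
    0 < δ → δ ≤ 1 / 8 → 32 * (G l : ℝ) ^ 3 ≤ δ ^ 3 * B → 2 * B < Q → 1 ≤ V →
    1 ≤ t → (t : ℝ) ≤ δ * T → 4 * t * (1 / 2) ^ l ≤ δ ^ 2 * V → 2 * (1 / 2) ^ l * T ≤ V + 1 →
    0 ≤ α → 0 ≤ β → Lev X G W l ((1 - 4 * δ) * V) α β (2 * B) (2 * t) →
    Lev X G W (l + 1) V (α + mainT l t T δ V)
      (errT (G l) t T δ V + β * G l * ((1 + δ) * (V + 1) / ((1 - 4 * δ) * V + 1)) ^ (2 * t))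
      (2 * B) (2 * t)

/-- BND (from SUB): long circuits against short ones.  Size `j ≤ 2s`: a `B''`-circuit contains a
`B'`-circuit, SUB.  Size `j > 2s`: order the circuit, fix its coefficients `c` (all non-zero by
minimality, `≤ (2B''+1)^j` choices) and the last `j - 2s` points; Cauchy–Schwarz on the two blocks
of `s` points gives `√(E c₁ · E c₂)`, `E c = ∑_{x,x' injective s-tuples, ∑ c x = ∑ c x'} w(x) w(x')`;
pairs with the same image give `≤ V^s s! Wb^s`, the others have a non-`B'`-dissociated union of size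
`s + i ≤ 2s`, total `≤ (s+1) 64^s V^(2s) Φ'` by SUB. -/
def BndStmt : Prop := ∀ (ι P : Type) [DecidableEq ι] (Q : ℕ) (X : ι → P → ZMod Q) (A : Finset ι)
    (w : ι → ℝ) (Wb V : ℝ) (B'' B' u s : ℕ), 0 < V → (∀ x ∈ A, 0 ≤ w x ∧ w x ≤ Wb) →
    ∑ x ∈ A, w x ≤ V → 0 ≤ Wb → 2 * B'' ≤ B' → 2 * s * Wb ≤ V →
    Phi X B'' u A w V ≤ (u + 1) * (2 ^ u * Phi X B' (2 * s) A w V + (2 * B'' + 1) ^ u *
      ((s * Wb / V) ^ s + (s + 1) * 64 ^ s * Phi X B' (2 * s) A w V))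

/-- a schedule: stage `l` (from level `l+1` to level `l`) uses `B l, t l, T l, δ l` -/
structure Sched (G : ℕ → ℕ) (M Q : ℕ) (V δ α β : ℕ → ℝ) (B t T : ℕ → ℕ) : Prop where
  V1 : ∀ l ≤ M, 1 ≤ V l
  Vrec : ∀ l < M, V l = (1 - 4 * δ l) * V (l + 1)
  δ0 : ∀ l < M, 0 < δ l ∧ δ l ≤ 1 / 8
  Bbig : ∀ l < M, 32 * (G l : ℝ) ^ 3 ≤ δ l ^ 3 * B l
  BQ : ∀ l < M, 2 * B l < Q
  t1 : ∀ l < M, 1 ≤ t l
  tT : ∀ l < M, (t l : ℝ) ≤ δ l * T l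
  tV : ∀ l < M, 4 * t l * (1 / 2) ^ l ≤ δ l ^ 2 * V (l + 1)
  TV : ∀ l < M, 2 * (1 / 2) ^ l * T l ≤ V (l + 1) + 1
  α0 : 0 ≤ α 0
  β0 : 0 ≤ β 0
  step : ∀ l < M, ∃ α' β' : ℝ,
    α l + mainT l (t l) (T l) (δ l) (V (l + 1)) ≤ α' ∧
    errT (G l) (t l) (T l) (δ l) (V (l + 1)) +
      β l * G l * ((1 + δ l) * (V (l + 1) + 1) / (V l + 1)) ^ (2 * t l) ≤ β' ∧
    ((B (l + 1) = B l ∧ t (l + 1) = t l ∧ α' ≤ α (l + 1) ∧ β' ≤ β (l + 1)) ∨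
     (2 * B l ≤ B (l + 1) ∧ 2 * t (l + 1) * (1 / 2 : ℝ) ^ (l + 1) ≤ V (l + 1) + 1 ∧
      α' + β' * (2 * t l + 1) * (4 * B l + 1) ^ (2 * t l) *
        (t (l + 1) * (1 / 2) ^ (l + 1) / (V (l + 1) + 1)) ^ t (l + 1) ≤ α (l + 1) ∧
      β' * (2 * t l + 1) * (2 ^ (2 * t l) +
        (4 * B l + 1) ^ (2 * t l) * (t (l + 1) + 1) * 64 ^ t (l + 1)) ≤ β (l + 1)))

/-- CIND (from STAGE, BND): induction over the levels (level 0: mass `≥ 1 > 0`, so `fail = 0`). -/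
def CindStmt : Prop := ∀ (ι P : Type) [DecidableEq ι] [Fintype P] [DecidableEq P] (Q : ℕ) [NeZero Q]
    (X : ι → P → ZMod Q) (p0 : P) (G : ℕ → ℕ) (M : ℕ) (W : ι → (ℕ → ℕ) → ℕ → ℝ)
    (V δ α β : ℕ → ℝ) (B t T : ℕ → ℕ), (∀ x, X x p0 = 1) → (∀ x, Tree G M (W x)) →
    (∀ l < M, G l ∣ Q) → Sched G M Q V δ α β B t T →
    Lev X G W M (V M) (α M) (β M) (2 * B M) (2 * t M)

/-- SCHED (pure numerics).  Groups `g l = max g0 (Nat.size l)` for `l < M` (`g ≤ J`, group `g > g0` has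
`2^(g-1)` levels, all `≥ 2^(g-1)`), level `M` copies the parameters of level `M-1`;
`t = ⌈16Γ/2^g⌉`, `δ = 4^(-g)/64`, `T = ⌈t/δ⌉`, `B = ⌈32 (c1 2^(10 g))³/δ³⌉` (`l+1 ≤ 2^g`),
`V l = C0 Γ ∏_{l ≤ l' < M} (1 - 4δ l') ≥ C0Γ/2`.  `C(T,t) ≤ (eT/t)^t`, `mainT ≤ 2 e^(-2Γ)`
(`g = g0`: `C0` large; `g > g0`: `2^(-l t)`), `errT = exp(O(g t_g))`, the BND factors are
`exp(O(g t_g))` once per group with `∑_{g ≥ g0} g t_g ≤ Γ·o(1) + J²`, and the BND additive term is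
`≤ e^Γ · e^(small Γ) · 2^(-8Γ)`.  One may take `β l = exp(b l)` with an explicit increasing `b`. -/
def SchedStmt : Prop := ∀ c1 : ℝ, 1 ≤ c1 → ∃ (c2 C0 Γ0 : ℝ) (J0 : ℕ), 1 ≤ c2 ∧ 1 ≤ C0 ∧
    ∀ (Γ : ℝ) (J Q : ℕ) (G : ℕ → ℕ), Γ0 ≤ Γ → J0 ≤ J → (2 : ℝ) ^ J ≤ Γ →
      (2 : ℝ) ^ J * (Real.log c1 + 10 * Real.log (2 ^ J + 1) + 1) ≤ Γ / 8 →
      (∀ l, 1 ≤ G l ∧ (G l : ℝ) ≤ c1 * (l + 1) ^ 10) → c2 * (2 ^ J) ^ 36 ≤ Q →
      ∃ (V δ α β : ℕ → ℝ) (B t T : ℕ → ℕ), Sched G (2 ^ J) Q V δ α β B t T ∧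
        V (2 ^ J) = C0 * Γ ∧ α (2 ^ J) ≤ Real.exp (-Γ) ∧ β (2 ^ J) ≤ Real.exp Γ ∧
        0 ≤ β (2 ^ J) ∧ (2 * B (2 ^ J) : ℝ) ≤ c2 * (2 ^ J) ^ 36 ∧
        (2 * t (2 ^ J) : ℝ) ≤ c2 * Γ / 2 ^ J

/-- CORE (from LINK, CIND, SCHED; `Phi ≤ Nu`, `Nu` monotone in `B` and `u`). -/
def CoreStmt : Prop := ∀ c1 : ℝ, 1 ≤ c1 → ∃ (c2 C0 Γ0 : ℝ) (J0 : ℕ), 1 ≤ c2 ∧ 1 ≤ C0 ∧
    ∀ (Γ : ℝ) (J Q : ℕ) [NeZero Q] (G : ℕ → ℕ), Γ0 ≤ Γ → J0 ≤ J → (2 : ℝ) ^ J ≤ Γ →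
      (2 : ℝ) ^ J * (Real.log c1 + 10 * Real.log (2 ^ J + 1) + 1) ≤ Γ / 8 →
      (∀ l, 1 ≤ G l ∧ (G l : ℝ) ≤ c1 * (l + 1) ^ 10) → (∀ l < 2 ^ J, G l ∣ Q) →
      c2 * (2 ^ J) ^ 36 ≤ Q →
      ∀ (ι P : Type) [DecidableEq ι] [Fintype P] [DecidableEq P] (X : ι → P → ZMod Q) (p0 : P)
        (W : ι → (ℕ → ℕ) → ℕ → ℝ) (A : Finset ι) (B u : ℕ),
        (∀ x, X x p0 = 1) → (∀ x, Tree G (2 ^ J) (W x)) →
        c2 * (2 ^ J) ^ 36 ≤ B → c2 * Γ / 2 ^ J ≤ u →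
        C0 * Γ ≤ ∑ x ∈ A, W x (fun _ => 0) (2 ^ J) → ∑ x ∈ A, W x (fun _ => 0) (2 ^ J) ≤ C0 * Γ + 1 →
        prob (fun θ : Fin (2 ^ J) → P → ZMod Q => ∀ x ∈ A, W x (labs X G θ x) 0 = 0) ≤
          Real.exp (-Γ) + Real.exp Γ * Nu X B u A (fun x => W x (fun _ => 0) (2 ^ J)) (C0 * Γ + 1)

/-- the window property of a set of cells -/
def Window {M : ℕ} (G : ℕ → ℕ) (C : Finset (Fin M → ℤ)) : Prop :=
  ∀ j ∈ C, ∀ j' ∈ C, ∀ l : Fin M, (∀ l' : Fin M, l < l' → j l' = j' l') → 2 * |j l - j' l| < G l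

/-- TREE: `W lab 0 = 1[∃ j ∈ C, ∀ l, lab l ≡ j l mod G l]`, `W lab (l+1)` the average.  Cells that
agree mod `G` on all levels `≥ l` agree there exactly (downward induction), so at most `G l / 2`
residues at level `l` give a non-zero value, and `j ↦ j mod G` is injective on `C`. -/
def TreeStmt : Prop := ∀ (M : ℕ) (G : ℕ → ℕ) (C : Finset (Fin M → ℤ)),
    (∀ l, 0 < G l ∧ Even (G l)) → Window G C →
    ∃ W : (ℕ → ℕ) → ℕ → ℝ, Tree G M W ∧ (∀ lab, W lab M = C.card / ∏ l : Fin M, (G l : ℝ)) ∧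
      ∀ lab, W lab 0 ≠ 0 → ∃ j ∈ C, ∀ l : Fin M, ((lab l : ℕ) : ℤ) ≡ j l [ZMOD G l]

/-- AMP: amplification by independent shifts (pick `ω` with small bad density, then average the number
of `γ` with all `d+1` shifts bad over `ξ`). -/
def AmpStmt : Prop := ∀ (Ω Γ R : Type) [Fintype Ω] [Nonempty Ω] [Fintype Γ] [AddCommGroup Γ]
    (Rows : Finset R) (Good : R → Ω → Γ → Prop) (d : ℕ) (φ : ℝ),
    (∀ b ∈ Rows, prob (fun z : Ω × Γ => ¬ Good b z.1 z.2) ≤ φ) →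
    (Fintype.card Γ : ℝ) * (Rows.card * φ) ^ (d + 1) < 1 →
    ∃ (ω : Ω) (ξ : Fin d → Γ), ∀ γ : Γ, ∃ o : Option (Fin d),
      ∀ b ∈ Rows, Good b ω (γ - o.elim 0 ξ)

/-- realises equation lemmas once, here -/
theorem eqnsA : True := by
  have _h0 := @av.eq_1
  have _h1 := @val.eq_1
  trivial

end Crest.Agent.R225.Up
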