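import Crest.Agent.R225.UpSub

/-!
# Row 225: uniform averages, elementary properties of `fail`
-/

open Finset

set_option linter.unusedSectionVars false

namespace Crest.Agent.R225.Up

namespace SB

section av
variable {Ω Ω' : Type} [Fintype Ω] [Fintype Ω']

lemma av_mono {f g : Ω → ℝ} (h : ∀ ω, f ω ≤ g ω) : av f ≤ av g :=
  div_le_div_of_nonneg_right (Finset.sum_le_sum fun ω _ => h ω) (Nat.cast_nonneg _)

lemma av_congr {f g : Ω → ℝ} (h : ∀ ω, f ω = g ω) : av f = av g := by rw [funext h]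

lemma av_nonneg {f : Ω → ℝ} (h : ∀ ω, 0 ≤ f ω) : 0 ≤ av f :=
  div_nonneg (Finset.sum_nonneg fun ω _ => h ω) (Nat.cast_nonneg _)

lemma av_const [Nonempty Ω] (c : ℝ) : av (fun _ : Ω => c) = c := by
  have : (Fintype.card Ω : ℝ) ≠ 0 := by exact_mod_cast Fintype.card_ne_zero
  simp only [av, Finset.sum_const, Finset.card_univ, nsmul_eq_mul]
  field_simp

lemma av_add (f g : Ω → ℝ) : av (fun ω => f ω + g ω) = av f + av g := by
  simp only [av, Finset.sum_add_distrib, add_div]

lemma av_sub (f g : Ω → ℝ) : av (fun ω => f ω - g ω) = av f - av g := by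
  simp only [av, Finset.sum_sub_distrib, sub_div]

lemma av_const_mul (c : ℝ) (f : Ω → ℝ) : av (fun ω => c * f ω) = c * av f := by
  simp only [av, ← Finset.mul_sum, mul_div_assoc]

lemma av_sum {ι : Type} (s : Finset ι) (f : ι → Ω → ℝ) :
    av (fun ω => ∑ i ∈ s, f i ω) = ∑ i ∈ s, av (f i) := by
  simp only [av, ← Finset.sum_div]
  rw [Finset.sum_comm]

lemma av_le_const [Nonempty Ω] {f : Ω → ℝ} {c : ℝ} (h : ∀ ω, f ω ≤ c) : av f ≤ c :=
  (av_mono h).trans (av_const c).le

lemma abs_av_le [Nonempty Ω] {f : Ω → ℝ} {c : ℝ} (h : ∀ ω, |f ω| ≤ c) : |av f| ≤ c := by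
  rw [abs_le]
  refine ⟨?_, av_le_const fun ω => (abs_le.mp (h ω)).2⟩
  rw [← av_const (Ω := Ω) (-c)]
  exact av_mono fun ω => (abs_le.mp (h ω)).1

lemma av_equiv (e : Ω ≃ Ω') (f : Ω' → ℝ) : av (fun ω => f (e ω)) = av f := by
  simp only [av]
  rw [e.sum_comp f, Fintype.card_congr e]

lemma av_prod (f : Ω × Ω' → ℝ) : av f = av (fun a => av (fun b => f (a, b))) := by
  simp only [av, Fintype.sum_prod_type, Fintype.card_prod, ← Finset.sum_div]
  push_cast
  rw [div_div, mul_comm]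

lemma prob_eq (E : Ω → Prop) : prob E = av (fun ω => ind (E ω)) := rfl

end av

section fail
variable {ι P : Type} [Fintype P] [DecidableEq P] {Q : ℕ} [NeZero Q]
    (X : ι → P → ZMod Q) (G : ℕ → ℕ) (W : ι → (ℕ → ℕ) → ℕ → ℝ)

lemma fail_zero (A : Finset ι) (lab : ι → ℕ → ℕ) :
    fail X G W A 0 lab = ind (∀ x ∈ A, W x (lab x) 0 = 0) := by
  rw [fail, ite_eq_ind, mul_one]

lemma fail_le_one (A : Finset ι) (l : ℕ) (lab : ι → ℕ → ℕ) : fail X G W A l lab ≤ 1 := by
  induction l generalizing lab with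
  | zero => rw [fail_zero]; exact ind_le_one _
  | succ l ih => rw [fail]; exact av_le_const fun θ => ih _

lemma fail_anti {A A' : Finset ι} (h : A' ⊆ A) (l : ℕ) (lab : ι → ℕ → ℕ) :
    fail X G W A l lab ≤ fail X G W A' l lab := by
  induction l generalizing lab with
  | zero => rw [fail_zero, fail_zero]; exact ind_mono fun h' x hx => h' x (h hx)
  | succ l ih => rw [fail, fail]; exact av_mono fun θ => ih _

end fail

end SB

end Crest.Agent.R225.Up
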