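import Crest.Agent.R225.UpA

/-!
# Row 225, S0347, part B: the random construction-A lattice

Points of `Pt q P R = (P → ZMod q) × (R → ZMod q)`; a uniformly random matrix `Gm : R → P → ZMod q`
keeps the points with `Gm x.1 = x.2` (probability `π0 = q^(-|R|)`).
-/

open Finset

namespace Crest.Agent.R225.Up

abbrev Pt (q : ℕ) (P R : Type) := (P → ZMod q) × (R → ZMod q)

def mem {q : ℕ} {P R : Type} [Fintype P] (Gm : R → P → ZMod q) (x : Pt q P R) : Prop :=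
  ∀ i, ∑ p, Gm i p * x.1 p = x.2 i

open Classical in
/-- indicator of `mem` -/
noncomputable def ind {q : ℕ} {P R : Type} [Fintype P] (Gm : R → P → ZMod q) (x : Pt q P R) : ℝ :=
  if mem Gm x then 1 else 0

/-- `q^(-|R|)` -/
noncomputable def pi0 (q : ℕ) (R : Type) [Fintype R] : ℝ := (1 / (q : ℝ)) ^ Fintype.card R

/-- iterated self-convolution of the autocorrelation: `gpw w i 0` is the `2^i`-fold additive energy -/
noncomputable def gpw {E : Type} [Fintype E] [AddCommGroup E] (w : E → ℝ) : ℕ → E → ℝ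
  | 0 => fun z => ∑ x, w x * w (x + z)
  | i + 1 => fun z => ∑ x, gpw w i x * gpw w i (z - x)

/-- realises the equation lemmas of `gpw` once, here -/
theorem gpw_eqns : True := by
  have _h0 := @gpw.eq_def
  have _h1 := @gpw.eq_1
  have _h2 := @gpw.eq_2
  trivial

/-- one linear constraint costs `b ϱ^(…)` -/
def Step (q : ℕ) {E : Type} [Fintype E] [AddCommGroup E] [Module (ZMod q) E] (w : E → ℝ)
    (a b ϱ : ℝ) (n : ℕ) : Prop :=
  ∀ (D : Type) [Fintype D] [DecidableEq D] [Nonempty D] (c : D → ZMod q) (z : E), (∀ i, c i ≠ 0) →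
    ∑ x : D → E, (∏ i, w (x i)) * w (z + ∑ i, c i • x i) ≤
      2 * a ^ Fintype.card D * b * ϱ ^ min (Fintype.card D - 1) n

/-- FOUR: Fourier on `E` (`AddChar E ℂ`).  With `s = |D|+1` the sum is
`≤ |E|⁻¹ ∑_χ |ŵ χ| ∏ |ŵ(c_i χ)| ≤ |E|⁻¹ ∑_χ |ŵ χ|^s` (AM-GM; `χ ↦ χ(c ·)` permutes the characters),
`|E|⁻¹ ∑ |ŵ|^2 = ∑ w² ≤ ab`, `|E|⁻¹ ∑ |ŵ|^(2·2^i) = gpw w i 0`, `|ŵ| ≤ a`; for `s < 2·2^i` split
at `|ŵ| ≤ ϱ a`. -/
def FourStmt : Prop := ∀ (q : ℕ) [Fact q.Prime] (E : Type) [Fintype E] [AddCommGroup E]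
    [Module (ZMod q) E] (w : E → ℝ) (a b ϱ : ℝ) (i : ℕ), (∀ x, 0 ≤ w x ∧ w x ≤ b) → ∑ x, w x = a →
    0 < a → 0 < ϱ → ϱ ≤ 1 → gpw w i 0 ≤ ϱ ^ (2 * 2 ^ i - 2) * a ^ (2 * 2 ^ i - 1) * b →
    Step q w a b ϱ (2 * 2 ^ i - 2)

open Classical in
/-- several constraints -/
def Typ (q : ℕ) {E : Type} [Fintype E] [AddCommGroup E] [Module (ZMod q) E] (w : E → ℝ)
    (a b ϱ : ℝ) (n : ℕ) : Prop :=
  ∀ (D J : Type) [Fintype D] [DecidableEq D] [Fintype J] (c : J → D → ZMod q),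
    ∑ x : D → E, (∏ i, w (x i)) * ∏ j, w (∑ i, c j i • x i) ≤
      a ^ Fintype.card D * (2 * b) ^ Fintype.card J *
        ϱ ^ min ((univ.filter (fun i => ∃ j, c j i ≠ 0)).card - Fintype.card J) n

/-- TYPE: induction on a finset of constraints; adding `j0`, sum out first the variables `D0` used by
`j0` and by no earlier constraint (`Step`, or `w ≤ b` if `D0 = ∅`); the remaining sum is the old
one divided by `a^|D0|`. -/
def TypeStmt : Prop := ∀ (q : ℕ) (E : Type) [Fintype E] [AddCommGroup E] [Module (ZMod q) E]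
    (w : E → ℝ) (a b ϱ : ℝ) (n : ℕ), (∀ x, 0 ≤ w x ∧ w x ≤ b) → ∑ x, w x = a → 0 < a → 0 < ϱ →
    ϱ ≤ 1 → Step q w a b ϱ n → Typ q w a b ϱ n

open Classical in
/-- PROB: a coloop is independent of the rest (translate `Gm` by `y ⊗ ℓ`, `ℓ` a functional with
`ℓ x.1 = 1` killing the span); linearly independent points are all kept with probability `≤ π0^|D|`
(if the first components are dependent the event is empty). -/
def ProbStmt : Prop := ∀ (q : ℕ) [Fact q.Prime] (P R : Type) [Fintype P] [DecidableEq P] [Fintype R]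
    [DecidableEq R],
  (∀ (U : Finset (Pt q P R)) (x : Pt q P R) (F : Finset (Pt q P R) → ℝ),
      x.1 ∉ Submodule.span (ZMod q) (Prod.fst '' (U : Set (Pt q P R))) →
      av (fun Gm : R → P → ZMod q => ind Gm x * F (U.filter (mem Gm))) =
        pi0 q R * av (fun Gm : R → P → ZMod q => F (U.filter (mem Gm)))) ∧
  (∀ (D : Type) [Fintype D] (x : D → Pt q P R), LinearIndependent (ZMod q) x →
      prob (fun Gm : R → P → ZMod q => ∀ i, mem Gm (x i)) ≤ pi0 q R ^ Fintype.card D)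

open Classical in
/-- number of non-coloops (for the first components) -/
noncomputable def nc {q : ℕ} {P R : Type} (U : Finset (Pt q P R)) : ℕ :=
  (U.filter (fun x => x.1 ∈ Submodule.span (ZMod q) (Prod.fst '' (↑(U.erase x) : Set (Pt q P R))))).card

open Classical in
/-- ORD (from PROB).  Pass to injective tuples `x : Fin u → Pt`; `∏ (I+π0) = ∑_S π0^|Sᶜ| ∏_S I`; choose
`D ⊆ Fin u` such that the first components of `x|D` are a basis of those of `x`, extending a basis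
`D ∩ S` of those of `x|S` (`4^u` patterns `(S,D)`, `e = u - |D|`).  `av ∏_S I ≤ π0^|D ∩ S|` and vanishes
unless every point of `S \ D` is the *full* combination of `D ∩ S`.  `≤ q^(u e)` coefficient choices.
If `Sᶜ \ D ≠ ∅`, sum its second components using `ζ`; otherwise use `Typ` (non-coloops lie in the
extras or are covered, so `cov ≥ 2i - e`). -/
def OrdStmt : Prop := ∀ (q : ℕ) [Fact q.Prime] (P R : Type) [Fintype P] [DecidableEq P] [Fintype R]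
    [DecidableEq R] (w : Pt q P R → ℝ) (a b ϱ : ℝ) (n u i : ℕ), (∀ x, 0 ≤ w x ∧ w x ≤ b) →
    ∑ x, w x = a → 0 < ϱ → ϱ ≤ 1 → Typ q w a b ϱ n →
    (∀ v, pi0 q R * ∑ y, w (v, y) ≤ b * ϱ ^ n) →
    (u.factorial : ℝ) * ∑ U ∈ ((univ : Finset (Pt q P R)).powersetCard u).filter (fun U => 2 * i ≤ nc U),
        (∏ x ∈ U, w x) * av (fun Gm : R → P → ZMod q => ∏ x ∈ U, (ind Gm x + pi0 q R)) ≤
      4 ^ u * ∑ e ∈ range (u + 1),
        (a * pi0 q R) ^ (u - e) * (2 * b * (q : ℝ) ^ u) ^ e * ϱ ^ min (2 * i - 2 * e) n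

/-- MASS (from LT, PROB, ORD): `t = 4t'`, `T = 8t`, `X = Y = w·I`, `μ_x = w x π0`, `S2 = bμ`,
`ϑ = μ/(8T)`, `β U i = b^(t-i) w(U) av ∏(I+π0) · [2i ≤ nc U]` (a coloop in `U \ D` kills the term). -/
def MassStmt : Prop := ∀ (q : ℕ) [Fact q.Prime] (P R : Type) [Fintype P] [DecidableEq P] [Fintype R]
    [DecidableEq R] (w : Pt q P R → ℝ) (a b ϱ β' : ℝ) (n t' : ℕ), (∀ x, 0 ≤ w x ∧ w x ≤ b) →
    ∑ x, w x = a → 0 < ϱ → ϱ ≤ 1 → Typ q w a b ϱ n →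
    (∀ v, pi0 q R * ∑ y, w (v, y) ≤ b * ϱ ^ n) →
    1 ≤ t' → 4 ≤ a * pi0 q R → 2 * b * (q : ℝ) ^ (8 * t') ≤ β' → 32 * t' * b ≤ β' → β' ≤ 1 →
    n ≤ 6 * t' →
    prob (fun Gm : R → P → ZMod q => ∑ x, w x * ind Gm x < a * pi0 q R / 2) ≤
      2 ^ (88 * t') * (β' ^ t' + ϱ ^ n)

open Classical in
/-- many extra points in the span of few independent points -/
def Bad1 (q : ℕ) {E : Type} [AddCommGroup E] [Module (ZMod q) E] (L : Finset E) (u0 ρ : ℕ) : Prop :=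
  ∃ (D : Finset E) (c : Fin ρ → E → ZMod q), D ⊆ L ∧ D.card ≤ u0 ∧
    LinearIndepOn (ZMod q) id (D : Set E) ∧ (∀ j, ∑ x ∈ D, c j x • x ∈ L) ∧
    2 * ρ ≤ (D.filter (fun x => ∃ j, c j x ≠ 0)).card

/-- many pairs `x, z + c x` -/
def Bad2 (q : ℕ) {E : Type} [AddCommGroup E] [Module (ZMod q) E] (L : Finset E) (N : ℕ) : Prop :=
  ∃ (c : ZMod q) (z : E) (x : Fin (N + 1) → E), c ≠ 0 ∧ (∀ i, x i ∈ L ∧ z + c • x i ∈ L) ∧
    LinearIndependent (ZMod q) (Fin.cons (z + c • x 0) x : Fin (N + 2) → E)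

/-- CLEAN (deterministic).  Take a configuration as in `Bad1` with `e < ρ` extras, `|D| ≤ s e`,
`cov ≥ 2e`, `e` maximal.  `Del = (L ∩ span D) ∪ ⋃_{c ≠ 0, f ∈ span D} Pairs(c,f)`,
`Pairs(c,f) = {x ∈ L | f + c x ∈ L, f + c x ≠ x}`; `|Pairs| ≤ q^(N+1)` (two distinct points of `L` are
independent because of `ℓ`; greedy extension inside `Pairs` stops since `¬ Bad2`).  For a dependent
`C ⊆ L \ Del`, `|C| ≤ s`, take `C' ⊆ C` minimal with `D ∪ C'` dependent: `|C'| = 1, 2` contradict the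
deletion, `|C'| ≥ 3` extends the configuration. -/
def CleanStmt : Prop := ∀ (q : ℕ) [Fact q.Prime] (E : Type) [DecidableEq E] [AddCommGroup E]
    [Module (ZMod q) E] (L : Finset E) (ℓ : E →ₗ[ZMod q] ZMod q) (s ρ N : ℕ), (∀ x ∈ L, ℓ x = 1) →
    ¬ Bad1 q L (s * ρ) ρ → ¬ Bad2 q L N →
    ∃ Del : Finset E, Del.card ≤ 2 * q ^ (s * ρ + N + 2) ∧
      ∀ C ⊆ L \ Del, C.card ≤ s → LinearIndepOn (ZMod q) id (C : Set E)

open Classical in
/-- the kept points of the support -/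
noncomputable def Lat {q : ℕ} [NeZero q] {P R : Type} [Fintype P] [DecidableEq P] [Fintype R]
    [DecidableEq R] (w : Pt q P R → ℝ) (Gm : R → P → ZMod q) : Finset (Pt q P R) :=
  univ.filter (fun x => w x ≠ 0 ∧ mem Gm x)

/-- BAD1 (from PROB): union bound over `d = |D| ≤ u0`, orderings of `D`, coefficients; every point has
`1 ≤ w/wmin`; `Typ` with `cov - ρ ≥ ρ`. -/
def Bad1Stmt : Prop := ∀ (q : ℕ) [Fact q.Prime] (P R : Type) [Fintype P] [DecidableEq P] [Fintype R]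
    [DecidableEq R] (w : Pt q P R → ℝ) (a b ϱ wmin : ℝ) (u0 ρ : ℕ), (∀ x, 0 ≤ w x ∧ w x ≤ b) →
    0 < wmin → (∀ x, w x ≠ 0 → wmin ≤ w x) → 0 < ϱ → Typ q w a b ϱ ρ →
    2 * b ≤ a * pi0 q R → wmin ≤ a * pi0 q R →
    prob (fun Gm : R → P → ZMod q => Bad1 q (Lat w Gm) u0 ρ) ≤
      (u0 + 1) * (q : ℝ) ^ (u0 * ρ) * (a * pi0 q R / wmin) ^ (u0 + ρ) * ϱ ^ ρ

/-- BAD2 (from PROB). -/
def Bad2Stmt : Prop := ∀ (q : ℕ) [Fact q.Prime] (P R : Type) [Fintype P] [DecidableEq P] [Fintype R]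
    [DecidableEq R] (w : Pt q P R → ℝ) (a b ε2 wmin : ℝ) (N : ℕ), (∀ x, 0 ≤ w x ∧ w x ≤ b) →
    0 ≤ a → 0 < wmin → (∀ x, w x ≠ 0 → wmin ≤ w x) → 0 ≤ ε2 → b ≤ a * pi0 q R →
    (∀ c : ZMod q, c ≠ 0 → ∑ z, (∑ x, w x * w (z + c • x)) ^ (N + 1) ≤ ε2 * a ^ (N + 2) * b ^ N) →
    prob (fun Gm : R → P → ZMod q => Bad2 q (Lat w Gm) N) ≤
      q * ε2 * (a * pi0 q R / wmin) ^ (2 * N + 2)

/-- linear circuit -/
def LCirc (q : ℕ) {E : Type} [DecidableEq E] [AddCommGroup E] [Module (ZMod q) E] (C : Finset E) : Prop :=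
  ¬ LinearIndepOn (ZMod q) id (C : Set E) ∧ ∀ x ∈ C, LinearIndepOn (ZMod q) id (↑(C.erase x) : Set E)

/-- NU (from PROB): an ordered circuit of size `j` is an independent `(j-1)`-tuple and a combination
with all coefficients non-zero; `Step` with `z = 0`. -/
def NuStmt : Prop := ∀ (q : ℕ) [Fact q.Prime] (P R : Type) [Fintype P] [DecidableEq P] [Fintype R]
    [DecidableEq R] (w : Pt q P R → ℝ) (a b ϱ V Θ : ℝ) (n s u : ℕ), (∀ x, 0 ≤ w x ∧ w x ≤ b) →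
    0 ≤ a → 0 < ϱ → ϱ ≤ 1 → Step q w a b ϱ n → n + 1 ≤ s → 0 < V → 2 * b ≤ V → 1 ≤ Θ →
    a * pi0 q R ≤ Θ * V →
    av (fun Gm : R → P → ZMod q => Fam (fun C => s < C.card ∧ LCirc q C) u (Lat w Gm) w V) ≤
      (u + 1) * (q * Θ) ^ u * ϱ ^ n

/-- the properties of the weight on `Pt`; `m = 2^i` -/
structure Wt {q : ℕ} [NeZero q] {P R : Type} [Fintype P] [DecidableEq P] [Fintype R] [DecidableEq R]
    (w : Pt q P R → ℝ) (p0 : P) (a b wmin ϱ ε2 : ℝ) (i : ℕ) : Prop where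
  bd : ∀ x, 0 ≤ w x ∧ w x ≤ b
  sum : ∑ x, w x = a
  aff : ∀ x, w x ≠ 0 → x.1 p0 = 1
  wpos : 0 < wmin
  low : ∀ x, w x ≠ 0 → wmin ≤ w x
  r0 : 0 < ϱ
  r1 : ϱ ≤ 1
  e0 : 0 ≤ ε2
  energy : gpw w i 0 ≤ ϱ ^ (2 * 2 ^ i - 2) * a ^ (2 * 2 ^ i - 1) * b
  zeta : ∀ v, pi0 q R * ∑ y, w (v, y) ≤ b * ϱ ^ (2 * 2 ^ i - 2)
  pairs : ∀ c : ZMod q, c ≠ 0 →
    ∑ z, (∑ x, w x * w (z + c • x)) ^ (2 * 2 ^ i + 1) ≤ ε2 * a ^ (2 * 2 ^ i + 2) * b ^ (2 * 2 ^ i)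

/-- the error of the base stage; `s = 2m`, `μ ≤ μb` -/
noncomputable def baseErr (q s t' u : ℕ) (μb wmin ϱ ε2 β' Θ α β : ℝ) : ℝ :=
  α + 2 ^ (88 * t') * (β' ^ t' + ϱ ^ (s - 2)) +
    (s * (s - 2 : ℕ) + 1) * (q : ℝ) ^ (s * (s - 2) * (s - 2)) * (μb / wmin) ^ (s * (s - 2) + (s - 2)) *
      ϱ ^ (s - 2) +
    q * ε2 * (μb / wmin) ^ (2 * s + 2) + β * (u + 1) ^ 2 * (2 * q * Θ) ^ u * ϱ ^ (s - 2)

/-- BASE (from SUB, FOUR, TYPE, MASS, CLEAN, BAD1, BAD2, NU).  Outside the three bad events the kept mass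
is `≥ 2V`, `≥ V` after deleting `Del` (CLEAN with `s = N = 2m`, `ρ = 2m-2`, `ℓ x = x.1 p0`); trim to
`A` of mass in `[V, V+1]`.  A non-dissociated `C ⊆ A` is linearly dependent (reduce the relation mod
`q`, `B < q`, second components via `mem`), so contains an `LCirc` of size `> 2m`; SUB gives
`Nu ≤ (u+1) 2^u Fam(...) u (Lat w Gm) w (V+1)`; NU. -/
def BaseStmt : Prop := ∀ (q : ℕ) [Fact q.Prime] (P R : Type) [Fintype P] [DecidableEq P] [Fintype R]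
    [DecidableEq R] (w : Pt q P R → ℝ) (p0 : P) (a b wmin ϱ ε2 V Θ β' α β : ℝ) (i t' u B Q : ℕ)
    (hQ : q ∣ Q) (X : Pt q P R → P → ZMod Q) (Fl : Finset (Pt q P R) → ℝ),
    Wt w p0 a b wmin ϱ ε2 i →
    (∀ x, w x ≠ 0 → ∀ p, ZMod.castHom hQ (ZMod q) (X x p) = x.1 p) → B < q →
    1 ≤ t' → 2 * b * (q : ℝ) ^ (8 * t') ≤ β' → 32 * t' * b ≤ β' → β' ≤ 1 → 2 ^ i ≤ 3 * t' →
    1 ≤ V → 4 * V ≤ a * pi0 q R → a * pi0 q R ≤ Θ * V → 1 ≤ Θ →
    2 * (q : ℝ) ^ (2 * 2 ^ i * (2 * 2 ^ i - 2) + 2 * 2 ^ i + 2) * b ≤ V → 0 ≤ α → 0 ≤ β →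
    (∀ A, Fl A ≤ 1) → (∀ A A', A' ⊆ A → Fl A ≤ Fl A') →
    (∀ A, V ≤ ∑ x ∈ A, w x → ∑ x ∈ A, w x ≤ V + 1 → Fl A ≤ α + β * Nu X B u A w (V + 1)) →
    av (fun Gm : R → P → ZMod q => Fl (Lat w Gm)) ≤
      baseErr q (2 * 2 ^ i) t' u (Θ * V) wmin ϱ ε2 β' Θ α β

/-- realises equation lemmas once, here -/
theorem eqnsB : True := by
  have _h0 := @Lat.eq_1
  have _h1 := @pi0.eq_1
  have _h2 := @Lat.congr_simp
  have _h3 := @LCirc.congr_simp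
  trivial

end Crest.Agent.R225.Up
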