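import Crest.Agent.R225.UpB
import Crest.Agent.R225.UpAv

/-!
# Row 225, part B7: the base stage
-/

open Finset

set_option linter.unusedSectionVars false

namespace Crest.Agent.R225.Up

namespace BS

lemma trim {ι : Type} [DecidableEq ι] (w : ι → ℝ) (V : ℝ) (hV : 0 ≤ V) (A : Finset ι)
    (hw : ∀ x ∈ A, w x ≤ 1) (h : V ≤ ∑ x ∈ A, w x) :
    ∃ A' ⊆ A, V ≤ ∑ x ∈ A', w x ∧ ∑ x ∈ A', w x ≤ V + 1 := by
  induction A using Finset.induction_on with
  | empty => exact ⟨∅, subset_rfl, h, by simp; linarith⟩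
  | insert a A ha ih =>
    by_cases h2 : V ≤ ∑ x ∈ A, w x
    · obtain ⟨A', h3, h4⟩ := ih (fun x hx => hw x (Finset.mem_insert_of_mem hx)) h2
      exact ⟨A', h3.trans (Finset.subset_insert _ _), h4⟩
    · refine ⟨insert a A, subset_rfl, h, ?_⟩
      rw [Finset.sum_insert ha]
      have := hw a (Finset.mem_insert_self _ _)
      linarith

lemma exists_lcirc {q : ℕ} {E : Type} [DecidableEq E] [AddCommGroup E] [Module (ZMod q) E]
    (U : Finset E) (h : ¬ LinearIndepOn (ZMod q) id (U : Set E)) : ∃ C ⊆ U, LCirc q C := by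
  induction U using Finset.strongInduction with
  | H U ih =>
    by_cases h2 : ∀ x ∈ U, LinearIndepOn (ZMod q) id (↑(U.erase x) : Set E)
    · exact ⟨U, subset_rfl, h, h2⟩
    · push Not at h2
      obtain ⟨x, hx, hx'⟩ := h2
      obtain ⟨C, hC, hC'⟩ := ih _ (Finset.erase_ssubset hx) hx'
      exact ⟨C, hC.trans (Finset.erase_subset _ _), hC'⟩

section main
variable {q : ℕ} [Fact q.Prime] {P R : Type} [Fintype P] [DecidableEq P] [Fintype R]
    [DecidableEq R]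

lemma dep {Q B : ℕ} (hQ : q ∣ Q) (X : Pt q P R → P → ZMod Q) (w : Pt q P R → ℝ)
    (Gm : R → P → ZMod q)
    (hX : ∀ x, w x ≠ 0 → ∀ p, ZMod.castHom hQ (ZMod q) (X x p) = x.1 p) (hB : B < q)
    (U : Finset (Pt q P R)) (hU : U ⊆ Lat w Gm) (h : ¬ Dis X B U) :
    ¬ LinearIndepOn (ZMod q) id (U : Set (Pt q P R)) := by
  classical
  unfold Dis at h
  push Not at h
  obtain ⟨c, hc, hs, x0, hx0, hx0'⟩ := h
  have hL : ∀ x ∈ U, w x ≠ 0 ∧ mem Gm x := fun x hx => (Finset.mem_filter.mp (hU hx)).2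
  intro hI
  rw [linearIndepOn_finset_iff] at hI
  have h1 : ∀ p, ∑ x ∈ U, (c x : ZMod q) * x.1 p = 0 := by
    intro p
    have := congrArg (ZMod.castHom hQ (ZMod q)) (congrFun hs p)
    rw [Finset.sum_apply, map_sum, Pi.zero_apply, map_zero] at this
    rw [← this]
    refine Finset.sum_congr rfl fun x hx => ?_
    rw [Pi.smul_apply, zsmul_eq_mul, map_mul, map_intCast, hX x (hL x hx).1]
  have h2 : ∑ x ∈ U, (c x : ZMod q) • id x = 0 := by
    refine Prod.ext (funext fun p => ?_) (funext fun i => ?_)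
    · rw [Prod.fst_sum, Finset.sum_apply]
      exact h1 p
    · rw [Prod.snd_sum, Finset.sum_apply]
      have : ∀ x ∈ U, ((c x : ZMod q) • id x).2 i = ∑ p, Gm i p * ((c x : ZMod q) * x.1 p) := by
        intro x hx
        have := (hL x hx).2 i
        simp only [id, Prod.smul_snd, Pi.smul_apply, smul_eq_mul]
        rw [← this, Finset.mul_sum]
        exact Finset.sum_congr rfl fun p _ => by ring
      rw [Finset.sum_congr rfl this, Finset.sum_comm]
      refine Finset.sum_eq_zero fun p _ => ?_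
      rw [← Finset.mul_sum, h1, mul_zero]
  have h3 := hI _ h2 x0 hx0
  rw [ZMod.intCast_zmod_eq_zero_iff_dvd] at h3
  have h4 := Int.le_of_dvd (abs_pos.mpr hx0') ((dvd_abs _ _).mpr h3)
  have h5 := hc x0 hx0
  omega

lemma mass_eq (w : Pt q P R → ℝ) (Gm : R → P → ZMod q) :
    ∑ x ∈ Lat w Gm, w x = ∑ x, w x * ind Gm x := by
  classical
  rw [Lat, Finset.sum_filter]
  refine Finset.sum_congr rfl fun x _ => ?_
  unfold ind
  by_cases h1 : w x = 0 <;> by_cases h2 : mem Gm x <;> simp [h1, h2]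

lemma nu_le {Q B u s : ℕ} (X : Pt q P R → P → ZMod Q) (w : Pt q P R → ℝ) (V : ℝ) (hV : 0 < V)
    (hw : ∀ x, 0 ≤ w x) (A L : Finset (Pt q P R)) (hA : A ⊆ L) (hS : ∑ x ∈ A, w x ≤ V)
    (h : ∀ U ⊆ A, ¬ Dis X B U → ∃ C ⊆ U, s < C.card ∧ LCirc q C) :
    Nu X B u A w V ≤ (u + 1) * 2 ^ u * Fam (fun C => s < C.card ∧ LCirc q C) u L w V := by
  classical
  have hF : 0 ≤ Fam (fun C => s < C.card ∧ LCirc q C) u L w V :=
    SB.fam_nonneg _ _ (fun x _ => hw x) hV.le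
  rw [Nu, SB.fam_eq]
  refine (Finset.sum_le_card_nsmul _ _ (2 ^ u * Fam (fun C => s < C.card ∧ LCirc q C) u L w V)
    fun j hj => ?_).trans
    (by rw [Finset.card_range, nsmul_eq_mul]; push_cast; exact le_of_eq (by ring))
  have hj' : j ≤ u := Nat.lt_succ_iff.mp (Finset.mem_range.mp hj)
  rw [div_le_iff₀ (by positivity)]
  have a1 := SB.sub' (fun C => s < C.card ∧ LCirc q C) A w V j hV (fun x _ => hw x) hS
    (fun U => U ⊆ A ∧ ¬ Dis X B U) (fun U hU => h U hU.1 hU.2)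
  simp only [SB.ite_eq_ind] at a1
  have a2 : ∑ C ∈ A.powersetCard j, SB.ind (¬ Dis X B C) * ∏ x ∈ C, w x =
      ∑ U ∈ A.powersetCard j, SB.ind (U ⊆ A ∧ ¬ Dis X B U) * ∏ x ∈ U, w x :=
    Finset.sum_congr rfl fun C hC => by
      rw [SB.ind_and, SB.ind_pos (Finset.mem_powersetCard.mp hC).1, one_mul]
  have a3 : Fam (fun C => s < C.card ∧ LCirc q C) j A w V ≤
      Fam (fun C => s < C.card ∧ LCirc q C) u L w V :=
    SB.fam_mono (fun x _ => hw x) hV.le (fun _ h => h) hj' hA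
  have a4 : (2 : ℝ) ^ j ≤ 2 ^ u := pow_le_pow_right₀ (by norm_num) hj'
  have a5 : 0 ≤ Fam (fun C => s < C.card ∧ LCirc q C) j A w V :=
    SB.fam_nonneg _ _ (fun x _ => hw x) hV.le
  rw [a2]
  calc _ ≤ _ := a1
    _ ≤ 2 ^ u * V ^ j * Fam (fun C => s < C.card ∧ LCirc q C) u L w V := by gcongr
    _ = _ := by ring

end main

end BS

theorem base (_hSub : SubStmt) (hFour : FourStmt) (hType : TypeStmt) (hMass : MassStmt)
    (hClean : CleanStmt) (hBad1 : Bad1Stmt) (hBad2 : Bad2Stmt) (hNu : NuStmt) : BaseStmt := by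
  intro q _ P R _ _ _ _ w p0 a b wmin ϱ ε2 V Θ β' α β i t' u B Q hQ X Fl hW hX hB ht hβ1 hβ2 hβ3 hi
    hV hVa haΘ hΘ hbV hα hβ hF1 hFm hFl
  classical
  have hq : (1 : ℝ) ≤ q := by exact_mod_cast (Fact.out : q.Prime).one_le
  have hπ : 0 ≤ pi0 q R := by unfold pi0; positivity
  have hw0 : ∀ x, 0 ≤ w x := fun x => (hW.bd x).1
  have hb0 : 0 ≤ b := (hW.bd 0).1.trans (hW.bd 0).2
  have ha0 : 0 ≤ a := hW.sum ▸ Finset.sum_nonneg fun x _ => hw0 x
  have ha : 0 < a := by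
    refine lt_of_le_of_ne ha0 fun h => ?_
    rw [← h, zero_mul] at hVa
    linarith
  have hb2 : 2 * b ≤ V := by
    refine le_trans ?_ hbV
    have : (1 : ℝ) ≤ (q : ℝ) ^ (2 * 2 ^ i * (2 * 2 ^ i - 2) + 2 * 2 ^ i + 2) := one_le_pow₀ hq
    nlinarith
  have hb1 : b ≤ 1 := by
    have : (1 : ℝ) ≤ t' := by exact_mod_cast ht
    nlinarith
  have hwm : wmin ≤ b := by
    obtain ⟨x, hx⟩ : ∃ x, w x ≠ 0 := by
      by_contra h
      push Not at h
      have := hW.sum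
      simp only [h, Finset.sum_const_zero] at this
      linarith
    exact (hW.low x hx).trans (hW.bd x).2
  have h2i : 1 ≤ 2 ^ i := Nat.one_le_two_pow
  have hStep := hFour q _ w a b ϱ i hW.bd hW.sum ha hW.r0 hW.r1 hW.energy
  have hTyp := hType q _ w a b ϱ _ hW.bd hW.sum ha hW.r0 hW.r1 hStep
  have p1 := hMass q P R w a b ϱ β' _ t' hW.bd hW.sum hW.r0 hW.r1 hTyp hW.zeta ht (by linarith)
    hβ1 hβ2 hβ3 (by omega)
  have p2 := hBad1 q P R w a b ϱ wmin (2 * 2 ^ i * (2 * 2 ^ i - 2)) _ hW.bd hW.wpos hW.low hW.r0 hTyp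
    (by linarith) (by linarith)
  have p3 := hBad2 q P R w a b ε2 wmin (2 * 2 ^ i) hW.bd ha0 hW.wpos hW.low hW.e0 (by linarith)
    hW.pairs
  have p4 := hNu q P R w a b ϱ (V + 1) Θ _ (2 * 2 ^ i) u hW.bd ha0 hW.r0 hW.r1 hStep (by omega)
    (by linarith) (by linarith) hΘ (by nlinarith)
  have key : ∀ Gm : R → P → ZMod q, Fl (Lat w Gm) ≤
      α + SB.ind (∑ x, w x * ind Gm x < a * pi0 q R / 2) +
        SB.ind (Bad1 q (Lat w Gm) (2 * 2 ^ i * (2 * 2 ^ i - 2)) (2 * 2 ^ i - 2)) +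
        SB.ind (Bad2 q (Lat w Gm) (2 * 2 ^ i)) +
        β * (u + 1) * 2 ^ u *
          Fam (fun C => 2 * 2 ^ i < C.card ∧ LCirc q C) u (Lat w Gm) w (V + 1) := by
    intro Gm
    have hF : 0 ≤ Fam (fun C => 2 * 2 ^ i < C.card ∧ LCirc q C) u (Lat w Gm) w (V + 1) :=
      SB.fam_nonneg _ _ (fun x _ => hw0 x) (by linarith)
    have hF' : 0 ≤ β * (u + 1) * 2 ^ u *
        Fam (fun C => 2 * 2 ^ i < C.card ∧ LCirc q C) u (Lat w Gm) w (V + 1) := by positivity
    have i1 := SB.ind_nonneg (∑ x, w x * ind Gm x < a * pi0 q R / 2)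
    have i2 := SB.ind_nonneg (Bad1 q (Lat w Gm) (2 * 2 ^ i * (2 * 2 ^ i - 2)) (2 * 2 ^ i - 2))
    have i3 := SB.ind_nonneg (Bad2 q (Lat w Gm) (2 * 2 ^ i))
    have f1 := hF1 (Lat w Gm)
    by_cases h1 : ∑ x, w x * ind Gm x < a * pi0 q R / 2
    · rw [SB.ind_pos h1]; linarith
    by_cases h2 : Bad1 q (Lat w Gm) (2 * 2 ^ i * (2 * 2 ^ i - 2)) (2 * 2 ^ i - 2)
    · rw [SB.ind_pos h2]; linarith
    by_cases h3 : Bad2 q (Lat w Gm) (2 * 2 ^ i)
    · rw [SB.ind_pos h3]; linarith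
    obtain ⟨Del, hD1, hD2⟩ := hClean q (Pt q P R) (Lat w Gm)
      ((LinearMap.proj p0).comp (LinearMap.fst (ZMod q) _ _)) (2 * 2 ^ i) (2 * 2 ^ i - 2) (2 * 2 ^ i)
      (fun x hx => hW.aff x (Finset.mem_filter.mp hx).2.1) h2 h3
    have m1 : V ≤ ∑ x ∈ Lat w Gm \ Del, w x := by
      have e1 := Finset.sum_sdiff (f := w) (Finset.inter_subset_left (s₁ := Lat w Gm) (s₂ := Del))
      rw [Finset.sdiff_inter_self_left, BS.mass_eq] at e1
      have e2 : ∑ x ∈ Lat w Gm ∩ Del, w x ≤ V := by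
        refine (Finset.sum_le_card_nsmul _ _ b fun x _ => (hW.bd x).2).trans ?_
        rw [nsmul_eq_mul]
        refine le_trans (mul_le_mul_of_nonneg_right ?_ hb0) hbV
        exact_mod_cast (Finset.card_le_card Finset.inter_subset_right).trans hD1
      push Not at h1
      linarith
    obtain ⟨A, hA, hA1, hA2⟩ := BS.trim w V (by linarith) _ (fun x _ => (hW.bd x).2.trans hb1) m1
    have hAL : A ⊆ Lat w Gm := hA.trans Finset.sdiff_subset
    have n1 := BS.nu_le (B := B) (u := u) (s := 2 * 2 ^ i) X w (V + 1) (by linarith) hw0 A _ hAL hA2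
      (fun U hU hU' => by
        obtain ⟨C, hC, hC'⟩ := BS.exists_lcirc U (BS.dep hQ X w Gm hX hB U (hU.trans hAL) hU')
        refine ⟨C, hC, ?_, hC'⟩
        by_contra hc
        exact hC'.1 (hD2 C (hC.trans (hU.trans hA)) (not_lt.mp hc)))
    have n2 := (hFm _ _ hAL).trans (hFl A hA1 hA2)
    have n3 := mul_le_mul_of_nonneg_left n1 hβ
    nlinarith
  refine (SB.av_mono key).trans ?_
  rw [SB.av_add, SB.av_add, SB.av_add, SB.av_add, SB.av_const, SB.av_const_mul, ← SB.prob_eq,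
    ← SB.prob_eq, ← SB.prob_eq, baseErr]
  have hwp := hW.wpos
  have hϱ := hW.r0
  have hε := hW.e0
  have r1 : a * pi0 q R / wmin ≤ Θ * V / wmin := div_le_div_of_nonneg_right haΘ hwp.le
  have r0 : 0 ≤ a * pi0 q R / wmin := by positivity
  refine add_le_add (add_le_add (add_le_add (add_le_add le_rfl p1) (p2.trans ?_)) (p3.trans ?_)) ?_
  · push_cast
    gcongr
  · gcongr
  · refine (mul_le_mul_of_nonneg_left p4 (by positivity)).trans (le_of_eq ?_)
    rw [mul_assoc 2 (q : ℝ) Θ, mul_pow 2]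
    ring

end Crest.Agent.R225.Up
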