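import Crest.Agent.R225.UpD

open Finset MeasureTheory
open scoped ENNReal

namespace Crest.Agent.R225.Up

namespace BIG

theorem prob_equiv {Ω Ω' : Type} [Fintype Ω] [Fintype Ω'] (e : Ω ≃ Ω') (E : Ω' → Prop) :
    prob (fun ω => E (e ω)) = prob E := by
  classical
  unfold prob av
  rw [Fintype.card_congr e]
  congr 1
  exact Fintype.sum_equiv e _ _ (fun ω => by congr)

/-- split off the constant columns -/
def splitEquiv (A B K S T : Type) :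
    ((A → K → S) × (B → K → T)) × ((A → S) × (B → T)) ≃ (A → Option K → S) × (B → Option K → T) where
  toFun z := (mkG z.2.1 z.1.1, mkG z.2.2 z.1.2)
  invFun z := ((fun a k => z.1 a (some k), fun a k => z.2 a (some k)),
    (fun a => z.1 a none, fun a => z.2 a none))
  left_inv z := by rfl
  right_inv z := by
    ext a o <;> cases o <;> rfl

theorem cdd_pos (d : ℕ) : 0 < cdd d := by unfold cdd; positivity

theorem cdd_le (d : ℕ) : cdd d ≤ 1 := by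
  unfold cdd
  rw [div_le_one (by positivity)]
  have : (1 : ℝ) ≤ 4 ^ d := one_le_pow₀ (by norm_num)
  linarith

theorem Cdd_pos (d : ℕ) : 0 < Cdd d := by unfold Cdd; positivity

theorem bet_pos (l : ℕ) : 0 < bet l := by unfold bet; positivity

theorem alg1 {N V y c m a : ℝ} (hN : 0 < N) (hy : 0 < y) (h1 : N * (8 * V * y) = c * m)
    (h2 : c * m / 2 ≤ a * N) : 4 * V ≤ a * (1 / y) := by
  rw [mul_one_div, le_div_iff₀ hy]
  have : N * (4 * V * y) ≤ N * a := by nlinarith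
  exact le_of_mul_le_mul_left this hN

theorem alg2 {N V y c m a : ℝ} (hN : 0 < N) (hy : 0 < y) (hc : 0 < c) (h1 : N * (8 * V * y) = c * m)
    (h2 : a ≤ m / N) : a * (1 / y) ≤ 8 / c * V := by
  rw [mul_one_div, div_le_iff₀ hy]
  refine h2.trans (le_of_eq ?_)
  rw [div_eq_iff hN.ne']
  field_simp
  linarith

theorem alg3 {N c m a : ℝ} (hN : 0 < N) (hc : 0 < c) (h2 : c * m / 2 ≤ a * N) : m / N ≤ 2 / c * a := by
  rw [div_le_iff₀ hN, div_mul_eq_mul_div, div_mul_eq_mul_div, le_div_iff₀ hc]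
  linarith

theorem alg4 {H y z V c C m E t v : ℝ} (hH : 0 < H) (hy : 0 < y) (hz : 0 < z) (hc : 0 < c) (hE : 0 < E)
    (ht : 0 < t) (heq : y * (8 * V * E * z * H) = c * m) (hv : E * v ≤ C * m * t) :
    v / (H * y * z * t) ≤ 8 * V * C / c := by
  rw [div_le_div_iff₀ (by positivity) hc]
  refine le_of_mul_le_mul_left ?_ hE
  have : E * (8 * V * C * (H * y * z * t)) = c * (C * m * t) := by
    calc E * (8 * V * C * (H * y * z * t)) = y * (8 * V * E * z * H) * (C * t) := by ring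
      _ = _ := by rw [heq]; ring
  rw [this]
  nlinarith

/-- one row -/
theorem row_bound (hTree : TreeStmt) (hDisc : DiscStmt) (hMq1 : Mq1Stmt) (hWt : WtStmt)
    (hMaj : MajStmt) (hRow : RowStmt)
    (q Q M d n c0 j t' u B D : ℕ) [Fact q.Prime] [NeZero Q] (K R : Type) [Fintype K] [DecidableEq K]
    [Fintype R] [DecidableEq R] (L : Set ((Fin M ⊕ (K ⊕ R)) ⊕ Fin d → ℝ)) (ε e m V θ ϱ ε2 β' α β : ℝ)
    (b : Fin d → ℤ) (S : Finset (K ⊕ R → ℤ)) (C : (K ⊕ R → ℤ) → Finset (Fin M → ℤ))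
    (hn : Fintype.card ((Fin M ⊕ (K ⊕ R)) ⊕ Fin d) = n) (hn1 : 1 ≤ n) (hL : Norm L) (hε : 0 < ε)
    (he : 0 < e) (hm : 0 < m) (hG : ∀ l, 0 < Gf c0 l ∧ Even (Gf c0 l)) (hH : 1 ≤ HH c0 M)
    (hτ : 256 * n * (Fintype.card (K ⊕ R) * ε) * (j + 1) ≤ 1) (hD : 4 * n ≤ ε * D)
    (hsl : ∀ v, volume (L ∩ slab e v) ≤ ENNReal.ofReal m)
    (hS : ∀ x, x ∈ S ↔ (C x).Nonempty) (hW : ∀ x, Window (Gf c0) (C x))
    (hbox : ∀ x, ∀ j ∈ C x, box ε e j x b ⊆ ero L (rho n) 1)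
    (hmass : cdd d * m / 2 ≤ (∑ x ∈ S, ((C x).card : ℝ)) *
        ((∏ l : Fin M, bet l) * ε ^ Fintype.card (K ⊕ R) * e ^ d))
    (heq : ε ^ Fintype.card (K ⊕ R) * (8 * V * e ^ d * (q : ℝ) ^ Fintype.card R * HH c0 M) = cdd d * m)
    (hθ : 0 < θ) (hϱ : 0 < ϱ) (hϱ1 : ϱ ≤ 1) (hD1 : 2 * D < q) (hD2 : 2 * D ^ 2 < q) (hD3 : 4 ^ j * D < q)
    (hE1 : enC j (Fintype.card (K ⊕ R)) * (2 / cdd d) ^ (2 * 4 ^ j - 1) * (16 * n) ^ M ≤
      ϱ ^ (2 * 4 ^ j - 2))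
    (hE2 : enC j (Fintype.card (K ⊕ R)) ≤ θ ^ (4 * 4 ^ j))
    (hE3 : 2 * θ ^ (2 * 4 ^ j) * (2 / cdd d) ^ (2 * 4 ^ j + 2) * ((16 * n) ^ M) ^ (2 * 4 ^ j) +
      (2 / cdd d / 2 ^ Fintype.card (K ⊕ R)) ^ (2 * 4 ^ j) ≤ ε2)
    (hE4 : ((2 * D + 1) / (q : ℝ)) ^ Fintype.card R ≤ ϱ ^ (2 * 4 ^ j - 2))
    (hqQ : q ∣ Q) (hcore : CoreAt Q (Gf c0) M V α β B u) (hB : B < q) (ht : 1 ≤ t')
    (hb1 : 2 * (1 / 2) ^ M * (q : ℝ) ^ (8 * t') ≤ β') (hb2 : 32 * t' * (1 / 2) ^ M ≤ β') (hb3 : β' ≤ 1)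
    (hjt : 2 ^ (2 * j) ≤ 3 * t') (hV : 1 ≤ V)
    (hdel : 2 * (q : ℝ) ^ (2 * 2 ^ (2 * j) * (2 * 2 ^ (2 * j) - 2) + 2 * 2 ^ (2 * j) + 2) * (1 / 2) ^ M ≤ V)
    (hα : 0 ≤ α) (hβ : 0 ≤ β) :
    prob (fun z : (R → Option K → ZMod q) × (Fin M → Option K → ZMod Q) => ¬ Good (Gf c0) C z.1 z.2) ≤
      baseErr q (2 * 2 ^ (2 * j)) t' u (8 / cdd d * V) (1 / PG c0 M) ϱ ε2 β' (8 / cdd d) α β := by
  have hqp : q.Prime := Fact.out
  have : NeZero q := ⟨hqp.ne_zero⟩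
  have hq0 : (0 : ℝ) < q := by exact_mod_cast hqp.pos
  have hn0 : (0 : ℝ) < n := by exact_mod_cast hn1
  have hcd := cdd_pos d
  have hPG : 0 < PG c0 M := Finset.prod_pos fun l _ => by exact_mod_cast (hG l).1
  have hHH : 0 < HH c0 M := lt_of_lt_of_le one_pos hH
  have hBt : 0 < ∏ l : Fin M, bet l := Finset.prod_pos fun l _ => bet_pos l
  have hHPB : HH c0 M = PG c0 M * ∏ l : Fin M, bet l := by
    unfold HH PG; rw [Finset.prod_mul_distrib]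
  set w : (K ⊕ R → ℤ) → ℝ := fun x => (C x).card / ∏ l : Fin M, (Gf c0 l : ℝ) with hw
  have hwPG : ∀ x, w x = (C x).card / PG c0 M := fun x => rfl
  obtain ⟨hdiam, ω, hLC, hmaj, hint, hsup⟩ := hMaj M d n (K ⊕ R) (Gf c0) L ε e m (j + 1) b D C hn hn1 hL
    hε he hm.le (fun l => (hG l).1) hτ hD hsl hbox
  have hsupp : Supp S w ((1 / 2) ^ M) D := by
    refine ⟨fun x => ⟨by rw [hwPG]; positivity, ?_⟩, fun x hx => ?_, fun x hx y hy p => ?_⟩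
    · obtain ⟨W, hT, hM, -⟩ := hTree M (Gf c0) (C x) hG (hW x)
      have := hT.le (fun _ => 0) M le_rfl
      rwa [hM] at this
    · have : C x = ∅ := by
        by_contra h
        exact hx ((hS x).2 (Finset.nonempty_iff_ne_empty.2 h))
      simp [hw, this]
    · exact hdiam x y ((hS x).1 hx) ((hS y).1 hy) p
  set a : ℝ := ∑ x ∈ S, w x with ha
  set N : ℝ := HH c0 M * ε ^ Fintype.card (K ⊕ R) * e ^ d with hN
  have hN0 : 0 < N := by positivity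
  have halo : cdd d * m / 2 ≤ a * N := by
    refine hmass.trans (le_of_eq ?_)
    have : a = (∑ x ∈ S, ((C x).card : ℝ)) / PG c0 M := by
      rw [ha, Finset.sum_div]; rfl
    rw [this, hN, hHPB]
    generalize (∑ x ∈ S, ((C x).card : ℝ)) = s
    generalize (∏ l : Fin M, bet l) = t
    generalize ε ^ Fintype.card (K ⊕ R) = y
    generalize e ^ d = z
    generalize PG c0 M = p at hPG
    field_simp
  have ha0 : 0 < a := by
    by_contra h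
    have : a * N ≤ 0 := mul_nonpos_of_nonpos_of_nonneg (not_lt.1 h) hN0.le
    have : 0 < cdd d * m / 2 := by positivity
    linarith
  have hint' : ∫⁻ y, ω y ≤ ENNReal.ofReal (m / N) := hint
  have hj1 : (1 : ℝ) ≤ (j : ℝ) + 1 := by have : (0 : ℝ) ≤ j := Nat.cast_nonneg j; linarith
  have hahi : a ≤ m / N := by
    have h1 := (hDisc (K ⊕ R) (j + 1) _ ω hLC.1 hmaj hj1).1
    have h2 : ENNReal.ofReal a ≤ ∑' x, ENNReal.ofReal (w x) := by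
      rw [ha, ENNReal.ofReal_sum_of_nonneg (fun x _ => (hsupp.bd x).1)]
      exact ENNReal.sum_le_tsum S
    have h3 := h2.trans (h1.trans hint')
    exact (ENNReal.ofReal_le_ofReal_iff (by positivity)).1 h3
  have hNq : N * (8 * V * (q : ℝ) ^ Fintype.card R) = cdd d * m := by
    rw [← heq, hN]; ring
  have hqr : (0 : ℝ) < (q : ℝ) ^ Fintype.card R := by positivity
  have hpi : pi0 q R = 1 / (q : ℝ) ^ Fintype.card R := by unfold pi0; rw [one_div_pow]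
  have hmu1 : 4 * V ≤ a * pi0 q R := by
    rw [hpi]; exact alg1 hN0 hqr hNq halo
  have hmu2 : a * pi0 q R ≤ 8 / cdd d * V := by
    rw [hpi]; exact alg2 hN0 hqr hcd hNq hahi
  have hWt' := hWt q K R S w ω ((1 / 2) ^ M) (1 / PG c0 M) (j + 1) (2 / cdd d) ((16 * n) ^ M) θ ϱ ε2 D j
    hsupp (by positivity) ha0 (by positivity)
    (fun x hx => by
      rw [hwPG] at hx ⊢
      have h1 : (C x).card ≠ 0 := by
        intro h; apply hx; simp [h]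
      have h2 : (1 : ℝ) ≤ (C x).card := by exact_mod_cast Nat.one_le_iff_ne_zero.2 h1
      exact div_le_div_of_nonneg_right h2 hPG.le)
    hLC hmaj le_rfl
    (hint'.trans (ENNReal.ofReal_le_ofReal (alg3 hN0 hcd halo)))
    (fun y => (hsup y).trans (ENNReal.ofReal_le_ofReal (by
      have h1 : ((16 : ℝ) * n) ^ M * (1 / 2) ^ M = (8 * n) ^ M := by
        rw [← mul_pow]; congr 1; ring
      rw [h1]
      exact div_le_self (by positivity) hH)))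
    (by positivity) (by positivity) hθ hϱ hϱ1 hD1 hD2 hD3 hE1 hE2 hE3 hE4
  have hinj := (hMq1 q K R S w _ D hsupp (by omega)).1
  have hΘ : 1 ≤ 8 / cdd d := by
    rw [le_div_iff₀ hcd]; have := cdd_le d; linarith
  exact hRow q Q M K R (Gf c0) S C a (1 / PG c0 M) ϱ ε2 V (8 / cdd d) β' α β (2 * j) t' u B hqQ hG hW
    hinj hWt' hcore hB ht hb1 hb2 hb3 hjt hV hmu1 hmu2 hΘ hdel hα hβ

/-- all rows, general `d` -/
theorem core_d (hTree : TreeStmt) (hAmp : AmpStmt) (hDisc : DiscStmt)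
    (hMq1 : Mq1Stmt) (hWt : WtStmt) (hEro : EroStmt) (hRows : RowsStmt)
    (hMaj : MajStmt) (hRow : RowStmt) (hLat : LatStmt)
    (q Q M d n c0 j t' u B D k' r k : ℕ) [Fact q.Prime] [NeZero Q] (e V θ ϱ ε2 β' α β φ : ℝ)
    (hC : ∀ (M n : ℕ) (κ : Type) [Fintype κ] [DecidableEq κ]
      (K : Set ((Fin M ⊕ κ) ⊕ Fin d → ℝ)) (ε e m : ℝ) (b : Fin d → ℤ),
      Fintype.card ((Fin M ⊕ κ) ⊕ Fin d) = n → 1 ≤ n → Norm K → 0 < ε → 0 < e → 0 < m →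
      1024 * n * (Fintype.card κ * ε + d * e) ≤ 1 →
      (∀ v, volume (K ∩ slab e v) ≤ ENNReal.ofReal m) →
      ENNReal.ofReal (cdd d * m) ≤ volume (ero K (rho n) 2 ∩ slab e (fun j => e * b j)) →
      ∃ (S : Finset (κ → ℤ)) (C : (κ → ℤ) → Finset (Fin M → ℤ)),
        (∀ x, x ∈ S ↔ (C x).Nonempty) ∧ (∀ x, Window (Gf c0) (C x)) ∧
        (∀ x, ∀ j ∈ C x, box ε e j x b ⊆ ero K (rho n) 1) ∧
        cdd d * m / 2 ≤ (∑ x ∈ S, ((C x).card : ℝ)) *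
          ((∏ l : Fin M, bet l) * ε ^ Fintype.card κ * e ^ d))
    (hk : k' + r = k) (hsum : M + k + d = n) (hn1 : 1 ≤ n) (he0 : 0 < e) (he1 : e ≤ 1)
    (hed : 512 * n * (d * e) ≤ 1)
    (hG : ∀ l, 0 < Gf c0 l ∧ Even (Gf c0 l)) (hH : 1 ≤ HH c0 M)
    (hρ0 : ∀ i : (Fin M ⊕ (Fin k' ⊕ Fin r)) ⊕ Fin d, 0 < rho n i)
    (hρ1 : 24 * ∑ i : (Fin M ⊕ (Fin k' ⊕ Fin r)) ⊕ Fin d, rho n i ≤ 1)
    (hε : ∀ m : ℝ, e ^ d * (1 / (4 * (n : ℝ) ^ 2)) ^ n ≤ (9 * n) ^ d * m → m ≤ e ^ d * (8 * n) ^ n →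
      ∃ ε : ℝ, 0 < ε ∧ ε ^ k * (8 * V * e ^ d * (q : ℝ) ^ r * HH c0 M) = cdd d * m ∧
        1024 * n * (k * ε + d * e) ≤ 1 ∧ 256 * n * (k * ε) * (j + 1) ≤ 1 ∧ 4 * n ≤ ε * D)
    (hθ : 0 < θ) (hϱ : 0 < ϱ) (hϱ1 : ϱ ≤ 1) (hD1 : 2 * D < q) (hD2 : 2 * D ^ 2 < q) (hD3 : 4 ^ j * D < q)
    (hE1 : enC j k * (2 / cdd d) ^ (2 * 4 ^ j - 1) * (16 * n) ^ M ≤ ϱ ^ (2 * 4 ^ j - 2))
    (hE2 : enC j k ≤ θ ^ (4 * 4 ^ j))
    (hE3 : 2 * θ ^ (2 * 4 ^ j) * (2 / cdd d) ^ (2 * 4 ^ j + 2) * ((16 * n) ^ M) ^ (2 * 4 ^ j) +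
      (2 / cdd d / 2 ^ k) ^ (2 * 4 ^ j) ≤ ε2)
    (hE4 : ((2 * D + 1) / (q : ℝ)) ^ r ≤ ϱ ^ (2 * 4 ^ j - 2))
    (hqQ : q ∣ Q) (hGQ : ∀ l < M, Gf c0 l ∣ Q) (hcore : CoreAt Q (Gf c0) M V α β B u) (hB : B < q)
    (ht : 1 ≤ t') (hb1 : 2 * (1 / 2) ^ M * (q : ℝ) ^ (8 * t') ≤ β') (hb2 : 32 * t' * (1 / 2) ^ M ≤ β')
    (hb3 : β' ≤ 1) (hjt : 2 ^ (2 * j) ≤ 3 * t') (hV : 1 ≤ V)
    (hdel : 2 * (q : ℝ) ^ (2 * 2 ^ (2 * j) * (2 * 2 ^ (2 * j) - 2) + 2 * 2 ^ (2 * j) + 2) * (1 / 2) ^ M ≤ V)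
    (hα : 0 ≤ α) (hβ : 0 ≤ β) (hφ0 : 0 ≤ φ)
    (hφ : baseErr q (2 * 2 ^ (2 * j)) t' u (8 / cdd d * V) (1 / PG c0 M) ϱ ε2 β' (8 / cdd d) α β ≤ φ)
    (h5 : (q : ℝ) ^ r * (Q : ℝ) ^ M * ((8 * n / e + 3) ^ d * φ) ^ (d + 1) < 1)
    (L : Set ((Fin M ⊕ (Fin k' ⊕ Fin r)) ⊕ Fin d → ℝ)) (hL : Norm L) :
    Cov L (8 * V * Cdd d / cdd d) := by
  classical
  have hqp : q.Prime := Fact.out
  have : NeZero q := ⟨hqp.ne_zero⟩
  have hn0 : (0 : ℝ) < n := by exact_mod_cast hn1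
  have hcard : Fintype.card ((Fin M ⊕ (Fin k' ⊕ Fin r)) ⊕ Fin d) = n := by
    simp only [Fintype.card_sum, Fintype.card_fin]; omega
  have hck : Fintype.card (Fin k' ⊕ Fin r) = k := by
    simp only [Fintype.card_sum, Fintype.card_fin]; omega
  have hesmall : ∑ i : Fin d, 2 * e /
      rho (M := M) (κ := Fin k' ⊕ Fin r) (d := d) n (Sum.inr i) ≤ 1 := by
    simp only [rho, Finset.sum_const, Finset.card_univ, Fintype.card_fin, nsmul_eq_mul]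
    refine le_trans (le_of_eq ?_) hed
    field_simp; ring
  obtain ⟨m, η, Rows, hm, hη, hsl, hvol, hmlo, hmhi, hRc, hRm, hRcov⟩ :=
    hRows (Fin M ⊕ (Fin k' ⊕ Fin r)) d n L (rho n) e hcard hn1 hL hρ0 hρ1 he0 he1 hesmall
  obtain ⟨ε, hε0, heq, hc1, hc2', hc3⟩ := hε m hmlo hmhi
  have hcell : ∀ b : Fin d → ℤ, ∃ (S : Finset (Fin k' ⊕ Fin r → ℤ))
      (C : (Fin k' ⊕ Fin r → ℤ) → Finset (Fin M → ℤ)), b ∈ Rows →
      (∀ x, x ∈ S ↔ (C x).Nonempty) ∧ (∀ x, Window (Gf c0) (C x)) ∧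
      (∀ x, ∀ j ∈ C x, box ε e j x b ⊆ ero L (rho n) 1) ∧
      cdd d * m / 2 ≤ (∑ x ∈ S, ((C x).card : ℝ)) *
        ((∏ l : Fin M, bet l) * ε ^ Fintype.card (Fin k' ⊕ Fin r) * e ^ d) := by
    intro b
    by_cases hb : b ∈ Rows
    · obtain ⟨S, C, h⟩ := hC M n (Fin k' ⊕ Fin r) L ε e m b hcard hn1 hL hε0 he0 hm
        (by rw [hck]; exact hc1) hsl (hRm b hb)
      exact ⟨S, C, fun _ => h⟩
    · exact ⟨∅, fun _ => ∅, fun h => absurd h hb⟩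
  choose S C hSC using hcell
  have hrow : ∀ b ∈ Rows, prob (fun z : (Fin r → Option (Fin k') → ZMod q) ×
      (Fin M → Option (Fin k') → ZMod Q) => ¬ Good (Gf c0) (C b) z.1 z.2) ≤ φ := by
    intro b hb
    obtain ⟨hS, hW, hbox, hmass⟩ := hSC b hb
    exact le_trans (row_bound hTree hDisc hMq1 hWt hMaj hRow q Q M d n c0 j t' u B D (Fin k') (Fin r)
      L ε e m V θ ϱ ε2 β' α β b (S b) (C b) hcard hn1 hL
      hε0 he0 hm hG hH (by rw [hck]; exact hc2') hc3 hsl hS hW hbox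
      hmass (by rw [hck, Fintype.card_fin]; exact heq) hθ hϱ hϱ1 hD1 hD2 hD3
      (by rw [hck]; exact hE1) (by rw [hck]; exact hE2) (by rw [hck]; exact hE3)
      (by rw [Fintype.card_fin]; exact hE4) hqQ hcore hB ht hb1 hb2 hb3 hjt hV hdel hα hβ) hφ
  obtain ⟨ω, ξ, hωξ⟩ := hAmp ((Fin r → Fin k' → ZMod q) × (Fin M → Fin k' → ZMod Q))
    ((Fin r → ZMod q) × (Fin M → ZMod Q)) (Fin d → ℤ) Rows
    (fun b ω γ => Good (Gf c0) (C b) (mkG γ.1 ω.1) (mkG γ.2 ω.2)) d φ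
    (fun b hb => by
      have := prob_equiv (splitEquiv (Fin r) (Fin M) (Fin k') (ZMod q) (ZMod Q))
        (fun z => ¬ Good (Gf c0) (C b) z.1 z.2)
      exact le_of_eq_of_le this (hrow b hb))
    (by
      refine lt_of_le_of_lt ?_ h5
      simp only [Fintype.card_prod, Fintype.card_pi, ZMod.card, Finset.prod_const, Finset.card_univ,
        Fintype.card_fin, Nat.cast_mul, Nat.cast_pow]
      gcongr)
  obtain ⟨A, hdet, hcov⟩ := hLat q Q M d (Fin k') (Fin r) (Gf c0) L ε e η Rows C ω.1 ω.2 ξ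
    hε0 he0 (fun l => hGQ l l.2)
    (fun b hb x j hj => ((hSC b hb).2.2.1 x j hj).trans
      ((hEro _ L (rho n) hρ0 hL.cpt hL.cvx).1 1 zero_le_one).1) hRcov hωξ
  have hHH : 0 < HH c0 M := lt_of_lt_of_le one_pos hH
  have hq0 : (0 : ℝ) < q := by exact_mod_cast hqp.pos
  have hdet' : A.det = HH c0 M * ε ^ k * (q : ℝ) ^ r * η.det := by
    rw [hdet, hck, Fintype.card_fin]; rfl
  have hpos : 0 < HH c0 M * ε ^ k * (q : ℝ) ^ r := by positivity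
  have hη0 : 0 < |η.det| := abs_pos.2 hη
  refine ⟨A, by rw [hdet']; exact mul_ne_zero hpos.ne' hη, hcov, ?_⟩
  rw [hdet', abs_mul, abs_of_pos hpos]
  exact alg4 hHH (by positivity) (by positivity) (cdd_pos d) (by positivity) hη0 heq hvol

end BIG

open BIG in
theorem big (hCore : CoreStmt) (hTree : TreeStmt) (hAmp : AmpStmt) (hDisc : DiscStmt)
    (hMq1 : Mq1Stmt) (hWt : WtStmt) (hEro : EroStmt) (hRows : RowsStmt) (hCells : CellsStmt)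
    (hMaj : MajStmt) (hRow : RowStmt) (hLat : LatStmt) (h0 : N0Stmt) (h1 : N1Stmt) (h2 : N2Stmt)
    (h3 : N3Stmt) (h4 : N4Stmt) (h5 : N5Stmt) : BigStmt := by
  classical
  obtain ⟨c0, hc0, hC⟩ := hCells 2400
  obtain ⟨c2, C0, Γ0, J0, hc2, hC0, hcore⟩ := hCore (2 ^ (c0 + 10)) (one_le_pow₀ (by norm_num))
  obtain ⟨hG, hGd, hH, hρ⟩ := h0 c0 hc0
  obtain ⟨n1, h1⟩ := h1 c0 C0 hc0 hC0
  obtain ⟨n2, h2⟩ := h2
  obtain ⟨n3, h3⟩ := h3 c0 J0 c2 C0 Γ0 hc2 hC0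
  obtain ⟨n4, h4⟩ := h4 c0 c2 C0 hc0 hc2 hC0
  obtain ⟨n5, h5⟩ := h5 c0
  refine ⟨8 * C0 * Cdd 2400 / (200 * cdd 2400), n1 + n2 + n3 + n4 + n5 + 1200, fun n hn => ?_⟩
  have hn1 : 1 ≤ n := by omega
  have hn0 : (0 : ℝ) < n := by exact_mod_cast hn1
  obtain ⟨q, hqp, hq1, hq2⟩ := Nat.exists_prime_lt_and_le_two_mul (n ^ 40) (by positivity)
  obtain ⟨j, hR⟩ : ∃ j, Rg n j q := by
    refine ⟨Nat.log (4 ^ 10) n, ?_, ?_, hq1.le, hq2⟩
    · rw [pow_mul]; exact Nat.pow_log_le_self _ (by omega)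
    · rw [pow_mul]; exact Nat.lt_pow_succ_log_self (by norm_num) _
  have : Fact q.Prime := ⟨hqp⟩
  have hQ : NeZero (QQ c0 j q) := ⟨by unfold QQ; have := hqp.pos; positivity⟩
  obtain ⟨hsum, hε⟩ := h1 n j q (by omega) hR
  obtain ⟨hD1, hD2, hD3, hϱ1, hE1, hE2, hE3, hE4⟩ := h2 n j q (by omega) hR
  obtain ⟨hΓ0, hJ0, hJΓ, hlog, hBq, ht, hb1, hb2, hjt, hV, hdel⟩ := h3 n j q (by omega) hR
  have h4 := h4 n j q (by omega) hR
  have h5 := h5 n j q (by omega) hR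
  have hkr : kk n j - kk n j / 4 + kk n j / 4 = kk n j := by omega
  refine ⟨2 ^ (14 * j), kk n j - kk n j / 4, kk n j / 4, 2400, by omega, fun L hL => ?_⟩
  have hcard : Fintype.card ((Fin (2 ^ (14 * j)) ⊕ (Fin (kk n j - kk n j / 4) ⊕ Fin (kk n j / 4))) ⊕
      Fin 2400) = n := by
    simp only [Fintype.card_sum, Fintype.card_fin]; omega
  obtain ⟨hρ0, hρ1⟩ := hρ _ 2400 n _ hcard hn1
  have he1 : 1 / (n : ℝ) ^ 3 ≤ 1 := by
    rw [div_le_one (by positivity)]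
    exact one_le_pow₀ (by exact_mod_cast hn1)
  have hed : 512 * n * ((2400 : ℕ) * (1 / (n : ℝ) ^ 3)) ≤ 1 := by
    have h2 : 512 * n * ((2400 : ℕ) * (1 / (n : ℝ) ^ 3)) = 1228800 / (n : ℝ) ^ 2 := by
      field_simp; norm_num
    rw [h2, div_le_one (by positivity)]
    have h3 : (1200 : ℝ) ≤ n := by exact_mod_cast (by omega : 1200 ≤ n)
    have h4 : (1200 : ℝ) ^ 2 ≤ (n : ℝ) ^ 2 := pow_le_pow_left₀ (by norm_num) h3 2
    exact le_trans (by norm_num) h4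
  have hGQ : ∀ l < 2 ^ (14 * j), Gf c0 l ∣ QQ c0 j q := fun l hl =>
    Dvd.dvd.mul_left (hGd (14 * j) l hl) q
  have hBB : c2 * (2 ^ (14 * j)) ^ 36 ≤ (BB c2 j : ℝ) := Nat.le_ceil _
  have hcoreAt : CoreAt (QQ c0 j q) (Gf c0) (2 ^ (14 * j)) (C0 * Gam n) (Real.exp (-Gam n))
      (Real.exp (Gam n)) (BB c2 j) (uu c2 n j) := by
    intro ι P _ _ _ X p0 W A hX hT hlo hhi
    refine hcore (Gam n) (14 * j) (QQ c0 j q) (Gf c0) hΓ0 hJ0 hJΓ hlog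
      (fun l => ⟨(hG l).1, (hG l).2.2⟩) hGQ ?_ ι P X p0 W A (BB c2 j) (uu c2 n j) hX hT hBB
      (Nat.le_ceil _) hlo hhi
    refine hBB.trans ?_
    have : BB c2 j ≤ QQ c0 j q := hBq.le.trans (Nat.le_mul_of_pos_right _ (by positivity))
    exact_mod_cast this
  have key := core_d hTree hAmp hDisc hMq1 hWt hEro hRows hMaj hRow hLat q (QQ c0 j q) (2 ^ (14 * j))
    2400 n c0 j (tp n j) (uu c2 n j) (BB c2 j) (4 * n ^ 14) (kk n j - kk n j / 4) (kk n j / 4) (kk n j)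
    (1 / (n : ℝ) ^ 3) (C0 * Gam n) (th n j) (vr n j) (Real.exp (-(3 * Gam n))) (bp j)
    (Real.exp (-Gam n)) (Real.exp (Gam n)) (6 * Real.exp (-Gam n)) hC hkr hsum hn1 (by positivity) he1 hed
    (fun l => ⟨(hG l).1, (hG l).2.1⟩) (hH _).1 hρ0 hρ1 hε (Real.exp_pos _) (Real.exp_pos _) hϱ1 hD1 hD2
    hD3 hE1 hE2 hE3 hE4 (Dvd.intro _ rfl) hGQ hcoreAt hBq ht hb1 hb2
    (pow_le_one₀ (by norm_num) (by norm_num)) hjt hV hdel (Real.exp_pos _).le (Real.exp_pos _).le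
    (by positivity) h4 h5 L hL
  have hc : 8 * (C0 * Gam n) * Cdd 2400 / cdd 2400 =
      8 * C0 * Cdd 2400 / (200 * cdd 2400) * n * Real.log n := by
    have := cdd_pos 2400
    unfold Gam
    generalize cdd 2400 = c at this
    generalize Cdd 2400 = C
    field_simp
  rwa [hc] at key

end Crest.Agent.R225.Up
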