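import Crest.Agent.R225.UpB
import Crest.Agent.PL.Basic

/-!
# Row 225, S0347, part C: additive energies of log-concave weights
-/

open Finset MeasureTheory
open scoped ENNReal

namespace Crest.Agent.R225.Up

/-- Prékopa–Leindler on `β → ℝ` -/
theorem hasPL_fun (β : Type) [Fintype β] : PL.HasPL (volume : Measure (β → ℝ)) := by
  refine PL.HasPL.of_equiv (MeasurableEquiv.piCongrLeft (fun _ : β => ℝ) (Fintype.equivFin β).symm)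
    (volume_measurePreserving_piCongrLeft (fun _ : β => ℝ) (Fintype.equivFin β).symm) ?_
    (PL.hasPL_pi _)
  intro x y
  ext i
  obtain ⟨j, rfl⟩ := (Fintype.equivFin β).symm.surjective i
  simp only [MeasurableEquiv.piCongrLeft_apply_apply, Pi.smul_apply, Pi.add_apply]

/-- measurable and midpoint log-concave -/
def LC {κ : Type} (φ : (κ → ℝ) → ℝ≥0∞) : Prop :=
  Measurable φ ∧ ∀ x y, φ x * φ y ≤ φ ((1 / 2 : ℝ) • (x + y)) ^ 2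

/-- continuous analogue of `gpw` -/
noncomputable def cpw {κ : Type} [Fintype κ] (φ : (κ → ℝ) → ℝ≥0∞) : ℕ → (κ → ℝ) → ℝ≥0∞
  | 0 => fun z => ∫⁻ x, φ x * φ (x + z)
  | i + 1 => fun z => ∫⁻ x, cpw φ i x * cpw φ i (z - x)

/-- EN1: `F = cpw φ i` is measurable, log-concave (PL), even, of integral `(∫φ)^(2^(i+1))`, maximal at `0`
(`F z · F (-z) ≤ F 0²`), and has a small tail below the level `τ² F 0`
(there `F w² ≤ τ² F 0 · F w ≤ τ² F (w/2)²`). -/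
def En1Stmt : Prop := ∀ (κ : Type) [Fintype κ] (φ : (κ → ℝ) → ℝ≥0∞) (i : ℕ), LC φ →
    LC (cpw φ i) ∧ (∀ z, cpw φ i (-z) = cpw φ i z) ∧
    (∫⁻ z, cpw φ i z = (∫⁻ x, φ x) ^ (2 * 2 ^ i)) ∧ (∀ z, cpw φ i z ≤ cpw φ i 0) ∧
    ∀ τ : ℝ≥0∞, ∫⁻ z in {z | cpw φ i z < τ ^ 2 * cpw φ i 0}, cpw φ i z ≤
      τ * 2 ^ Fintype.card κ * ∫⁻ z, cpw φ i z

/-- EN2 (Sylvester–Hadamard coupling).  Normalise `μ_i = cpw φ i / A^(2·2^i)` (symmetric probability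
densities, `μ_0 ≤ b/A`, `μ_(i+1) = μ_i * μ_i`).  By induction there are a finite type `T` with `2^i`
elements and a probability measure `ν` on `T → κ → ℝ`, all marginals `μ_i`, with
`ν ≤ (b/A)^(2^i) 2^(-i k 2^i/2) vol`: push `ν ⊗ ν` by `(x,y) ↦ (x+y, x-y)` (Jacobian `2^(k 2^i)`:
a shear, then `y ↦ s - 2y`), `T' = T ⊕ T`.  Then `1/2 ≤ ν(Z^T) ≤ (…) |Z|^(2^i)`. -/
def En2Stmt : Prop := ∀ (κ : Type) [Fintype κ] (φ : (κ → ℝ) → ℝ≥0∞) (A b : ℝ≥0∞) (j : ℕ)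
    (Z : Set (κ → ℝ)), Measurable φ → ∫⁻ x, φ x = A → A ≠ 0 → A ≠ ⊤ → (∀ x, φ x ≤ b) →
    MeasurableSet Z → 2 * 4 ^ j * ∫⁻ z in Zᶜ, cpw φ (2 * j) z ≤ A ^ (2 * 4 ^ j) →
    A * 2 ^ (j * Fintype.card κ) ≤ 2 * b * volume Z

/-- the energy constant, `m = 4^j` -/
noncomputable def enC (j k : ℕ) : ℝ := 8 * (4 ^ j) ^ 2 * 4 ^ k / 2 ^ (j * k)

/-- EN (from EN1, EN2): `τ = 1/(2m 2^k)`, `Z = {F ≥ τ² F 0}`, `τ² F 0 |Z| ≤ A^(2m)`. -/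
def EnStmt : Prop := ∀ (κ : Type) [Fintype κ] (φ : (κ → ℝ) → ℝ≥0∞) (a b : ℝ) (j : ℕ), LC φ →
    0 ≤ a → 0 ≤ b → ∫⁻ x, φ x ≤ ENNReal.ofReal a → (∀ x, φ x ≤ ENNReal.ofReal b) →
    ∀ z, cpw φ (2 * j) z ≤ ENNReal.ofReal (enC j (Fintype.card κ) * a ^ (2 * 4 ^ j - 1) * b)

/-- WALK (from EN, PL).  `G β = ∫ ω x ω(β + σ x)` is log-concave, `G ≤ ab`, `∫G ≤ a²`.
`Z = {G ≥ θ a b}`: `1_Z` is `LC`, `|Z| < ∞`, symmetric if `σ = 1`.  Kernel `K_0(x,y) = 1_Z(y - σ x)`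
(symmetric), `K_(i+1)(x,y) = ∫ K_i(x,z) ω z K_i(z,y)`, `P_i = ∫∫ ω x K_i(x,y) ω y`.
`P_0 = ∫_Z G ≥ θ a b |Z|`, `P_i² ≤ a P_(i+1)` (Cauchy–Schwarz), `K_(i+1)(x,y) ≤ b^(2·2^i-1) cpw 1_Z i (y-x)`,
so with EN for `1_Z`: `a (θ b |Z|)^(2m) ≤ a² b^(2m-1) enC |Z|^(2m-1)`, `b |Z| ≤ θ^(2m) a`;
finally `∫G^(2m+1) ≤ (θab)^(2m) a² + (ab)^(2m+1) |Z|`. -/
def WalkStmt : Prop := ∀ (κ : Type) [Fintype κ] (ω : (κ → ℝ) → ℝ≥0∞) (a b θ σ : ℝ) (j : ℕ), LC ω →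
    0 < a → 0 < b → 0 < θ → (σ = 1 ∨ σ = -1) →
    ∫⁻ x, ω x ≤ ENNReal.ofReal a → (∀ x, ω x ≤ ENNReal.ofReal b) →
    enC j (Fintype.card κ) ≤ θ ^ (4 * 4 ^ j) →
    ∫⁻ β, (∫⁻ x, ω x * ω (β + σ • x)) ^ (2 * 4 ^ j + 1) ≤
      ENNReal.ofReal (2 * θ ^ (2 * 4 ^ j) * a ^ (2 * 4 ^ j + 2) * b ^ (2 * 4 ^ j))

/-- `ω` dominates the lattice function `f` with thickness `τ` (sup norm) -/
def Maj {κ : Type} [Fintype κ] (τ : ℝ) (f : (κ → ℤ) → ℝ≥0∞) (ω : (κ → ℝ) → ℝ≥0∞) : Prop :=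
  ∀ (x : κ → ℤ) (u : κ → ℝ), ‖u‖ ≤ τ → f x ≤ ω ((fun p => (x p : ℝ)) + u)

/-- lattice analogue of `gpw` -/
noncomputable def zpw {κ : Type} (f : (κ → ℤ) → ℝ≥0∞) : ℕ → (κ → ℤ) → ℝ≥0∞
  | 0 => fun z => ∑' x, f x * f (x + z)
  | i + 1 => fun z => ∑' x, zpw f i x * zpw f i (z - x)

/-- DISC: sums against integrals (half-open unit cubes centred at the lattice points tile space; basic
lemma: `Maj (1/2) f ω → ∑' f ≤ ∫ ω`; `Maj τ f ω → Maj (τ - (i+1)/2) (zpw f i) (cpw ω i)`; for the coset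
use the disjoint cubes of side 2). -/
def DiscStmt : Prop := ∀ (κ : Type) [Fintype κ] (τ : ℝ) (f : (κ → ℤ) → ℝ≥0∞) (ω : (κ → ℝ) → ℝ≥0∞),
    Measurable ω → Maj τ f ω → 1 ≤ τ →
    (∑' x, f x ≤ ∫⁻ x, ω x) ∧
    (∀ i : ℕ, ((i : ℝ) + 1) / 2 ≤ τ → zpw f i 0 ≤ cpw ω i 0) ∧
    (∀ (σ : ℤ) (N : ℕ), (σ = 1 ∨ σ = -1) →
      ∑' z, (∑' x, f x * f (z + σ • x)) ^ N ≤ ∫⁻ β, (∫⁻ x, ω x * ω (β + (σ : ℝ) • x)) ^ N) ∧
    (∀ (s : ℤ) (o : κ → ℤ), 2 ≤ |s| →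
      2 ^ Fintype.card κ * ∑' y, f (o + s • y) ≤ ∫⁻ x, ω x)

/-- reduction mod `q`, with the affine coordinate `1` -/
def toPt (q : ℕ) {K R : Type} (x : K ⊕ R → ℤ) : Pt q (Option K) R :=
  (fun o => o.elim 1 (fun p => (x (Sum.inl p) : ZMod q)), fun i => (x (Sum.inr i) : ZMod q))

open Classical in
/-- push-forward of a finitely supported weight -/
noncomputable def push (q : ℕ) {K R : Type} (S : Finset (K ⊕ R → ℤ)) (w : (K ⊕ R → ℤ) → ℝ) :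
    Pt q (Option K) R → ℝ := fun γ => ∑ x ∈ S.filter (fun x => toPt q x = γ), w x

/-- a weight supported in a set of diameter `≤ D` -/
structure Supp {κ : Type} (S : Finset (κ → ℤ)) (w : (κ → ℤ) → ℝ) (b : ℝ) (D : ℕ) : Prop where
  bd : ∀ x, 0 ≤ w x ∧ w x ≤ b
  out : ∀ x, x ∉ S → w x = 0
  diam : ∀ x ∈ S, ∀ y ∈ S, ∀ p, |x p - y p| ≤ D

/-- MQ1: `toPt` is injective on `S`; energies (`gpw (push) i ζ = ∑` of `zpw i` over the `z` reducing to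
`ζ`, `zpw i z = 0` unless `|z p| ≤ 2^i D`); fibres of the first component. -/
def Mq1Stmt : Prop := ∀ (q : ℕ) [NeZero q] (K R : Type) [Fintype K] [DecidableEq K] [Fintype R]
    [DecidableEq R] (S : Finset (K ⊕ R → ℤ)) (w : (K ⊕ R → ℤ) → ℝ) (b : ℝ) (D : ℕ),
    Supp S w b D → D < q →
    (∀ x ∈ S, ∀ y ∈ S, toPt q x = toPt q y → x = y) ∧
    (∀ (i : ℕ) (En : ℝ), 2 ^ i * D < q → 0 ≤ En →
      zpw (fun x => ENNReal.ofReal (w x)) i 0 ≤ ENNReal.ofReal En → gpw (push q S w) i 0 ≤ En) ∧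
    (∀ v, ∑ y, push q S w (v, y) ≤ (2 * D + 1) ^ Fintype.card R * b)

/-- MQ2.  `c = ±1`: all pairs `(x,x')` with `toPt x' = ζ + c toPt x` have the same `z = x' - c x ∈ ℤ^κ`
(`2D < q`), and `z` determines `ζ`.  `c ≠ ±1` (Thue): differences `d, d'` of two solutions satisfy
`d' ≡ c d`; from one non-zero coordinate get coprime `α, β`, `|α|,|β| ≤ D`, `α ≡ cβ`; `2D² < q` gives
`β d' = α d` for all solutions, so all `x` lie in a coset of `β ℤ^κ` and all `x'` in a coset of `α ℤ^κ`,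
`max(|α|,|β|) ≥ 2`; hence the inner sum is `≤ a3 b`, and the inner sums add up to `a²`. -/
def Mq2Stmt : Prop := ∀ (q : ℕ) [Fact q.Prime] (K R : Type) [Fintype K] [DecidableEq K] [Fintype R]
    [DecidableEq R] (S : Finset (K ⊕ R → ℤ)) (w : (K ⊕ R → ℤ) → ℝ) (b E2 a3 : ℝ) (D N : ℕ),
    Supp S w b D → 2 * D < q → 2 * D ^ 2 < q → 0 ≤ E2 → 0 ≤ a3 →
    (∀ σ : ℤ, (σ = 1 ∨ σ = -1) →
      ∑' z, (∑' x, ENNReal.ofReal (w x) * ENNReal.ofReal (w (z + σ • x))) ^ (N + 1) ≤ ENNReal.ofReal E2) →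
    (∀ (s : ℤ) (o : K ⊕ R → ℤ), 2 ≤ |s| → ∑' y, ENNReal.ofReal (w (o + s • y)) ≤ ENNReal.ofReal a3) →
    ∀ c : ZMod q, c ≠ 0 →
      ∑ z, (∑ x, push q S w x * push q S w (z + c • x)) ^ (N + 1) ≤
        E2 + (a3 * b) ^ N * (∑ x ∈ S, w x) ^ 2

/-- WT (from EN, WALK, DISC, MQ1, MQ2): assembly of `Wt`; `m = 4^j = 2^(2j)`. -/
def WtStmt : Prop := ∀ (q : ℕ) [Fact q.Prime] (K R : Type) [Fintype K] [DecidableEq K] [Fintype R]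
    [DecidableEq R] (S : Finset (K ⊕ R → ℤ)) (w : (K ⊕ R → ℤ) → ℝ) (ω : (K ⊕ R → ℝ) → ℝ≥0∞)
    (b wmin τ Θ Λ θ ϱ ε2 : ℝ) (D j : ℕ), Supp S w b D → 0 < b → 0 < ∑ x ∈ S, w x → 0 < wmin →
    (∀ x, w x ≠ 0 → wmin ≤ w x) → LC ω → Maj τ (fun x => ENNReal.ofReal (w x)) ω → (j : ℝ) + 1 ≤ τ →
    ∫⁻ x, ω x ≤ ENNReal.ofReal (Θ * ∑ x ∈ S, w x) → (∀ x, ω x ≤ ENNReal.ofReal (Λ * b)) →
    0 < Θ → 0 < Λ → 0 < θ → 0 < ϱ → ϱ ≤ 1 →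
    2 * D < q → 2 * D ^ 2 < q → 4 ^ j * D < q →
    enC j (Fintype.card (K ⊕ R)) * Θ ^ (2 * 4 ^ j - 1) * Λ ≤ ϱ ^ (2 * 4 ^ j - 2) →
    enC j (Fintype.card (K ⊕ R)) ≤ θ ^ (4 * 4 ^ j) →
    2 * θ ^ (2 * 4 ^ j) * Θ ^ (2 * 4 ^ j + 2) * Λ ^ (2 * 4 ^ j) +
      (Θ / 2 ^ Fintype.card (K ⊕ R)) ^ (2 * 4 ^ j) ≤ ε2 →
    ((2 * D + 1) / (q : ℝ)) ^ Fintype.card R ≤ ϱ ^ (2 * 4 ^ j - 2) →
    Wt (push q S w) none (∑ x ∈ S, w x) b wmin ϱ ε2 (2 * j)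

/-- realises equation lemmas once, here -/
theorem eqnsC : True := by
  have _h0 := @toPt.eq_1
  trivial

end Crest.Agent.R225.Up
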