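import Crest.Agent.R225.UpD

/-! # Row 225, task D6: cells -/

open Finset MeasureTheory
open scoped ENNReal

namespace Crest.Agent.R225.Up

namespace CEL

section gen
variable {I : Type} [Fintype I] [DecidableEq I]

noncomputable def fl (w : I → ℝ) (y : I → ℝ) : I → ℤ := fun i => ⌊y i / w i⌋

def tr (J : Finset I) (z : I → ℤ) : I → ℤ := fun i => if i ∈ J then 0 else z i

omit [Fintype I] [DecidableEq I] in
lemma fl_iff {w : I → ℝ} (hw : ∀ i, 0 < w i) (y : I → ℝ) (i : I) (k : ℤ) :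
    fl w y i = k ↔ w i * k ≤ y i ∧ y i < w i * (k + 1) := by
  unfold fl
  rw [Int.floor_eq_iff, le_div_iff₀ (hw i), div_lt_iff₀ (hw i), mul_comm (w i), mul_comm (w i)]

omit [Fintype I] [DecidableEq I] in
lemma fl_cor {w : I → ℝ} (hw : ∀ i, 0 < w i) (z : I → ℤ) : fl w (fun i => w i * z i) = z := by
  funext i
  rw [fl_iff hw]
  constructor <;> nlinarith [hw i]

omit [Fintype I] [DecidableEq I] in
lemma fl_near {w : I → ℝ} (hw : ∀ i, 0 < w i) {x y : I → ℝ} {i : I} (h : fl w x i = fl w y i) :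
    |x i - y i| ≤ w i := by
  have h1 := (fl_iff hw x i _).1 h
  have h2 := (fl_iff hw y i _).1 rfl
  rw [abs_le]
  constructor <;> nlinarith [h1.1, h1.2, h2.1, h2.2]

omit [DecidableEq I] in
lemma vol_fl {w : I → ℝ} (hw : ∀ i, 0 < w i) (z : I → ℤ) :
    volume {y | fl w y = z} = ENNReal.ofReal (∏ i, w i) := by
  have : {y | fl w y = z} = Set.pi Set.univ fun i => Set.Ico (w i * z i) (w i * (z i + 1)) := by
    ext y
    simp only [Set.mem_ofPred_eq, funext_iff, fl_iff hw, Set.mem_pi, Set.mem_univ, forall_const,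
      Set.mem_Ico]
  rw [this, Real.volume_pi_Ico, ENNReal.ofReal_prod_of_nonneg fun i _ => (hw i).le]
  refine Finset.prod_congr rfl fun i _ => ?_
  congr 1
  ring

lemma meas_tr (w : I → ℝ) (J : Finset I) (s : I → ℤ) : MeasurableSet {y | tr J (fl w y) = s} := by
  have : Measurable fun y : I → ℝ => tr J (fl w y) := by
    refine measurable_pi_lambda _ fun i => ?_
    unfold tr fl
    split_ifs
    · exact measurable_const
    · exact Int.measurable_floor.comp (by fun_prop)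
  exact this (measurableSet_singleton s)

omit [DecidableEq I] in
lemma fin_cor {w : I → ℝ} (hw : ∀ i, 0 < w i) {K : Set (I → ℝ)} (hK : IsCompact K) :
    {z : I → ℤ | (fun i => w i * z i) ∈ K}.Finite := by
  obtain ⟨R, hR⟩ := hK.isBounded.exists_norm_le
  refine (Set.Finite.pi' fun i => Set.finite_Icc (-⌈R / w i⌉) ⌈R / w i⌉).subset fun z hz i => ?_
  have h1 : |w i * z i| ≤ R := (norm_le_pi_norm (fun i => w i * z i) i).trans (hR _ hz)
  rw [abs_mul, abs_of_pos (hw i), ← le_div_iff₀' (hw i)] at h1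
  have h2 := h1.trans (Int.le_ceil _)
  rw [← Int.cast_abs, Int.cast_le] at h2
  exact abs_le.1 h2

end gen

lemma sum_inv_sq (M : ℕ) : ∑ l : Fin M, 1 / ((l : ℝ) + 1) ^ 2 ≤ 2 := by
  have : ∀ M : ℕ, ∑ l ∈ range M, 1 / ((l : ℝ) + 1) ^ 2 ≤ 2 - 2 / (2 * (M : ℝ) + 1) := by
    intro M
    induction M with
    | zero => simp
    | succ M ih =>
      rw [Finset.sum_range_succ]
      push_cast
      have h : 1 / ((M : ℝ) + 1) ^ 2 ≤ 2 / (2 * M + 1) - 2 / (2 * (M + 1) + 1) := by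
        rw [div_sub_div _ _ (by positivity) (by positivity), div_le_div_iff₀ (by positivity) (by positivity)]
        nlinarith [(Nat.cast_nonneg M : (0 : ℝ) ≤ M)]
      linarith
  rw [Fin.sum_univ_eq_sum_range (fun l => 1 / ((l : ℝ) + 1) ^ 2)]
  have h1 := this M
  have : (0 : ℝ) ≤ 2 / (2 * M + 1) := by positivity
  linarith

lemma five_le {k : ℕ} (hk : 5 ≤ k) : 5 * k ≤ 2 ^ k := by
  induction k, hk using Nat.le_induction with
  | base => norm_num
  | succ k hk ih => rw [pow_succ]; omega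

lemma wide (c l : ℕ) {k : ℕ} (hk : k ≤ l + 1) :
    (4 * 2 ^ (c + 2 * Nat.size (l + 1)) + 1 : ℝ) * (k + 1) ≤ bet l * Gf (c + 18) l / 2 := by
  set σ := Nat.size (l + 1)
  have h1 : l + 2 ≤ 2 ^ σ := Nat.lt_size_self (l + 1)
  have h2 : (l : ℝ) + 2 ≤ 2 ^ σ := by exact_mod_cast h1
  have h3 : (k : ℝ) + 1 ≤ 2 ^ σ := by
    have : (k : ℝ) ≤ l + 1 := by exact_mod_cast hk
    linarith
  have h4 : ((l : ℝ) + 1) ^ 4 ≤ (2 ^ σ) ^ 4 := by gcongr; linarith
  have h5 : (1 : ℝ) ≤ 2 ^ (c + 2 * σ) := one_le_pow₀ one_le_two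
  have h6 : (1 : ℝ) ≤ (2 ^ σ) ^ 3 := one_le_pow₀ (one_le_pow₀ one_le_two)
  unfold bet Gf
  push_cast
  rw [le_div_iff₀ (by norm_num), one_div, inv_mul_eq_div, le_div_iff₀ (by positivity)]
  calc _ ≤ (8 * 2 ^ (c + 2 * σ) : ℝ) * 2 ^ σ * 2 * (2048 * (2 ^ σ) ^ 4) := by gcongr; linarith
    _ = (2 ^ (c + 2 * σ) * (2 ^ σ) ^ 5 * 2 ^ 15) * 1 := by ring
    _ ≤ (2 ^ (c + 2 * σ) * (2 ^ σ) ^ 5 * 2 ^ 18) * (2 ^ σ) ^ 3 := by gcongr <;> norm_num
    _ = _ := by ring

lemma loss (d l : ℕ) {k : ℕ} (hk : k ≤ l + 1) :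
    3 * (2 * (4 * 2 ^ (3 * d + 23 + 2 * Nat.size (l + 1)) + 1) / (1 / (512 * ((l : ℝ) + 1) ^ 3)) + 3) ^ k *
      (2 ^ d / 2 ^ 2 ^ (3 * d + 23 + 2 * Nat.size (l + 1))) ≤ cdd d / 2 * (1 / 2) ^ (l + 1) := by
  set σ := Nat.size (l + 1)
  set c := 3 * d + 23 with hc
  have h1 : l + 1 ≤ 2 ^ σ := (Nat.lt_size_self (l + 1)).le
  have h2 : (l : ℝ) + 1 ≤ 2 ^ σ := by exact_mod_cast h1
  have h5 : (1 : ℝ) ≤ 2 ^ (c + 2 * σ) := one_le_pow₀ one_le_two
  have h6 : (1 : ℝ) ≤ (2 ^ σ) ^ 3 := one_le_pow₀ (one_le_pow₀ one_le_two)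
  have h3 : 2 * (4 * 2 ^ (c + 2 * σ) + 1) / (1 / (512 * ((l : ℝ) + 1) ^ 3)) + 3 ≤ 2 ^ (c + 5 * σ + 14) := by
    rw [div_div_eq_mul_div, div_one]
    have h7 : (1 : ℝ) ≤ 2 ^ (c + 2 * σ) * (2 ^ σ) ^ 3 := one_le_mul_of_one_le_of_one_le h5 h6
    calc _ ≤ 2 * (8 * 2 ^ (c + 2 * σ)) * (512 * (2 ^ σ : ℝ) ^ 3) + 3 := by gcongr; linarith
      _ ≤ 2 ^ 14 * (2 ^ (c + 2 * σ) * (2 ^ σ) ^ 3) := by nlinarith
      _ = _ := by ring
  have h4 : 8 + 3 * d + (c + 5 * σ + 15) * (l + 1) ≤ 2 ^ (c + 2 * σ) := by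
    have h8 := five_le (k := c + σ) (by omega)
    have h9 : 1 ≤ 2 ^ σ := Nat.one_le_two_pow
    calc _ ≤ (8 + 3 * d) * 2 ^ σ + (c + 5 * σ + 15) * 2 ^ σ := by gcongr; nlinarith
      _ = (2 * c + 5 * σ) * 2 ^ σ := by rw [hc]; ring
      _ ≤ 2 ^ (c + σ) * 2 ^ σ := by gcongr; omega
      _ = _ := by ring
  have h7 : (2 : ℝ) ^ (8 + 3 * d + (c + 5 * σ + 15) * (l + 1)) ≤ 2 ^ 2 ^ (c + 2 * σ) :=
    pow_le_pow_right₀ one_le_two h4
  calc _ ≤ 4 * (2 ^ (c + 5 * σ + 14) : ℝ) ^ (l + 1) *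
        (2 ^ d / 2 ^ (8 + 3 * d + (c + 5 * σ + 15) * (l + 1))) := by
        refine mul_le_mul (mul_le_mul (by norm_num) ?_ (by positivity) (by norm_num)) ?_
          (by positivity) (by positivity)
        · exact (pow_le_pow_left₀ (by positivity) h3 _).trans
            (pow_le_pow_right₀ (one_le_pow₀ one_le_two) hk)
        · gcongr
    _ = _ := by
      unfold cdd
      rw [show (4 : ℝ) ^ d = 2 ^ (2 * d) by rw [pow_mul]; norm_num, ← pow_mul, one_div_pow,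
        show (c + 5 * σ + 15) * (l + 1) = (c + 5 * σ + 14) * (l + 1) + (l + 1) by ring]
      generalize (c + 5 * σ + 14) * (l + 1) = N
      field_simp
      ring

variable {M d : ℕ} {κ : Type} [Fintype κ]

noncomputable def wd (ε e : ℝ) : (Fin M ⊕ κ) ⊕ Fin d → ℝ :=
  Sum.elim (Sum.elim (fun l => bet l) fun _ => ε) fun _ => e

lemma bet_pos (l : ℕ) : 0 < bet l := by unfold bet; positivity

omit [Fintype κ] in
lemma wd_pos {ε e : ℝ} (hε : 0 < ε) (he : 0 < e) (i : (Fin M ⊕ κ) ⊕ Fin d) : 0 < wd ε e i := by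
  rcases i with (l | p) | j
  exacts [bet_pos l, hε, he]

omit [Fintype κ] in
lemma rho_pos {n : ℕ} (hn : 1 ≤ n) (i : (Fin M ⊕ κ) ⊕ Fin d) : 0 < rho n i := by
  rcases i with (l | p) | j <;> simp only [rho] <;> positivity

lemma sum_wd {n : ℕ} {ε e : ℝ} (h : 1024 * n * (Fintype.card κ * ε + d * e) ≤ 1) :
    ∑ i : (Fin M ⊕ κ) ⊕ Fin d, wd ε e i / rho n i ≤ 1 / 2 := by
  have h1 := sum_inv_sq M
  have h2 : ∑ l : Fin M, bet l / (1 / (256 * ((l : ℝ) + 1) ^ 2)) =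
      1 / 8 * ∑ l : Fin M, 1 / ((l : ℝ) + 1) ^ 2 := by
    rw [Finset.mul_sum]
    refine Finset.sum_congr rfl fun l _ => ?_
    unfold bet
    field_simp
    norm_num
  simp only [Fintype.sum_sum_type, wd, rho, Sum.elim_inl, Sum.elim_inr, Finset.sum_const,
    Finset.card_univ, Fintype.card_fin, nsmul_eq_mul]
  rw [h2]
  simp only [div_div_eq_mul_div, div_one]
  nlinarith

omit [Fintype κ] in
lemma box_eq {ε e : ℝ} (hε : 0 < ε) (he : 0 < e) (b : Fin d → ℤ) (z : (Fin M ⊕ κ) ⊕ Fin d → ℤ)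
    (hz : ∀ i, z (Sum.inr i) = b i) :
    box ε e (fun l => z (Sum.inl (Sum.inl l))) (fun p => z (Sum.inl (Sum.inr p))) b =
      {y | fl (wd ε e) y = z} := by
  ext y
  simp only [Set.mem_ofPred_eq, funext_iff, fl_iff (wd_pos hε he)]
  simp only [box, slab, Set.mem_ofPred_eq, Sum.forall, wd,
    Sum.elim_inl, Sum.elim_inr, hz, and_assoc, mul_add, mul_one]

end CEL

set_option maxHeartbeats 400000 in
open CEL in
theorem cells (hE : EroStmt) (hF : NfStmt) (hS : SlabStmt) (hW : WidthStmt) : CellsStmt := by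
  classical
  intro d
  refine ⟨3 * d + 23 + 18, by omega, ?_⟩
  intro M n κ _ _ K ε e m b hn hn1 hK hε he hm hsmall hle hrow
  have hρ : ∀ i : (Fin M ⊕ κ) ⊕ Fin d, 0 < rho n i := rho_pos hn1
  have hw : ∀ i : (Fin M ⊕ κ) ⊕ Fin d, 0 < wd ε e i := wd_pos hε he
  have hsum := sum_wd (M := M) hsmall
  obtain ⟨hdec, -⟩ := hF _ K n hn hn1 hK
  obtain ⟨hE1, hE2⟩ := hE _ K (rho n) hρ hK.cpt hK.cvx
  obtain ⟨-, -, hS3⟩ := hS (Fin M ⊕ κ) d e he
  have hKf : volume K ≠ ⊤ := hK.cpt.measure_lt_top.ne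
  set w : (Fin M ⊕ κ) ⊕ Fin d → ℝ := wd ε e with hwdef
  set E1 := ero K (rho n) 1 with hE1def
  have hfin : {z : (Fin M ⊕ κ) ⊕ Fin d → ℤ |
      (∀ i, z (Sum.inr i) = b i) ∧ {y | fl w y = z} ⊆ E1}.Finite :=
    (fin_cor hw hK.cpt).subset fun z hz => (hE1 1 zero_le_one).1 (hz.2 (fl_cor hw z))
  set P0 := hfin.toFinset with hP0
  have hP0m : ∀ z, z ∈ P0 ↔ (∀ i, z (Sum.inr i) = b i) ∧ {y | fl w y = z} ⊆ E1 := fun z =>
    hfin.mem_toFinset
  let J : Fin M → Finset ((Fin M ⊕ κ) ⊕ Fin d) := fun l =>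
    (Finset.Iic l).image fun l' => Sum.inl (Sum.inl l')
  have hJ1 : ∀ l l', Sum.inl (Sum.inl l') ∈ J l ↔ l' ≤ l := by simp [J]
  have hJ2 : ∀ l p, Sum.inl (Sum.inr p) ∉ J l := by simp [J]
  have hJ3 : ∀ l i, Sum.inr i ∉ J l := by simp [J]
  have hJc : ∀ l, (J l).card ≤ l + 1 := fun l => Finset.card_image_le.trans (by simp)
  let Bad : Fin M → ((Fin M ⊕ κ) ⊕ Fin d → ℤ) → Prop := fun l z => ∃ z' ∈ P0,
    tr (J l) z' = tr (J l) z ∧
      (Gf (3 * d + 23 + 18) l : ℤ) ≤ 2 * |z (Sum.inl (Sum.inl l)) - z' (Sum.inl (Sum.inl l))|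
  set P := P0.filter fun z => ∀ l, ¬ Bad l z with hP
  let fx : ((Fin M ⊕ κ) ⊕ Fin d → ℤ) → κ → ℤ := fun z p => z (Sum.inl (Sum.inr p))
  let fj : ((Fin M ⊕ κ) ⊕ Fin d → ℤ) → Fin M → ℤ := fun z l => z (Sum.inl (Sum.inl l))
  refine ⟨P.image fx, fun x => (P.filter fun z => fx z = x).image fj, fun x => ?_, fun x => ?_,
    fun x j hj => ?_, ?_⟩
  · rw [Finset.image_nonempty, Finset.filter_nonempty_iff, Finset.mem_image]
  · intro j hj j' hj' l hl
    obtain ⟨z, hz, rfl⟩ := Finset.mem_image.1 hj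
    obtain ⟨z', hz', rfl⟩ := Finset.mem_image.1 hj'
    obtain ⟨hz, hx⟩ := Finset.mem_filter.1 hz
    obtain ⟨hz', hx'⟩ := Finset.mem_filter.1 hz'
    obtain ⟨hz0, hb⟩ := Finset.mem_filter.1 hz
    have hz0' := (Finset.mem_filter.1 hz').1
    by_contra hc
    refine hb l ⟨z', hz0', ?_, not_lt.1 hc⟩
    funext i
    unfold tr
    split_ifs with hi
    · rfl
    rcases i with (l' | p) | i
    · exact (hl l' (not_le.1 fun h => hi ((hJ1 l l').2 h))).symm
    · exact congrFun (hx'.trans hx.symm) p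
    · rw [((hP0m z).1 hz0).1, ((hP0m z').1 hz0').1]
  · obtain ⟨z, hz, rfl⟩ := Finset.mem_image.1 hj
    obtain ⟨hz1, rfl⟩ := Finset.mem_filter.1 hz
    have hz0 := (hP0m z).1 (Finset.mem_filter.1 hz1).1
    rw [box_eq hε he b z hz0.1]
    exact hz0.2
  have hcard : ∑ x ∈ P.image fx, (((P.filter fun z => fx z = x).image fj).card : ℝ) = P.card := by
    rw [Finset.card_eq_sum_card_image fx P]
    push_cast
    refine Finset.sum_congr rfl fun x _ => ?_
    rw [Finset.card_image_of_injOn]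
    intro z hz z' hz' h
    obtain ⟨hz, hx⟩ := Finset.mem_filter.1 hz
    obtain ⟨hz', hx'⟩ := Finset.mem_filter.1 hz'
    funext i
    rcases i with (l' | p) | i
    · exact congrFun h l'
    · exact congrFun (hx.trans hx'.symm) p
    · rw [((hP0m z).1 (Finset.mem_filter.1 hz).1).1, ((hP0m z').1 (Finset.mem_filter.1 hz').1).1]
  have hprod : ∏ i, w i = (∏ l : Fin M, bet l) * ε ^ Fintype.card κ * e ^ d := by
    simp [hwdef, wd, Fintype.prod_sum_type]
  rw [hcard, ← hprod]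
  have hw0 : 0 < ∏ i, w i := Finset.prod_pos fun i _ => hw i
  have hcd : 0 < cdd d := by unfold cdd; positivity
  set Sl : Set ((Fin M ⊕ κ) ⊕ Fin d → ℝ) := slab e (fun j => e * b j) with hSl
  have hSlm : ∀ y, y ∈ Sl ↔ ∀ i, fl w y (Sum.inr i) = b i := by
    intro y
    simp only [fl_iff hw]
    simp only [hSl, slab, Set.mem_ofPred_eq, hwdef, wd, Sum.elim_inr, mul_add, mul_one]
  let 𝒮 : Fin M → Finset ((Fin M ⊕ κ) ⊕ Fin d → ℤ) := fun l => (P0.filter (Bad l)).image (tr (J l))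
  -- the loss at level `l`
  have hloss : ∀ l : Fin M, ∑ s ∈ 𝒮 l, volume (E1 ∩ {y | tr (J l) (fl w y) = s}) ≤
      ENNReal.ofReal (cdd d / 2 * (1 / 2) ^ ((l : ℕ) + 1) * m) := by
    intro l
    set i := 3 * d + 23 + 2 * Nat.size (l + 1) with hi
    have hβ1 : 1 / (512 * ((l : ℝ) + 1) ^ 3) < 1 := by
      rw [div_lt_one (by positivity)]
      have : (1 : ℝ) ≤ ((l : ℝ) + 1) ^ 3 := one_le_pow₀ (by linarith [(Nat.cast_nonneg l : (0 : ℝ) ≤ (l : ℕ))])
      linarith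
    have h := hW _ _ K Sl (rho n) (J l) (𝒮 l) (fun s => {y | tr (J l) (fl w y) = s})
      (4 * 2 ^ i + 1) (1 / (512 * ((l : ℝ) + 1) ^ 3)) (ENNReal.ofReal (2 ^ d / 2 ^ 2 ^ i * m))
      hK.cpt hK.cvx hρ (by positivity) (by positivity) ?_ ?_ ?_ ?_ ?_ ?_ ?_
    · refine h.trans ?_
      rw [← ENNReal.ofReal_mul (by positivity), ← mul_assoc]
      exact ENNReal.ofReal_le_ofReal (mul_le_mul_of_nonneg_right (loss d l (hJc l)) hm.le)
    · intro s hs
      refine ⟨meas_tr _ _ _, fun y hy => (hSlm y).2 fun j => ?_⟩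
      obtain ⟨z, hz, rfl⟩ := Finset.mem_image.1 hs
      have := congrFun hy (Sum.inr j)
      simp only [tr, if_neg (hJ3 l j)] at this
      rw [this, ((hP0m z).1 (Finset.mem_filter.1 hz).1).1]
    · intro s _ s' _ hss
      exact Set.disjoint_left.2 fun y h1 h2 => hss (h1.symm.trans h2)
    · intro s _ x hx y hy
      refine Eq.trans ?_ hx
      funext j
      simp only [tr, fl]
      split_ifs with hj
      · rfl
      · rw [hy j hj]
    · intro s _ x hx y hy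
      refine le_trans (Finset.sum_le_sum fun j hj => ?_) ((Finset.sum_le_sum_of_subset_of_nonneg
        (Finset.subset_univ _) fun j _ _ => (div_pos (hw j) (hρ j)).le).trans hsum)
      have := congrFun (hx.trans hy.symm) j
      simp only [tr, if_neg (Finset.mem_compl.1 hj)] at this
      have := fl_near hw this
      have := hρ j
      gcongr
    · refine (Finset.sum_le_card_nsmul _ _ (1 / (2 * ((l : ℝ) + 1))) fun j hj => ?_).trans ?_
      · obtain ⟨l', hl', rfl⟩ := Finset.mem_image.1 hj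
        have h1 : (l' : ℝ) ≤ l := by exact_mod_cast Finset.mem_Iic.1 hl'
        simp only [rho]
        rw [div_div_eq_mul_div, div_one, div_mul_eq_mul_div, one_mul,
          div_le_div_iff₀ (by positivity) (by positivity)]
        have h2 : ((l' : ℝ) + 1) ^ 2 ≤ ((l : ℝ) + 1) ^ 2 := by gcongr
        nlinarith [(Nat.cast_nonneg l : (0 : ℝ) ≤ (l : ℕ))]
      · have h1 : ((J l).card : ℝ) ≤ l + 1 := by exact_mod_cast hJc l
        rw [nsmul_eq_mul]
        calc _ ≤ ((l : ℝ) + 1) * (1 / (2 * ((l : ℝ) + 1))) := by gcongr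
          _ = _ := by field_simp
    · intro s hs
      obtain ⟨z, hz, rfl⟩ := Finset.mem_image.1 hs
      obtain ⟨hz, z', hz', htr, hG⟩ := Finset.mem_filter.1 hz
      refine ⟨fun i => w i * z i, ⟨((hP0m z).1 hz).2 (fl_cor hw z), ?_⟩, fun i => w i * z' i,
        ⟨((hP0m z').1 hz').2 (fl_cor hw z'), ?_⟩, _, (hJ1 l l).2 le_rfl, ?_⟩
      · simp only [Set.mem_ofPred_eq, fl_cor hw]
      · simp only [Set.mem_ofPred_eq, fl_cor hw, htr]
      · refine (wide (3 * d + 23) l (hJc l)).trans ?_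
        have h1 : (Gf (3 * d + 23 + 18) l : ℝ) ≤
            2 * |(z (Sum.inl (Sum.inl l)) : ℝ) - z' (Sum.inl (Sum.inl l))| := by exact_mod_cast hG
        have h2 := bet_pos l
        simp only [hwdef, wd, Sum.elim_inl]
        rw [← mul_sub, abs_mul, abs_of_pos h2]
        nlinarith
    · intro u hu
      have h1 := hS3 K _ hK.cpt hK.cvx hle (fun j => e * b j) u
      have h2 := hdec i ((1 / 2 : ℝ) • u) (by
        rw [norm_smul, Real.norm_eq_abs, abs_of_pos (by norm_num)]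
        linarith)
      have h3 : (2 : ℝ≥0∞) ^ 2 ^ i * volume ({y | y ∈ K ∧ y + u ∈ K} ∩ Sl) ≤ 2 ^ d * ENNReal.ofReal m := by
        refine (ENNReal.mul_le_mul_iff_left hK.pos.ne' hKf).1 ?_
        calc _ = 2 ^ 2 ^ i * (volume ({y | y ∈ K ∧ y + u ∈ K} ∩ Sl) * volume K) := by ring
          _ ≤ 2 ^ 2 ^ i * (2 ^ d * ENNReal.ofReal m * gK K ((1 / 2 : ℝ) • u)) := by gcongr
          _ = 2 ^ d * ENNReal.ofReal m * (2 ^ 2 ^ i * gK K ((1 / 2 : ℝ) • u)) := by ring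
          _ ≤ _ := by gcongr
      refine (ENNReal.mul_le_mul_iff_right (a := 2 ^ 2 ^ i) (by simp) (by simp)).1 (h3.trans ?_)
      rw [show (2 : ℝ≥0∞) = ENNReal.ofReal 2 by simp, ← ENNReal.ofReal_pow (by norm_num),
        ← ENNReal.ofReal_pow (by norm_num), ← ENNReal.ofReal_mul (by positivity),
        ← ENNReal.ofReal_mul (by positivity)]
      refine ENNReal.ofReal_le_ofReal (le_of_eq ?_)
      field_simp
  have hcover : ero K (rho n) 2 ∩ Sl ⊆ (⋃ z ∈ P, {y | fl w y = z}) ∪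
      ⋃ l ∈ (univ : Finset (Fin M)), ⋃ s ∈ 𝒮 l, E1 ∩ {y | tr (J l) (fl w y) = s} := by
    rintro y ⟨hy, hys⟩
    have hz : fl w y ∈ P0 := by
      refine (hP0m _).2 ⟨(hSlm y).1 hys, fun y' hy' => ?_⟩
      have := hE2 2 1 y (y' - y) hy (by
        refine le_trans (Finset.sum_le_sum fun j _ => ?_) (hsum.trans (by norm_num))
        have := fl_near hw (congrFun hy' j)
        have := hρ j
        simp only [Pi.sub_apply]
        gcongr)
      simpa [show (2 : ℝ) - 1 = 1 by norm_num] using this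
    by_cases hb : ∀ l, ¬ Bad l (fl w y)
    · exact Or.inl (Set.mem_biUnion (Finset.mem_filter.2 ⟨hz, hb⟩) rfl)
    · push Not at hb
      obtain ⟨l, hl⟩ := hb
      refine Or.inr (Set.mem_biUnion (Finset.mem_univ l) (Set.mem_biUnion
        (Finset.mem_image_of_mem _ (Finset.mem_filter.2 ⟨hz, hl⟩)) ⟨((hP0m _).1 hz).2 rfl, rfl⟩))
  have hgeo : ∑ l : Fin M, cdd d / 2 * (1 / 2) ^ ((l : ℕ) + 1) * m ≤ cdd d * m / 2 := by
    have h1 := sum_geometric_two_le M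
    rw [← Finset.sum_mul, ← Finset.mul_sum, Fin.sum_univ_eq_sum_range (fun l => (1 / 2 : ℝ) ^ (l + 1))]
    simp only [pow_succ]
    rw [← Finset.sum_mul]
    nlinarith [mul_pos hcd hm]
  have hp1 : 0 ≤ P.card * ∏ i, w i := mul_nonneg (Nat.cast_nonneg _) hw0.le
  have hp2 : 0 ≤ cdd d * m / 2 := (half_pos (mul_pos hcd hm)).le
  have htot : ENNReal.ofReal (cdd d * m) ≤ ENNReal.ofReal (P.card * ∏ i, w i + cdd d * m / 2) := by
    refine hrow.trans ((measure_mono hcover).trans ((measure_union_le _ _).trans ?_))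
    rw [ENNReal.ofReal_add hp1 hp2]
    refine add_le_add ((measure_biUnion_finset_le _ _).trans ?_)
      ((measure_biUnion_finset_le _ _).trans ?_)
    · simp only [vol_fl hw, Finset.sum_const, nsmul_eq_mul]
      rw [ENNReal.ofReal_mul (Nat.cast_nonneg _), ENNReal.ofReal_natCast]
    · refine (Finset.sum_le_sum fun l _ => (measure_biUnion_finset_le _ _).trans (hloss l)).trans ?_
      rw [← ENNReal.ofReal_sum_of_nonneg fun l _ => by positivity]
      exact ENNReal.ofReal_le_ofReal hgeo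
  have := (ENNReal.ofReal_le_ofReal_iff (add_nonneg hp1 hp2)).1 htot
  linarith

end Crest.Agent.R225.Up
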