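import Crest.Agent.R225.UpB

/-!
# Row 225, S0347: cleaning a point set (deterministic linear algebra mod `q`)
-/

open Finset

set_option linter.unusedSectionVars false

namespace Crest.Agent.R225.Up

namespace CL

variable {q : ℕ} [Fact q.Prime] {E : Type} [DecidableEq E] [AddCommGroup E] [Module (ZMod q) E]

lemma span_fin {κ : Type} [Fintype κ] (v : κ → E) :
    ∃ S : Finset E, S.card ≤ q ^ Fintype.card κ ∧
      ∀ y, y ∈ S ↔ y ∈ Submodule.span (ZMod q) (Set.range v) := by
  classical
  refine ⟨univ.image (fun c : κ → ZMod q => ∑ i, c i • v i), ?_, fun y => ?_⟩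
  · refine card_image_le.trans ?_
    rw [card_univ, Fintype.card_fun, ZMod.card]
  · rw [Submodule.mem_span_range_iff_exists_fun]
    simp

lemma span_finset (D : Finset E) :
    ∃ S : Finset E, S.card ≤ q ^ D.card ∧
      ∀ y, y ∈ S ↔ y ∈ Submodule.span (ZMod q) (D : Set E) := by
  obtain ⟨S, h1, h2⟩ := span_fin (q := q) (fun x : D => (x : E))
  refine ⟨S, by simpa using h1, fun y => ?_⟩
  rw [h2]
  have : Set.range (fun x : D => (x : E)) = (D : Set E) := by
    ext y; simp
  rw [this]

lemma pairs_card (L : Finset E) (ℓ : E →ₗ[ZMod q] ZMod q) (hℓ : ∀ x ∈ L, ℓ x = 1) (N : ℕ)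
    (h2 : ¬ Bad2 q L N) (c : ZMod q) (hc : c ≠ 0) (f : E) :
    (L.filter (fun x => f + c • x ∈ L ∧ f + c • x ≠ x)).card ≤ q ^ (N + 1) := by
  set Pr := L.filter (fun x => f + c • x ∈ L ∧ f + c • x ≠ x) with hPr
  have hq : 1 ≤ q := (Fact.out : q.Prime).one_lt.le
  have key : ∀ k : ℕ, (∃ x : Fin (k + 1) → E, (∀ i, x i ∈ Pr) ∧
      LinearIndependent (ZMod q) (Fin.cons (f + c • x 0) x : Fin (k + 2) → E)) ∨
      Pr.card ≤ q ^ (k + 1) := by
    intro k
    induction k with
    | zero =>
      rcases Pr.eq_empty_or_nonempty with h | ⟨x0, hx0⟩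
      · right; simp [h]
      · left
        have h0 := mem_filter.mp hx0
        refine ⟨fun _ => x0, fun _ => hx0, ?_⟩
        rw [linearIndependent_finCons]
        have hx : x0 ≠ 0 := by
          intro h
          have := hℓ x0 h0.1
          rw [h, map_zero] at this
          exact zero_ne_one this
        refine ⟨(linearIndependent_unique_iff (v := fun _ : Fin 1 => x0)).mpr hx, ?_⟩
        rw [Set.range_const, Submodule.mem_span_singleton]
        rintro ⟨a, ha⟩
        have h1 := hℓ _ h0.2.1
        rw [← ha, map_smul, hℓ x0 h0.1, smul_eq_mul, mul_one] at h1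
        rw [h1, one_smul] at ha
        exact h0.2.2 ha.symm
    | succ k ih =>
      rcases ih with ⟨x, hx, hli⟩ | h
      · by_cases hall : ∀ p ∈ Pr, p ∈ Submodule.span (ZMod q)
            (Set.range (Fin.cons (f + c • x 0) x : Fin (k + 2) → E))
        · right
          obtain ⟨S, h1, h2⟩ := span_fin (q := q) (Fin.cons (f + c • x 0) x : Fin (k + 2) → E)
          refine (card_le_card fun p hp => (h2 p).mpr (hall p hp)).trans ?_
          simpa using h1
        · left
          push Not at hall
          obtain ⟨p, hp, hnp⟩ := hall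
          refine ⟨Fin.snoc x p, fun i => ?_, ?_⟩
          · refine Fin.lastCases ?_ (fun j => ?_) i
            · simpa using hp
            · simpa using hx j
          · have h0 : (Fin.snoc x p : Fin (k + 1 + 1) → E) 0 = x 0 := by
              have := Fin.snoc_castSucc (α := fun _ => E) p x 0
              simpa using this
            rw [h0, Fin.cons_snoc_eq_snoc_cons]
            exact hli.finSnoc hnp
      · right
        exact h.trans (Nat.pow_le_pow_right hq (by omega))
  rcases key N with ⟨x, hx, hli⟩ | h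
  · exfalso
    refine h2 ⟨c, f, x, hc, fun i => ?_, hli⟩
    have := mem_filter.mp (hx i)
    exact ⟨this.1, this.2.1⟩
  · exact h

open Classical in
/-- configuration with `e` extras -/
def Cfg (q : ℕ) {E : Type} [AddCommGroup E] [Module (ZMod q) E] (L : Finset E) (s e : ℕ)
    (D : Finset E) (c : Fin e → E → ZMod q) : Prop :=
  D ⊆ L ∧ D.card ≤ s * e ∧ LinearIndepOn (ZMod q) id (D : Set E) ∧
    (∀ j, ∑ x ∈ D, c j x • x ∈ L) ∧ 2 * e ≤ (D.filter (fun x => ∃ j, c j x ≠ 0)).card

lemma mem_span_fs {D : Finset E} {y : E} (h : y ∈ Submodule.span (ZMod q) (D : Set E)) :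
    ∃ a : E → ZMod q, ∑ x ∈ D, a x • x = y := by
  obtain ⟨a, -, ha⟩ := Submodule.mem_span_finset.mp h
  exact ⟨a, ha⟩

lemma sum_mem_span (D : Finset E) (a : E → ZMod q) :
    ∑ x ∈ D, a x • x ∈ Submodule.span (ZMod q) (D : Set E) :=
  Submodule.sum_mem _ fun x hx => Submodule.smul_mem _ _ (Submodule.subset_span hx)

/-- extension step -/
lemma extend {L : Finset E} {s e : ℕ} {D : Finset E} {c : Fin e → E → ZMod q}
    (h : Cfg q L s e D c) (C : Finset E) (hC : C ⊆ L) (hdis : Disjoint D C) (hs : C.card ≤ s)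
    (h2 : 2 ≤ C.card) (hli : LinearIndepOn (ZMod q) id ((D ∪ C : Finset E) : Set E))
    (a : E → ZMod q) (ha : ∀ x ∈ C, a x ≠ 0) (hy : ∑ x ∈ D ∪ C, a x • x ∈ L) :
    ∃ D' c', Cfg q L s (e + 1) D' c' := by
  classical
  obtain ⟨h1, h3, -, h5, h6⟩ := h
  refine ⟨D ∪ C, Fin.cons a (fun j x => if x ∈ D then c j x else 0), union_subset h1 hC, ?_, hli,
    fun j => ?_, ?_⟩
  · refine (card_union_le _ _).trans ?_
    rw [mul_add, mul_one]; omega
  · refine Fin.cases ?_ (fun j => ?_) j
    · simpa using hy
    · simp only [Fin.cons_succ]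
      rw [sum_union hdis]
      have e1 : ∑ x ∈ D, (if x ∈ D then c j x else 0) • x = ∑ x ∈ D, c j x • x :=
        sum_congr rfl fun x hx => by rw [if_pos hx]
      have e2 : ∑ x ∈ C, (if x ∈ D then c j x else 0) • x = 0 :=
        sum_eq_zero fun x hx => by
          rw [if_neg (fun hD => disjoint_left.mp hdis hD hx), zero_smul]
      rw [e1, e2, add_zero]
      exact h5 j
  · have hsub : (D.filter (fun x => ∃ j, c j x ≠ 0)) ∪ C ⊆ (D ∪ C).filter (fun x => ∃ j : Fin (e + 1),
        (Fin.cons a (fun j x => if x ∈ D then c j x else 0) : Fin (e + 1) → E → ZMod q) j x ≠ 0) := by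
      intro x hx
      rw [mem_filter]
      rcases mem_union.mp hx with hx | hx
      · obtain ⟨hx1, j, hj⟩ := mem_filter.mp hx
        refine ⟨mem_union_left _ hx1, j.succ, ?_⟩
        simpa [hx1] using hj
      · exact ⟨mem_union_right _ hx, 0, by simpa using ha x hx⟩
    have hd : Disjoint (D.filter (fun x => ∃ j, c j x ≠ 0)) C :=
      hdis.mono_left (filter_subset _ _)
    have := card_le_card hsub
    rw [card_union_of_disjoint hd] at this
    convert (show 2 * (e + 1) ≤ _ from le_trans (by omega) this)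

end CL

open CL in
theorem clean : CleanStmt := by
  intro q _ E _ _ _ L ℓ s ρ N hℓ hb1 hb2
  classical
  have hq : 1 ≤ q := (Fact.out : q.Prime).one_lt.le
  -- maximal configuration
  have hex : ∃ e, ¬ ∃ D c, Cfg q L s e D c := by
    refine ⟨ρ, ?_⟩
    rintro ⟨D, c, h⟩
    exact hb1 ⟨D, c, h⟩
  have h0 : ∃ D c, Cfg q L s 0 D c :=
    ⟨∅, fun _ _ => 0, by simp, by simp, by simp, fun j => j.elim0, by simp⟩
  have hne : Nat.find hex ≠ 0 := fun h => Nat.find_spec hex (h ▸ h0)
  obtain ⟨e, he⟩ := Nat.exists_eq_succ_of_ne_zero hne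
  have hno : ¬ ∃ D c, Cfg q L s (e + 1) D c := by
    have := Nat.find_spec hex
    rwa [he] at this
  have hyes : ∃ D c, Cfg q L s e D c := by
    have := Nat.find_min hex (m := e) (by omega)
    exact not_not.mp this
  have heρ : e + 1 ≤ ρ := by
    have : Nat.find hex ≤ ρ := Nat.find_min' hex (by
      rintro ⟨D, c, h⟩
      exact hb1 ⟨D, c, h⟩)
    omega
  obtain ⟨D, c, hcfg⟩ := hyes
  obtain ⟨S, hS1, hS2⟩ := span_finset (q := q) D
  have hSc : S.card ≤ q ^ (s * ρ) := by
    refine hS1.trans (Nat.pow_le_pow_right hq (hcfg.2.1.trans (Nat.mul_le_mul_left _ (by omega))))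
  let Pr : ZMod q × E → Finset E := fun p => L.filter (fun x => p.2 + p.1 • x ∈ L ∧ p.2 + p.1 • x ≠ x)
  let I : Finset (ZMod q × E) := (univ.erase 0) ×ˢ S
  refine ⟨S ∪ I.biUnion Pr, ?_, ?_⟩
  · have h1 : (I.biUnion Pr).card ≤ I.card * q ^ (N + 1) := by
      refine card_biUnion_le_card_mul _ _ _ fun p hp => ?_
      exact pairs_card L ℓ hℓ N hb2 p.1 (ne_of_mem_erase (mem_product.mp hp).1) p.2
    have h2 : I.card ≤ q * q ^ (s * ρ) := by
      rw [card_product]
      refine Nat.mul_le_mul ?_ hSc
      refine card_erase_le.trans ?_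
      rw [card_univ, ZMod.card]
    have h3 : q ^ (s * ρ) ≤ q ^ (s * ρ + N + 2) := Nat.pow_le_pow_right hq (by omega)
    have h4 : q * q ^ (s * ρ) * q ^ (N + 1) = q ^ (s * ρ + N + 2) := by ring
    have h5 := card_union_le S (I.biUnion Pr)
    have h6 := Nat.mul_le_mul_right (q ^ (N + 1)) h2
    omega
  · intro C hC hCs
    by_contra hdep
    have hCL : ∀ x ∈ C, x ∈ L := fun x hx => (mem_sdiff.mp (hC hx)).1
    have hCS : ∀ x ∈ C, x ∉ Submodule.span (ZMod q) (D : Set E) := fun x hx h =>
      (mem_sdiff.mp (hC hx)).2 (mem_union_left _ ((hS2 x).mpr h))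
    have hCP : ∀ x ∈ C, ∀ p ∈ I, x ∉ Pr p := fun x hx p hp h =>
      (mem_sdiff.mp (hC hx)).2 (mem_union_right _ (mem_biUnion.mpr ⟨p, hp, h⟩))
    have hdisC : Disjoint D C := disjoint_left.mpr fun x hD hx =>
      hCS x hx (Submodule.subset_span hD)
    obtain ⟨C', hC', hmin⟩ := exists_min_image
      (C.powerset.filter (fun C' => ¬ LinearIndepOn (ZMod q) id ((D ∪ C' : Finset E) : Set E)))
      Finset.card ⟨C, mem_filter.mpr ⟨mem_powerset_self _, fun h => hdep (h.mono (by
        intro x hx; simp [show x ∈ C from hx]))⟩⟩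
    obtain ⟨hC'1, hC'2⟩ := mem_filter.mp hC'
    have hsub : C' ⊆ C := mem_powerset.mp hC'1
    have hli : ∀ x ∈ C', LinearIndepOn (ZMod q) id ((D ∪ C'.erase x : Finset E) : Set E) := by
      intro x hx
      by_contra h
      have := hmin (C'.erase x) (mem_filter.mpr
        ⟨mem_powerset.mpr ((erase_subset _ _).trans hsub), h⟩)
      have h2 := card_erase_lt_of_mem hx
      omega
    have hne : C'.Nonempty := by
      rw [nonempty_iff_ne_empty]
      rintro rfl
      exact hC'2 (by simpa using hcfg.2.2.1)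
    obtain ⟨y, hy⟩ := hne
    have hins : ∀ x ∈ C', ((D ∪ C' : Finset E) : Set E) =
        insert x ((D ∪ C'.erase x : Finset E) : Set E) := by
      intro x hx
      ext z
      simp only [coe_union, coe_erase, Set.mem_union, mem_coe, Set.mem_insert_iff, Set.mem_sdiff,
        Set.mem_singleton_iff]
      constructor
      · rintro (h | h)
        · exact Or.inr (Or.inl h)
        · by_cases hz : z = x
          · exact Or.inl hz
          · exact Or.inr (Or.inr ⟨h, hz⟩)
      · rintro (h | h | h)
        · exact Or.inr (h ▸ hx)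
        · exact Or.inl h
        · exact Or.inr h.1
    have hyspan : y ∈ Submodule.span (ZMod q) ((D ∪ C'.erase y : Finset E) : Set E) := by
      by_contra h
      exact hC'2 (hins y hy ▸ (hli y hy).id_insert h)
    obtain ⟨a, ha⟩ := mem_span_fs hyspan
    have hdis : Disjoint D (C'.erase y) := hdisC.mono_right ((erase_subset _ _).trans hsub)
    have hane : ∀ x ∈ C'.erase y, a x ≠ 0 := by
      intro x hx h0
      have hxy : x ≠ y := ne_of_mem_erase hx
      have hxC : x ∈ C' := mem_of_mem_erase hx
      have hyx : y ∈ ((D ∪ C'.erase x : Finset E) : Set E) := by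
        simp [hxy.symm, hy]
      refine (hli x hxC).notMem_span hyx ?_
      show y ∈ _
      rw [← ha]
      refine Submodule.sum_mem _ fun z hz => ?_
      by_cases hzx : z = x
      · rw [hzx, h0, zero_smul]; exact Submodule.zero_mem _
      · refine Submodule.smul_mem _ _ (Submodule.subset_span ⟨z, ⟨?_, ?_⟩, rfl⟩)
        · rcases mem_union.mp hz with h | h
          · simp [h]
          · simp [hzx, mem_of_mem_erase h]
        · rw [ha]
          rintro rfl
          rcases mem_union.mp hz with h | h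
          · exact disjoint_left.mp hdisC h (hsub hy)
          · exact (notMem_erase _ _) h
    rw [sum_union hdis] at ha
    rcases Nat.lt_or_ge (C'.erase y).card 2 with hlt | hge
    · rcases Nat.lt_or_ge (C'.erase y).card 1 with h1 | h1
      · have : C'.erase y = ∅ := card_eq_zero.mp (by omega)
        rw [this, sum_empty, add_zero] at ha
        exact hCS y (hsub hy) (ha ▸ sum_mem_span D a)
      · obtain ⟨x, hx⟩ := card_eq_one.mp (show (C'.erase y).card = 1 by omega)
        have hx' : x ∈ C'.erase y := by rw [hx]; exact mem_singleton_self _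
        rw [hx, sum_singleton] at ha
        refine hCP x (hsub (mem_of_mem_erase hx')) (a x, ∑ z ∈ D, a z • z) ?_ ?_
        · exact mem_product.mpr ⟨mem_erase.mpr ⟨hane x hx', mem_univ _⟩,
            (hS2 _).mpr (sum_mem_span D a)⟩
        · refine mem_filter.mpr ⟨hCL x (hsub (mem_of_mem_erase hx')), ?_, ?_⟩
          · show ∑ z ∈ D, a z • z + a x • x ∈ L
            rw [ha]; exact hCL y (hsub hy)
          · show ∑ z ∈ D, a z • z + a x • x ≠ x
            rw [ha]; exact (ne_of_mem_erase hx').symm
    · refine hno (extend hcfg (C'.erase y) (fun x hx => hCL x (hsub (mem_of_mem_erase hx))) hdis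
        ((card_le_card ((erase_subset _ _).trans hsub)).trans hCs) hge (hli y hy) a hane ?_)
      rw [sum_union hdis, ha]
      exact hCL y (hsub hy)

end Crest.Agent.R225.Up
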