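import Crest.Agent.R225.UpAv

/-!
# Row 225, part A6: LINK, CIND, CORE
-/

open Finset

set_option linter.unusedSectionVars false

namespace Crest.Agent.R225.Up

namespace CR
open SB

variable {ι P : Type} [Fintype P] [DecidableEq P] {Q : ℕ} [NeZero Q]
    (X : ι → P → ZMod Q) (G : ℕ → ℕ) (W : ι → (ℕ → ℕ) → ℕ → ℝ)

/-- labels from `θ` below level `M`, from `lab` above -/
def merge {M : ℕ} (lab : ι → ℕ → ℕ) (θ : Fin M → P → ZMod Q) (x : ι) : ℕ → ℕ :=
  fun l => if h : l < M then (val X (θ ⟨l, h⟩) x).val / (Q / G l) else lab x l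

lemma merge_snoc {M : ℕ} (lab : ι → ℕ → ℕ) (θ : Fin M → P → ZMod Q) (θ' : P → ZMod Q) (x : ι) :
    merge X G lab (Fin.snoc (α := fun _ => P → ZMod Q) θ θ') x =
      merge X G (relab X G M lab θ') θ x := by
  funext l
  unfold merge relab
  by_cases h1 : l < M
  · rw [dif_pos h1, dif_pos (Nat.lt_succ_of_lt h1)]
    have : (⟨l, Nat.lt_succ_of_lt h1⟩ : Fin (M + 1)) = Fin.castSucc ⟨l, h1⟩ := rfl
    rw [this, Fin.snoc_castSucc]
  · rw [dif_neg h1]
    by_cases h2 : l = M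
    · subst h2
      rw [dif_pos (Nat.lt_succ_self l), Function.update_self]
      have : (⟨l, Nat.lt_succ_self l⟩ : Fin (l + 1)) = Fin.last l := rfl
      rw [this, Fin.snoc_last]
    · rw [dif_neg (by omega), Function.update_of_ne h2]

lemma link' (A : Finset ι) (M : ℕ) (lab : ι → ℕ → ℕ) :
    av (fun θ : Fin M → P → ZMod Q => ind (∀ x ∈ A, W x (merge X G lab θ x) 0 = 0)) =
      fail X G W A M lab := by
  induction M generalizing lab with
  | zero =>
    rw [fail_zero]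
    have : ∀ (θ : Fin 0 → P → ZMod Q) x, merge X G lab θ x = lab x := fun θ x => by
      funext l; simp [merge]
    simp only [this]
    exact av_const _
  | succ M ih =>
    rw [fail, ← av_equiv (Fin.snocEquiv (fun _ : Fin (M + 1) => P → ZMod Q)), av_prod]
    refine av_congr fun θ' => ?_
    rw [← ih]
    refine av_congr fun θ => ?_
    simp only [← merge_snoc]
    rfl

variable [DecidableEq ι]

lemma lev_mono {l : ℕ} {V α β α' β' : ℝ} {B u : ℕ} (hW : ∀ x j, 0 ≤ W x j l) (hV : 0 ≤ V + 1)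
    (h : Lev X G W l V α β B u) (hα : α ≤ α') (hβ : β ≤ β') : Lev X G W l V α' β' B u := by
  intro A lab h1 h2
  refine (h A lab h1 h2).trans (add_le_add hα (mul_le_mul_of_nonneg_right hβ ?_))
  exact fam_nonneg _ _ (fun x _ => hW x _) hV

end CR

theorem link : LinkStmt := by
  intro ι P _ _ Q _ X G W A M
  exact CR.link' X G W A M (fun _ _ => 0)

theorem cind (hS : StageStmt) (hB : BndStmt) : CindStmt := by
  intro ι P _ _ _ Q _ X p0 G M W V δ α β B t T hX hW hG hs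
  suffices h : ∀ l ≤ M, 0 ≤ α l ∧ 0 ≤ β l ∧
      Lev X G W l (V l) (α l) (β l) (2 * B l) (2 * t l) from (h M le_rfl).2.2
  intro l
  induction l with
  | zero =>
    intro h0
    refine ⟨hs.α0, hs.β0, fun A lab h1 _ => ?_⟩
    have hV := hs.V1 0 h0
    rw [SB.fail_zero, SB.ind_neg]
    · exact add_nonneg hs.α0 (mul_nonneg hs.β0
        (SB.fam_nonneg _ _ (fun x _ => (hW x).nonneg _ _) (by linarith)))
    · intro h
      rw [Finset.sum_eq_zero h] at h1
      linarith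
  | succ l ih =>
    intro hl
    have hl' : l < M := hl
    obtain ⟨hα, hβ, hL⟩ := ih hl'.le
    have hV1 := hs.V1 (l + 1) hl
    have hV0 := hs.V1 l hl'.le
    obtain ⟨hδ0, hδ1⟩ := hs.δ0 l hl'
    rw [hs.Vrec l hl'] at hL
    have h1 := hS ι P Q X p0 G M W l (B l) (t l) (T l) (V (l + 1)) (δ l) (α l) (β l) hX hW hl'
      (hG l hl') hδ0 hδ1 (hs.Bbig l hl') (hs.BQ l hl') hV1 (hs.t1 l hl') (hs.tT l hl')
      (hs.tV l hl') (hs.TV l hl') hα hβ hL
    rw [← hs.Vrec l hl'] at h1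
    obtain ⟨α', β', hα', hβ', hcase⟩ := hs.step l hl'
    have hWn : ∀ x j, 0 ≤ W x j (l + 1) := fun x j => (hW x).nonneg _ _
    have h2 := CR.lev_mono X G W hWn (by linarith) h1 hα' hβ'
    have hα'0 : 0 ≤ α' := by
      refine le_trans ?_ hα'
      have : 0 ≤ mainT l (t l) (T l) (δ l) (V (l + 1)) := by
        unfold mainT; positivity
      linarith
    have hβ'0 : 0 ≤ β' := by
      refine le_trans ?_ hβ'
      have : 0 ≤ errT (G l) (t l) (T l) (δ l) (V (l + 1)) := by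
        unfold errT; positivity
      positivity
    rcases hcase with ⟨e1, e2, e3, e4⟩ | ⟨e1, e2, e3, e4⟩
    · rw [e1, e2]
      exact ⟨hα'0.trans e3, hβ'0.trans e4, CR.lev_mono X G W hWn (by linarith) h2 e3 e4⟩
    · refine ⟨le_trans (by positivity) e3, le_trans (by positivity) e4, fun A lab m1 m2 => ?_⟩
      have h3 := h2 A lab m1 m2
      have h4 := hB ι P Q X A (fun x => W x (lab x) (l + 1)) ((1 / 2) ^ (l + 1)) (V (l + 1) + 1)
        (2 * B l) (2 * B (l + 1)) (2 * t l) (t (l + 1)) (by linarith)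
        (fun x _ => ⟨hWn x _, (hW x).le _ _ hl⟩) m2 (by positivity) (by omega) e2
      have hΦ : 0 ≤ Phi X (2 * B (l + 1)) (2 * t (l + 1)) A (fun x => W x (lab x) (l + 1))
          (V (l + 1) + 1) := SB.fam_nonneg _ _ (fun x _ => hWn x _) (by linarith)
      have h5 := mul_le_mul_of_nonneg_left h4 hβ'0
      have h6 := mul_le_mul_of_nonneg_right e4 hΦ
      push_cast at h5
      rw [show (2 * (2 * (B l : ℝ)) + 1) = 4 * B l + 1 by ring] at h5
      nlinarith

theorem core (hL : LinkStmt) (hC : CindStmt) (hS : SchedStmt) : CoreStmt := by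
  intro c1 hc1
  obtain ⟨c2, C0, Γ0, J0, h1, h2, h⟩ := hS c1 hc1
  refine ⟨c2, C0, Γ0, J0, h1, h2, ?_⟩
  intro Γ J Q _ G a1 a2 a3 a4 a5 a6 a7 ι P _ _ _ X p0 W A B u hX hW hB hu m1 m2
  obtain ⟨V, δ, α, β, B', t, T, hs, hV, hα, hβ, hβ0, hB', ht⟩ := h Γ J Q G a1 a2 a3 a4 a5 a7
  have h3 := hC ι P Q X p0 G (2 ^ J) W V δ α β B' t T hX hW a6 hs A (fun _ _ => 0)
    (by rw [hV]; exact m1) (by rw [hV]; exact m2)
  rw [hL, ← hV]
  have hV1 := hs.V1 (2 ^ J) le_rfl
  have hw : ∀ x ∈ A, 0 ≤ W x (fun _ => 0) (2 ^ J) := fun x _ => (hW x).nonneg _ _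
  refine h3.trans (add_le_add hα (mul_le_mul hβ ?_ (SB.fam_nonneg _ _ hw (by linarith))
    (Real.exp_pos _).le))
  have b1 : 2 * B' (2 ^ J) ≤ B := by exact_mod_cast hB'.trans hB
  have b2 : 2 * t (2 ^ J) ≤ u := by exact_mod_cast ht.trans hu
  exact SB.fam_mono hw (by linarith) (fun C hC hD => hC.1 (SB.dis_mono b1 hD)) b2 subset_rfl

end Crest.Agent.R225.Up
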