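import Crest.Agent.R225.UpC

/-!
# Row 225, S0347, part D: convex geometry, the lattice, numerics

Coordinates `I = (Fin M ⊕ κ) ⊕ Fin d`, `κ = K ⊕ R`: horizontal (hashed), base (construction A),
vertical (`d+1` independent tries).  All norms on `I → ℝ` are sup norms.
-/

open Finset MeasureTheory
open scoped ENNReal

namespace Crest.Agent.R225.Up

/-- covariogram -/
noncomputable def gK {I : Type} [Fintype I] (K : Set (I → ℝ)) (u : I → ℝ) : ℝ≥0∞ :=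
  volume {x | x ∈ K ∧ x + u ∈ K}

/-- normalised position -/
structure Norm {I : Type} [Fintype I] [DecidableEq I] (K : Set (I → ℝ)) : Prop where
  cpt : IsCompact K
  cvx : Convex ℝ K
  pos : 0 < volume K
  ge : ∀ i, volume K ≤ 2 * gK K (Pi.single i 1)
  le : ∀ u, volume K ≤ 2 * gK K u → ‖u‖ ≤ 2

/-- a lattice covering of density `≤ c` -/
def Cov {I : Type} [Fintype I] [DecidableEq I] (K : Set (I → ℝ)) (c : ℝ) : Prop :=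
  ∃ g : Matrix I I ℝ, g.det ≠ 0 ∧ (∀ x : I → ℝ, ∃ z : I → ℤ, x - g.mulVec (fun i => (z i : ℝ)) ∈ K) ∧
    (volume K).toReal / |g.det| ≤ c

/-- weighted `ℓ¹` norm -/
noncomputable def cn {I : Type} [Fintype I] (ρ u : I → ℝ) : ℝ := ∑ i, |u i| / ρ i

/-- erosion by a cross-polytope -/
def ero {I : Type} [Fintype I] (K : Set (I → ℝ)) (ρ : I → ℝ) (t : ℝ) : Set (I → ℝ) :=
  {x | ∀ u, cn ρ u ≤ t → x + u ∈ K}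

/-- NMD: a basis of nearly maximal determinant (Cramer's rule). -/
def NmdStmt : Prop := ∀ (I : Type) [Fintype I] [DecidableEq I] (Y : Set (I → ℝ)),
    Bornology.IsBounded Y → Submodule.span ℝ Y = ⊤ →
    ∃ A : Matrix I I ℝ, A.det ≠ 0 ∧ (∀ j, (fun i => A i j) ∈ Y) ∧
      ∀ y ∈ Y, ∃ s : I → ℝ, ‖s‖ ≤ 2 ∧ y = A.mulVec s

/-- RED (from NMD): apply NMD to `{u | vol K ≤ 2 gK K u}` (bounded; contains a neighbourhood of `0`: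
if `ball x0 r ⊆ K` and `‖u‖ < λ r` then `(1-λ)K + λ x0 ⊆ K ∩ (K - u)`), and replace `K` by `A⁻¹ K`. -/
def RedStmt : Prop := ∀ (I : Type) [Fintype I] [DecidableEq I] (c : ℝ),
    (∀ K : Set (I → ℝ), Norm K → Cov K c) →
    ∀ K : Set (I → ℝ), IsCompact K → Convex ℝ K → (interior K).Nonempty → Cov K c

/-- ERO: elementary properties of erosions. -/
def EroStmt : Prop := ∀ (I : Type) [Fintype I] (K : Set (I → ℝ)) (ρ : I → ℝ), (∀ i, 0 < ρ i) →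
    IsCompact K → Convex ℝ K →
    (∀ t, 0 ≤ t → ero K ρ t ⊆ K ∧ IsCompact (ero K ρ t) ∧ Convex ℝ (ero K ρ t)) ∧
    (∀ t s x u, x ∈ ero K ρ t → cn ρ u ≤ s → x + u ∈ ero K ρ (t - s))

/-- NF (PL for indicator functions gives `vol A · vol B ≤ vol C²` if `(A+B)/2 ⊆ C`).
Decay: `g(u) vol ≤ g(u/2)²`.  Diameter: `g(λ(y-x)) ≥ (1-λ)^n vol`, `λ = 1/(2n)`.
Erosion: `g(2^-i e) ≥ 2^(-2^-i) vol ≥ (1 - 2^-i) vol`, `s ↦ g(s e)` is antitone on `[0,∞)`, `g(-u) = g(u)`,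
so `vol - g(± s e) ≤ 2 s vol` for `s ∈ [0,1]`; `x ∈ ero K ρ t` as soon as `x` and all `x ± t ρ_i e_i ∈ K`.
Cube: `ρ = 1/(8n)`, `t = 1`.  Small: the lattice `(1/(4n²)) ℤ^I`. -/
def NfStmt : Prop := ∀ (I : Type) [Fintype I] [DecidableEq I] (K : Set (I → ℝ)) (n : ℕ),
    Fintype.card I = n → 1 ≤ n → Norm K →
    (∀ (i : ℕ) (u : I → ℝ), 2 * 2 ^ i < ‖u‖ → 2 ^ (2 ^ i) * gK K u ≤ volume K) ∧
    (∀ x ∈ K, ∀ y ∈ K, ‖x - y‖ ≤ 4 * n) ∧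
    (∀ (ρ : I → ℝ) (t : ℝ), (∀ i, 0 < ρ i) → 0 ≤ t → (∀ i, t * ρ i ≤ 1) →
      volume K ≤ volume (ero K ρ t) + ENNReal.ofReal (4 * t * ∑ i, ρ i) * volume K) ∧
    (∃ x0 : I → ℝ, ∀ u : I → ℝ, ‖u‖ ≤ 1 / (8 * (n : ℝ) ^ 2) → x0 + u ∈ K) ∧
    Cov K ((32 * (n : ℝ) ^ 3) ^ n)

/-- vertical slab -/
def slab {A : Type} {d : ℕ} (e : ℝ) (v : Fin d → ℝ) : Set (A ⊕ Fin d → ℝ) :=
  {x | ∀ j, v j ≤ x (Sum.inr j) ∧ x (Sum.inr j) < v j + e}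

/-- SLAB: Tonelli; midpoint Brunn–Minkowski (PL for indicators);
`H(v,u) F(v') ≤ H((v+v')/2, u/2)² ≤ 𝔪 H((v+v')/2, u/2)`, integrate in `v'`. -/
def SlabStmt : Prop := ∀ (A : Type) [Fintype A] (d : ℕ) (e : ℝ), 0 < e →
    (∀ L : Set (A ⊕ Fin d → ℝ), MeasurableSet L →
      Measurable (fun v => volume (L ∩ slab e v)) ∧
      ∫⁻ v, volume (L ∩ slab e v) = ENNReal.ofReal (e ^ d) * volume L) ∧
    (∀ (L L' L'' : Set (A ⊕ Fin d → ℝ)) (v v' : Fin d → ℝ), MeasurableSet L → MeasurableSet L' →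
      MeasurableSet L'' → (∀ x ∈ L, ∀ y ∈ L', (1 / 2 : ℝ) • (x + y) ∈ L'') →
      volume (L ∩ slab e v) * volume (L' ∩ slab e v') ≤
        volume (L'' ∩ slab e ((1 / 2 : ℝ) • (v + v'))) ^ 2) ∧
    (∀ (K : Set (A ⊕ Fin d → ℝ)) (m : ℝ≥0∞), IsCompact K → Convex ℝ K →
      (∀ v, volume (K ∩ slab e v) ≤ m) → ∀ v u,
      volume ({y | y ∈ K ∧ y + u ∈ K} ∩ slab e v) * volume K ≤ 2 ^ d * m * gK K ((1 / 2 : ℝ) • u))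

noncomputable def cdd (d : ℕ) : ℝ := 1 / (32 * 4 ^ d)
noncomputable def Cdd (d : ℕ) : ℝ := 4 * 4 ^ d * (d + 1) ^ d

/-- the `d+1` neighbouring vertical coefficient vectors -/
def nb {d : ℕ} (b0 : Fin d → ℤ) (o : Option (Fin d)) : Fin d → ℤ :=
  b0 + o.elim 0 (fun j => Pi.single j 1)

/-- ROWS (from NMD, ERO, NF, SLAB).  `𝔪 = sup_v F(K,v)`, `F(L,v) = vol(L ∩ slab e v)`, `F(K,v*) ≥ 𝔪/2`.
`Y = {v | cd 𝔪 ≤ F(ero 3, v)}` is midpoint convex and bounded; off `Y`,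
`F(ero 3,v)² ≤ cd 𝔪 F(ero 3,v) ≤ 2 cd F(K,(v+v*)/2)²`, so `𝔪 |Y| ≥ e^d vol K (1/2 - 1/4)`.  NMD for
`Y - y0`: `Y ⊆ y0 + A[-2,2]^d`; the closure of `Y` is convex (closed + midpoint convex) and contains the
simplex `y0 + A{s ≥ 0, ∑ s ≤ 1}`; `η = -A/(d+1)`, `b0 = -⌊(d+1) A⁻¹(y - y0)⌋`.
`Rows = {b | cd 𝔪 ≤ F(ero 2, e b)}`: a point within `2e` of `Y` qualifies (translate vertically). -/
def RowsStmt : Prop := ∀ (A : Type) [Fintype A] [DecidableEq A] (d n : ℕ) (K : Set (A ⊕ Fin d → ℝ))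
    (ρ : A ⊕ Fin d → ℝ) (e : ℝ), Fintype.card (A ⊕ Fin d) = n → 1 ≤ n → Norm K → (∀ i, 0 < ρ i) →
    24 * ∑ i, ρ i ≤ 1 → 0 < e → e ≤ 1 → ∑ j, 2 * e / ρ (Sum.inr j) ≤ 1 →
    ∃ (m : ℝ) (η : Matrix (Fin d) (Fin d) ℝ) (Rows : Finset (Fin d → ℤ)), 0 < m ∧ η.det ≠ 0 ∧
      (∀ v, volume (K ∩ slab e v) ≤ ENNReal.ofReal m) ∧
      e ^ d * (volume K).toReal ≤ Cdd d * m * |η.det| ∧
      e ^ d * (1 / (4 * (n : ℝ) ^ 2)) ^ n ≤ (9 * n) ^ d * m ∧ m ≤ e ^ d * (8 * n) ^ n ∧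
      (Rows.card : ℝ) ≤ (8 * n / e + 3) ^ d ∧
      (∀ b ∈ Rows, ENNReal.ofReal (cdd d * m) ≤ volume (ero K ρ 2 ∩ slab e (fun j => e * b j))) ∧
      ∀ y : Fin d → ℝ, ∃ b0 : Fin d → ℤ, ∀ o,
        (fun j => ⌊(y - η.mulVec (fun i => (nb b0 o i : ℝ))) j / e⌋) ∈ Rows

/-- WIDTH (from ERO).  For a wide cell let `Δ = (p'-p)|_J`, `λ = T/‖Δ‖ ≤ 1/(|J|+1)`, and contract only
the `J`-coordinates towards `p`: `A z = (1-λ) z + λ p` on `J`, `= z` off `J`.  `A z` and `A z + λΔ` lie in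
`ero (1/2)`, `A z ∈ Cell`, `det = (1-λ)^|J| ≥ 1/3`.  Round `λΔ` to `β' ℤ^J`
(`≤ (2T/β'+3)^|J|` values) and group the disjoint cells by the rounded vector. -/
def WidthStmt : Prop := ∀ (I σ : Type) [Fintype I] [DecidableEq I] (K Sl : Set (I → ℝ)) (ρ : I → ℝ)
    (J : Finset I) (𝒮 : Finset σ) (Cell : σ → Set (I → ℝ)) (T β' : ℝ) (Hb : ℝ≥0∞),
    IsCompact K → Convex ℝ K → (∀ i, 0 < ρ i) → 0 < T → 0 < β' →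
    (∀ s ∈ 𝒮, MeasurableSet (Cell s) ∧ Cell s ⊆ Sl) →
    (∀ s ∈ 𝒮, ∀ s' ∈ 𝒮, s ≠ s' → Disjoint (Cell s) (Cell s')) →
    (∀ s ∈ 𝒮, ∀ x ∈ Cell s, ∀ y : I → ℝ, (∀ i, i ∉ J → y i = x i) → y ∈ Cell s) →
    (∀ s ∈ 𝒮, ∀ x ∈ Cell s, ∀ y ∈ Cell s, ∑ i ∈ Jᶜ, |x i - y i| / ρ i ≤ 1 / 2) →
    ∑ i ∈ J, β' / ρ i ≤ 1 / 2 →
    (∀ s ∈ 𝒮, ∃ p ∈ ero K ρ 1 ∩ Cell s, ∃ p' ∈ ero K ρ 1 ∩ Cell s, ∃ i ∈ J,
      T * (J.card + 1) ≤ |p i - p' i|) →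
    (∀ u : I → ℝ, T - β' ≤ ‖u‖ → volume ({y | y ∈ K ∧ y + u ∈ K} ∩ Sl) ≤ Hb) →
    ∑ s ∈ 𝒮, volume (ero K ρ 1 ∩ Cell s) ≤ ENNReal.ofReal (3 * (2 * T / β' + 3) ^ J.card) * Hb

/-- number of labels at level `l` -/
def Gf (c0 l : ℕ) : ℕ := 2 ^ (c0 + 10 * Nat.size (l + 1))

/-- horizontal cell widths -/
noncomputable def bet (l : ℕ) : ℝ := 1 / (2048 * ((l : ℝ) + 1) ^ 4)

/-- erosion radii -/
noncomputable def rho {M d : ℕ} {κ : Type} (n : ℕ) : (Fin M ⊕ κ) ⊕ Fin d → ℝ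
  | Sum.inl (Sum.inl l) => 1 / (256 * ((l : ℝ) + 1) ^ 2)
  | _ => 1 / (256 * (n : ℝ))

/-- a cell -/
def box {M d : ℕ} {κ : Type} (ε e : ℝ) (j : Fin M → ℤ) (x : κ → ℤ) (b : Fin d → ℤ) :
    Set ((Fin M ⊕ κ) ⊕ Fin d → ℝ) :=
  {y | (∀ l : Fin M, bet l * j l ≤ y (Sum.inl (Sum.inl l)) ∧ y (Sum.inl (Sum.inl l)) < bet l * (j l + 1)) ∧
    (∀ p, ε * x p ≤ y (Sum.inl (Sum.inr p)) ∧ y (Sum.inl (Sum.inr p)) < ε * (x p + 1)) ∧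
    y ∈ slab e (fun i => e * b i)}

/-- CELLS (from ERO, NF, SLAB, WIDTH).  `C0` = cells contained in `ero 1` (finitely many; they cover
`ero 2 ∩ slab`, a cell has `cn`-diameter `≤ 1/4 + 1/4`).  A slice `(l, x, j_(>l))` is bad if it holds two
cells of `C0` with `G l ≤ 2|j l - j' l|`; remove all cells of bad slices.  WIDTH with
`J = {l' ≤ l}`, `p, p'` the corners, `T = 4·2^i + 1`, `2^i = 2^(c + 2 size(l+1))`, `β' = 1/(512 (l+1)³)`,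
`Hb = 2^d 𝔪 2^(-2^i)` (SLAB + decay); the loss at level `l` is `≤ (cd 𝔪/2) 2^-(l+1)` for `c = c(d)`
large, and `T (l+2) ≤ G l · bet l / 2` for `c0 = c + 18`.  `S = {x | C x ≠ ∅}`. -/
def CellsStmt : Prop := ∀ d : ℕ, ∃ c0 : ℕ, 11 ≤ c0 ∧ ∀ (M n : ℕ) (κ : Type) [Fintype κ] [DecidableEq κ]
    (K : Set ((Fin M ⊕ κ) ⊕ Fin d → ℝ)) (ε e m : ℝ) (b : Fin d → ℤ),
    Fintype.card ((Fin M ⊕ κ) ⊕ Fin d) = n → 1 ≤ n → Norm K → 0 < ε → 0 < e → 0 < m →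
    1024 * n * (Fintype.card κ * ε + d * e) ≤ 1 →
    (∀ v, volume (K ∩ slab e v) ≤ ENNReal.ofReal m) →
    ENNReal.ofReal (cdd d * m) ≤ volume (ero K (rho n) 2 ∩ slab e (fun j => e * b j)) →
    ∃ (S : Finset (κ → ℤ)) (C : (κ → ℤ) → Finset (Fin M → ℤ)),
      (∀ x, x ∈ S ↔ (C x).Nonempty) ∧ (∀ x, Window (Gf c0) (C x)) ∧
      (∀ x, ∀ j ∈ C x, box ε e j x b ⊆ ero K (rho n) 1) ∧
      cdd d * m / 2 ≤ (∑ x ∈ S, ((C x).card : ℝ)) *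
        ((∏ l : Fin M, bet l) * ε ^ Fintype.card κ * e ^ d)

/-- MAJ (from ERO, NF): `ω y = vol(K ∩ {ε y ≤ base < ε(y+1)} ∩ slab) / (∏ h · ε^k e^d)`, `h = G · bet`.
Log-concave by PL for indicators, integral by Tonelli, bound by a box of horizontal sides `8n`;
the cells over `x`, translated by `ε u` in the base, are disjoint subsets of the set defining `ω (x+u)`;
diameter from the corners of cells. -/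
def MajStmt : Prop := ∀ (M d n : ℕ) (κ : Type) [Fintype κ] [DecidableEq κ] (G : ℕ → ℕ)
    (K : Set ((Fin M ⊕ κ) ⊕ Fin d → ℝ)) (ε e m τ : ℝ) (b : Fin d → ℤ) (D : ℕ)
    (C : (κ → ℤ) → Finset (Fin M → ℤ)),
    Fintype.card ((Fin M ⊕ κ) ⊕ Fin d) = n → 1 ≤ n → Norm K → 0 < ε → 0 < e → 0 ≤ m →
    (∀ l, 0 < G l) → 256 * n * (Fintype.card κ * ε) * τ ≤ 1 → 4 * n ≤ ε * D →
    (∀ v, volume (K ∩ slab e v) ≤ ENNReal.ofReal m) →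
    (∀ x, ∀ j ∈ C x, box ε e j x b ⊆ ero K (rho n) 1) →
    (∀ x y, (C x).Nonempty → (C y).Nonempty → ∀ p, |x p - y p| ≤ D) ∧
    ∃ ω : (κ → ℝ) → ℝ≥0∞, LC ω ∧
      Maj τ (fun x => ENNReal.ofReal ((C x).card / ∏ l : Fin M, (G l : ℝ))) ω ∧
      ∫⁻ y, ω y ≤ ENNReal.ofReal (m / ((∏ l : Fin M, (G l : ℝ) * bet l) * ε ^ Fintype.card κ * e ^ d)) ∧
      ∀ y, ω y ≤ ENNReal.ofReal ((8 * n) ^ M / ∏ l : Fin M, (G l : ℝ) * bet l)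

/-- some kept base point has a cell with the right labels -/
def Good {q Q M : ℕ} {K R : Type} [Fintype K] (G : ℕ → ℕ) (C : (K ⊕ R → ℤ) → Finset (Fin M → ℤ))
    (Gm : R → Option K → ZMod q) (θ : Fin M → Option K → ZMod Q) : Prop :=
  ∃ x : K ⊕ R → ℤ, ∃ j ∈ C x, mem Gm (toPt q x) ∧ ∀ l : Fin M,
    (((θ l none + ∑ p, θ l (some p) * (x (Sum.inl p) : ZMod Q)).val / (Q / G l) : ℕ) : ℤ) ≡ j l [ZMOD G l]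

/-- the conclusion of `CoreStmt` for fixed parameters -/
def CoreAt (Q : ℕ) [NeZero Q] (G : ℕ → ℕ) (M : ℕ) (V α β : ℝ) (B u : ℕ) : Prop :=
  ∀ (ι P : Type) [DecidableEq ι] [Fintype P] [DecidableEq P] (X : ι → P → ZMod Q) (p0 : P)
    (W : ι → (ℕ → ℕ) → ℕ → ℝ) (A : Finset ι), (∀ x, X x p0 = 1) → (∀ x, Tree G M (W x)) →
    V ≤ ∑ x ∈ A, W x (fun _ => 0) M → ∑ x ∈ A, W x (fun _ => 0) M ≤ V + 1 →
    prob (fun θ : Fin M → P → ZMod Q => ∀ x ∈ A, W x (labs X G θ x) 0 = 0) ≤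
      α + β * Nu X B u A (fun x => W x (fun _ => 0) M) (V + 1)

/-- ROW (from TREE, BASE).  For `γ : Pt` let `lift γ` be the point of `S` over it (if any),
`X γ = (1, lift γ |_K mod Q)`, `W γ` the tree of `C (lift γ)` (of `∅` if none), so that
`W γ 0 M = push q S w γ`; `Fl A = prob (∀ γ ∈ A, W γ (labs X G θ γ) 0 = 0)`; `¬ Good` forces this event for
`A = Lat`. -/
def RowStmt : Prop := ∀ (q Q M : ℕ) [Fact q.Prime] [NeZero Q] (K R : Type) [Fintype K] [DecidableEq K]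
    [Fintype R] [DecidableEq R] (G : ℕ → ℕ) (S : Finset (K ⊕ R → ℤ))
    (C : (K ⊕ R → ℤ) → Finset (Fin M → ℤ)) (a wmin ϱ ε2 V Θ β' α β : ℝ) (i t' u B : ℕ),
    q ∣ Q → (∀ l, 0 < G l ∧ Even (G l)) → (∀ x, Window G (C x)) →
    (∀ x ∈ S, ∀ y ∈ S, toPt q x = toPt q y → x = y) →
    Wt (push q S (fun x => (C x).card / ∏ l : Fin M, (G l : ℝ))) none a ((1 / 2) ^ M) wmin ϱ ε2 i →
    CoreAt Q G M V α β B u → B < q →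
    1 ≤ t' → 2 * (1 / 2) ^ M * (q : ℝ) ^ (8 * t') ≤ β' → 32 * t' * (1 / 2) ^ M ≤ β' → β' ≤ 1 →
    2 ^ i ≤ 3 * t' → 1 ≤ V → 4 * V ≤ a * pi0 q R → a * pi0 q R ≤ Θ * V → 1 ≤ Θ →
    2 * (q : ℝ) ^ (2 * 2 ^ i * (2 * 2 ^ i - 2) + 2 * 2 ^ i + 2) * (1 / 2) ^ M ≤ V → 0 ≤ α → 0 ≤ β →
    prob (fun z : (R → Option K → ZMod q) × (Fin M → Option K → ZMod Q) => ¬ Good G C z.1 z.2) ≤
      baseErr q (2 * 2 ^ i) t' u (Θ * V) wmin ϱ ε2 β' Θ α β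

/-- glue a constant column to a matrix -/
def mkG {A K T : Type} (y : A → T) (g : A → K → T) : A → Option K → T :=
  fun a o => o.elim (y a) (g a)

/-- LAT: the explicit block triangular lattice.  Coefficients `(c, a', b', bv)`, `h l = G l · bet l`,
tildes = `ZMod.val` lifts: vertical `η bv`; base `ε a'`, `ε (G̃ a' + q b' + ∑ bv_j ξ̃y_j)`; horizontal
`h l (c l + (θ̃' l · a' + ∑ bv_j ξ̃θ_(j,l)) / Q)`.  For a target `y`: `N = ⌊y_base/ε⌋`, `N l = ⌊Q y_l / h l⌋`,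
`γ = (N'' - g N', N l - θ' l · N') - ∑ b0_j ξ_j`, `bv = nb b0 o`, `a' = N' - x'`; `b'` solves the base
congruence; `c l` is chosen so that the integer `s = N l - θ̃'·a' - ξ̃θ·bv - Q c l` (≡ the hash value)
has `⌊s / (Q / G l)⌋ = j l`; then `y - λ ∈ box j x b`. -/
def LatStmt : Prop := ∀ (q Q M d : ℕ) [NeZero q] [NeZero Q] (K R : Type) [Fintype K] [DecidableEq K]
    [Fintype R] [DecidableEq R] (G : ℕ → ℕ) (L : Set ((Fin M ⊕ (K ⊕ R)) ⊕ Fin d → ℝ)) (ε e : ℝ)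
    (η : Matrix (Fin d) (Fin d) ℝ) (Rows : Finset (Fin d → ℤ))
    (C : (Fin d → ℤ) → (K ⊕ R → ℤ) → Finset (Fin M → ℤ))
    (g : R → K → ZMod q) (θ' : Fin M → K → ZMod Q) (ξ : Fin d → (R → ZMod q) × (Fin M → ZMod Q)),
    0 < ε → 0 < e → (∀ l : Fin M, G l ∣ Q) →
    (∀ b ∈ Rows, ∀ x, ∀ j ∈ C b x, box ε e j x b ⊆ L) →
    (∀ y : Fin d → ℝ, ∃ b0 : Fin d → ℤ, ∀ o,
        (fun j => ⌊(y - η.mulVec (fun i => (nb b0 o i : ℝ))) j / e⌋) ∈ Rows) →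
    (∀ γ : (R → ZMod q) × (Fin M → ZMod Q), ∃ o : Option (Fin d), ∀ b ∈ Rows,
        Good G (C b) (mkG (γ - o.elim 0 ξ).1 g) (mkG (γ - o.elim 0 ξ).2 θ')) →
    ∃ A : Matrix ((Fin M ⊕ (K ⊕ R)) ⊕ Fin d) ((Fin M ⊕ (K ⊕ R)) ⊕ Fin d) ℝ,
      A.det = (∏ l : Fin M, (G l : ℝ) * bet l) * ε ^ Fintype.card (K ⊕ R) * (q : ℝ) ^ Fintype.card R * η.det ∧
      ∀ y, ∃ z : (Fin M ⊕ (K ⊕ R)) ⊕ Fin d → ℤ, y - A.mulVec (fun i => (z i : ℝ)) ∈ L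

/-! ### Numerics (`d = 2400`) -/

/-- the ranges of `j` (`m = 4^j`, `M = m^7`) and `q` -/
structure Rg (n j q : ℕ) : Prop where
  lo : 4 ^ (10 * j) ≤ n
  hi : n < 4 ^ (10 * (j + 1))
  qlo : n ^ 40 ≤ q
  qhi : q ≤ 2 * n ^ 40

def kk (n j : ℕ) : ℕ := n - 2 ^ (14 * j) - 2400
noncomputable def Gam (n : ℕ) : ℝ := n * Real.log n / 200
noncomputable def PG (c0 M : ℕ) : ℝ := ∏ l : Fin M, (Gf c0 l : ℝ)
noncomputable def HH (c0 M : ℕ) : ℝ := ∏ l : Fin M, (Gf c0 l : ℝ) * bet l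
def QQ (c0 j q : ℕ) : ℕ := q * 2 ^ (c0 + 10 * (14 * j + 1))
noncomputable def BB (c2 : ℝ) (j : ℕ) : ℕ := ⌈c2 * (2 ^ (14 * j)) ^ 36⌉₊
noncomputable def uu (c2 : ℝ) (n j : ℕ) : ℕ := ⌈c2 * Gam n / 2 ^ (14 * j)⌉₊
noncomputable def tp (n j : ℕ) : ℕ := ⌈4 * Gam n / 2 ^ (14 * j)⌉₊
noncomputable def bp (j : ℕ) : ℝ := (1 / 2) ^ (2 ^ (14 * j) / 2)
noncomputable def th (n j : ℕ) : ℝ := Real.exp (-(4 * Gam n) / (2 * 4 ^ j))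
noncomputable def vr (n j : ℕ) : ℝ := Real.exp (-(3 * Gam n) / (2 * 4 ^ j - 2))

/-- N0: elementary facts on `Gf`, `bet`, `rho`. -/
def N0Stmt : Prop := ∀ c0 : ℕ, 11 ≤ c0 →
    (∀ l, 0 < Gf c0 l ∧ Even (Gf c0 l) ∧ (Gf c0 l : ℝ) ≤ 2 ^ (c0 + 10) * ((l : ℝ) + 1) ^ 10) ∧
    (∀ J l, l < 2 ^ J → Gf c0 l ∣ 2 ^ (c0 + 10 * (J + 1))) ∧
    (∀ M, 1 ≤ HH c0 M ∧ HH c0 M ≤ PG c0 M ∧ PG c0 M ≤ (2 ^ (c0 + 10) * (M : ℝ) ^ 10) ^ M) ∧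
    (∀ (M d n : ℕ) (κ : Type) [Fintype κ], Fintype.card ((Fin M ⊕ κ) ⊕ Fin d) = n → 1 ≤ n →
      (∀ i : (Fin M ⊕ κ) ⊕ Fin d, 0 < rho n i) ∧ 24 * ∑ i : (Fin M ⊕ κ) ⊕ Fin d, rho n i ≤ 1)

/-- N1 (from N0): the base mesh `ε` (a `k`-th root; `r = k/4`, `n - k = o(n)`, `q^r ≈ n^(10k)`). -/
def N1Stmt : Prop := ∀ (c0 : ℕ) (C0 : ℝ), 11 ≤ c0 → 1 ≤ C0 → ∃ n0 : ℕ, ∀ n j q : ℕ, n0 ≤ n → Rg n j q →
    2 ^ (14 * j) + kk n j + 2400 = n ∧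
    ∀ m : ℝ, (1 / (n : ℝ) ^ 3) ^ 2400 * (1 / (4 * (n : ℝ) ^ 2)) ^ n ≤ (9 * n) ^ 2400 * m →
      m ≤ (1 / (n : ℝ) ^ 3) ^ 2400 * (8 * n) ^ n →
      ∃ ε : ℝ, 0 < ε ∧ ε ^ kk n j * (8 * (C0 * Gam n) * (1 / (n : ℝ) ^ 3) ^ 2400 * (q : ℝ) ^ (kk n j / 4) *
          HH c0 (2 ^ (14 * j))) = cdd 2400 * m ∧
        1024 * n * (kk n j * ε + (2400 : ℕ) * (1 / (n : ℝ) ^ 3)) ≤ 1 ∧
        256 * n * (kk n j * ε) * (j + 1) ≤ 1 ∧ 4 * n ≤ ε * (4 * n ^ 14 : ℕ)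

/-- N2: the conditions of `WtStmt` (`D = 4n^14`, `Θ = 2/cd`, `Λ = (16n)^M`, `ε2 = e^(-3Γ)`;
`enC ≈ exp(-n log n/20)`, `8Γ = n log n/25`, `m M log n = o(n)`). -/
def N2Stmt : Prop := ∃ n0 : ℕ, ∀ n j q : ℕ, n0 ≤ n → Rg n j q →
    2 * (4 * n ^ 14) < q ∧ 2 * (4 * n ^ 14) ^ 2 < q ∧ 4 ^ j * (4 * n ^ 14) < q ∧ vr n j ≤ 1 ∧
    enC j (kk n j) * (2 / cdd 2400) ^ (2 * 4 ^ j - 1) * (16 * n) ^ (2 ^ (14 * j)) ≤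
      vr n j ^ (2 * 4 ^ j - 2) ∧
    enC j (kk n j) ≤ th n j ^ (4 * 4 ^ j) ∧
    2 * th n j ^ (2 * 4 ^ j) * (2 / cdd 2400) ^ (2 * 4 ^ j + 2) * ((16 * n) ^ (2 ^ (14 * j))) ^ (2 * 4 ^ j) +
      (2 / cdd 2400 / 2 ^ kk n j) ^ (2 * 4 ^ j) ≤ Real.exp (-(3 * Gam n)) ∧
    ((2 * (4 * n ^ 14 : ℕ) + 1) / (q : ℝ)) ^ (kk n j / 4) ≤ vr n j ^ (2 * 4 ^ j - 2)

/-- N3: the conditions of `CoreStmt` and `RowStmt` (`M = m^7 ∈ (n^0.7/4^7, n^0.7]`). -/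
def N3Stmt : Prop := ∀ (c0 J0 : ℕ) (c2 C0 Γ0 : ℝ), 1 ≤ c2 → 1 ≤ C0 → ∃ n0 : ℕ, ∀ n j q : ℕ, n0 ≤ n →
    Rg n j q →
    Γ0 ≤ Gam n ∧ J0 ≤ 14 * j ∧ (2 : ℝ) ^ (14 * j) ≤ Gam n ∧
    (2 : ℝ) ^ (14 * j) * (Real.log (2 ^ (c0 + 10)) + 10 * Real.log (2 ^ (14 * j) + 1) + 1) ≤ Gam n / 8 ∧
    BB c2 j < q ∧ 1 ≤ tp n j ∧ 2 * (1 / 2) ^ (2 ^ (14 * j)) * (q : ℝ) ^ (8 * tp n j) ≤ bp j ∧
    32 * tp n j * (1 / 2) ^ (2 ^ (14 * j)) ≤ bp j ∧ 2 ^ (2 * j) ≤ 3 * tp n j ∧ 1 ≤ C0 * Gam n ∧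
    2 * (q : ℝ) ^ (2 * 2 ^ (2 * j) * (2 * 2 ^ (2 * j) - 2) + 2 * 2 ^ (2 * j) + 2) *
      (1 / 2) ^ (2 ^ (14 * j)) ≤ C0 * Gam n

/-- N4 (from N0): the row failure is `≤ 6 e^(-Γ)` (every correction factor is `e^(o(Γ))`). -/
def N4Stmt : Prop := ∀ (c0 : ℕ) (c2 C0 : ℝ), 11 ≤ c0 → 1 ≤ c2 → 1 ≤ C0 → ∃ n0 : ℕ, ∀ n j q : ℕ, n0 ≤ n →
    Rg n j q →
    baseErr q (2 * 2 ^ (2 * j)) (tp n j) (uu c2 n j) (8 / cdd 2400 * (C0 * Gam n))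
      (1 / PG c0 (2 ^ (14 * j))) (vr n j) (Real.exp (-(3 * Gam n))) (bp j) (8 / cdd 2400)
      (Real.exp (-Gam n)) (Real.exp (Gam n)) ≤ 6 * Real.exp (-Gam n)

/-- N5: the amplification inequality (`r log q ≤ 10 n log n + n`, `2401 Γ ≥ 12 n log n`). -/
def N5Stmt : Prop := ∀ c0 : ℕ, ∃ n0 : ℕ, ∀ n j q : ℕ, n0 ≤ n → Rg n j q →
    (q : ℝ) ^ (kk n j / 4) * (QQ c0 j q : ℝ) ^ (2 ^ (14 * j)) *
      ((8 * n / (1 / (n : ℝ) ^ 3) + 3) ^ 2400 * (6 * Real.exp (-Gam n))) ^ (2400 + 1) < 1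

/-- BIG: large dimensions, normalised bodies. -/
def BigStmt : Prop := ∃ (C : ℝ) (n0 : ℕ), ∀ n : ℕ, n0 ≤ n → ∃ M k r d : ℕ, M + (k + r) + d = n ∧
    ∀ K : Set ((Fin M ⊕ (Fin k ⊕ Fin r)) ⊕ Fin d → ℝ), Norm K → Cov K (C * n * Real.log n)

/-- realises equation lemmas once, here -/
theorem eqnsD : True := by
  have _h0 := @rho.eq_1
  have _h1 := @rho.eq_2
  have _h2 := @nb.eq_1
  have _h3 := @slab.eq_1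
  have _h4 := @box.eq_1
  have _h5 := @Norm.congr_simp
  trivial

end Crest.Agent.R225.Up
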