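import Crest.Agent.R225.UpC

/-!
# Row 225, task C4: lattice sums against integrals
-/

open Finset MeasureTheory
open scoped ENNReal

namespace Crest.Agent.R225.Up

namespace Disc

variable {κ : Type} [Fintype κ]

/-- integer point as a real point -/
def em (x : κ → ℤ) : κ → ℝ := fun p => (x p : ℝ)

theorem em_add (x y : κ → ℤ) : em (x + y) = em x + em y := by
  ext p; simp [em]

theorem em_sub (x y : κ → ℤ) : em (x - y) = em x - em y := by
  ext p; simp [em]

theorem em_smul (s : ℤ) (x : κ → ℤ) : em (s • x) = (s : ℝ) • em x := by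
  ext p; simp [em]

theorem em_zero : em (0 : κ → ℤ) = 0 := by
  ext p; simp [em]

theorem basic (f : (κ → ℤ) → ℝ≥0∞) (g : (κ → ℝ) → ℝ≥0∞) (r : ℝ) (s : ℤ) (o : κ → ℤ)
    (hr : 0 ≤ r) (hs : 2 * r ≤ |(s : ℝ)|)
    (h : ∀ (y : κ → ℤ) (u : κ → ℝ), ‖u‖ ≤ r → f y ≤ g (em (o + s • y) + u)) :
    ENNReal.ofReal (2 * r) ^ Fintype.card κ * ∑' y, f y ≤ ∫⁻ x, g x := by
  classical
  set Q : (κ → ℤ) → Set (κ → ℝ) := fun y =>
    Set.pi Set.univ fun p => Set.Ico (em (o + s • y) p - r) (em (o + s • y) p + r) with hQ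
  have hQm : ∀ y, MeasurableSet (Q y) := fun y =>
    MeasurableSet.univ_pi fun p => measurableSet_Ico
  have hQv : ∀ y, volume (Q y) = ENNReal.ofReal (2 * r) ^ Fintype.card κ := by
    intro y
    rw [hQ, Real.volume_pi_Ico]
    have : ∀ p, em (o + s • y) p + r - (em (o + s • y) p - r) = 2 * r := fun p => by ring
    simp only [this, Finset.prod_const, Finset.card_univ]
  have hd : Pairwise (Function.onFun Disjoint Q) := by
    intro y y' hne
    obtain ⟨p, hp⟩ := Function.ne_iff.1 hne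
    refine Set.disjoint_left.2 fun x hx hx' => ?_
    have h1 := hx p (Set.mem_univ p)
    have h2 := hx' p (Set.mem_univ p)
    simp only [em, Pi.add_apply, Pi.smul_apply, smul_eq_mul, Int.cast_add, Int.cast_mul,
      Set.mem_Ico] at h1 h2
    have h3 : (1 : ℝ) ≤ |(y p : ℝ) - y' p| := by
      have : (1 : ℤ) ≤ |y p - y' p| := Int.one_le_abs (sub_ne_zero.2 hp)
      exact_mod_cast this
    have h4 : |(s : ℝ) * y p - s * y' p| < 2 * r := by
      rw [abs_lt]; constructor <;> linarith [h1.1, h1.2, h2.1, h2.2]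
    rw [← mul_sub, abs_mul] at h4
    nlinarith [abs_nonneg (s : ℝ)]
  calc ENNReal.ofReal (2 * r) ^ Fintype.card κ * ∑' y, f y
      = ∑' y, ∫⁻ _ in Q y, f y := by
        rw [← ENNReal.tsum_mul_left]
        refine tsum_congr fun y => ?_
        rw [setLIntegral_const, hQv, mul_comm]
    _ ≤ ∑' y, ∫⁻ x in Q y, g x := by
        refine ENNReal.tsum_le_tsum fun y => setLIntegral_mono' (hQm y) fun x hx => ?_
        have := h y (x - em (o + s • y)) (by
          refine (pi_norm_le_iff_of_nonneg hr).2 fun p => ?_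
          have h1 := hx p (Set.mem_univ p)
          rw [Real.norm_eq_abs, Pi.sub_apply, abs_le]
          constructor <;> linarith [h1.1, h1.2])
        simpa using this
    _ = ∫⁻ x in ⋃ y, Q y, g x := (lintegral_iUnion hQm hd g).symm
    _ ≤ _ := setLIntegral_le_lintegral _ _

theorem basic1 (f : (κ → ℤ) → ℝ≥0∞) (g : (κ → ℝ) → ℝ≥0∞)
    (h : ∀ (y : κ → ℤ) (u : κ → ℝ), ‖u‖ ≤ 1 / 2 → f y ≤ g (em y + u)) :
    ∑' y, f y ≤ ∫⁻ x, g x := by
  have := basic f g (1 / 2) 1 0 (by norm_num) (by norm_num) (by simpa using h)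
  simpa using this

theorem maj {τ : ℝ} {f : (κ → ℤ) → ℝ≥0∞} {ω : (κ → ℝ) → ℝ≥0∞} (h : Maj τ f ω) (i : ℕ)
    (hi : ((i : ℝ) + 1) / 2 ≤ τ) (z : κ → ℤ) (u : κ → ℝ) (hu : ‖u‖ ≤ τ - ((i : ℝ) + 1) / 2) :
    zpw f i z ≤ cpw ω i (em z + u) := by
  induction i generalizing z u with
  | zero =>
    refine basic1 _ _ fun y v hv => ?_
    norm_num at hi hu
    refine mul_le_mul' (h y v (by linarith)) ?_
    have := h (y + z) (v + u) (by linarith [norm_add_le v u])
    refine le_trans this (le_of_eq ?_)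
    congr 1
    change em (y + z) + (v + u) = _
    rw [em_add]; abel
  | succ i ih =>
    refine basic1 _ _ fun y v hv => ?_
    push_cast at hi hu
    refine mul_le_mul' (ih (by linarith) y v (by linarith)) ?_
    have := ih (by linarith) (z - y) (u - v) (by linarith [norm_sub_le u v])
    refine le_trans this (le_of_eq ?_)
    congr 1
    rw [em_sub]; abel

end Disc

open Disc in
theorem disc : DiscStmt := by
  intro κ _ τ f ω _ h hτ
  refine ⟨basic1 _ _ fun y u hu => h y u (by linarith), fun i hi => ?_, fun σ N hσ => ?_,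
    fun s o hs => ?_⟩
  · have := maj h i hi 0 0 (by rw [norm_zero]; linarith)
    simpa [em_zero] using this
  · refine basic1 _ (fun β => (∫⁻ x, ω x * ω (β + (σ : ℝ) • x)) ^ N) fun z u hu => ?_
    refine pow_le_pow_left' (basic1 _ _ fun y v hv => ?_) N
    refine mul_le_mul' (h y v (by linarith)) ?_
    have hn : ‖(σ : ℝ) • v‖ = ‖v‖ := by
      rcases hσ with rfl | rfl <;> simp
    have := h (z + σ • y) (u + (σ : ℝ) • v) (by linarith [norm_add_le u ((σ : ℝ) • v)])
    refine le_trans this (le_of_eq ?_)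
    congr 1
    change em (z + σ • y) + _ = _
    rw [em_add, em_smul, smul_add]; abel
  · have := basic (fun y => f (o + s • y)) ω 1 s o zero_le_one
      (by rw [mul_one]; exact_mod_cast hs) (fun y u hu => h _ u (by linarith))
    simpa using this

end Crest.Agent.R225.Up
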