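import Crest.Agent.R225.UpC

/-!
# Row 225, task C1: basic properties of `cpw`, and `EnStmt` from `En1Stmt`, `En2Stmt`
-/

open Finset MeasureTheory
open scoped ENNReal

namespace Crest.Agent.R225.Up

namespace En

variable {κ : Type} [Fintype κ]

theorem cpw_zero (φ : (κ → ℝ) → ℝ≥0∞) (z : κ → ℝ) :
    cpw φ 0 z = ∫⁻ x, φ x * φ (x + z) := rfl

theorem cpw_succ (φ : (κ → ℝ) → ℝ≥0∞) (i : ℕ) (z : κ → ℝ) :
    cpw φ (i + 1) z = ∫⁻ x, cpw φ i x * cpw φ i (z - x) := rfl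

theorem meas {φ : (κ → ℝ) → ℝ≥0∞} (hφ : Measurable φ) (i : ℕ) : Measurable (cpw φ i) := by
  induction i with
  | zero =>
    have : Measurable (fun p : (κ → ℝ) × (κ → ℝ) => φ p.2 * φ (p.2 + p.1)) := by fun_prop
    exact this.lintegral_prod_right'
  | succ i ih =>
    have : Measurable (fun p : (κ → ℝ) × (κ → ℝ) => cpw φ i p.2 * cpw φ i (p.1 - p.2)) := by
      fun_prop
    exact this.lintegral_prod_right'

theorem even (φ : (κ → ℝ) → ℝ≥0∞) (i : ℕ) (z : κ → ℝ) : cpw φ i (-z) = cpw φ i z := by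
  induction i generalizing z with
  | zero =>
    rw [cpw_zero, cpw_zero, ← lintegral_add_right_eq_self _ z]
    refine lintegral_congr fun x => ?_
    rw [mul_comm]; simp
  | succ i ih =>
    rw [cpw_succ, cpw_succ, ← lintegral_neg_eq_self]
    refine lintegral_congr fun x => ?_
    rw [ih, ← ih (z - x)]
    congr 2; abel

theorem integ {φ : (κ → ℝ) → ℝ≥0∞} (hφ : Measurable φ) (i : ℕ) :
    ∫⁻ z, cpw φ i z = (∫⁻ x, φ x) ^ (2 * 2 ^ i) := by
  induction i with
  | zero =>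
    simp only [cpw_zero]
    rw [lintegral_lintegral_swap (by fun_prop)]
    have : ∀ x : κ → ℝ, ∫⁻ z, φ x * φ (x + z) = φ x * ∫⁻ z, φ z := by
      intro x
      rw [lintegral_const_mul _ (by fun_prop), lintegral_add_left_eq_self]
    simp only [this]
    rw [lintegral_mul_const _ hφ]
    ring
  | succ i ih =>
    have hm := meas hφ i
    simp only [cpw_succ]
    rw [lintegral_lintegral_swap (by fun_prop)]
    have : ∀ x : κ → ℝ, ∫⁻ z, cpw φ i x * cpw φ i (z - x) = cpw φ i x * ∫⁻ z, cpw φ i z := by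
      intro x
      rw [lintegral_const_mul _ (by fun_prop), lintegral_sub_right_eq_self]
    simp only [this]
    rw [lintegral_mul_const _ hm, ih, ← pow_add]
    congr 1; ring

theorem lc {φ : (κ → ℝ) → ℝ≥0∞} (hφ : LC φ) (i : ℕ) : LC (cpw φ i) := by
  refine ⟨meas hφ.1 i, ?_⟩
  induction i with
  | zero =>
    intro z z'
    have h1 := hφ.1
    simp only [cpw_zero]
    refine hasPL_fun κ _ _ _ (by fun_prop) (by fun_prop) (by fun_prop) fun x y => ?_
    calc φ x * φ (x + z) * (φ y * φ (y + z')) = (φ x * φ y) * (φ (x + z) * φ (y + z')) := by ring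
      _ ≤ _ := mul_le_mul' (hφ.2 _ _) (hφ.2 _ _)
      _ = _ := by
        rw [mul_pow]; congr 3; module
  | succ i ih =>
    intro z z'
    have h1 := meas hφ.1 i
    simp only [cpw_succ]
    refine hasPL_fun κ _ _ _ (by fun_prop) (by fun_prop) (by fun_prop) fun x y => ?_
    calc cpw φ i x * cpw φ i (z - x) * (cpw φ i y * cpw φ i (z' - y))
        = (cpw φ i x * cpw φ i y) * (cpw φ i (z - x) * cpw φ i (z' - y)) := by ring
      _ ≤ _ := mul_le_mul' (ih _ _) (ih _ _)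
      _ = _ := by
        rw [mul_pow]; congr 3; module

theorem le_of_sq {a b : ℝ≥0∞} {n : ℕ} (hn : n ≠ 0) (h : a ^ n ≤ b ^ n) : a ≤ b :=
  (ENNReal.pow_le_pow_left_iff hn).1 h

theorem half {F : (κ → ℝ) → ℝ≥0∞} (hF : Measurable F) :
    ∫⁻ z, F ((1 / 2 : ℝ) • z) = 2 ^ Fintype.card κ * ∫⁻ z, F z := by
  have h := Measure.map_addHaar_smul (volume : Measure (κ → ℝ)) (r := (1 / 2 : ℝ)) (by norm_num)
  rw [← lintegral_map hF (by fun_prop), h, lintegral_smul_measure, Module.finrank_fintype_fun_eq_card]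
  congr 1
  rw [one_div, inv_pow, inv_inv, abs_of_nonneg (by positivity), ENNReal.ofReal_pow (by norm_num)]
  simp

end En

open En in
theorem en1 : En1Stmt := by
  intro κ _ φ i hφ
  have hl := lc hφ i
  have hmax : ∀ z, cpw φ i z ≤ cpw φ i 0 := by
    intro z
    refine le_of_sq two_ne_zero ?_
    have := hl.2 z (-z)
    rw [even] at this
    simpa [sq] using this
  refine ⟨hl, even φ i, integ hφ.1 i, hmax, fun τ => ?_⟩
  have hms : MeasurableSet {z | cpw φ i z < τ ^ 2 * cpw φ i 0} :=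
    measurableSet_lt hl.1 measurable_const
  have h1 := hl.1
  calc ∫⁻ z in {z | cpw φ i z < τ ^ 2 * cpw φ i 0}, cpw φ i z
      ≤ ∫⁻ z in {z | cpw φ i z < τ ^ 2 * cpw φ i 0}, τ * cpw φ i ((1 / 2 : ℝ) • z) := by
        refine setLIntegral_mono' hms fun z hz => ?_
        refine le_of_sq two_ne_zero ?_
        have h2 := hl.2 0 z
        rw [zero_add] at h2
        calc cpw φ i z ^ 2 = cpw φ i z * cpw φ i z := sq _
          _ ≤ τ ^ 2 * cpw φ i 0 * cpw φ i z := by gcongr; exact le_of_lt hz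
          _ = τ ^ 2 * (cpw φ i 0 * cpw φ i z) := by ring
          _ ≤ τ ^ 2 * cpw φ i ((1 / 2 : ℝ) • z) ^ 2 := by gcongr
          _ = _ := by ring
    _ ≤ ∫⁻ z, τ * cpw φ i ((1 / 2 : ℝ) • z) := setLIntegral_le_lintegral _ _
    _ = _ := by rw [lintegral_const_mul _ (by fun_prop), half h1, mul_assoc]

open En in
theorem en (h1 : En1Stmt) (h2 : En2Stmt) : EnStmt := by
  intro κ _ φ a b j hφ ha hb hA hB z
  obtain ⟨hl, -, hint, hmax, htail⟩ := h1 κ φ (2 * j) hφ
  set A := ∫⁻ x, φ x with hAdef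
  by_cases hA0 : A = 0
  · have h0 : ∀ i z, cpw φ i z = 0 := by
      intro i
      induction i with
      | zero =>
        intro z
        have : φ =ᵐ[volume] 0 := (lintegral_eq_zero_iff hφ.1).1 hA0
        rw [cpw_zero, ← lintegral_zero (μ := (volume : Measure (κ → ℝ)))]
        refine lintegral_congr_ae ?_
        filter_upwards [this] with x hx
        simp [hx]
      | succ i ih => intro z; simp [cpw_succ, ih]
    simp [h0]
  have hAt : A ≠ ⊤ := ne_top_of_le_ne_top ENNReal.ofReal_ne_top hA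
  set k := Fintype.card κ with hk
  set F := cpw φ (2 * j) with hF
  have h4 : 2 ^ (2 * j) = 4 ^ j := by rw [pow_mul]; norm_num
  rw [h4] at hint
  set D : ℝ≥0∞ := 2 * 4 ^ j * 2 ^ k with hD
  have hD0 : D ≠ 0 := by positivity
  have hDt : D ≠ ⊤ := by finiteness
  set Z : Set (κ → ℝ) := {z | F z < D⁻¹ ^ 2 * F 0}ᶜ with hZ
  have hZm : MeasurableSet Z := (measurableSet_lt hl.1 measurable_const).compl
  have h3 := h2 κ φ A (ENNReal.ofReal b) j Z hφ.1 rfl hA0 hAt hB hZm (by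
    rw [hZ, compl_compl]
    calc 2 * 4 ^ j * ∫⁻ z in {z | F z < D⁻¹ ^ 2 * F 0}, F z
        ≤ 2 * 4 ^ j * (D⁻¹ * 2 ^ k * ∫⁻ z, F z) := by gcongr; exact htail _
      _ = (D * D⁻¹) * ∫⁻ z, F z := by rw [hD]; ring
      _ = _ := by rw [ENNReal.mul_inv_cancel hD0 hDt, one_mul, hint])
  have h5 : D⁻¹ ^ 2 * F 0 * volume Z ≤ A ^ (2 * 4 ^ j) := by
    rw [← hint, ← setLIntegral_const]
    refine le_trans (setLIntegral_mono' hZm fun z hz => ?_) (setLIntegral_le_lintegral _ _)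
    exact not_lt.1 hz
  have hpos : 1 ≤ 2 * 4 ^ j := Nat.one_le_iff_ne_zero.2 (by positivity)
  have h6 : A * (F 0 * 2 ^ (j * k)) ≤ A * (2 * D ^ 2 * A ^ (2 * 4 ^ j - 1) * ENNReal.ofReal b) := by
    calc A * (F 0 * 2 ^ (j * k)) = (D * D⁻¹) ^ 2 * F 0 * (A * 2 ^ (j * k)) := by
          rw [ENNReal.mul_inv_cancel hD0 hDt]; ring
      _ ≤ (D * D⁻¹) ^ 2 * F 0 * (2 * ENNReal.ofReal b * volume Z) := by gcongr
      _ = 2 * D ^ 2 * ENNReal.ofReal b * (D⁻¹ ^ 2 * F 0 * volume Z) := by ring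
      _ ≤ 2 * D ^ 2 * ENNReal.ofReal b * A ^ (2 * 4 ^ j) := by gcongr
      _ = _ := by
        obtain ⟨n, hn⟩ := Nat.exists_eq_add_of_le' hpos
        rw [hn, Nat.add_sub_cancel]; ring
  have h7 := (ENNReal.mul_le_mul_iff_right hA0 hAt).1 h6
  refine le_trans (hmax z) ?_
  have h8 : (2 : ℝ≥0∞) ^ (j * k) ≠ 0 := by positivity
  have h9 : (2 : ℝ≥0∞) ^ (j * k) ≠ ⊤ := by finiteness
  rw [← ENNReal.mul_le_mul_iff_left h8 h9]
  refine le_trans h7 ?_
  have e1 : (2 : ℝ≥0∞) ^ (j * k) = ENNReal.ofReal (2 ^ (j * k)) := by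
    rw [ENNReal.ofReal_pow (by norm_num)]; simp
  have e2 : 2 * D ^ 2 = ENNReal.ofReal (8 * (4 ^ j) ^ 2 * 4 ^ k) := by
    rw [ENNReal.ofReal_mul (by positivity), ENNReal.ofReal_mul (by positivity),
      ENNReal.ofReal_pow (by positivity), ENNReal.ofReal_pow (by positivity),
      ENNReal.ofReal_pow (by positivity), hD]
    simp only [ENNReal.ofReal_ofNat]
    rw [show (4 : ℝ≥0∞) ^ k = (2 ^ k) ^ 2 by rw [← pow_mul, mul_comm, pow_mul]; norm_num]
    ring
  have hen : 0 ≤ enC j k := by unfold enC; positivity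
  rw [e1, ← ENNReal.ofReal_mul (by positivity), e2]
  calc ENNReal.ofReal (8 * (4 ^ j) ^ 2 * 4 ^ k) * A ^ (2 * 4 ^ j - 1) * ENNReal.ofReal b
      ≤ ENNReal.ofReal (8 * (4 ^ j) ^ 2 * 4 ^ k) * ENNReal.ofReal a ^ (2 * 4 ^ j - 1) *
        ENNReal.ofReal b := by gcongr
    _ = _ := by
      rw [← ENNReal.ofReal_pow ha, ← ENNReal.ofReal_mul (by positivity),
        ← ENNReal.ofReal_mul (by positivity)]
      congr 1
      unfold enC
      field_simp

end Crest.Agent.R225.Up
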