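import Crest.Agent.R225.UpEn1

/-!
# Row 225, task C2: Sylvester–Hadamard coupling
-/

open Finset MeasureTheory
open scoped ENNReal

namespace Crest.Agent.R225.Up

namespace En2

variable {κ : Type} [Fintype κ]

theorem half {T : Type} [Fintype T] {F : (T → κ → ℝ) → ℝ≥0∞} (hF : Measurable F) :
    ∫⁻ z, F ((1 / 2 : ℝ) • z) = 2 ^ (Fintype.card T * Fintype.card κ) * ∫⁻ z, F z := by
  have h := Measure.map_addHaar_smul (volume : Measure (T → κ → ℝ)) (r := (1 / 2 : ℝ))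
    (by norm_num)
  have hr : Module.finrank ℝ (T → κ → ℝ) = Fintype.card T * Fintype.card κ := by
    rw [Module.finrank_pi_fintype]; simp
  rw [← lintegral_map hF (by fun_prop), h, lintegral_smul_measure, hr]
  congr 1
  rw [one_div, inv_pow, inv_inv, abs_of_nonneg (by positivity), ENNReal.ofReal_pow (by norm_num)]
  simp

theorem hada {T : Type} [Fintype T] {H : (T → κ → ℝ) × (T → κ → ℝ) → ℝ≥0∞} (hH : Measurable H) :
    2 ^ (Fintype.card T * Fintype.card κ) * ∫⁻ x, ∫⁻ y, H (x + y, x - y) = ∫⁻ p, H p := by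
  rw [lintegral_lintegral_swap (by fun_prop)]
  have h1 : ∀ y : T → κ → ℝ, ∫⁻ x, H (x + y, x - y) = ∫⁻ s, H (s, s - (2 : ℝ) • y) := by
    intro y
    rw [← lintegral_add_right_eq_self (fun s => H (s, s - (2 : ℝ) • y)) y]
    refine lintegral_congr fun x => ?_
    congr 2; module
  simp only [h1]
  rw [lintegral_lintegral_swap (by fun_prop), Measure.volume_eq_prod,
    lintegral_prod _ hH.aemeasurable, ← lintegral_const_mul' _ _ (by finiteness)]
  refine lintegral_congr fun s => ?_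
  rw [← half (F := fun y => H (s, s - (2 : ℝ) • y)) (by fun_prop),
    ← lintegral_sub_left_eq_self (fun u => H (s, u)) s]
  refine lintegral_congr fun x => ?_
  congr 3; module

/-- the coupling at level `i` -/
def Cp (φ : (κ → ℝ) → ℝ≥0∞) (A b : ℝ≥0∞) (i : ℕ) : Prop :=
  ∃ (T : Type) (_ : Fintype T) (ν : Measure (T → κ → ℝ)) (e : ℕ), IsProbabilityMeasure ν ∧
    Fintype.card T = 2 ^ i ∧ 2 * e = i * Fintype.card κ * 2 ^ i ∧
    (∀ (t : T) (h : (κ → ℝ) → ℝ≥0∞), Measurable h →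
      A ^ (2 * 2 ^ i) * ∫⁻ x, h (x t) ∂ν = ∫⁻ z, cpw φ i z * h z) ∧
    ∀ H : (T → κ → ℝ) → ℝ≥0∞, Measurable H →
      A ^ (2 ^ i) * 2 ^ e * ∫⁻ x, H x ∂ν ≤ b ^ (2 ^ i) * ∫⁻ x, H x

theorem cp_zero {φ : (κ → ℝ) → ℝ≥0∞} {A b : ℝ≥0∞} (hφ : Measurable φ) (hA : ∫⁻ x, φ x = A)
    (hA0 : A ≠ 0) (hAt : A ≠ ⊤) (hb : ∀ x, φ x ≤ b) : Cp φ A b 0 := by
  have hm := En.meas hφ 0
  have h20 : A ^ 2 ≠ 0 := pow_ne_zero _ hA0
  have h2t : A ^ 2 ≠ ⊤ := ENNReal.pow_ne_top hAt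
  set ν : Measure (Unit → κ → ℝ) :=
    (A ^ 2)⁻¹ • volume.withDensity (fun x => cpw φ 0 (x ())) with hν
  have hI : ∀ H : (Unit → κ → ℝ) → ℝ≥0∞, Measurable H →
      ∫⁻ x, H x ∂ν = (A ^ 2)⁻¹ * ∫⁻ x, cpw φ 0 (x ()) * H x := by
    intro H hH
    rw [hν, lintegral_smul_measure, lintegral_withDensity_eq_lintegral_mul _ (by fun_prop) hH]
    rfl
  have hmarg : ∀ (h : (κ → ℝ) → ℝ≥0∞), Measurable h →
      A ^ 2 * ∫⁻ x, h (x ()) ∂ν = ∫⁻ z, cpw φ 0 z * h z := by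
    intro h hh
    rw [hI _ (by fun_prop), ← mul_assoc, ENNReal.mul_inv_cancel h20 h2t, one_mul]
    exact (volume_preserving_funUnique Unit (κ → ℝ)).lintegral_comp
      (f := fun z => cpw φ 0 z * h z) (by fun_prop)
  refine ⟨Unit, inferInstance, ν, 0, ⟨?_⟩, by simp, by simp, fun t h hh => ?_, fun H hH => ?_⟩
  · have := hmarg (fun _ => 1) measurable_const
    simp only [lintegral_const, one_mul, mul_one] at this
    rw [En.integ hφ 0, hA] at this
    have h3 : A ^ 2 * ν Set.univ = A ^ 2 * 1 := by simpa using this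
    exact (ENNReal.mul_right_inj h20 h2t).1 h3
  · simpa using hmarg h hh
  · rw [hI H hH]
    have hle : ∀ z, cpw φ 0 z ≤ A * b := by
      intro z
      rw [En.cpw_zero, ← hA, ← lintegral_mul_const _ hφ]
      exact lintegral_mono fun x => by gcongr; exact hb _
    calc A ^ (2 ^ 0) * 2 ^ 0 * ((A ^ 2)⁻¹ * ∫⁻ x : Unit → κ → ℝ, cpw φ 0 (x ()) * H x)
        ≤ A ^ (2 ^ 0) * 2 ^ 0 * ((A ^ 2)⁻¹ * ∫⁻ x : Unit → κ → ℝ, A * b * H x) := by
          gcongr with x; exact hle _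
      _ = (A ^ 2 * (A ^ 2)⁻¹) * (b * ∫⁻ x, H x) := by
          rw [lintegral_const_mul _ hH]; ring
      _ = _ := by rw [ENNReal.mul_inv_cancel h20 h2t]; simp

theorem cp_succ {φ : (κ → ℝ) → ℝ≥0∞} {A b : ℝ≥0∞} (hφ : Measurable φ) (i : ℕ)
    (h : Cp φ A b i) : Cp φ A b (i + 1) := by
  obtain ⟨T, _, ν, e, hν, hc, he, hmarg, hbd⟩ := h
  have hm := En.meas hφ i
  set E := (MeasurableEquiv.sumPiEquivProdPi (fun _ : T ⊕ T => κ → ℝ)).symm with hE
  set Φ : (T → κ → ℝ) × (T → κ → ℝ) → (T ⊕ T → κ → ℝ) :=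
    fun p => E (p.1 + p.2, p.1 - p.2) with hΦ
  have hEm : Measurable E := E.measurable
  have hΦm : Measurable Φ := hEm.comp (by fun_prop)
  have hI : ∀ H : (T ⊕ T → κ → ℝ) → ℝ≥0∞, Measurable H →
      ∫⁻ x, H x ∂((ν.prod ν).map Φ) = ∫⁻ x, ∫⁻ y, H (E (x + y, x - y)) ∂ν ∂ν := by
    intro H hH
    rw [lintegral_map hH hΦm]
    exact lintegral_prod (fun p => H (Φ p)) (hH.comp hΦm).aemeasurable
  refine ⟨T ⊕ T, inferInstance, (ν.prod ν).map Φ, 2 * e + 2 ^ i * Fintype.card κ,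
    Measure.isProbabilityMeasure_map hΦm.aemeasurable, ?_, ?_, fun t h hh => ?_, fun H hH => ?_⟩
  · rw [Fintype.card_sum, hc]; ring
  · rw [he]; ring
  · rw [hI _ (by fun_prop)]
    have hK : Measurable fun u : κ → ℝ => ∫⁻ v, cpw φ i v * h (u + v) := by
      have : Measurable (fun p : (κ → ℝ) × (κ → ℝ) => cpw φ i p.2 * h (p.1 + p.2)) := by
        fun_prop
      exact this.lintegral_prod_right'
    obtain ⟨t0, ht0⟩ : ∃ t0 : T, ∀ x : T → κ → ℝ,
        A ^ (2 * 2 ^ i) * ∫⁻ y, h (E (x + y, x - y) t) ∂ν = ∫⁻ v, cpw φ i v * h (x t0 + v) := by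
      rcases t with t | t
      · exact ⟨t, fun x => hmarg t (fun v => h (x t + v)) (by fun_prop)⟩
      · refine ⟨t, fun x => (hmarg t (fun v => h (x t - v)) (by fun_prop)).trans ?_⟩
        rw [← lintegral_neg_eq_self]
        refine lintegral_congr fun v => ?_
        rw [En.even, sub_neg_eq_add]
    have hin : Measurable fun x : T → κ → ℝ => ∫⁻ y, h (E (x + y, x - y) t) ∂ν := by
      have : Measurable (fun p : (T → κ → ℝ) × (T → κ → ℝ) => h (Φ p t)) := by fun_prop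
      exact this.lintegral_prod_right'
    calc A ^ (2 * 2 ^ (i + 1)) * ∫⁻ x, ∫⁻ y, h (E (x + y, x - y) t) ∂ν ∂ν
        = A ^ (2 * 2 ^ i) * ∫⁻ x, A ^ (2 * 2 ^ i) * ∫⁻ y, h (E (x + y, x - y) t) ∂ν ∂ν := by
          rw [lintegral_const_mul _ hin, ← mul_assoc, ← pow_add]; congr 2; ring
      _ = ∫⁻ u, cpw φ i u * ∫⁻ v, cpw φ i v * h (u + v) := by
          simp only [ht0]; exact hmarg t0 _ hK
      _ = ∫⁻ u, ∫⁻ w, cpw φ i u * cpw φ i (w - u) * h w := by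
          refine lintegral_congr fun u => ?_
          rw [← lintegral_const_mul _ (by fun_prop),
            ← lintegral_add_left_eq_self (fun w => cpw φ i u * cpw φ i (w - u) * h w) u]
          refine lintegral_congr fun v => ?_
          rw [add_sub_cancel_left, mul_assoc]
      _ = _ := by
          rw [lintegral_lintegral_swap (by fun_prop)]
          refine lintegral_congr fun w => ?_
          rw [En.cpw_succ, lintegral_mul_const _ (by fun_prop)]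
  · rw [hI _ hH]
    have hHE : Measurable fun p : (T → κ → ℝ) × (T → κ → ℝ) => H (Φ p) := hH.comp hΦm
    have h1 : Measurable fun x : T → κ → ℝ => ∫⁻ y, H (E (x + y, x - y)) ∂ν :=
      hHE.lintegral_prod_right'
    have h2 : Measurable fun x : T → κ → ℝ => ∫⁻ y, H (E (x + y, x - y)) :=
      hHE.lintegral_prod_right'
    have h3 : ∫⁻ x, H x = 2 ^ (2 ^ i * Fintype.card κ) * ∫⁻ x, ∫⁻ y, H (E (x + y, x - y)) := by
      rw [← hc, hada (H := fun p => H (E p)) (hH.comp hEm)]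
      exact ((volume_measurePreserving_sumPiEquivProdPi_symm
        (fun _ : T ⊕ T => κ → ℝ)).lintegral_comp hH).symm
    calc A ^ (2 ^ (i + 1)) * 2 ^ (2 * e + 2 ^ i * Fintype.card κ) *
          ∫⁻ x, ∫⁻ y, H (E (x + y, x - y)) ∂ν ∂ν
        = 2 ^ (2 ^ i * Fintype.card κ) * (A ^ (2 ^ i) * 2 ^ e *
            ∫⁻ x, A ^ (2 ^ i) * 2 ^ e * ∫⁻ y, H (E (x + y, x - y)) ∂ν ∂ν) := by
          rw [lintegral_const_mul _ h1]; ring
      _ ≤ 2 ^ (2 ^ i * Fintype.card κ) * (A ^ (2 ^ i) * 2 ^ e *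
            ∫⁻ x, b ^ (2 ^ i) * ∫⁻ y, H (E (x + y, x - y)) ∂volume ∂ν) := by
          refine mul_le_mul_right (mul_le_mul_right (lintegral_mono fun x => ?_) _) _
          exact hbd _ (hHE.comp (measurable_prodMk_left (x := x)))
      _ = 2 ^ (2 ^ i * Fintype.card κ) * (b ^ (2 ^ i) * (A ^ (2 ^ i) * 2 ^ e *
            ∫⁻ x, ∫⁻ y, H (E (x + y, x - y)) ∂volume ∂ν)) := by
          rw [lintegral_const_mul _ h2]; ring
      _ ≤ 2 ^ (2 ^ i * Fintype.card κ) * (b ^ (2 ^ i) * (b ^ (2 ^ i) *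
            ∫⁻ x, ∫⁻ y, H (E (x + y, x - y)))) := by
          exact mul_le_mul_right (mul_le_mul_right (hbd _ h2) _) _
      _ = _ := by rw [h3]; ring

end En2

open En2 in
theorem en2 : En2Stmt := by
  intro κ _ φ A b j Z hφ hA hA0 hAt hb hZ htail
  have hcp : ∀ i, Cp φ A b i := fun i => by
    induction i with
    | zero => exact cp_zero hφ hA hA0 hAt hb
    | succ i ih => exact cp_succ hφ i ih
  obtain ⟨T, _, ν, e, hν, hc, he, hmarg, hbd⟩ := hcp (2 * j)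
  have h4 : 2 ^ (2 * j) = 4 ^ j := by rw [pow_mul]; norm_num
  rw [h4] at hc he hmarg hbd
  have he' : e = j * Fintype.card κ * 4 ^ j := by nlinarith
  have hp0 : A ^ (2 * 4 ^ j) ≠ 0 := pow_ne_zero _ hA0
  have hpt : A ^ (2 * 4 ^ j) ≠ ⊤ := ENNReal.pow_ne_top hAt
  set B : T → Set (T → κ → ℝ) := fun t => (fun x => x t) ⁻¹' Zᶜ with hB
  have hB1 : ∀ t, A ^ (2 * 4 ^ j) * ν (B t) = ∫⁻ z in Zᶜ, cpw φ (2 * j) z := by
    intro t
    have h1 := hmarg t (Zᶜ.indicator 1) (measurable_one.indicator hZ.compl)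
    rw [← lintegral_indicator hZ.compl]
    have h2 : ∫⁻ x, (Zᶜ.indicator (1 : (κ → ℝ) → ℝ≥0∞)) (x t) ∂ν = ν (B t) := by
      rw [← lintegral_indicator_one (hZ.compl.preimage (by fun_prop))]
      rfl
    rw [← h2, h1]
    refine lintegral_congr fun z => ?_
    by_cases hz : z ∈ Zᶜ <;> simp [hz]
  set P : Set (T → κ → ℝ) := Set.pi Set.univ fun _ => Z with hP
  have hPm : MeasurableSet P := MeasurableSet.univ_pi fun _ => hZ
  have hPc : 2 * ν Pᶜ ≤ 1 := by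
    have h1 : ν Pᶜ ≤ ∑ t, ν (B t) := by
      refine le_trans (measure_mono ?_) (measure_iUnion_fintype_le ν B)
      intro x hx
      simp only [hP, Set.mem_compl_iff, Set.mem_pi, Set.mem_univ, true_imp_iff, not_forall] at hx
      obtain ⟨t, ht⟩ := hx
      exact Set.mem_iUnion.2 ⟨t, ht⟩
    rw [← ENNReal.mul_le_mul_iff_right hp0 hpt, mul_one]
    refine le_trans ?_ htail
    calc A ^ (2 * 4 ^ j) * (2 * ν Pᶜ) ≤ A ^ (2 * 4 ^ j) * (2 * ∑ t, ν (B t)) := by gcongr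
      _ = 2 * ∑ t, A ^ (2 * 4 ^ j) * ν (B t) := by rw [← Finset.mul_sum]; ring
      _ = _ := by
        simp only [hB1, Finset.sum_const, Finset.card_univ, hc, nsmul_eq_mul]
        push_cast; ring
  have hP1 : 1 ≤ 2 * ν P := by
    have h1 : ν P + ν Pᶜ = 1 := by rw [measure_add_measure_compl hPm, measure_univ]
    have h2 : (1 : ℝ≥0∞) + 1 ≤ 2 * ν P + 1 := by
      calc (1 : ℝ≥0∞) + 1 = 2 * (ν P + ν Pᶜ) := by rw [h1]; norm_num
        _ = 2 * ν P + 2 * ν Pᶜ := by ring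
        _ ≤ _ := by gcongr
    exact (ENNReal.add_le_add_iff_right ENNReal.one_ne_top).1 h2
  have hv : volume P = volume Z ^ (4 ^ j) := by
    rw [hP, volume_pi_pi]; simp [hc]
  have h5 := hbd (P.indicator 1) (measurable_one.indicator hPm)
  rw [lintegral_indicator_one hPm, lintegral_indicator_one hPm, hv, he'] at h5
  refine En.le_of_sq (n := 4 ^ j) (by positivity) ?_
  have h6 : (2 : ℝ≥0∞) ≤ 2 ^ (4 ^ j) := le_self_pow₀ (by norm_num) (by positivity)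
  calc (A * 2 ^ (j * Fintype.card κ)) ^ (4 ^ j)
      = A ^ (4 ^ j) * 2 ^ (j * Fintype.card κ * 4 ^ j) * 1 := by rw [mul_pow, ← pow_mul, mul_one]
    _ ≤ A ^ (4 ^ j) * 2 ^ (j * Fintype.card κ * 4 ^ j) * (2 * ν P) := by gcongr
    _ = 2 * (A ^ (4 ^ j) * 2 ^ (j * Fintype.card κ * 4 ^ j) * ν P) := by ring
    _ ≤ 2 ^ (4 ^ j) * (b ^ (4 ^ j) * volume Z ^ (4 ^ j)) := by gcongr
    _ = _ := by rw [mul_pow, mul_pow, mul_assoc]

end Crest.Agent.R225.Up
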