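import Crest.Agent.R225.UpTrig

/-! # Row 225, task A3: Fejér minorant and majorant of a step function -/

open Finset

namespace Crest.Agent.R225.Up

namespace FEJ

variable {Q : ℕ} [NeZero Q]

/-- the Fejér kernel -/
noncomputable def K (Q : ℕ) [NeZero Q] (B : ℕ) (u : ZMod Q) : ℝ :=
  ‖∑ k ∈ range B, ZMod.stdAddChar u ^ k‖ ^ 2 / B

lemma K_nonneg (B : ℕ) (u : ZMod Q) : 0 ≤ K Q B u := by unfold K; positivity

lemma K_eq (B : ℕ) (u : ZMod Q) : (K Q B u : ℂ) = ∑ p ∈ range B ×ˢ range B,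
    (B : ℂ)⁻¹ * ZMod.stdAddChar ((((p.1 : ℤ) - p.2 : ℤ) : ZMod Q) * u) := by
  unfold K
  push_cast
  rw [← Complex.mul_conj', map_sum, Finset.sum_mul_sum, ← Finset.sum_product', Finset.sum_div]
  refine Finset.sum_congr rfl fun p _ => ?_
  rw [div_eq_inv_mul]
  congr 1
  rw [← AddChar.map_nsmul_eq_pow, ← AddChar.map_nsmul_eq_pow, ← AddChar.map_neg_eq_conj,
    ← AddChar.map_add_eq_mul]
  congr 1
  simp only [nsmul_eq_mul]
  ring

lemma K_trig (B : ℕ) : Trig Q B (K Q B) := by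
  refine TRIG.of_sum (range B ×ˢ range B) (fun _ => (B : ℂ)⁻¹) (fun p => (p.1 : ℤ) - p.2) B _
    (fun p hp => ?_) (K_eq B)
  simp only [Finset.mem_product, Finset.mem_range, Finset.mem_Icc] at hp ⊢
  omega

lemma K_sum {B : ℕ} (hB0 : 0 < B) (hB : B < Q) : ∑ u, K Q B u = Q := by
  apply Complex.ofReal_injective
  push_cast
  simp only [K_eq]
  rw [Finset.sum_comm]
  simp only [← Finset.mul_sum, TRIG.sum_char1]
  have h : ∀ p ∈ range B ×ˢ range B,
      (if (((p.1 : ℤ) - p.2 : ℤ) : ZMod Q) = 0 then (Fintype.card (ZMod Q) : ℂ) else 0) =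
        if p.1 = p.2 then (Q : ℂ) else 0 := by
    intro p hp
    simp only [Finset.mem_product, Finset.mem_range] at hp
    by_cases h : p.1 = p.2
    · simp [h, ZMod.card]
    · rw [if_neg h, if_neg]
      intro h2
      have := TRIG.cast_eq_zero hB (w := (p.1 : ℤ) - p.2) (by simp only [Finset.mem_Icc]; omega) h2
      omega
  rw [Finset.sum_congr rfl h, Finset.sum_product]
  have h3 : ∀ i ∈ range B, (∑ j ∈ range B, if i = j then (Q : ℂ) else 0) = Q := by
    intro i hi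
    rw [Finset.sum_ite_eq, if_pos hi]
  rw [Finset.sum_congr rfl h3]
  have : (B : ℂ) ≠ 0 := by exact_mod_cast hB0.ne'
  simp only [Finset.sum_const, Finset.card_range, nsmul_eq_mul]
  field_simp

lemma K_mul_le {B : ℕ} (hB0 : 0 < B) (u : ZMod Q) :
    K Q B u * ‖ZMod.stdAddChar u - 1‖ ^ 2 ≤ 4 / B := by
  unfold K
  rw [div_mul_eq_mul_div, ← mul_pow, ← norm_mul, geom_sum_mul]
  have hB : (0 : ℝ) < B := by exact_mod_cast hB0
  gcongr
  have h1 : ‖ZMod.stdAddChar u ^ B - 1‖ ≤ 2 := by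
    refine (norm_sub_le _ _).trans ?_
    rw [norm_pow, AddChar.norm_apply]
    norm_num
  nlinarith [norm_nonneg (ZMod.stdAddChar u ^ B - 1)]

lemma sin_ge {x y : ℝ} (hy : 0 ≤ y) (h1 : y ≤ x) (h2 : y ≤ 1 - x) :
    2 * y ≤ Real.sin (Real.pi * x) := by
  have hπ := Real.pi_pos
  rcases le_total x (1 / 2) with h | h
  · have := Real.mul_le_sin (x := Real.pi * x) (by nlinarith) (by nlinarith)
    have e : 2 / Real.pi * (Real.pi * x) = 2 * x := by field_simp
    linarith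
  · have := Real.mul_le_sin (x := Real.pi * (1 - x)) (by nlinarith) (by nlinarith)
    have e : 2 / Real.pi * (Real.pi * (1 - x)) = 2 * (1 - x) := by field_simp
    rw [show Real.pi * (1 - x) = Real.pi - Real.pi * x by ring, Real.sin_pi_sub] at this
    linarith

lemma norm_char_ge (u : ZMod Q) {y : ℝ} (hy : 0 ≤ y) (h1 : y * Q ≤ u.val) (h2 : y * Q ≤ Q - u.val) :
    4 * y ≤ ‖ZMod.stdAddChar u - 1‖ := by
  have hQ : (0 : ℝ) < Q := by exact_mod_cast Nat.pos_of_ne_zero (NeZero.ne Q)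
  rw [ZMod.stdAddChar_apply, ZMod.toCircle_apply]
  have e : (2 * Real.pi * Complex.I * (u.val : ℂ) / Q : ℂ) =
      Complex.I * ((2 * Real.pi * (u.val / Q) : ℝ) : ℂ) := by
    push_cast
    ring
  rw [e, Complex.norm_exp_I_mul_ofReal_sub_one]
  have := sin_ge (x := u.val / Q) hy (by rw [le_div_iff₀ hQ]; exact h1)
    (by rw [one_sub_div hQ.ne', le_div_iff₀ hQ]; exact h2)
  rw [show 2 * Real.pi * (u.val / Q) / 2 = Real.pi * (u.val / Q) by ring, Real.norm_eq_abs]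
  linarith [le_abs_self (2 * Real.sin (Real.pi * (u.val / Q)))]

/-- the window -/
def Win (ρ : ℕ) (v : ZMod Q) : Prop := ∃ k ∈ Finset.Icc (-(ρ : ℤ)) ρ, v = (k : ZMod Q)

lemma not_win {ρ : ℕ} {v : ZMod Q} (h : ¬ Win ρ v) : ρ + 1 ≤ v.val ∧ ρ + 1 + v.val ≤ Q := by
  have hv := ZMod.val_lt v
  constructor
  · by_contra h1
    refine h ⟨v.val, ?_, by simp⟩
    simp only [Finset.mem_Icc]
    omega
  · by_contra h1
    refine h ⟨(v.val : ℤ) - Q, ?_, by simp⟩
    simp only [Finset.mem_Icc]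
    omega

/-- convolution -/
noncomputable def conv (k ψ : ZMod Q → ℝ) (u : ZMod Q) : ℝ := (∑ v, k v * ψ (u + v)) / Q

lemma conv_trig {B : ℕ} {k : ZMod Q → ℝ} (hk : Trig Q B k) (ψ : ZMod Q → ℝ) :
    Trig Q B (conv k ψ) := by
  obtain ⟨a, ha⟩ := hk
  refine TRIG.of_sum (Finset.Icc (-(B : ℤ)) B)
    (fun w => a w * (∑ y, ZMod.stdAddChar ((w : ZMod Q) * y) * ψ y) / Q) (fun w => -w) B _
    (fun w hw => ?_) (fun u => ?_)
  · simp only [Finset.mem_Icc] at hw ⊢
    omega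
  · unfold conv
    have h1 : ∑ v, k v * ψ (u + v) = ∑ y, k (y - u) * ψ y :=
      Fintype.sum_equiv (Equiv.addLeft u) _ _ fun v => by simp
    rw [h1]
    push_cast
    simp only [ha, Finset.sum_mul, Finset.mul_sum, Finset.sum_div]
    rw [Finset.sum_comm]
    refine Finset.sum_congr rfl fun w _ => Finset.sum_congr rfl fun y _ => ?_
    rw [show (w : ZMod Q) * (y - u) = w * y + -w * u by ring, AddChar.map_add_eq_mul]
    ring

lemma conv_sum {k : ZMod Q → ℝ} (hk : ∑ v, k v = Q) (ψ : ZMod Q → ℝ) :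
    ∑ u, conv k ψ u = ∑ u, ψ u := by
  have hQ : (Q : ℝ) ≠ 0 := by exact_mod_cast NeZero.ne Q
  unfold conv
  rw [← Finset.sum_div, Finset.sum_comm]
  have h1 : ∀ v, ∑ u, k v * ψ (u + v) = k v * ∑ u, ψ u := by
    intro v
    rw [← Finset.mul_sum]
    congr 1
    exact Fintype.sum_equiv (Equiv.addRight v) _ _ fun u => rfl
  simp only [h1]
  rw [← Finset.sum_mul, hk]
  field_simp

lemma conv_le {k ψ : ZMod Q → ℝ} (hk0 : ∀ v, 0 ≤ k v) (hk : ∑ v, k v = Q) {s : ℝ}
    (hψ : ∀ y, ψ y ≤ s) (u : ZMod Q) : conv k ψ u ≤ s := by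
  have hQ : (0 : ℝ) < Q := by exact_mod_cast Nat.pos_of_ne_zero (NeZero.ne Q)
  unfold conv
  rw [div_le_iff₀ hQ, ← hk, Finset.mul_sum]
  exact Finset.sum_le_sum fun v _ => by nlinarith [hk0 v, hψ (u + v)]

lemma conv_nonneg {k ψ : ZMod Q → ℝ} (hk0 : ∀ v, 0 ≤ k v) (hψ : ∀ y, 0 ≤ ψ y) (u : ZMod Q) :
    0 ≤ conv k ψ u := by
  unfold conv
  exact div_nonneg (Finset.sum_nonneg fun v _ => mul_nonneg (hk0 v) (hψ _)) (Nat.cast_nonneg _)

/-- upper bound with a window -/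
lemma conv_le_win {k ψ : ZMod Q → ℝ} (hk0 : ∀ v, 0 ≤ k v) (hk : ∑ v, k v = Q) {ρ : ℕ} {τ s S : ℝ}
    (hτ : ∀ v, ¬ Win ρ v → k v ≤ τ) (hτ0 : 0 ≤ τ) (hs : 0 ≤ s) (hS : 0 ≤ S) (u : ZMod Q)
    (h1 : ∀ v, Win ρ v → ψ (u + v) ≤ s) (h2 : ∀ y, ψ y ≤ S) : conv k ψ u ≤ s + τ * S := by
  have hQ : (0 : ℝ) < Q := by exact_mod_cast Nat.pos_of_ne_zero (NeZero.ne Q)
  unfold conv
  rw [div_le_iff₀ hQ]
  calc ∑ v, k v * ψ (u + v) ≤ ∑ v, (k v * s + τ * S) := by
        refine Finset.sum_le_sum fun v _ => ?_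
        by_cases hv : Win ρ v
        · nlinarith [h1 v hv, hk0 v, mul_nonneg hτ0 hS]
        · nlinarith [hτ v hv, hk0 v, h2 (u + v), mul_nonneg (hk0 v) hs]
    _ = (s + τ * S) * Q := by
        rw [Finset.sum_add_distrib, ← Finset.sum_mul, hk]
        simp [ZMod.card]
        ring

/-- lower bound with a window -/
lemma le_conv_win {k ψ : ZMod Q → ℝ} (hk0 : ∀ v, 0 ≤ k v) (hk : ∑ v, k v = Q) {ρ : ℕ} {τ s : ℝ}
    (hτ : ∀ v, ¬ Win ρ v → k v ≤ τ) (hτ0 : 0 ≤ τ) (hs : 0 ≤ s) (u : ZMod Q)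
    (h1 : ∀ v, Win ρ v → s ≤ ψ (u + v)) (h2 : ∀ y, 0 ≤ ψ y) : s - τ * s ≤ conv k ψ u := by
  have hQ : (0 : ℝ) < Q := by exact_mod_cast Nat.pos_of_ne_zero (NeZero.ne Q)
  unfold conv
  rw [le_div_iff₀ hQ]
  calc (s - τ * s) * Q = ∑ v, (k v * s - τ * s) := by
        rw [Finset.sum_sub_distrib, ← Finset.sum_mul, hk]
        simp [ZMod.card]
        ring
    _ ≤ ∑ v, k v * ψ (u + v) := by
        refine Finset.sum_le_sum fun v _ => ?_
        by_cases hv : Win ρ v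
        · nlinarith [h1 v hv, hk0 v, mul_nonneg hτ0 hs]
        · nlinarith [hτ v hv, hk0 v, h2 (u + v), mul_nonneg (hk0 v) (h2 (u + v))]

open Classical in
lemma cnt_up (c ρ a : ℕ) (hc : 0 < c) :
    (univ.filter (fun y : ZMod Q => ∃ v, Win ρ v ∧ (y + v).val / c = a)).card ≤ c + 2 * ρ := by
  calc _ ≤ ((Finset.Ico ((a * c : ℕ) - ρ : ℤ) ((a * c : ℕ) + c + ρ)).image
        (fun n : ℤ => (n : ZMod Q))).card := by
        refine Finset.card_le_card fun y hy => ?_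
        obtain ⟨v, ⟨k, hk, rfl⟩, h⟩ := (Finset.mem_filter.1 hy).2
        refine Finset.mem_image.2 ⟨((y + k).val : ℤ) - k, ?_, by simp⟩
        simp only [Finset.mem_Icc, Finset.mem_Ico] at hk ⊢
        have h1 := Nat.div_mul_le_self (y + k).val c
        have h2 := Nat.lt_div_mul_add (a := (y + k).val) hc
        rw [h] at h1 h2
        omega
    _ ≤ _ := Finset.card_image_le
    _ ≤ c + 2 * ρ := by
        rw [Int.card_Ico]
        omega

open Classical in
lemma cnt_lo (c G ρ a : ℕ) (hQ : Q = c * G) (ha : a < G) :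
    c ≤ (univ.filter (fun y : ZMod Q => ∀ v, Win ρ v → (y + v).val / c = a)).card + 2 * ρ := by
  have hc : 0 < c := Nat.pos_of_ne_zero fun h => NeZero.ne Q (by simp [hQ, h])
  have hac : a * c + c ≤ Q := by rw [hQ]; nlinarith
  have h1 : (Finset.Ico (a * c + ρ) (a * c + c - ρ)).card ≤
      (univ.filter (fun y : ZMod Q => ∀ v, Win ρ v → (y + v).val / c = a)).card := by
    refine Finset.card_le_card_of_injOn (fun n : ℕ => (n : ZMod Q)) (fun n hn => ?_) ?_
    · simp only [Finset.coe_Ico, Set.mem_Ico] at hn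
      simp only [Finset.coe_filter, Finset.mem_univ, true_and, Set.mem_ofPred_eq]
      rintro v ⟨k, hk, rfl⟩
      simp only [Finset.mem_Icc] at hk
      obtain ⟨m, hm⟩ : ∃ m : ℕ, (m : ℤ) = n + k := ⟨(n + k).toNat, by omega⟩
      have e : (n : ZMod Q) + (k : ZMod Q) = (m : ZMod Q) := by
        have := congrArg (fun z : ℤ => (z : ZMod Q)) hm
        simpa using this.symm
      rw [e, ZMod.val_cast_of_lt (by omega)]
      exact Nat.div_eq_of_lt_le (by omega) (by rw [add_mul]; omega)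
    · intro n hn m hm h
      simp only [Finset.coe_Ico, Set.mem_Ico] at hn hm
      have := congrArg ZMod.val h
      rwa [ZMod.val_cast_of_lt (by omega), ZMod.val_cast_of_lt (by omega)] at this
  rw [Nat.card_Ico] at h1
  omega

omit [NeZero Q] in
lemma win_zero_iff {v : ZMod Q} : Win 0 v ↔ v = 0 := by
  simp [Win]

omit [NeZero Q] in
lemma win_zero (ρ : ℕ) : Win ρ (0 : ZMod Q) := ⟨0, by simp, by simp⟩

omit [NeZero Q] in
lemma win_neg {ρ : ℕ} {v : ZMod Q} (h : Win ρ v) : Win ρ (-v) := by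
  obtain ⟨k, hk, rfl⟩ := h
  refine ⟨-k, ?_, by simp⟩
  simp only [Finset.mem_Icc] at hk ⊢
  omega

lemma cnt_eq (c G a : ℕ) (hQ : Q = c * G) (ha : a < G) :
    (univ.filter (fun y : ZMod Q => y.val / c = a)).card = c := by
  have hc : 0 < c := Nat.pos_of_ne_zero fun h => NeZero.ne Q (by simp [hQ, h])
  have h1 := cnt_up (Q := Q) c 0 a hc
  have h2 := cnt_lo c G 0 a hQ ha
  simp only [win_zero_iff, exists_eq_left, add_zero, forall_eq, mul_zero] at h1 h2
  apply le_antisymm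
  · convert h1
  · convert h2

open Classical in
/-- step function attached to a family of sets -/
noncomputable def stp (G : ℕ) (F : ℕ → ℝ) (p : ℕ → ZMod Q → Prop) (y : ZMod Q) : ℝ :=
  ∑ a ∈ range G, if p a y then F a else 0

open Classical in
lemma sum_stp (G : ℕ) (F : ℕ → ℝ) (p : ℕ → ZMod Q → Prop) :
    ∑ y : ZMod Q, stp G F p y = ∑ a ∈ range G, F a * (univ.filter (p a)).card := by
  unfold stp
  rw [Finset.sum_comm]
  refine Finset.sum_congr rfl fun a _ => ?_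
  rw [← Finset.sum_filter]
  simp [mul_comm]

omit [NeZero Q] in
lemma stp_nonneg (G : ℕ) {F : ℕ → ℝ} (hF : ∀ a, 0 ≤ F a) (p : ℕ → ZMod Q → Prop) (y : ZMod Q) :
    0 ≤ stp G F p y := Finset.sum_nonneg fun a _ => by
  split_ifs
  exacts [hF a, le_rfl]

omit [NeZero Q] in
lemma stp_mono (G : ℕ) {F : ℕ → ℝ} (hF : ∀ a, 0 ≤ F a) {p q : ℕ → ZMod Q → Prop} {y z : ZMod Q}
    (h : ∀ a, p a y → q a z) : stp G F p y ≤ stp G F q z := by
  refine Finset.sum_le_sum fun a _ => ?_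
  by_cases h1 : p a y
  · rw [if_pos h1, if_pos (h a h1)]
  · rw [if_neg h1]
    split_ifs
    exacts [hF a, le_rfl]

lemma sum_stp_le (G : ℕ) {F : ℕ → ℝ} (hF : ∀ a, 0 ≤ F a) (c ρ : ℕ) (hc : 0 < c) :
    ∑ y : ZMod Q, stp G F (fun a y => ∃ v, Win ρ v ∧ (y + v).val / c = a) y ≤
      (c + 2 * ρ) * ∑ a ∈ range G, F a := by
  rw [sum_stp, Finset.mul_sum]
  refine Finset.sum_le_sum fun a _ => ?_
  rw [mul_comm ((c : ℝ) + 2 * ρ)]
  refine mul_le_mul_of_nonneg_left ?_ (hF a)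
  have := (Nat.cast_le (α := ℝ)).2 (cnt_up (Q := Q) c ρ a hc)
  push_cast at this
  convert this
  rfl

lemma le_sum_stp (G : ℕ) {F : ℕ → ℝ} (hF : ∀ a, 0 ≤ F a) (c ρ : ℕ) (hQ : Q = c * G) :
    (c - 2 * ρ) * ∑ a ∈ range G, F a ≤
      ∑ y : ZMod Q, stp G F (fun a y => ∀ v, Win ρ v → (y + v).val / c = a) y := by
  rw [sum_stp, Finset.mul_sum]
  refine Finset.sum_le_sum fun a ha => ?_
  rw [mul_comm]
  refine mul_le_mul_of_nonneg_left ?_ (hF a)
  have := (Nat.cast_le (α := ℝ)).2 (cnt_lo c G ρ a hQ (Finset.mem_range.1 ha))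
  push_cast at this
  convert sub_le_iff_le_add.2 this
  rfl

lemma sum_stp_eq (G : ℕ) (F : ℕ → ℝ) (c : ℕ) (hQ : Q = c * G) :
    ∑ y : ZMod Q, stp G F (fun a y => y.val / c = a) y = c * ∑ a ∈ range G, F a := by
  rw [sum_stp, Finset.mul_sum]
  refine Finset.sum_congr rfl fun a ha => ?_
  rw [mul_comm]
  congr 2
  convert cnt_eq c G a hQ (Finset.mem_range.1 ha)

end FEJ

set_option maxHeartbeats 800000 in
open FEJ in
theorem fej : FejStmt := by
  classical
  intro Q c G B _ F δ hQ hF hδ hδ2 hB hBQ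
  have hc : 0 < c := Nat.pos_of_ne_zero fun h => NeZero.ne Q (by simp [hQ, h])
  have hG : 0 < G := Nat.pos_of_ne_zero fun h => NeZero.ne Q (by simp [hQ, h])
  have hcR : (0 : ℝ) < c := by exact_mod_cast hc
  have hGR : (1 : ℝ) ≤ G := by exact_mod_cast hG
  have hQR : (Q : ℝ) = c * G := by exact_mod_cast hQ
  have hQ0 : (0 : ℝ) < Q := by rw [hQR]; positivity
  have hB0 : 0 < B := by
    rcases Nat.eq_zero_or_pos B with h | h
    · rw [h] at hB
      have : (0 : ℝ) < 32 * (G : ℝ) ^ 3 := by positivity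
      simp at hB
      linarith
    · exact h
  have hBR : (0 : ℝ) < B := by exact_mod_cast hB0
  have hval : ∀ u : ZMod Q, u.val / c < G := fun u => by
    rw [Nat.div_lt_iff_lt_mul hc, mul_comm, ← hQ]
    exact ZMod.val_lt u
  set ρ : ℕ := ⌊δ * c / 4⌋₊ with hρ
  have hρ1 : (ρ : ℝ) ≤ δ * c / 4 := Nat.floor_le (by positivity)
  have hρ2 : δ * c / 4 < ρ + 1 := Nat.lt_floor_add_one _
  set S : ℝ := ∑ a ∈ range G, F a with hS
  have hS0 : 0 ≤ S := Finset.sum_nonneg fun a _ => hF a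
  have hFS : ∀ a, a < G → F a ≤ S := fun a ha =>
    Finset.single_le_sum (fun a _ => hF a) (Finset.mem_range.2 ha)
  set φ : ZMod Q → ℝ := fun u => F (u.val / c) with hφ
  have hφ' : ∀ u, φ u = stp G F (fun a y => y.val / c = a) u := fun u => by
    unfold stp
    rw [Finset.sum_eq_single (u.val / c)]
    · simp [hφ]
    · intro b _ hb
      rw [if_neg (Ne.symm hb)]
    · intro h
      exact absurd (Finset.mem_range.2 (hval u)) h
  have hφs : ∑ u, φ u = c * S := by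
    simp only [hφ']
    exact sum_stp_eq G F c hQ
  have hav : av φ = S / G := by
    unfold av
    rw [hφs, ZMod.card, hQR]
    field_simp
  obtain ⟨φm, hφm⟩ : ∃ φm : ZMod Q → ℝ,
      φm = stp G F (fun a y => ∀ v, Win ρ v → (y + v).val / c = a) := ⟨_, rfl⟩
  obtain ⟨φp, hφp⟩ : ∃ φp : ZMod Q → ℝ,
      φp = stp G F (fun a y => ∃ v, Win ρ v ∧ (y + v).val / c = a) := ⟨_, rfl⟩
  have hm0 : ∀ y, 0 ≤ φm y := fun y => hφm ▸ stp_nonneg G hF _ y
  have hp0 : ∀ y, 0 ≤ φp y := fun y => hφp ▸ stp_nonneg G hF _ y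
  have hm1 : ∀ y v, Win ρ v → φm y ≤ φ (y + v) := by
    intro y v hv
    rw [hφ', hφm]
    exact stp_mono G hF fun a h => h v hv
  have hp1 : ∀ y v, Win ρ v → φ (y + v) ≤ φp y := by
    intro y v hv
    rw [hφ', hφp]
    exact stp_mono G hF fun a h => ⟨v, hv, h⟩
  have hm2 : ∀ y, φm y ≤ φ y := fun y => by simpa using hm1 y 0 (win_zero ρ)
  have hms : (c - 2 * ρ) * S ≤ ∑ y, φm y := hφm ▸ le_sum_stp G hF c ρ hQ
  have hps : ∑ y, φp y ≤ (c + 2 * ρ) * S := hφp ▸ sum_stp_le G hF c ρ hc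
  set τ : ℝ := δ / (8 * G) with hτ
  have hτ0 : 0 ≤ τ := by positivity
  have hKτ : ∀ v : ZMod Q, ¬ Win ρ v → K Q B v ≤ τ := by
    intro v hv
    obtain ⟨h1, h2⟩ := not_win hv
    have h1' : (ρ : ℝ) + 1 ≤ v.val := by exact_mod_cast h1
    have h2' : (ρ : ℝ) + 1 + v.val ≤ Q := by exact_mod_cast h2
    have e : δ / (4 * G) * Q = δ * c / 4 := by rw [hQR]; field_simp
    have h3 := norm_char_ge v (y := δ / (4 * G)) (by positivity) (by linarith) (by linarith)
    have h4 := K_mul_le hB0 v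
    have h5 : (δ / G) ^ 2 ≤ ‖ZMod.stdAddChar v - 1‖ ^ 2 := by
      have : 4 * (δ / (4 * G)) = δ / G := by field_simp
      rw [this] at h3
      gcongr
    have h6 : K Q B v * (δ / G) ^ 2 ≤ 4 / B :=
      (mul_le_mul_of_nonneg_left h5 (K_nonneg B v)).trans h4
    have h7 : 4 / (B : ℝ) ≤ τ * (δ / G) ^ 2 := by
      rw [hτ, div_le_iff₀ hBR]
      have : δ / (8 * G) * (δ / G) ^ 2 * B = δ ^ 3 * B / (8 * G ^ 3) := by field_simp
      rw [this, le_div_iff₀ (by positivity)]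
      linarith
    exact le_of_mul_le_mul_right (h6.trans h7) (by positivity)
  have hKs := K_sum hB0 hBQ
  have hK0 := K_nonneg (Q := Q) B
  have hτS : τ * S = δ / 8 * (S / G) := by rw [hτ]; field_simp
  have hSG : 0 ≤ S / G := by positivity
  have havc : ∀ (ψ : ZMod Q → ℝ) (d : ℝ), av (fun u => conv (K Q B) ψ u - d) = (∑ u, ψ u) / Q - d := by
    intro ψ d
    unfold av
    rw [Finset.sum_sub_distrib, conv_sum hKs, ZMod.card]
    simp only [Finset.sum_const, Finset.card_univ, ZMod.card, nsmul_eq_mul]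
    field_simp
  refine ⟨fun u => conv (K Q B) φm u - τ * S, fun u => conv (K Q B) φp u - -(τ * S),
    TRIG.sub_const _ (conv_trig (K_trig B) _), TRIG.sub_const _ (conv_trig (K_trig B) _),
    fun u => ⟨?_, ?_⟩, ?_, ?_, fun s hs u => ?_, ?_⟩
  · have := conv_le_win (ψ := φm) hK0 hKs hKτ hτ0 (hF (u.val / c)) hS0 u
      (fun v hv => by simpa using hm1 (u + v) (-v) (win_neg hv))
      (fun y => (hm2 y).trans (hFS _ (hval y)))
    linarith
  · have := le_conv_win (ψ := φp) hK0 hKs hKτ hτ0 (hF (u.val / c)) u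
      (fun v hv => by simpa using hp1 (u + v) (-v) (win_neg hv)) hp0
    nlinarith [hFS _ (hval u)]
  · rw [havc, hav, hτS]
    have : (1 - δ / 2) * (S / G) ≤ (∑ u, φm u) / Q := by
      rw [le_div_iff₀ hQ0, hQR]
      have e : (1 - δ / 2) * (S / G) * (c * G) = (c - δ * c / 2) * S := by field_simp
      rw [e]
      nlinarith
    nlinarith
  · rw [havc, hav, hτS]
    have : (∑ u, φp u) / Q ≤ (1 + δ / 2) * (S / G) := by
      rw [div_le_iff₀ hQ0, hQR]
      have e : (1 + δ / 2) * (S / G) * (c * G) = (c + δ * c / 2) * S := by field_simp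
      rw [e]
      nlinarith
    nlinarith
  · have h1 := conv_le hK0 hKs (fun y => (hm2 y).trans (hs _ (hval y))) u
    have h2 := conv_nonneg hK0 hm0 u
    have h3 : S / G ≤ s := by
      rw [div_le_iff₀ (by linarith), hS]
      calc ∑ a ∈ range G, F a ≤ ∑ a ∈ range G, s :=
            Finset.sum_le_sum fun a ha => hs a (Finset.mem_range.1 ha)
        _ = s * G := by simp [mul_comm]
    rw [abs_le, hτS]
    constructor <;> nlinarith
  · have h1 : av (fun u => |conv (K Q B) φm u - τ * S|) ≤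
        av (fun u => conv (K Q B) φm u - -(τ * S)) := by
      unfold av
      gcongr with u
      have h2 := conv_nonneg hK0 hm0 u
      have h3 : 0 ≤ τ * S := by positivity
      rw [abs_le]
      constructor <;> linarith
    refine h1.trans ?_
    rw [havc, hav, hτS]
    have : (∑ u, φm u) / Q ≤ S / G := by
      rw [← hav]
      unfold av
      rw [ZMod.card]
      gcongr with u
      exact hm2 u
    have h4 : δ / 8 * (S / G) ≤ 1 * (S / G) := mul_le_mul_of_nonneg_right (by linarith) hSG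
    linarith

end Crest.Agent.R225.Up
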