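import Crest.Agent.R225.UpD

open Finset MeasureTheory
open scoped ENNReal

namespace Crest.Agent.R225.Up

theorem Cov.mono {I : Type} [Fintype I] [DecidableEq I] {K : Set (I → ℝ)} {c c' : ℝ} (h : Cov K c)
    (hc : c ≤ c') : Cov K c' := by
  obtain ⟨g, h1, h2, h3⟩ := h
  exact ⟨g, h1, h2, h3.trans hc⟩

/-- transport along a bijection of the coordinates -/
theorem cov_reindex {I J : Type} [Fintype I] [DecidableEq I] [Fintype J] [DecidableEq J] (e : I ≃ J)
    (c : ℝ) (h : ∀ K : Set (I → ℝ), IsCompact K → Convex ℝ K → (interior K).Nonempty → Cov K c)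
    (K : Set (J → ℝ)) (hK : IsCompact K) (hc : Convex ℝ K) (hi : (interior K).Nonempty) : Cov K c := by
  let T : (I → ℝ) ≃L[ℝ] (J → ℝ) := (LinearEquiv.funCongrLeft ℝ ℝ e.symm).toContinuousLinearEquiv
  have hT : ∀ x j, T x j = x (e.symm j) := fun x j => rfl
  obtain ⟨g, h1, h2, h3⟩ := h (T ⁻¹' K) (T.toHomeomorph.isCompact_preimage.2 hK)
    (hc.linear_preimage (T : (I → ℝ) →ₗ[ℝ] (J → ℝ))) (by
      obtain ⟨x, hx⟩ := hi
      refine ⟨T.symm x, ?_⟩
      have := T.toHomeomorph.preimage_interior K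
      change T.symm x ∈ interior (T.toHomeomorph ⁻¹' K)
      rw [← this]
      simpa using hx)
  refine ⟨Matrix.reindex e e g, by rwa [Matrix.det_reindex_self], fun x => ?_, ?_⟩
  · obtain ⟨z, hz⟩ := h2 (T.symm x)
    refine ⟨fun j => z (e.symm j), ?_⟩
    have : x - (Matrix.reindex e e g).mulVec (fun j => (z (e.symm j) : ℝ)) =
        T (T.symm x - g.mulVec (fun i => (z i : ℝ))) := by
      rw [map_sub, T.apply_symm_apply]
      congr 1
      ext j
      rw [hT, Matrix.reindex_apply, Matrix.submatrix_mulVec_equiv]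
      simp [Function.comp_def]
    rw [this]
    exact hz
  · rw [Matrix.det_reindex_self]
    have hmp := volume_measurePreserving_piCongrLeft (fun _ : J => ℝ) e
    have : volume (T ⁻¹' K) = volume K := by
      rw [← hmp.measure_preimage hK.measurableSet.nullMeasurableSet]
      congr 2
      ext x j
      obtain ⟨i, rfl⟩ := e.surjective j
      rw [hT, MeasurableEquiv.piCongrLeft_apply_apply]
      simp
    rwa [this] at h3

theorem final (hRed : RedStmt) (hNf : NfStmt) (hBig : BigStmt) :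
    ∃ C : ℝ, ∀ (n : ℕ), 2 ≤ n → ∀ (K : Set (Fin n → ℝ)),
      IsCompact K → Convex ℝ K → (interior K).Nonempty → Cov K (C * n * Real.log n) := by
  obtain ⟨C, n0, hB⟩ := hBig
  refine ⟨max C ((32 * ((n0 : ℝ) + 1) ^ 3) ^ n0), fun n hn K hK hc hi => ?_⟩
  have hn2 : (2 : ℝ) ≤ n := by exact_mod_cast hn
  have hlog : (1 / 2 : ℝ) ≤ Real.log n := by
    have h1 := Real.log_two_gt_d9
    have h2 := Real.log_le_log (by norm_num) hn2
    linarith
  have hnl : (1 : ℝ) ≤ n * Real.log n := by nlinarith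
  by_cases h : n0 ≤ n
  · obtain ⟨M, k, r, d, hsum, hcov⟩ := hB n h
    have hcard : Fintype.card ((Fin M ⊕ (Fin k ⊕ Fin r)) ⊕ Fin d) = n := by
      simp only [Fintype.card_sum, Fintype.card_fin]; omega
    refine (cov_reindex (Fintype.equivFinOfCardEq hcard) _ (hRed _ _ hcov) K hK hc hi).mono ?_
    rw [mul_assoc, mul_assoc]
    exact mul_le_mul_of_nonneg_right (le_max_left _ _) (by linarith)
  · refine (hRed (Fin n) _ (fun L hL => (hNf (Fin n) L n (Fintype.card_fin n) (by omega) hL).2.2.2.2)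
      K hK hc hi).mono ?_
    have h1 : (n : ℝ) ≤ n0 + 1 := by
      have : n ≤ n0 + 1 := by omega
      exact_mod_cast this
    have h2 : (1 : ℝ) ≤ 32 * ((n0 : ℝ) + 1) ^ 3 := by
      have : (1 : ℝ) ≤ ((n0 : ℝ) + 1) ^ 3 := one_le_pow₀ (by linarith)
      linarith
    have h3 : (32 * (n : ℝ) ^ 3) ^ n ≤ (32 * ((n0 : ℝ) + 1) ^ 3) ^ n0 :=
      le_trans (by gcongr) (pow_le_pow_right₀ h2 (by omega))
    have h4 : 0 ≤ max C ((32 * ((n0 : ℝ) + 1) ^ 3) ^ n0) := le_trans (by positivity) (le_max_right _ _)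
    rw [mul_assoc]
    exact (h3.trans (le_max_right _ _)).trans (le_mul_of_one_le_right h4 hnl)

end Crest.Agent.R225.Up
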