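import Crest.Agent.R225.UpB

open Finset

namespace Crest.Agent.R225.Up

namespace FO

variable {E : Type} [Fintype E] [AddCommGroup E]

noncomputable def ft (w : E → ℝ) (χ : AddChar E ℂ) : ℂ := ∑ x, (w x : ℂ) * χ x

theorem inv (w : E → ℝ) (y : E) :
    (Fintype.card E : ℂ) * w y = ∑ χ : AddChar E ℂ, ft w χ * χ (-y) := by
  classical
  simp only [ft, Finset.sum_mul]
  rw [Finset.sum_comm]
  have : ∀ x, ∑ χ : AddChar E ℂ, (w x : ℂ) * χ x * χ (-y) =
      if x = y then (Fintype.card E : ℂ) * w y else 0 := by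
    intro x
    simp only [mul_assoc, ← AddChar.map_add_eq_mul, ← Finset.mul_sum, AddChar.sum_apply_eq_ite,
      add_neg_eq_zero]
    split_ifs with h
    · rw [h, mul_comm]
    · simp
  simp only [this, Finset.sum_ite_eq', mem_univ, if_true]

theorem ft_gpw (w : E → ℝ) (i : ℕ) (χ : AddChar E ℂ) :
    ft (gpw w i) χ = ((‖ft w χ‖ ^ (2 * 2 ^ i) : ℝ) : ℂ) := by
  induction i with
  | zero =>
    have h1 : ((‖ft w χ‖ ^ (2 * 2 ^ 0) : ℝ) : ℂ) = (starRingEnd ℂ) (ft w χ) * ft w χ := by
      rw [Complex.conj_mul']; push_cast; ring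
    rw [h1]
    simp only [ft, gpw, map_sum, map_mul, Complex.conj_ofReal, ← AddChar.map_neg_eq_conj,
      Finset.sum_mul_sum]
    push_cast
    simp only [Finset.sum_mul]
    rw [Finset.sum_comm]
    refine Finset.sum_congr rfl fun x _ => ?_
    symm
    rw [← Equiv.sum_comp (Equiv.addLeft x)]
    refine Finset.sum_congr rfl fun z _ => ?_
    simp only [Equiv.coe_addLeft]
    have : χ z = χ (-x) * χ (x + z) := by rw [← AddChar.map_add_eq_mul]; simp
    rw [this]; ring
  | succ i ih =>
    have h1 : ((‖ft w χ‖ ^ (2 * 2 ^ (i + 1)) : ℝ) : ℂ) = ft (gpw w i) χ * ft (gpw w i) χ := by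
      rw [ih]; push_cast; ring
    rw [h1]
    simp only [ft, gpw, Finset.sum_mul_sum]
    push_cast
    simp only [Finset.sum_mul]
    rw [Finset.sum_comm]
    refine Finset.sum_congr rfl fun x _ => ?_
    rw [← Equiv.sum_comp (Equiv.addLeft x)]
    refine Finset.sum_congr rfl fun z _ => ?_
    simp only [Equiv.coe_addLeft, add_sub_cancel_left, AddChar.map_add_eq_mul]
    ring

theorem moment (w : E → ℝ) (i : ℕ) :
    ∑ χ : AddChar E ℂ, ‖ft w χ‖ ^ (2 * 2 ^ i) = Fintype.card E * gpw w i 0 := by
  have := inv (gpw w i) 0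
  simp only [ft_gpw, neg_zero, AddChar.map_zero_eq_one, mul_one] at this
  exact_mod_cast this.symm

theorem char_sum {D : Type} (χ : AddChar E ℂ) (s : Finset D) (f : D → E) :
    χ (∑ i ∈ s, f i) = ∏ i ∈ s, χ (f i) := by
  classical
  induction s using Finset.induction_on with
  | empty => simp
  | insert a s ha ih => rw [Finset.sum_insert ha, Finset.prod_insert ha, AddChar.map_add_eq_mul, ih]

theorem amgm {D : Type} [Fintype D] (u0 : ℝ) (u : D → ℝ) (h0 : 0 ≤ u0) (hu : ∀ i, 0 ≤ u i) :
    u0 * ∏ i, u i ≤ (u0 ^ (Fintype.card D + 1) + ∑ i, u i ^ (Fintype.card D + 1)) /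
      (Fintype.card D + 1) := by
  set s := Fintype.card D + 1 with hs
  have hs0 : (0 : ℝ) < s := by positivity
  let v : Option D → ℝ := fun o => o.elim u0 u
  have hv : ∀ o, 0 ≤ v o := by rintro (_ | i); exacts [h0, hu i]
  have h := Real.geom_mean_le_arith_mean_weighted univ (fun _ : Option D => (1 / s : ℝ))
    (fun o => v o ^ s) (fun _ _ => by positivity)
    (by simp only [sum_const, card_univ, Fintype.card_option, nsmul_eq_mul]; rw [← hs]; field_simp)
    (fun o _ => pow_nonneg (hv o) _)
  have e : ∀ o, (v o ^ s) ^ (1 / s : ℝ) = v o := fun o => by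
    rw [one_div, Real.pow_rpow_inv_natCast (hv o) (by omega)]
  simp only [e, Fintype.prod_option, Fintype.sum_option, ← Finset.mul_sum] at h
  have e2 : ((Fintype.card D : ℝ) + 1) = s := by rw [hs]; push_cast; ring
  rw [e2]
  refine h.trans (le_of_eq ?_)
  simp only [v, Option.elim]
  ring

end FO

open FO in
theorem four : FourStmt := by
  intro q _ E _ _ _ w a b ϱ i hw hsum ha hϱ hϱ1 hen D _ _ _ c z hc
  classical
  have hb : 0 ≤ b := (hw 0).1.trans (hw 0).2
  have hE : (0 : ℝ) < Fintype.card E := by exact_mod_cast Fintype.card_pos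
  set s := Fintype.card D + 1 with hs
  have hD : 1 ≤ Fintype.card D := Fintype.card_pos
  let tw : ZMod q → AddChar E ℂ → AddChar E ℂ := fun c χ =>
    χ.compAddMonoidHom (DistribSMul.toAddMonoidHom E (-c))
  have htw : ∀ c χ y, tw c χ y = χ (-(c • y)) := fun c χ y => by simp [tw]
  have hbij : ∀ c, c ≠ 0 → Function.Bijective (tw c) := fun c hc0 => by
    rw [← Finite.injective_iff_bijective]
    intro χ χ' h
    ext y
    have := congrArg (fun ψ : AddChar E ℂ => ψ (-(c⁻¹ • y))) h
    simpa [htw, smul_smul, mul_inv_cancel₀ hc0] using this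
  set S : ℝ := ∑ x : D → E, (∏ i, w (x i)) * w (z + ∑ i, c i • x i) with hS
  have h1 : (Fintype.card E : ℂ) * S =
      ∑ χ : AddChar E ℂ, ft w χ * χ (-z) * ∏ i, ft w (tw (c i) χ) := by
    rw [hS]
    push_cast
    rw [Finset.mul_sum]
    have : ∀ x : D → E, (Fintype.card E : ℂ) * ((∏ i, (w (x i) : ℂ)) * w (z + ∑ i, c i • x i)) =
        ∑ χ : AddChar E ℂ, ft w χ * χ (-z) * ∏ i, ((w (x i) : ℂ) * tw (c i) χ (x i)) := by
      intro x
      rw [mul_left_comm, inv, Finset.mul_sum]
      refine Finset.sum_congr rfl fun χ _ => ?_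
      rw [neg_add, AddChar.map_add_eq_mul, ← Finset.sum_neg_distrib, char_sum,
        Finset.prod_mul_distrib]
      simp only [htw]
      ring
    simp only [this]
    rw [Finset.sum_comm]
    refine Finset.sum_congr rfl fun χ _ => ?_
    rw [← Finset.mul_sum]
    congr 1
    simp only [ft]
    rw [Finset.prod_univ_sum]
    simp
  have h2 : Fintype.card E * S ≤ ∑ χ : AddChar E ℂ, ‖ft w χ‖ ^ s := by
    have h3 : Fintype.card E * S ≤ ‖(Fintype.card E : ℂ) * S‖ := by
      rw [show (Fintype.card E : ℂ) * S = ((Fintype.card E * S : ℝ) : ℂ) by push_cast; ring,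
        Complex.norm_real]
      exact le_abs_self _
    rw [h1] at h3
    refine h3.trans ((norm_sum_le _ _).trans ?_)
    have h4 : ∀ χ : AddChar E ℂ, ‖ft w χ * χ (-z) * ∏ i, ft w (tw (c i) χ)‖ ≤
        (‖ft w χ‖ ^ s + ∑ i, ‖ft w (tw (c i) χ)‖ ^ s) / (Fintype.card D + 1) := fun χ => by
      rw [norm_mul, norm_mul, AddChar.norm_apply, mul_one, norm_prod]
      exact amgm _ _ (norm_nonneg _) fun i => norm_nonneg _
    refine (Finset.sum_le_sum fun χ _ => h4 χ).trans (le_of_eq ?_)
    rw [← Finset.sum_div, Finset.sum_add_distrib, Finset.sum_comm]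
    have h5 : ∀ i, ∑ χ : AddChar E ℂ, ‖ft w (tw (c i) χ)‖ ^ s = ∑ χ : AddChar E ℂ, ‖ft w χ‖ ^ s :=
      fun i => (hbij (c i) (hc i)).sum_comp (fun χ => ‖ft w χ‖ ^ s)
    simp only [h5, sum_const, card_univ, nsmul_eq_mul]
    field_simp
    ring
  have hle : ∀ χ : AddChar E ℂ, ‖ft w χ‖ ≤ a := fun χ => by
    refine (norm_sum_le _ _).trans (le_of_eq ?_)
    rw [← hsum]
    refine Finset.sum_congr rfl fun x _ => ?_
    rw [norm_mul, AddChar.norm_apply, mul_one, Complex.norm_real, Real.norm_eq_abs,
      abs_of_nonneg (hw x).1]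
  have hM2 : ∑ χ : AddChar E ℂ, ‖ft w χ‖ ^ 2 ≤ Fintype.card E * (a * b) := by
    have := moment w 0
    simp only [pow_zero, mul_one] at this
    rw [this]
    apply mul_le_mul_of_nonneg_left _ hE.le
    simp only [gpw, add_zero]
    rw [← hsum, Finset.sum_mul]
    exact Finset.sum_le_sum fun x _ => mul_le_mul_of_nonneg_left (hw x).2 (hw x).1
  obtain ⟨n, hn⟩ : ∃ n, 2 * 2 ^ i = n + 2 := ⟨2 * 2 ^ i - 2, by have := Nat.one_le_two_pow (n := i); omega⟩
  have hMm : ∑ χ : AddChar E ℂ, ‖ft w χ‖ ^ (n + 2) ≤ Fintype.card E * (ϱ ^ n * a ^ (n + 1) * b) := by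
    rw [← hn, moment]
    apply mul_le_mul_of_nonneg_left _ hE.le
    rw [hn] at hen
    simpa using hen
  rw [hn, Nat.add_sub_cancel]
  obtain ⟨d, hd⟩ : ∃ d, Fintype.card D = d + 1 := ⟨Fintype.card D - 1, by omega⟩
  rw [hd, Nat.add_sub_cancel]
  have hs' : s = d + 2 := by omega
  rw [hs'] at h2
  refine le_of_mul_le_mul_left (h2.trans ?_) hE
  rcases le_total n d with hnd | hnd
  · obtain ⟨e, rfl⟩ := Nat.exists_eq_add_of_le hnd
    rw [min_eq_right hnd]
    calc ∑ χ : AddChar E ℂ, ‖ft w χ‖ ^ (n + e + 2)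
        ≤ ∑ χ : AddChar E ℂ, a ^ e * ‖ft w χ‖ ^ (n + 2) := by
          refine Finset.sum_le_sum fun χ _ => ?_
          rw [show n + e + 2 = e + (n + 2) by ring, pow_add]
          exact mul_le_mul_of_nonneg_right (pow_le_pow_left₀ (norm_nonneg _) (hle χ) e) (by positivity)
      _ ≤ a ^ e * (Fintype.card E * (ϱ ^ n * a ^ (n + 1) * b)) := by
          rw [← Finset.mul_sum]; exact mul_le_mul_of_nonneg_left hMm (by positivity)
      _ = Fintype.card E * (1 * a ^ (n + e + 1) * b * ϱ ^ n) := by ring
      _ ≤ _ := by gcongr; norm_num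
  · obtain ⟨e, rfl⟩ := Nat.exists_eq_add_of_le hnd
    rw [min_eq_left hnd]
    have hra : 0 < ϱ * a := by positivity
    calc ∑ χ : AddChar E ℂ, ‖ft w χ‖ ^ (d + 2)
        ≤ ∑ χ : AddChar E ℂ, ((ϱ * a) ^ d * ‖ft w χ‖ ^ 2 + ‖ft w χ‖ ^ (d + e + 2) / (ϱ * a) ^ e) := by
          refine Finset.sum_le_sum fun χ _ => ?_
          set u := ‖ft w χ‖
          have hu : 0 ≤ u := norm_nonneg _
          rcases le_total u (ϱ * a) with h | h
          · have : u ^ (d + 2) ≤ (ϱ * a) ^ d * u ^ 2 := by
              rw [pow_add]; exact mul_le_mul_of_nonneg_right (pow_le_pow_left₀ hu h d) (by positivity)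
            have : 0 ≤ u ^ (d + e + 2) / (ϱ * a) ^ e := by positivity
            linarith
          · have : u ^ (d + 2) ≤ u ^ (d + e + 2) / (ϱ * a) ^ e := by
              rw [le_div_iff₀ (by positivity), show d + e + 2 = (d + 2) + e by ring, pow_add u (d + 2)]
              exact mul_le_mul_of_nonneg_left (pow_le_pow_left₀ hra.le h e) (by positivity)
            have : 0 ≤ (ϱ * a) ^ d * u ^ 2 := by positivity
            linarith
      _ ≤ (ϱ * a) ^ d * (Fintype.card E * (a * b)) +
          Fintype.card E * (ϱ ^ (d + e) * a ^ (d + e + 1) * b) / (ϱ * a) ^ e := by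
          rw [Finset.sum_add_distrib, ← Finset.mul_sum, ← Finset.sum_div]
          gcongr
      _ = _ := by field_simp; ring

theorem typ : TypeStmt := by
  intro q E _ _ _ w a b ϱ n hw hsum ha hϱ hϱ1 hS D J _ _ _ c
  classical
  have hb : 0 ≤ b := (hw 0).1.trans (hw 0).2
  have key : ∀ s : Finset J, ∑ x : D → E, (∏ i, w (x i)) * ∏ j ∈ s, w (∑ i, c j i • x i) ≤
      a ^ Fintype.card D * (2 * b) ^ s.card *
        ϱ ^ min ((univ.filter (fun i => ∃ j ∈ s, c j i ≠ 0)).card - s.card) n := by
    intro s
    induction s using Finset.induction_on with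
    | empty =>
      simp only [prod_empty, mul_one, card_empty, pow_zero, notMem_empty, false_and, exists_false,
        filter_false, tsub_zero, Nat.zero_min]
      rw [← Fintype.piFinset_univ, ← Finset.prod_univ_sum]
      simp [hsum]
    | insert j0 s hj0 ih =>
      set p : D → Prop := fun i => c j0 i ≠ 0 ∧ ∀ j ∈ s, c j i = 0 with hp
      have hcov : (univ.filter (fun i => ∃ j ∈ insert j0 s, c j i ≠ 0)).card =
          (univ.filter (fun i => ∃ j ∈ s, c j i ≠ 0)).card + Fintype.card {i // p i} := by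
        rw [Fintype.card_subtype, ← Finset.card_union_of_disjoint]
        · congr 1
          ext i
          simp only [mem_filter, mem_univ, true_and, mem_union, mem_insert, hp, exists_eq_or_imp]
          by_cases h : ∃ j ∈ s, c j i ≠ 0
          · simp [h]
          · have h' := h
            push Not at h'
            simp only [h, or_false, false_or]
            exact ⟨fun h1 => ⟨h1, h'⟩, fun h1 => h1.1⟩
        · rw [Finset.disjoint_left]
          intro i h1 h2
          simp only [mem_filter, mem_univ, true_and, hp] at h1 h2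
          obtain ⟨j, hj, hji⟩ := h1
          exact hji (h2.2 j hj)
      set O : ℝ := ∑ x : D → E, (∏ i, w (x i)) * ∏ j ∈ s, w (∑ i, c j i • x i) with hO
      have hnn : ∀ x : D → E, 0 ≤ (∏ i, w (x i)) * ∏ j ∈ s, w (∑ i, c j i • x i) := fun x =>
        mul_nonneg (prod_nonneg fun i _ => (hw _).1) (prod_nonneg fun i _ => (hw _).1)
      have hstep : ∑ x : D → E, (∏ i, w (x i)) * ∏ j ∈ insert j0 s, w (∑ i, c j i • x i) ≤
          2 * b * ϱ ^ min (Fintype.card {i // p i} - 1) n * O := by
        simp only [Finset.prod_insert hj0]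
        rcases isEmpty_or_nonempty {i // p i} with he | he
        · rw [Fintype.card_eq_zero, hO, Finset.mul_sum]
          refine Finset.sum_le_sum fun x _ => ?_
          have := mul_le_mul_of_nonneg_right (hw (∑ i, c j0 i • x i)).2 (hnn x)
          have := mul_nonneg hb (hnn x)
          simp only [zero_tsub, Nat.zero_min, pow_zero]
          nlinarith
        · let e := Equiv.piEquivPiSubtypeProd p (fun _ => E)
          have e1 : ∀ (y : ({i // p i} → E) × ({i // ¬ p i} → E)) (i : {i // p i}),
              e.symm y i = y.1 i := fun y i => by simp [e, i.2]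
          have e2 : ∀ (y : ({i // p i} → E) × ({i // ¬ p i} → E)) (i : {i // ¬ p i}),
              e.symm y i = y.2 i := fun y i => by
            have := i.2
            simp only [e, Equiv.piEquivPiSubtypeProd_symm_apply, dif_neg this]
          have hprod : ∀ y, ∏ i, w (e.symm y i) = (∏ i, w (y.1 i)) * ∏ i, w (y.2 i) := fun y => by
            rw [← Fintype.prod_subtype_mul_prod_subtype p]
            simp only [e1, e2]
          have hsm : ∀ j y, ∑ i, c j i • e.symm y i =
              ∑ i : {i // ¬ p i}, c j i • y.2 i + ∑ i : {i // p i}, c j i • y.1 i := fun j y => by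
            rw [← Fintype.sum_subtype_add_sum_subtype p, add_comm]
            simp only [e1, e2]
          have hsm' : ∀ y, ∏ j ∈ s, w (∑ i, c j i • e.symm y i) =
              ∏ j ∈ s, w (∑ i : {i // ¬ p i}, c j i • y.2 i) := fun y => by
            refine Finset.prod_congr rfl fun j hj => ?_
            rw [hsm, Finset.sum_eq_zero (s := (univ : Finset {i // p i})), add_zero]
            intro i _
            rw [i.2.2 j hj, zero_smul]
          have ha0 : ∑ x : {i // p i} → E, ∏ i, w (x i) = a ^ Fintype.card {i // p i} := by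
            rw [← Fintype.piFinset_univ, ← Finset.prod_univ_sum]
            simp [hsum]
          rw [hO, ← e.symm.sum_comp, ← e.symm.sum_comp]
          simp only [hprod, hsm', hsm j0, Fintype.sum_prod_type_right]
          rw [Finset.mul_sum]
          refine Finset.sum_le_sum fun y _ => ?_
          have h1 := hS {i // p i} (fun i => c j0 i) (∑ i : {i // ¬ p i}, c j0 i • y i) fun i => i.2.1
          set K : ℝ := (∏ i, w (y i)) * ∏ j ∈ s, w (∑ i : {i // ¬ p i}, c j i • y i) with hK
          have hK0 : 0 ≤ K :=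
            mul_nonneg (prod_nonneg fun i _ => (hw _).1) (prod_nonneg fun i _ => (hw _).1)
          calc _ = K * ∑ x : {i // p i} → E, (∏ i, w (x i)) *
                w (∑ i : {i // ¬ p i}, c j0 i • y i + ∑ i : {i // p i}, c j0 i • x i) := by
                rw [Finset.mul_sum]
                exact Finset.sum_congr rfl fun x _ => by rw [hK]; ring
            _ ≤ K * (2 * a ^ Fintype.card {i // p i} * b *
                ϱ ^ min (Fintype.card {i // p i} - 1) n) := mul_le_mul_of_nonneg_left h1 hK0
            _ = _ := by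
                simp only [mul_assoc (∏ i, w _), ← hK, ← Finset.sum_mul, ha0]
                ring
      refine hstep.trans ?_
      rw [hcov, Finset.card_insert_of_notMem hj0]
      set k := Fintype.card {i // p i}
      set v := (univ.filter (fun i => ∃ j ∈ s, c j i ≠ 0)).card
      calc 2 * b * ϱ ^ min (k - 1) n * O
          ≤ 2 * b * ϱ ^ min (k - 1) n *
            (a ^ Fintype.card D * (2 * b) ^ s.card * ϱ ^ min (v - s.card) n) := by gcongr
        _ = a ^ Fintype.card D * (2 * b) ^ (s.card + 1) *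
            ϱ ^ (min (k - 1) n + min (v - s.card) n) := by ring
        _ ≤ _ := by
            apply mul_le_mul_of_nonneg_left _ (by positivity)
            exact pow_le_pow_of_le_one hϱ.le hϱ1 (by omega)
  have := key univ
  simp only [mem_univ, true_and, card_univ] at this
  convert this

end Crest.Agent.R225.Up
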