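import Crest.Agent.R225.UpA

/-! # Row 225, task A4: lower tail from moments over distinct points -/

open Finset

namespace Crest.Agent.R225.Up

namespace LTL

section av
variable {Ω : Type} [Fintype Ω]

lemma av_mono {f g : Ω → ℝ} (h : ∀ ω, f ω ≤ g ω) : av f ≤ av g := by
  unfold av
  gcongr with ω
  exact h ω

lemma av_sum {σ : Type*} (s : Finset σ) (f : σ → Ω → ℝ) :
    av (fun ω => ∑ i ∈ s, f i ω) = ∑ i ∈ s, av (f i) := by
  unfold av
  rw [Finset.sum_comm, Finset.sum_div]

lemma av_mul_left (c : ℝ) (f : Ω → ℝ) : av (fun ω => c * f ω) = c * av f := by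
  unfold av
  rw [← Finset.mul_sum, mul_div_assoc]

lemma av_mul_right (c : ℝ) (f : Ω → ℝ) : av (fun ω => f ω * c) = av f * c := by
  simp only [mul_comm _ c, av_mul_left]

lemma av_add (f g : Ω → ℝ) : av (fun ω => f ω + g ω) = av f + av g := by
  unfold av
  rw [Finset.sum_add_distrib, add_div]

lemma av_const [Nonempty Ω] (c : ℝ) : av (fun _ : Ω => c) = c := by
  have : (Fintype.card Ω : ℝ) ≠ 0 := by exact_mod_cast Fintype.card_pos.ne'
  unfold av
  simp only [Finset.sum_const, Finset.card_univ, nsmul_eq_mul]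
  field_simp

lemma av_nonneg {f : Ω → ℝ} (h : ∀ ω, 0 ≤ f ω) : 0 ≤ av f :=
  div_nonneg (Finset.sum_nonneg fun ω _ => h ω) (Nat.cast_nonneg _)

open Classical in
lemma markov [Nonempty Ω] {V : Ω → ℝ} (hV : ∀ ω, 0 ≤ V ω) {s : ℝ} (h : av V ≤ s) :
    1 / 2 ≤ av (fun ω => if V ω ≤ 2 * s then (1 : ℝ) else 0) := by
  have hs : 0 ≤ s := (av_nonneg hV).trans h
  rcases hs.eq_or_lt with h0 | h0
  · have h1 : ∀ ω, V ω ≤ 2 * s := by
      intro ω
      have hc : (0 : ℝ) < Fintype.card Ω := by exact_mod_cast Fintype.card_pos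
      unfold av at h
      rw [← h0, div_le_iff₀ hc, zero_mul] at h
      have := Finset.single_le_sum (fun ω _ => hV ω) (Finset.mem_univ ω)
      linarith
    simp only [h1, if_true, av_const]
    norm_num
  · have h1 : av (fun _ : Ω => 2 * s) ≤
        av (fun ω => 2 * s * (if V ω ≤ 2 * s then (1 : ℝ) else 0) + V ω) := by
      refine av_mono fun ω => ?_
      split_ifs with h2
      · linarith [hV ω]
      · linarith
    rw [av_const, av_add, av_mul_left] at h1
    nlinarith

end av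

variable {ι : Type} [DecidableEq ι] {T : ℕ} [NeZero T]

/-- extension of a colouring of `A` -/
def kx (A : Finset ι) (κ : A → Fin T) (x : ι) : Fin T := if h : x ∈ A then κ ⟨x, h⟩ else 0

lemma av_ind (A U : Finset ι) (hU : U ⊆ A) (τ : ι → Fin T) :
    av (fun κ : A → Fin T => if ∀ x ∈ U, kx A κ x = τ x then (1 : ℝ) else 0) =
      1 / (T : ℝ) ^ U.card := by
  have hT : (T : ℝ) ≠ 0 := by exact_mod_cast NeZero.ne T
  have h1 : ∀ κ : A → Fin T, (if ∀ x ∈ U, kx A κ x = τ x then (1 : ℝ) else 0) =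
      ∏ a : A, (if a.1 ∈ U then (if κ a = τ a then (1 : ℝ) else 0) else 1) := by
    intro κ
    split_ifs with h
    · refine (Finset.prod_eq_one fun a _ => ?_).symm
      split_ifs with h2 h3
      · rfl
      · exact absurd (by simpa [kx] using h a h2) h3
      · rfl
    · push Not at h
      obtain ⟨x, hx, h⟩ := h
      refine (Finset.prod_eq_zero (Finset.mem_univ ⟨x, hU hx⟩) ?_).symm
      rw [if_pos hx, if_neg]
      simpa [kx, hU hx] using h
  unfold av
  simp only [h1]
  rw [← Fintype.piFinset_univ, ← Finset.prod_univ_sum (fun _ => univ)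
    (fun (a : A) (c : Fin T) => if a.1 ∈ U then (if c = τ a then (1 : ℝ) else 0) else 1)]
  have h2 : ∀ a : A, (∑ c : Fin T, if a.1 ∈ U then (if c = τ a then (1 : ℝ) else 0) else 1) =
      if a.1 ∈ U then 1 else (T : ℝ) := by
    intro a
    split_ifs <;> simp
  simp only [h2]
  rw [Finset.prod_coe_sort A (fun x => if x ∈ U then 1 else (T : ℝ))]
  have h3 : (T : ℝ) ^ U.card = ∏ x ∈ A, if x ∈ U then (T : ℝ) else 1 := by
    rw [← Finset.prod_filter, Finset.filter_mem_eq_inter, Finset.inter_eq_right.2 hU,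
      Finset.prod_const]
  rw [div_eq_div_iff (by exact_mod_cast Fintype.card_pos.ne') (pow_ne_zero _ hT), h3,
    ← Finset.prod_mul_distrib]
  have h4 : ∀ x ∈ A, ((if x ∈ U then 1 else (T : ℝ)) * if x ∈ U then (T : ℝ) else 1) = T := by
    intro x _
    split_ifs <;> simp
  rw [Finset.prod_congr rfl h4]
  simp

/-- indicator that `x` has colour `c` -/
noncomputable def I (k : ι → Fin T) (x : ι) (c : Fin T) : ℝ := if k x = c then 1 else 0

lemma av_I (A : Finset ι) {x : ι} (hx : x ∈ A) (c : Fin T) :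
    av (fun κ : A → Fin T => I (kx A κ) x c) = 1 / (T : ℝ) := by
  simpa [I] using av_ind A {x} (by simpa) (fun _ => c)

lemma av_II (A : Finset ι) {x y : ι} (hx : x ∈ A) (hy : y ∈ A) (hxy : x ≠ y) (c : Fin T) :
    av (fun κ : A → Fin T => I (kx A κ) x c * I (kx A κ) y c) = 1 / (T : ℝ) ^ 2 := by
  have := av_ind A {x, y} (by simp [Finset.insert_subset_iff, hx, hy]) (fun _ => c)
  rw [Finset.card_pair hxy] at this
  rw [← this]
  congr 1
  funext κ
  by_cases h1 : kx A κ x = c <;> by_cases h2 : kx A κ y = c <;> simp [I, h1, h2]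

/-- imbalance of a colouring -/
noncomputable def Vf (A : Finset ι) (μ : ι → ℝ) (k : ι → Fin T) : ℝ :=
  ∑ c : Fin T, (∑ x ∈ A, I k x c * μ x - (∑ x ∈ A, μ x) / T) ^ 2

lemma av_Vf (A : Finset ι) (μ : ι → ℝ) :
    av (fun κ : A → Fin T => Vf A μ (kx A κ)) ≤ ∑ x ∈ A, μ x ^ 2 := by
  have hT : (0 : ℝ) < T := by exact_mod_cast Nat.pos_of_ne_zero (NeZero.ne T)
  unfold Vf
  rw [av_sum]
  have h : ∀ c : Fin T, av (fun κ : A → Fin T =>
      (∑ x ∈ A, I (kx A κ) x c * μ x - (∑ x ∈ A, μ x) / T) ^ 2) ≤ (∑ x ∈ A, μ x ^ 2) / T := by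
    intro c
    have h1 : ∀ κ : A → Fin T, (∑ x ∈ A, I (kx A κ) x c * μ x - (∑ x ∈ A, μ x) / T) ^ 2 =
        ∑ x ∈ A, ∑ y ∈ A, (μ x * μ y) * (I (kx A κ) x c * I (kx A κ) y c +
          ((-1 / T) * I (kx A κ) x c + ((-1 / T) * I (kx A κ) y c + 1 / (T : ℝ) ^ 2))) := by
      intro κ
      rw [Finset.sum_div, ← Finset.sum_sub_distrib, sq, Finset.sum_mul_sum]
      refine Finset.sum_congr rfl fun x _ => Finset.sum_congr rfl fun y _ => ?_
      field_simp
      ring
    simp only [h1, av_sum, av_mul_left, av_add, av_const]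
    rw [Finset.sum_div]
    refine Finset.sum_le_sum fun x hx => ?_
    rw [Finset.sum_eq_single x]
    · have h2 : av (fun κ : A → Fin T => I (kx A κ) x c * I (kx A κ) x c) = 1 / T := by
        rw [← av_I A hx c]
        congr 1
        funext κ
        unfold I
        split_ifs <;> simp
      rw [h2, av_I A hx]
      have : μ x * μ x * (1 / T + (-1 / T * (1 / T) + (-1 / T * (1 / T) + 1 / (T : ℝ) ^ 2))) =
          μ x ^ 2 / T - (μ x / T) ^ 2 := by
        field_simp
        ring
      rw [this]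
      linarith [sq_nonneg (μ x / T)]
    · intro y hy hyx
      rw [av_II A hx hy hyx.symm, av_I A hx, av_I A hy]
      field_simp
      ring
    · intro h
      exact absurd hx h
  refine (Finset.sum_le_sum fun c _ => h c).trans_eq ?_
  simp only [Finset.sum_const, Finset.card_univ, Fintype.card_fin, nsmul_eq_mul]
  field_simp

omit [DecidableEq ι] [NeZero T] in
lemma sum_I (k : ι → Fin T) (x : ι) : ∑ c, I k x c = 1 := by simp [I]

omit [DecidableEq ι] [NeZero T] in
lemma I_nonneg (k : ι → Fin T) (x : ι) (c : Fin T) : 0 ≤ I k x c := by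
  unfold I
  split_ifs <;> norm_num

omit [DecidableEq ι] [NeZero T] in
lemma sum_split (A : Finset ι) (k : ι → Fin T) (g : ι → ℝ) :
    ∑ x ∈ A, g x = ∑ c, ∑ x ∈ A, I k x c * g x := by
  rw [Finset.sum_comm]
  refine Finset.sum_congr rfl fun x _ => ?_
  rw [← Finset.sum_mul, sum_I, one_mul]

omit [DecidableEq ι] in
/-- the deterministic step -/
lemma det (A : Finset ι) (X Y μ : ι → ℝ) (S2 ϑ : ℝ) (t : ℕ) (k : ι → Fin T)
    (hX : ∀ x ∈ A, 0 ≤ X x ∧ Y x ≤ X x) (hμ : ∀ x ∈ A, 0 ≤ μ x) (hϑ : 0 < ϑ)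
    (hV : Vf A μ k ≤ 2 * S2)
    (hE : ∑ x ∈ A, X x < ∑ x ∈ A, μ x - t * (∑ x ∈ A, μ x) / T - Real.sqrt (2 * t * S2) - T * ϑ) :
    ϑ ^ (2 * t) ≤ ∑ C ∈ (univ : Finset (Fin T)).powersetCard t,
      ∏ c ∈ C, (∑ x ∈ A, I k x c * (Y x - μ x)) ^ 2 := by
  classical
  have hT : (0 : ℝ) < T := by exact_mod_cast Nat.pos_of_ne_zero (NeZero.ne T)
  set M := ∑ x ∈ A, μ x with hM
  have hM0 : 0 ≤ M := Finset.sum_nonneg hμ
  set Bad := (univ : Finset (Fin T)).filter (fun c => ∑ x ∈ A, I k x c * (Y x - μ x) < -ϑ) with hBad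
  have hcard : t ≤ Bad.card := by
    by_contra hlt
    push Not at hlt
    have hlt' : (Bad.card : ℝ) ≤ t := by exact_mod_cast hlt.le
    have h1 : ∀ c, (∑ x ∈ A, I k x c * μ x) - ϑ -
        (if c ∈ Bad then ∑ x ∈ A, I k x c * μ x else 0) ≤ ∑ x ∈ A, I k x c * X x := by
      intro c
      split_ifs with hc
      · have : 0 ≤ ∑ x ∈ A, I k x c * X x :=
          Finset.sum_nonneg fun x hx => mul_nonneg (I_nonneg k x c) (hX x hx).1
        linarith
      · simp only [hBad, Finset.mem_filter, Finset.mem_univ, true_and, not_lt] at hc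
        have h2 : ∑ x ∈ A, I k x c * (Y x - μ x) ≤
            ∑ x ∈ A, I k x c * X x - ∑ x ∈ A, I k x c * μ x := by
          rw [← Finset.sum_sub_distrib]
          refine Finset.sum_le_sum fun x hx => ?_
          nlinarith [I_nonneg k x c, (hX x hx).2]
        linarith
    have h2 := Finset.sum_le_sum fun c (_ : c ∈ (univ : Finset (Fin T))) => h1 c
    rw [← sum_split, Finset.sum_sub_distrib, Finset.sum_sub_distrib, ← sum_split,
      ← Finset.sum_filter, Finset.filter_mem_eq_inter, Finset.univ_inter] at h2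
    simp only [Finset.sum_const, Finset.card_univ, Fintype.card_fin, nsmul_eq_mul] at h2
    have h3 : ∑ c ∈ Bad, ∑ x ∈ A, I k x c * μ x =
        ∑ c ∈ Bad, (∑ x ∈ A, I k x c * μ x - M / T) + Bad.card * (M / T) := by
      rw [Finset.sum_sub_distrib]
      simp
    have h4 : (∑ c ∈ Bad, (∑ x ∈ A, I k x c * μ x - M / T)) ^ 2 ≤ 2 * t * S2 := by
      refine (sq_sum_le_card_mul_sum_sq).trans ?_
      have h5 : ∑ c ∈ Bad, (∑ x ∈ A, I k x c * μ x - M / T) ^ 2 ≤ Vf A μ k :=
        Finset.sum_le_sum_of_subset_of_nonneg (Finset.subset_univ _) fun _ _ _ => sq_nonneg _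
      have h6 : 0 ≤ ∑ c ∈ Bad, (∑ x ∈ A, I k x c * μ x - M / T) ^ 2 :=
        Finset.sum_nonneg fun _ _ => sq_nonneg _
      calc _ ≤ (t : ℝ) * (2 * S2) := mul_le_mul hlt' (h5.trans hV) h6 (Nat.cast_nonneg _)
        _ = _ := by ring
    have h7 := Real.le_sqrt_of_sq_le h4
    have h8 : (Bad.card : ℝ) * (M / T) ≤ t * M / T := by
      rw [mul_div_assoc]
      exact mul_le_mul_of_nonneg_right hlt' (by positivity)
    linarith
  obtain ⟨C, hC, hCt⟩ := Finset.exists_subset_card_eq hcard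
  refine le_trans ?_ (Finset.single_le_sum (f := fun C : Finset (Fin T) =>
    ∏ c ∈ C, (∑ x ∈ A, I k x c * (Y x - μ x)) ^ 2)
    (fun C _ => Finset.prod_nonneg fun c _ => sq_nonneg _)
    (Finset.mem_powersetCard.2 ⟨Finset.subset_univ C, hCt⟩))
  rw [pow_mul, ← hCt, ← Finset.prod_const]
  refine Finset.prod_le_prod (fun _ _ => sq_nonneg _) fun c hc => ?_
  have := (Finset.mem_filter.1 (hC hc)).2
  nlinarith

section mom
variable {γ : Type} [Fintype γ] [DecidableEq γ]

/-- off-diagonal slots -/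
def Io (f : γ → ι × ι) : Finset γ := univ.filter (fun c => (f c).1 ≠ (f c).2)
/-- diagonal points -/
def Dg (f : γ → ι × ι) : Finset ι :=
  (univ.filter (fun c => ¬ (f c).1 ≠ (f c).2)).image (fun c => (f c).1)
/-- off-diagonal points -/
def Rs (f : γ → ι × ι) : Finset ι :=
  (Io f).image (fun c => (f c).1) ∪ (Io f).image (fun c => (f c).2)
/-- all points -/
def Us (f : γ → ι × ι) : Finset ι := Dg f ∪ Rs f

/-- different slots use different points -/
def Adm (f : γ → ι × ι) : Prop := ∃ k : ι → γ, ∀ c, k (f c).1 = c ∧ k (f c).2 = c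

variable {f : γ → ι × ι}

omit [DecidableEq ι] [Fintype γ] [DecidableEq γ] in
lemma Adm.inj1 (h : Adm f) : Function.Injective (fun c => (f c).1) := by
  obtain ⟨k, hk⟩ := h
  intro a b hab
  rw [← (hk a).1, ← (hk b).1]
  exact congrArg k hab

omit [DecidableEq ι] [Fintype γ] [DecidableEq γ] in
lemma Adm.inj2 (h : Adm f) : Function.Injective (fun c => (f c).2) := by
  obtain ⟨k, hk⟩ := h
  intro a b hab
  rw [← (hk a).2, ← (hk b).2]
  exact congrArg k hab

omit [DecidableEq ι] [Fintype γ] [DecidableEq γ] in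
lemma Adm.inj12 (h : Adm f) {a b : γ} (hab : (f a).1 = (f b).2) : a = b := by
  obtain ⟨k, hk⟩ := h
  rw [← (hk a).1, ← (hk b).2]
  exact congrArg k hab

omit [DecidableEq γ] in
lemma Adm.disj1 (h : Adm f) :
    Disjoint ((Io f).image (fun c => (f c).1)) ((Io f).image (fun c => (f c).2)) := by
  rw [Finset.disjoint_left]
  intro x h1 h2
  obtain ⟨a, ha, rfl⟩ := Finset.mem_image.1 h1
  obtain ⟨b, -, hb⟩ := Finset.mem_image.1 h2
  obtain rfl := h.inj12 hb.symm
  exact (Finset.mem_filter.1 ha).2 hb.symm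

omit [DecidableEq γ] in
lemma Adm.disj2 (h : Adm f) : Disjoint (Dg f) (Rs f) := by
  rw [Finset.disjoint_left]
  intro x h1 h2
  obtain ⟨a, ha, rfl⟩ := Finset.mem_image.1 h1
  rcases Finset.mem_union.1 h2 with h2 | h2
  · obtain ⟨b, hb, hab⟩ := Finset.mem_image.1 h2
    obtain rfl := h.inj1 hab
    exact (Finset.mem_filter.1 ha).2 (Finset.mem_filter.1 hb).2
  · obtain ⟨b, hb, hab⟩ := Finset.mem_image.1 h2
    obtain rfl := h.inj12 hab.symm
    exact (Finset.mem_filter.1 ha).2 (Finset.mem_filter.1 hb).2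

omit [DecidableEq γ] in
lemma Adm.card_Dg (h : Adm f) : (Dg f).card + (Io f).card = Fintype.card γ := by
  unfold Dg Io
  rw [Finset.card_image_of_injective _ h.inj1, add_comm, Finset.card_filter_add_card_filter_not,
    Finset.card_univ]

omit [DecidableEq γ] in
lemma Adm.card_Us (h : Adm f) : (Us f).card = Fintype.card γ + (Io f).card := by
  unfold Us
  rw [Finset.card_union_of_disjoint h.disj2, ← h.card_Dg]
  unfold Rs
  rw [Finset.card_union_of_disjoint h.disj1, Finset.card_image_of_injective _ h.inj1,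
    Finset.card_image_of_injective _ h.inj2]
  ring

omit [DecidableEq γ] in
lemma Adm.prod_eq (h : Adm f) (Z : ι → ℝ) :
    ∏ c, Z (f c).1 * Z (f c).2 = (∏ x ∈ Dg f, Z x ^ 2) * ∏ x ∈ Us f \ Dg f, Z x := by
  unfold Us
  rw [Finset.union_sdiff_cancel_left h.disj2]
  unfold Rs Dg
  rw [Finset.prod_union h.disj1, Finset.prod_image (fun a _ b _ e => h.inj1 e),
    Finset.prod_image (fun a _ b _ e => h.inj1 e), Finset.prod_image (fun a _ b _ e => h.inj2 e),
    ← Finset.prod_mul_distrib, mul_comm,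
    ← Finset.prod_filter_mul_prod_filter_not univ (fun c => (f c).1 ≠ (f c).2)]
  congr 1
  refine Finset.prod_congr rfl fun c hc => ?_
  have := (Finset.mem_filter.1 hc).2
  push Not at this
  rw [← this, sq]

omit [DecidableEq γ] in
lemma mem_Us {x : ι} : x ∈ Us f ↔ ∃ c, (f c).1 = x ∨ (f c).2 = x := by
  simp only [Us, Dg, Rs, Io, Finset.mem_union, Finset.mem_image, Finset.mem_filter,
    Finset.mem_univ, true_and]
  constructor
  · rintro (⟨c, -, h⟩ | ⟨c, -, h⟩ | ⟨c, -, h⟩)
    exacts [⟨c, Or.inl h⟩, ⟨c, Or.inl h⟩, ⟨c, Or.inr h⟩]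
  · rintro ⟨c, h | h⟩
    · by_cases h2 : (f c).1 ≠ (f c).2
      exacts [Or.inr (Or.inl ⟨c, h2, h⟩), Or.inl ⟨c, h2, h⟩]
    · by_cases h2 : (f c).1 ≠ (f c).2
      · exact Or.inr (Or.inr ⟨c, h2, h⟩)
      · exact Or.inl ⟨c, h2, by push Not at h2; rw [h2, h]⟩

open Classical in
lemma count (S : Finset (γ → ι × ι)) (J : Finset γ) (U : Finset ι)
    (hU : U.card = Fintype.card γ + J.card) :
    (S.filter (fun f => Adm f ∧ (Io f, Us f) = (J, U))).card ≤ U.card.factorial := by
  let Φ : (γ ⊕ J ↪ U) → γ → ι × ι := fun e c =>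
    (e (Sum.inl c), if h : c ∈ J then e (Sum.inr ⟨c, h⟩) else e (Sum.inl c))
  calc _ ≤ (univ.image Φ).card := by
        refine Finset.card_le_card fun f hf => ?_
        obtain ⟨h, h2⟩ := (Finset.mem_filter.1 hf).2
        obtain ⟨rfl, rfl⟩ := Prod.mk.inj h2
        refine Finset.mem_image.2 ⟨⟨Sum.elim (fun c => ⟨(f c).1, mem_Us.2 ⟨c, Or.inl rfl⟩⟩)
          (fun c => ⟨(f c).2, mem_Us.2 ⟨c, Or.inr rfl⟩⟩), ?_⟩, Finset.mem_univ _, ?_⟩
        · rintro (a | a) (b | b) hab
          · exact congrArg Sum.inl (h.inj1 (congrArg Subtype.val hab))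
          · have h3 : (f a).1 = (f b).2 := congrArg Subtype.val hab
            obtain rfl := h.inj12 h3
            exact absurd h3 (Finset.mem_filter.1 b.2).2
          · have h3 : (f b).1 = (f a).2 := (congrArg Subtype.val hab).symm
            obtain rfl := h.inj12 h3
            exact absurd h3 (Finset.mem_filter.1 a.2).2
          · exact congrArg Sum.inr (Subtype.ext (h.inj2 (congrArg Subtype.val hab)))
        · funext c
          refine Prod.ext rfl ?_
          by_cases hc : c ∈ Io f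
          · simp only [Φ, hc, dite_true]
            rfl
          · have : (f c).1 = (f c).2 := by simpa [Io] using hc
            simp only [Φ, hc, dite_false]
            exact this
    _ ≤ _ := Finset.card_image_le
    _ = _ := by
        rw [Finset.card_univ, Fintype.card_embedding_eq, Fintype.card_sum, Fintype.card_coe,
          Fintype.card_coe, ← hU, Nat.descFactorial_self]

lemma mom {Ω : Type} [Fintype Ω] (A : Finset ι) (Z : ι → Ω → ℝ) (col : γ → Fin T)
    (hcol : Function.Injective col) [Nonempty γ] (β : Finset ι → ℕ → ℝ)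
    (hβ : ∀ (i : ℕ) (U D : Finset ι), i ≤ Fintype.card γ → U ⊆ A → D ⊆ U →
      U.card = Fintype.card γ + i → D.card = Fintype.card γ - i →
        |av (fun ω => (∏ x ∈ D, Z x ω ^ 2) * ∏ x ∈ U \ D, Z x ω)| ≤ β U i) :
    av (fun κ : A → Fin T => av (fun ω => ∏ c, (∑ x ∈ A, I (kx A κ) x (col c) * Z x ω) ^ 2)) ≤
      ∑ i ∈ range (Fintype.card γ + 1), ((Fintype.card γ).choose i : ℝ) *
        ((Fintype.card γ + i).factorial : ℝ) / (T : ℝ) ^ (Fintype.card γ + i) *
          ∑ U ∈ A.powersetCard (Fintype.card γ + i), β U i := by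
  classical
  have hT : (0 : ℝ) < T := by exact_mod_cast Nat.pos_of_ne_zero (NeZero.ne T)
  set t := Fintype.card γ with ht
  set S := Fintype.piFinset (fun _ : γ => A ×ˢ A) with hS
  have h1 : ∀ (κ : A → Fin T) (ω : Ω), ∏ c, (∑ x ∈ A, I (kx A κ) x (col c) * Z x ω) ^ 2 =
      ∑ f ∈ S, (∏ c, I (kx A κ) (f c).1 (col c) * I (kx A κ) (f c).2 (col c)) *
        ∏ c, Z (f c).1 ω * Z (f c).2 ω := by
    intro κ ω
    simp only [sq, Finset.sum_mul_sum, ← Finset.sum_product']
    rw [Finset.prod_univ_sum]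
    refine Finset.sum_congr rfl fun f _ => ?_
    rw [← Finset.prod_mul_distrib]
    refine Finset.prod_congr rfl fun c _ => by ring
  simp only [h1, av_sum, av_mul_left, av_mul_right]
  let g : Finset γ × Finset ι → ℝ := fun p => β p.2 p.1.card / (T : ℝ) ^ (t + p.1.card)
  have hUA : ∀ f ∈ S, Us f ⊆ A := by
    intro f hf x hx
    obtain ⟨c, hc⟩ := mem_Us.1 hx
    have := Finset.mem_product.1 (Fintype.mem_piFinset.1 hf c)
    rcases hc with rfl | rfl
    exacts [this.1, this.2]
  have h2 : ∀ f ∈ S, av (fun κ : A → Fin T =>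
      ∏ c, I (kx A κ) (f c).1 (col c) * I (kx A κ) (f c).2 (col c)) *
        av (fun ω => ∏ c, Z (f c).1 ω * Z (f c).2 ω) ≤ if Adm f then g (Io f, Us f) else 0 := by
    intro f hf
    have hz : ∀ κ : A → Fin T, (∏ c, I (kx A κ) (f c).1 (col c) * I (kx A κ) (f c).2 (col c)) =
        if ∀ c, kx A κ (f c).1 = col c ∧ kx A κ (f c).2 = col c then 1 else 0 := by
      intro κ
      split_ifs with h
      · exact Finset.prod_eq_one fun c _ => by simp [I, h c]
      · push Not at h
        obtain ⟨c, hc⟩ := h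
        refine Finset.prod_eq_zero (Finset.mem_univ c) ?_
        by_cases h3 : kx A κ (f c).1 = col c
        · simp [I, hc h3]
        · simp [I, h3]
    simp only [hz]
    split_ifs with h
    · obtain ⟨k, hk⟩ := id h
      have h3 : av (fun κ : A → Fin T =>
          if ∀ c, kx A κ (f c).1 = col c ∧ kx A κ (f c).2 = col c then (1 : ℝ) else 0) ≤
          1 / (T : ℝ) ^ (t + (Io f).card) := by
        rw [← h.card_Us, ← av_ind A (Us f) (hUA f hf) (fun x => col (k x))]
        refine av_mono fun κ => ?_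
        by_cases h4 : ∀ c, kx A κ (f c).1 = col c ∧ kx A κ (f c).2 = col c
        · rw [if_pos h4, if_pos]
          intro x hx
          obtain ⟨c, rfl | rfl⟩ := mem_Us.1 hx
          · rw [(h4 c).1, (hk c).1]
          · rw [(h4 c).2, (hk c).2]
        · rw [if_neg h4]
          split_ifs <;> norm_num
      have h4 := hβ (Io f).card (Us f) (Dg f) (Finset.card_le_univ _) (hUA f hf)
        Finset.subset_union_left h.card_Us (by have := h.card_Dg; omega)
      have h5 : av (fun ω => ∏ c, Z (f c).1 ω * Z (f c).2 ω) ≤ β (Us f) (Io f).card := by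
        refine le_trans (le_of_eq ?_) ((le_abs_self _).trans h4)
        congr 1
        funext ω
        exact h.prod_eq (fun x => Z x ω)
      have h6 : 0 ≤ av (fun κ : A → Fin T =>
          if ∀ c, kx A κ (f c).1 = col c ∧ kx A κ (f c).2 = col c then (1 : ℝ) else 0) :=
        av_nonneg fun κ => by split_ifs <;> norm_num
      calc _ ≤ _ := mul_le_mul_of_nonneg_left h5 h6
        _ ≤ 1 / (T : ℝ) ^ (t + (Io f).card) * β (Us f) (Io f).card :=
          mul_le_mul_of_nonneg_right h3 ((abs_nonneg _).trans h4)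
        _ = _ := by simp only [g]; ring
    · have h3 : ∀ κ : A → Fin T, ¬ ∀ c, kx A κ (f c).1 = col c ∧ kx A κ (f c).2 = col c := by
        intro κ h4
        refine h ⟨fun x => Function.invFun col (kx A κ x), fun c => ?_⟩
        simp only [(h4 c).1, (h4 c).2, Function.leftInverse_invFun hcol c, and_self]
      simp only [h3, if_false]
      simp [av]
  refine (Finset.sum_le_sum h2).trans ?_
  rw [← Finset.sum_filter]
  let P : Finset (Finset γ × Finset ι) :=
    ((univ : Finset γ).powerset ×ˢ A.powerset).filter (fun p => p.2.card = t + p.1.card)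
  have hmaps : ∀ f ∈ S.filter Adm, (Io f, Us f) ∈ P := by
    intro f hf
    obtain ⟨hf, h⟩ := Finset.mem_filter.1 hf
    simp only [P, Finset.mem_filter, Finset.mem_product, Finset.mem_powerset]
    exact ⟨⟨Finset.subset_univ _, hUA f hf⟩, h.card_Us⟩
  rw [← Finset.sum_fiberwise_of_maps_to hmaps]
  have h3 : ∀ p ∈ P, ∑ f ∈ (S.filter Adm).filter (fun f => (Io f, Us f) = p), g (Io f, Us f) ≤
      ((t + p.1.card).factorial : ℝ) / (T : ℝ) ^ (t + p.1.card) * β p.2 p.1.card := by
    rintro ⟨J, U⟩ hp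
    simp only [P, Finset.mem_filter, Finset.mem_product, Finset.mem_powerset] at hp
    rw [Finset.sum_congr rfl (g := fun _ => g (J, U))
      (fun f hf => by rw [(Finset.mem_filter.1 hf).2]), Finset.sum_const, nsmul_eq_mul,
      Finset.filter_filter]
    have hc : ((S.filter (fun f => Adm f ∧ (Io f, Us f) = (J, U))).card : ℝ) ≤
        (t + J.card).factorial := by
      rw [← hp.2]
      exact_mod_cast count S J U hp.2
    have hJ : J.card ≤ t := Finset.card_le_univ _
    obtain ⟨D, hD, hDc⟩ := Finset.exists_subset_card_eq (s := U) (n := t - J.card) (by omega)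
    have hb : 0 ≤ β U J.card := (abs_nonneg _).trans (hβ J.card U D hJ hp.1.2 hD hp.2 hDc)
    calc _ ≤ ((t + J.card).factorial : ℝ) * g (J, U) :=
          mul_le_mul_of_nonneg_right hc (by simp only [g]; positivity)
      _ = _ := by simp only [g]; ring
  refine (Finset.sum_le_sum h3).trans_eq ?_
  simp only [P]
  rw [Finset.sum_filter, Finset.sum_product]
  have h4 : ∀ J ∈ (univ : Finset γ).powerset, (∑ U ∈ A.powerset,
      if U.card = t + J.card then
        ((t + J.card).factorial : ℝ) / (T : ℝ) ^ (t + J.card) * β U J.card else 0) =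
      (fun i => ((t + i).factorial : ℝ) / (T : ℝ) ^ (t + i) *
        ∑ U ∈ A.powersetCard (t + i), β U i) J.card := by
    intro J _
    simp only
    rw [← Finset.sum_filter, Finset.mul_sum, Finset.powersetCard_eq_filter]
  rw [Finset.sum_congr rfl h4, Finset.sum_powerset_apply_card (fun i =>
    ((t + i).factorial : ℝ) / (T : ℝ) ^ (t + i) * ∑ U ∈ A.powersetCard (t + i), β U i),
    Finset.card_univ]
  refine Finset.sum_congr rfl fun i _ => ?_
  rw [nsmul_eq_mul]
  ring

end mom

end LTL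

open LTL in
theorem lt : LTStmt := by
  classical
  intro ι Ω _ _ _ A X Y μ S2 ϑ t T β hX hμ hS2 ht htT hϑ hβ
  have : NeZero T := ⟨by omega⟩
  set E : Ω → Prop := fun ω => ∑ x ∈ A, X x ω <
    ∑ x ∈ A, μ x - t * (∑ x ∈ A, μ x) / T - Real.sqrt (2 * t * S2) - T * ϑ with hE
  set R : ℝ := ∑ i ∈ range (t + 1), (t.choose i : ℝ) * ((t + i).factorial : ℝ) / (T : ℝ) ^ (t + i) *
          ∑ U ∈ A.powersetCard (t + i), β U i with hR
  have hM := markov (Ω := A → Fin T) (V := fun κ => Vf A μ (kx A κ))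
    (fun κ => Finset.sum_nonneg fun c _ => sq_nonneg _) ((av_Vf A μ).trans hS2)
  have hp0 : 0 ≤ prob E := av_nonneg fun ω => by split_ifs <;> norm_num
  have hϑ2 : 0 < ϑ ^ (2 * t) := by positivity
  have h1 : ∀ κ : A → Fin T, (if Vf A μ (kx A κ) ≤ 2 * S2 then (1 : ℝ) else 0) *
      (ϑ ^ (2 * t) * prob E) ≤ ∑ C ∈ (univ : Finset (Fin T)).powersetCard t,
        av (fun ω => ∏ c ∈ C, (∑ x ∈ A, I (kx A κ) x c * (Y x ω - μ x)) ^ 2) := by
    intro κ
    rw [← av_sum]
    have h0 : ∀ ω, 0 ≤ ∑ C ∈ (univ : Finset (Fin T)).powersetCard t,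
        ∏ c ∈ C, (∑ x ∈ A, I (kx A κ) x c * (Y x ω - μ x)) ^ 2 := fun ω =>
      Finset.sum_nonneg fun C _ => Finset.prod_nonneg fun c _ => sq_nonneg _
    split_ifs with h
    · rw [one_mul]
      unfold prob
      rw [← av_mul_left]
      refine av_mono fun ω => ?_
      split_ifs with h2
      · rw [mul_one]
        exact det A (fun x => X x ω) (fun x => Y x ω) μ S2 ϑ t _ (fun x hx => hX x hx ω) hμ hϑ h h2
      · rw [mul_zero]
        exact h0 ω
    · rw [zero_mul]
      exact av_nonneg h0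
  have h2 := av_mono h1
  rw [av_mul_right, av_sum] at h2
  have h3 : ∀ C ∈ (univ : Finset (Fin T)).powersetCard t, av (fun κ : A → Fin T =>
      av (fun ω => ∏ c ∈ C, (∑ x ∈ A, I (kx A κ) x c * (Y x ω - μ x)) ^ 2)) ≤ R := by
    intro C hC
    have hCt : Fintype.card C = t := by
      rw [Fintype.card_coe]
      exact (Finset.mem_powersetCard.1 hC).2
    have : Nonempty C := Fintype.card_pos_iff.1 (by omega)
    have := mom (γ := C) A (fun x ω => Y x ω - μ x) (fun c => (c : Fin T)) Subtype.val_injective β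
      (by rw [hCt]; exact hβ)
    rw [hCt] at this
    refine le_trans (le_of_eq ?_) this
    congr 1
    funext κ
    congr 1
    funext ω
    exact (Finset.prod_coe_sort C
      (fun c => (∑ x ∈ A, I (kx A κ) x c * (Y x ω - μ x)) ^ 2)).symm
  have h4 := h2.trans (Finset.sum_le_sum h3)
  rw [Finset.sum_const, Finset.card_powersetCard, Finset.card_univ, Fintype.card_fin,
    nsmul_eq_mul] at h4
  have h5 : 1 / 2 * (ϑ ^ (2 * t) * prob E) ≤ T.choose t * R :=
    (mul_le_mul_of_nonneg_right (by convert hM) (by positivity)).trans h4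
  rw [div_mul_eq_mul_div, le_div_iff₀ hϑ2]
  linarith

end Crest.Agent.R225.Up
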