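import Crest.Agent.R225.UpD

/-!
# Row 225, task D8: the explicit block triangular lattice
-/

open Finset

namespace Crest.Agent.R225.Up

namespace LatL

lemma horiz (Q G : ℕ) [NeZero Q] (hGQ : G ∣ Q) (s0 j : ℤ) (v : ZMod Q) (hv : (s0 : ZMod Q) = v)
    (hj : ((v.val / (Q / G) : ℕ) : ℤ) ≡ j [ZMOD G]) :
    ∃ c : ℤ, ((Q / G : ℕ) : ℤ) * j ≤ s0 - Q * c ∧ s0 - Q * c + 1 ≤ ((Q / G : ℕ) : ℤ) * (j + 1) := by
  obtain ⟨w, hw⟩ := hGQ
  have hQ : Q ≠ 0 := NeZero.ne Q
  have hG : 0 < G := Nat.pos_of_ne_zero (by rintro rfl; simp at hw; exact hQ hw)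
  have hw0 : 0 < w := Nat.pos_of_ne_zero (by rintro rfl; simp at hw; exact hQ hw)
  have hdiv : Q / G = w := by rw [hw]; exact Nat.mul_div_cancel_left w hG
  rw [hdiv] at hj ⊢
  have h1 : (s0 : ZMod Q) = ((v.val : ℤ) : ZMod Q) := by rw [hv]; simp
  rw [ZMod.intCast_eq_intCast_iff_dvd_sub] at h1
  obtain ⟨k, hk⟩ := h1
  obtain ⟨t, ht⟩ := hj.dvd
  have h2 : (w : ℤ) * ((v.val / w : ℕ) : ℤ) + ((v.val % w : ℕ) : ℤ) = (v.val : ℤ) := by
    exact_mod_cast Nat.div_add_mod v.val w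
  have h3 : ((v.val % w : ℕ) : ℤ) < w := by exact_mod_cast Nat.mod_lt _ hw0
  have h4 : (0 : ℤ) ≤ ((v.val % w : ℕ) : ℤ) := Int.natCast_nonneg _
  have h5 : (Q : ℤ) = G * w := by exact_mod_cast hw
  refine ⟨-k - t, ?_, ?_⟩
  · have : s0 - Q * (-k - t) = w * j + ((v.val % w : ℕ) : ℤ) := by
      have hj' : j = ((v.val / w : ℕ) : ℤ) + G * t := by linarith
      rw [hj']
      have : s0 = (v.val : ℤ) - Q * k := by linarith
      rw [this, ← h2, h5]; ring
    rw [this]; linarith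
  · have : s0 - Q * (-k - t) = w * j + ((v.val % w : ℕ) : ℤ) := by
      have hj' : j = ((v.val / w : ℕ) : ℤ) + G * t := by linarith
      rw [hj']
      have : s0 = (v.val : ℤ) - Q * k := by linarith
      rw [this, ← h2, h5]; ring
    rw [this]; linarith

lemma horizR (Q G : ℕ) [NeZero Q] (hGQ : G ∣ Q) (β Y : ℝ) (hβ : 0 < β) (t c j : ℤ)
    (h1 : ((Q / G : ℕ) : ℤ) * j ≤ ⌊Q * Y / (G * β)⌋ - t - Q * c)
    (h2 : ⌊Q * Y / (G * β)⌋ - t - Q * c + 1 ≤ ((Q / G : ℕ) : ℤ) * (j + 1)) :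
    β * j ≤ Y - (G * β * c + G * β / Q * t) ∧ Y - (G * β * c + G * β / Q * t) < β * (j + 1) := by
  obtain ⟨w, hw⟩ := hGQ
  have hQ : Q ≠ 0 := NeZero.ne Q
  have hG : 0 < G := Nat.pos_of_ne_zero (by rintro rfl; simp at hw; exact hQ hw)
  have hw0 : 0 < w := Nat.pos_of_ne_zero (by rintro rfl; simp at hw; exact hQ hw)
  have hdiv : Q / G = w := by rw [hw]; exact Nat.mul_div_cancel_left w hG
  rw [hdiv] at h1 h2
  have hG' : (0 : ℝ) < G := by exact_mod_cast hG
  have hw' : (0 : ℝ) < w := by exact_mod_cast hw0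
  have h5 : (Q : ℝ) = G * w := by exact_mod_cast hw
  have e1 : (Q : ℝ) * Y / (G * β) = w * Y / β := by rw [h5]; field_simp
  rw [e1] at h1 h2
  have f1 := Int.floor_le (w * Y / β)
  have f2 := Int.lt_floor_add_one (w * Y / β)
  set N := ⌊w * Y / β⌋
  have h1' : (w : ℝ) * j ≤ N - t - G * w * c := by rw [← h5]; exact_mod_cast h1
  have h2' : (N : ℝ) - t - G * w * c + 1 ≤ w * (j + 1) := by rw [← h5]; exact_mod_cast h2
  have e2 : Y - (G * β * c + G * β / Q * t) = β / w * (w * Y / β - t - G * w * c) := by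
    rw [h5]; field_simp; ring
  have hb : 0 < β / w := div_pos hβ hw'
  rw [e2]
  constructor
  · calc β * j = β / w * (w * j) := by field_simp
      _ ≤ _ := mul_le_mul_of_nonneg_left (by linarith) hb.le
  · calc β / w * (w * Y / β - t - G * w * c) < β / w * (w * (j + 1)) :=
          mul_lt_mul_of_pos_left (by linarith) hb
      _ = _ := by field_simp

lemma flo (ε Y : ℝ) (hε : 0 < ε) (x : ℤ) :
    ε * x ≤ Y - ε * ((⌊Y / ε⌋ - x : ℤ) : ℝ) ∧ Y - ε * ((⌊Y / ε⌋ - x : ℤ) : ℝ) < ε * (x + 1) := by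
  have f1 := Int.floor_le (Y / ε)
  have f2 := Int.lt_floor_add_one (Y / ε)
  rw [le_div_iff₀ hε] at f1
  rw [div_lt_iff₀ hε] at f2
  push_cast
  constructor <;> nlinarith

lemma bet_pos (l : ℕ) : 0 < bet l := by unfold bet; positivity

end LatL

open LatL in
theorem lat : LatStmt := by
  intro q Q M d _ _ K R _ _ _ _ G L ε e η Rows C g θ' ξ hε he hGQ hbox hrows hgood
  let h : Fin M → ℝ := fun l => (G l : ℝ) * bet l
  let A0 : Matrix (K ⊕ R) (K ⊕ R) ℝ := Matrix.fromBlocks (Matrix.diagonal fun _ => ε) 0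
    (Matrix.of fun r p => ε * ((g r p).val : ℝ)) (Matrix.diagonal fun _ => ε * q)
  let A1 : Matrix (Fin M ⊕ (K ⊕ R)) (Fin M ⊕ (K ⊕ R)) ℝ := Matrix.fromBlocks (Matrix.diagonal h)
    (Matrix.of fun l => Sum.elim (fun p => h l / Q * ((θ' l p).val : ℝ)) (fun _ => 0)) 0 A0
  let B2 : Matrix (Fin M ⊕ (K ⊕ R)) (Fin d) ℝ := Matrix.of
    (Sum.elim (fun l j => h l / Q * (((ξ j).2 l).val : ℝ))
      (Sum.elim (fun _ _ => 0) (fun r j => ε * (((ξ j).1 r).val : ℝ))))
  refine ⟨Matrix.fromBlocks A1 B2 0 η, ?_, fun y => ?_⟩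
  · rw [Matrix.det_fromBlocks_zero₂₁, Matrix.det_fromBlocks_zero₂₁, Matrix.det_fromBlocks_zero₁₂,
      Matrix.det_diagonal, Matrix.det_diagonal, Matrix.det_diagonal]
    simp only [Finset.prod_const, Finset.card_univ, Fintype.card_sum, h]
    ring
  obtain ⟨b0, hb0⟩ := hrows (fun j => y (Sum.inr j))
  let N : K ⊕ R → ℤ := fun p => ⌊y (Sum.inl (Sum.inr p)) / ε⌋
  let Nh : Fin M → ℤ := fun l => ⌊Q * y (Sum.inl (Sum.inl l)) / (G l * bet l)⌋
  let γ : (R → ZMod q) × (Fin M → ZMod Q) :=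
    (fun r => (N (Sum.inr r) : ZMod q) - ∑ p, g r p * (N (Sum.inl p) : ZMod q) -
        ∑ j, (b0 j : ZMod q) * (ξ j).1 r,
      fun l => (Nh l : ZMod Q) - ∑ p, θ' l p * (N (Sum.inl p) : ZMod Q) -
        ∑ j, (b0 j : ZMod Q) * (ξ j).2 l)
  obtain ⟨o, ho⟩ := hgood γ
  obtain ⟨x, j, hj, hmem, hlab⟩ := ho _ (hb0 o)
  have hsub := hbox _ (hb0 o) x j hj
  set bv := nb b0 o with hbv
  have hnb1 : ∀ r, ∑ j, (bv j : ZMod q) * (ξ j).1 r =
      ∑ j, (b0 j : ZMod q) * (ξ j).1 r + (o.elim 0 ξ : (R → ZMod q) × (Fin M → ZMod Q)).1 r := by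
    intro r
    cases o with
    | none => simp [hbv, nb]
    | some j0 =>
      simp only [hbv, nb, Option.elim, Pi.add_apply, Int.cast_add, add_mul, Finset.sum_add_distrib]
      congr 1
      rw [Finset.sum_eq_single j0]
      · simp
      · intro b _ hb; simp [hb]
      · simp
  have hnb2 : ∀ l, ∑ j, (bv j : ZMod Q) * (ξ j).2 l =
      ∑ j, (b0 j : ZMod Q) * (ξ j).2 l + (o.elim 0 ξ : (R → ZMod q) × (Fin M → ZMod Q)).2 l := by
    intro l
    cases o with
    | none => simp [hbv, nb]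
    | some j0 =>
      simp only [hbv, nb, Option.elim, Pi.add_apply, Int.cast_add, add_mul, Finset.sum_add_distrib]
      congr 1
      rw [Finset.sum_eq_single j0]
      · simp
      · intro b _ hb; simp [hb]
      · simp
  let a' : K → ℤ := fun p => N (Sum.inl p) - x (Sum.inl p)
  -- base congruence
  have hb' : ∀ r, ∃ b' : ℤ, ∑ p, ((g r p).val : ℤ) * a' p + q * b' +
      ∑ j, (((ξ j).1 r).val : ℤ) * bv j = N (Sum.inr r) - x (Sum.inr r) := by
    intro r
    have h1 := hmem r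
    simp only [mkG, toPt, Fintype.sum_option, Option.elim, mul_one, Prod.fst_sub, Pi.sub_apply] at h1
    have h2 : ((∑ p, ((g r p).val : ℤ) * a' p + ∑ j, (((ξ j).1 r).val : ℤ) * bv j : ℤ) : ZMod q) =
        ((N (Sum.inr r) - x (Sum.inr r) : ℤ) : ZMod q) := by
      push_cast
      simp only [ZMod.natCast_val, ZMod.cast_id', id_eq, a']
      push_cast
      rw [← h1]
      simp only [mul_comm ((ξ _).1 r)]
      rw [hnb1]
      simp only [γ, mul_sub, Finset.sum_sub_distrib, Option.elim]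
      ring
    rw [ZMod.intCast_eq_intCast_iff_dvd_sub] at h2
    obtain ⟨k, hk⟩ := h2
    exact ⟨k, by linarith⟩
  choose b' hb' using hb'
  let t : Fin M → ℤ := fun l => ∑ p, ((θ' l p).val : ℤ) * a' p + ∑ j, (((ξ j).2 l).val : ℤ) * bv j
  have hc : ∀ l : Fin M, ∃ c : ℤ, ((Q / G l : ℕ) : ℤ) * j l ≤ Nh l - t l - Q * c ∧
      Nh l - t l - Q * c + 1 ≤ ((Q / G l : ℕ) : ℤ) * (j l + 1) := by
    intro l
    refine horiz Q (G l) (hGQ l) _ _ _ ?_ (hlab l)
    simp only [mkG, Option.elim, Prod.snd_sub, Pi.sub_apply, t]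
    push_cast
    simp only [ZMod.natCast_val, ZMod.cast_id', id_eq, a']
    push_cast
    simp only [mul_comm ((ξ _).2 l)]
    rw [hnb2]
    simp only [γ, mul_sub, Finset.sum_sub_distrib, Option.elim]
    ring
  choose c hc using hc
  refine ⟨Sum.elim (Sum.elim c (Sum.elim a' b')) bv, hsub ⟨fun l => ?_, fun p => ?_, fun i => ?_⟩⟩
  · have := horizR Q (G l) (hGQ l) (bet l) (y (Sum.inl (Sum.inl l))) (bet_pos l) (t l) (c l) (j l)
      (hc l).1 (hc l).2
    convert this using 3 <;>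
    · simp only [Pi.sub_apply, Matrix.mulVec, dotProduct, Fintype.sum_sum_type, A1, B2, h, t]
      simp [Matrix.diagonal_apply, Finset.mul_sum, mul_add, mul_assoc, add_assoc]
  · cases p with
    | inl p =>
      have := flo ε (y (Sum.inl (Sum.inr (Sum.inl p)))) hε (x (Sum.inl p))
      convert this using 3 <;>
      · simp only [Pi.sub_apply, Matrix.mulVec, dotProduct, Fintype.sum_sum_type, A1, A0, B2]
        simp [Matrix.diagonal_apply, a', N]
    | inr r =>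
      have := flo ε (y (Sum.inl (Sum.inr (Sum.inr r)))) hε (x (Sum.inr r))
      have h2 := hb' r
      simp only [N] at h2
      rw [← h2] at this
      convert this using 3 <;>
      · simp only [Pi.sub_apply, Matrix.mulVec, dotProduct, Fintype.sum_sum_type, A1, A0, B2]
        simp [Matrix.diagonal_apply, Finset.mul_sum, mul_add, mul_assoc]
  · have e1 : (y - (Matrix.fromBlocks A1 B2 0 η).mulVec
        (fun i => ((Sum.elim (Sum.elim c (Sum.elim a' b')) bv i : ℤ) : ℝ))) (Sum.inr i) =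
        ((fun j => y (Sum.inr j)) - η.mulVec (fun i => (bv i : ℝ))) i := by
      simp [Matrix.mulVec, dotProduct, Fintype.sum_sum_type]
    rw [e1]
    set Y := ((fun j => y (Sum.inr j)) - η.mulVec (fun i => (bv i : ℝ))) i
    have f1 := Int.floor_le (Y / e)
    have f2 := Int.lt_floor_add_one (Y / e)
    rw [le_div_iff₀ he] at f1
    rw [div_lt_iff₀ he] at f2
    constructor <;> nlinarith

end Crest.Agent.R225.Up
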