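import Crest.Agent.R225.UpOrd

/-!
# Row 225, task B4: MASS
-/

open Finset

set_option linter.unusedSectionVars false

namespace Crest.Agent.R225.Up

namespace MASS

open ORD

variable {q : ℕ} [Fact q.Prime] {P R : Type} [Fintype P] [DecidableEq P] [Fintype R] [DecidableEq R]

lemma pi0_le : pi0 q R ≤ 1 := by
  have : (1 : ℝ) ≤ q := by exact_mod_cast (Fact.out : q.Prime).one_le
  exact pow_le_one₀ (by positivity) (div_le_one_of_le₀ this (by positivity))

lemma ind_cases (Gm : R → P → ZMod q) (x : Pt q P R) : ind Gm x = 0 ∨ ind Gm x = 1 := by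
  unfold ind
  split_ifs <;> simp

lemma crude {w : Pt q P R → ℝ} {b : ℝ} (hw : ∀ x, 0 ≤ w x ∧ w x ≤ b) {U D : Finset (Pt q P R)}
    (hD : D ⊆ U) :
    |av (fun Gm : R → P → ZMod q => (∏ x ∈ D, (w x * ind Gm x - w x * pi0 q R) ^ 2) *
        ∏ x ∈ U \ D, (w x * ind Gm x - w x * pi0 q R))| ≤
      b ^ D.card * ((∏ x ∈ U, w x) * av (fun Gm : R → P → ZMod q => ∏ x ∈ U, (ind Gm x + pi0 q R))) := by
  have hπ := pi0_pos (q := q) (R := R)
  have hπ1 := pi0_le (q := q) (R := R)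
  have key : ∀ Gm : R → P → ZMod q, |(∏ x ∈ D, (w x * ind Gm x - w x * pi0 q R) ^ 2) *
        ∏ x ∈ U \ D, (w x * ind Gm x - w x * pi0 q R)| ≤
      b ^ D.card * ((∏ x ∈ U, w x) * ∏ x ∈ U, (ind Gm x + pi0 q R)) := fun Gm => by
    rw [← prod_mul_distrib, ← prod_sdiff hD, mul_comm (∏ x ∈ U \ D, w x * (ind Gm x + pi0 q R)),
      ← mul_assoc, ← prod_const, ← prod_mul_distrib, abs_mul, abs_prod, abs_prod]
    refine mul_le_mul (prod_le_prod (fun _ _ => abs_nonneg _) fun x _ => ?_)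
      (prod_le_prod (fun _ _ => abs_nonneg _) fun x _ => ?_) (prod_nonneg fun _ _ => abs_nonneg _)
      (prod_nonneg fun x _ => ?_)
    · rw [abs_of_nonneg (sq_nonneg _), ← mul_sub, mul_pow, sq (w x), ← mul_assoc]
      refine mul_le_mul (mul_le_mul_of_nonneg_right (hw x).2 (hw x).1) ?_ (sq_nonneg _)
        (mul_nonneg ((hw x).1.trans (hw x).2) (hw x).1)
      rcases ind_cases Gm x with h | h <;> rw [h] <;> nlinarith
    · rw [← mul_sub, abs_mul, abs_of_nonneg (hw x).1]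
      refine mul_le_mul_of_nonneg_left (abs_le.2 ?_) (hw x).1
      rcases ind_cases Gm x with h | h <;> rw [h] <;> constructor <;> linarith
    · refine mul_nonneg ((hw x).1.trans (hw x).2) (mul_nonneg (hw x).1 ?_)
      rcases ind_cases Gm x with h | h <;> rw [h] <;> linarith
  rw [← SB.av_const_mul, ← SB.av_const_mul, abs_le]
  constructor
  · rw [neg_eq_neg_one_mul, ← SB.av_const_mul]
    exact SB.av_mono fun Gm => by linarith [(abs_le.1 (key Gm)).1]
  · exact SB.av_mono fun Gm => (abs_le.1 (key Gm)).2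

lemma vanish (hP : ProbStmt) (w : Pt q P R → ℝ) {U D : Finset (Pt q P R)} (hD : D ⊆ U)
    (h : nc U < (U \ D).card) :
    av (fun Gm : R → P → ZMod q => (∏ x ∈ D, (w x * ind Gm x - w x * pi0 q R) ^ 2) *
        ∏ x ∈ U \ D, (w x * ind Gm x - w x * pi0 q R)) = 0 := by
  obtain ⟨x, hx, hx'⟩ := exists_mem_notMem_of_card_lt_card h
  obtain ⟨hxU, hxD⟩ := mem_sdiff.1 hx
  simp only [mem_filter, hxU, true_and] at hx'
  have h1 := (hP q P R).1 (U.erase x) x (fun K => (∏ y ∈ D, (w y * SB.ind (y ∈ K) - w y * pi0 q R) ^ 2) *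
    ∏ y ∈ (U \ D).erase x, (w y * SB.ind (y ∈ K) - w y * pi0 q R)) (by simp only [coe_erase] at hx' ⊢; exact hx')
  simp only [mem_filter] at h1
  have e : ∀ Gm : R → P → ZMod q,
      (∏ y ∈ D, (w y * SB.ind (y ∈ U.erase x ∧ mem Gm y) - w y * pi0 q R) ^ 2) *
        ∏ y ∈ (U \ D).erase x, (w y * SB.ind (y ∈ U.erase x ∧ mem Gm y) - w y * pi0 q R) =
      (∏ y ∈ D, (w y * ind Gm y - w y * pi0 q R) ^ 2) *
        ∏ y ∈ (U \ D).erase x, (w y * ind Gm y - w y * pi0 q R) := fun Gm => by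
    congr 1
    · refine prod_congr rfl fun y hy => ?_
      rw [SB.ind_congr (and_iff_right (mem_erase.2 ⟨ne_of_mem_of_not_mem hy hxD, hD hy⟩)), ind_eq]
    · refine prod_congr rfl fun y hy => ?_
      rw [SB.ind_congr (and_iff_right (mem_erase.2
        ⟨(mem_erase.1 hy).1, (mem_sdiff.1 (mem_erase.1 hy).2).1⟩)), ind_eq]
  simp only [e] at h1
  rw [← SB.av_const_mul, ← sub_eq_zero, ← SB.av_sub] at h1
  rw [← mul_zero (w x), ← h1, ← SB.av_const_mul]
  refine SB.av_congr fun Gm => ?_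
  rw [← mul_prod_erase _ _ hx]
  ring

end MASS

open ORD MASS in
theorem mass (hL : LTStmt) (hP : ProbStmt) (hO : OrdStmt) : MassStmt := by
  intro q _ P R _ _ _ _ w a b ϱ β' n t' hw ha h0 h1 hT hζ ht' hM hq' hb' hβ1 hn
  have hb : 0 ≤ b := (hw 0).1.trans (hw 0).2
  have hπ := pi0_pos (q := q) (R := R)
  have hπ1 := pi0_le (q := q) (R := R)
  have hq : (1 : ℝ) ≤ q := by exact_mod_cast (Fact.out : q.Prime).one_le
  have ht'' : (1 : ℝ) ≤ t' := by exact_mod_cast ht'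
  have hβ0 : 0 ≤ β' := le_trans (by positivity) hb'
  set M := a * pi0 q R with hMdef
  have hM0 : 0 < M := by linarith
  obtain ⟨t, ht⟩ : ∃ t, t = 4 * t' := ⟨_, rfl⟩
  obtain ⟨T, hTT⟩ : ∃ T, T = 8 * t := ⟨_, rfl⟩
  have htR : (t : ℝ) = 4 * t' := by rw [ht]; push_cast; ring
  have hTR : (T : ℝ) = 32 * t' := by rw [hTT, ht]; push_cast; ring
  have hT0 : (0 : ℝ) < T := by linarith
  have hϑ : 0 < M / (8 * T) := by positivity
  have hsum : ∑ x, w x * pi0 q R = M := by rw [← sum_mul, ha]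
  have h := hL (Pt q P R) (R → P → ZMod q) univ (fun x Gm => w x * ind Gm x)
    (fun x Gm => w x * ind Gm x) (fun x => w x * pi0 q R) (b * M) (M / (8 * T)) t T
    (fun U i => if 2 * i ≤ nc U then b ^ (t - i) *
      ((∏ x ∈ U, w x) * av (fun Gm : R → P → ZMod q => ∏ x ∈ U, (ind Gm x + pi0 q R))) else 0)
    (fun x _ Gm => ⟨mul_nonneg (hw x).1 (SB.ind_nonneg _), le_rfl⟩)
    (fun x _ => mul_nonneg (hw x).1 hπ.le)
    (by
      rw [← hsum, mul_sum]
      refine sum_le_sum fun x _ => ?_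
      rw [sq]
      exact mul_le_mul_of_nonneg_right ((mul_le_of_le_one_right (hw x).1 hπ1).trans (hw x).2)
        (mul_nonneg (hw x).1 hπ.le))
    (by omega) (by omega) hϑ
    (fun i U D hi _ hD hU hDc => by
      beta_reduce
      split_ifs with hc
      · rw [← hDc]
        exact crude hw hD
      · rw [vanish hP w hD (by rw [card_sdiff_of_subset hD]; omega), abs_zero])
  rw [hsum] at h
  refine le_trans ?_ (h.trans ?_)
  · rw [SB.prob_eq, SB.prob_eq]
    refine SB.av_mono fun Gm => SB.ind_mono fun hG => hG.trans_le ?_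
    have e1 : t * M / T = M / 8 := by rw [htR, hTR]; field_simp; ring
    have e2 : T * (M / (8 * T)) = M / 8 := by field_simp
    have e3 : Real.sqrt (2 * t * (b * M)) ≤ M / 4 := by
      refine Real.sqrt_le_iff.2 ⟨by positivity, ?_⟩
      rw [htR]
      nlinarith
    linarith
  set E := β' ^ t' + ϱ ^ n with hE
  have hE0 : 0 ≤ E := by positivity
  have key : ∀ i ∈ range (t + 1), (t.choose i : ℝ) * ((t + i).factorial : ℝ) / (T : ℝ) ^ (t + i) *
      ∑ U ∈ (univ : Finset (Pt q P R)).powersetCard (t + i), (if 2 * i ≤ nc U then b ^ (t - i) *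
        ((∏ x ∈ U, w x) * av (fun Gm : R → P → ZMod q => ∏ x ∈ U, (ind Gm x + pi0 q R))) else 0) ≤
      (t.choose i : ℝ) * ((M / (8 * T)) ^ (2 * t) * (8 ^ (2 * t) * 4 ^ (2 * t) * (2 * t + 1) * E)) := by
    intro i hi
    have hi' : i ≤ t := Nat.lt_succ_iff.1 (mem_range.1 hi)
    have h2 := hO q P R w a b ϱ n (t + i) i hw ha h0 h1 hT hζ
    have h3 : ∀ e ∈ range (t + i + 1), β' ^ (t - i) * (M ^ (t + i - e) * (2 * b * (q : ℝ) ^ (t + i)) ^ e *
        ϱ ^ min (2 * i - 2 * e) n) ≤ M ^ (2 * t) * E := fun e _ => by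
      have a1 : M ^ (t + i - e) ≤ M ^ (2 * t) := pow_le_pow_right₀ (by linarith) (by omega)
      have a2 : (2 * b * (q : ℝ) ^ (t + i)) ^ e ≤ β' ^ e := pow_le_pow_left₀ (by positivity)
        (le_trans (mul_le_mul_of_nonneg_left (pow_le_pow_right₀ hq (by omega)) (by positivity)) hq') _
      have a3 : β' ^ (t - i + e) * ϱ ^ min (2 * i - 2 * e) n ≤ E := by
        by_cases hc : t' ≤ t - i + e
        · exact (mul_le_of_le_one_right (by positivity) (pow_le_one₀ h0.le h1)).trans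
            ((pow_le_pow_of_le_one hβ0 hβ1 hc).trans (le_add_of_nonneg_right (by positivity)))
        · rw [min_eq_right (by omega)]
          exact (mul_le_of_le_one_left (by positivity) (pow_le_one₀ hβ0 hβ1)).trans
            (le_add_of_nonneg_left (by positivity))
      calc _ ≤ β' ^ (t - i) * (M ^ (2 * t) * β' ^ e * ϱ ^ min (2 * i - 2 * e) n) := by gcongr
        _ = M ^ (2 * t) * (β' ^ (t - i + e) * ϱ ^ min (2 * i - 2 * e) n) := by ring
        _ ≤ _ := by gcongr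
    have h4 := sum_le_sum h3
    rw [← mul_sum, sum_const, card_range, nsmul_eq_mul] at h4
    have h5 : b ^ (t - i) * (T : ℝ) ^ (t - i) ≤ β' ^ (t - i) := by
      rw [← mul_pow]
      exact pow_le_pow_left₀ (by positivity) (by rw [hTR]; linarith) _
    have h6 : (T : ℝ) ^ (2 * t) = T ^ (t + i) * T ^ (t - i) := by
      rw [← pow_add]; congr 1; omega
    have h7 : ((t + i + 1 : ℕ) : ℝ) ≤ 2 * t + 1 := by exact_mod_cast (by omega : t + i + 1 ≤ 2 * t + 1)
    have h8 : (4 : ℝ) ^ (t + i) ≤ 4 ^ (2 * t) := pow_le_pow_right₀ (by norm_num) (by omega)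
    rw [← sum_filter, ← mul_sum]
    set S1 := ∑ U ∈ ((univ : Finset (Pt q P R)).powersetCard (t + i)).filter (fun U => 2 * i ≤ nc U),
      (∏ x ∈ U, w x) * av (fun Gm : R → P → ZMod q => ∏ x ∈ U, (ind Gm x + pi0 q R))
    set S2 := ∑ e ∈ range (t + i + 1), M ^ (t + i - e) * (2 * b * (q : ℝ) ^ (t + i)) ^ e *
        ϱ ^ min (2 * i - 2 * e) n with hS2
    have hS : 0 ≤ S2 := sum_nonneg fun e _ => by positivity
    calc _ = (t.choose i : ℝ) * (b ^ (t - i) * (T : ℝ) ^ (t - i) * (((t + i).factorial : ℝ) * S1) /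
          (T : ℝ) ^ (2 * t)) := by rw [h6]; field_simp
      _ ≤ (t.choose i : ℝ) * (b ^ (t - i) * (T : ℝ) ^ (t - i) * (4 ^ (t + i) * S2) /
          (T : ℝ) ^ (2 * t)) := by gcongr
      _ ≤ (t.choose i : ℝ) * (β' ^ (t - i) * (4 ^ (2 * t) * S2) / (T : ℝ) ^ (2 * t)) := by gcongr
      _ = (t.choose i : ℝ) * (4 ^ (2 * t) * (β' ^ (t - i) * S2) / (T : ℝ) ^ (2 * t)) := by ring
      _ ≤ (t.choose i : ℝ) * (4 ^ (2 * t) * ((2 * t + 1) * (M ^ (2 * t) * E)) / (T : ℝ) ^ (2 * t)) := by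
          have h4' : β' ^ (t - i) * S2 ≤ (2 * t + 1) * (M ^ (2 * t) * E) := h4.trans (by gcongr)
          gcongr (t.choose i : ℝ) * (4 ^ (2 * t) * ?_ / (T : ℝ) ^ (2 * t))
      _ = _ := by rw [div_pow, mul_pow 8]; field_simp
  have h9 := sum_le_sum key
  rw [← sum_mul, ← Nat.cast_sum, Nat.sum_range_choose] at h9
  have h10 : (T.choose t : ℝ) ≤ 2 ^ (8 * t) := by
    rw [← hTT]; exact_mod_cast Nat.choose_le_two_pow T t
  have h11 : 2 * (2 * (t : ℝ) + 1) ≤ 2 ^ (3 * t) := by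
    have := one_add_mul_le_pow (a := (7 : ℝ)) (by norm_num) t
    rw [pow_mul]
    norm_num at this ⊢
    linarith
  calc _ ≤ 2 * (2 : ℝ) ^ (8 * t) / (M / (8 * T)) ^ (2 * t) * (((2 ^ t : ℕ) : ℝ) *
        ((M / (8 * T)) ^ (2 * t) * (8 ^ (2 * t) * 4 ^ (2 * t) * (2 * t + 1) * E))) := by
        refine (mul_le_mul_of_nonneg_left h9 (by positivity)).trans ?_
        gcongr
    _ = 2 ^ (19 * t) * (2 * (2 * t + 1)) * E := by
        have e8 : (8 : ℝ) ^ (2 * t) = 2 ^ (6 * t) := by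
          rw [show (8 : ℝ) = 2 ^ 3 by norm_num, ← pow_mul]; congr 1; ring
        have e4 : (4 : ℝ) ^ (2 * t) = 2 ^ (4 * t) := by
          rw [show (4 : ℝ) = 2 ^ 2 by norm_num, ← pow_mul]; congr 1; ring
        rw [e8, e4]
        push_cast
        field_simp
        ring
    _ ≤ 2 ^ (19 * t) * 2 ^ (3 * t) * E := by gcongr
    _ = _ := by rw [← pow_add]; congr 2; omega

end Crest.Agent.R225.Up
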