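import Crest.Agent.R225.UpC

/-!
# Row 225, part C5: reduction mod `q`
-/

open Finset
open scoped ENNReal

set_option linter.unusedSectionVars false

namespace Crest.Agent.R225.Up

namespace MQ

section gen
variable {Z Z' Γ : Type} [Fintype Γ]

open Classical in
/-- push-forward in `ℝ≥0∞` -/
noncomputable def pE (φ : Z → Γ) (g : Z → ℝ≥0∞) (γ : Γ) : ℝ≥0∞ := ∑' x, if φ x = γ then g x else 0

open Classical in
lemma conv (φ : Z → Γ) (g : Z → ℝ≥0∞) (φ' : Z' → Γ) (g' : Z' → ℝ≥0∞) (T : Γ → Γ) :
    ∑ γ, pE φ g γ * pE φ' g' (T γ) =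
      ∑' x, ∑' y, if φ' y = T (φ x) then g x * g' y else 0 := by
  simp only [pE, ← ENNReal.tsum_mul_right]
  rw [← tsum_fintype (L := SummationFilter.unconditional _), ENNReal.tsum_comm]
  refine tsum_congr fun x => ?_
  rw [tsum_eq_single (φ x) (fun γ h => by rw [if_neg (Ne.symm h), zero_mul]), if_pos rfl,
    ← ENNReal.tsum_mul_left]
  exact tsum_congr fun y => by split_ifs <;> simp

lemma pow_tsum_single (g : Z → ℝ≥0∞) (h : ∀ z z', g z ≠ 0 → g z' ≠ 0 → z = z') (n : ℕ) :
    (∑' z, g z) ^ (n + 1) = ∑' z, g z ^ (n + 1) := by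
  by_cases h0 : ∀ z, g z = 0
  · simp [h0]
  · push Not at h0
    obtain ⟨z0, hz0⟩ := h0
    have h1 : ∀ z, z ≠ z0 → g z = 0 := fun z hz => by
      by_contra h2; exact hz (h z z0 h2 hz0)
    rw [tsum_eq_single z0 h1, tsum_eq_single z0 fun z hz => by rw [h1 z hz]; simp]

end gen

variable {q : ℕ} {K R : Type}

/-- the linear part of `toPt` -/
def red (q : ℕ) {K R : Type} (x : K ⊕ R → ℤ) : Pt q (Option K) R :=
  (fun o => o.elim 0 (fun p => (x (Sum.inl p) : ZMod q)), fun i => (x (Sum.inr i) : ZMod q))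

/-- the affine unit vector -/
def e1 (q : ℕ) (K R : Type) : Pt q (Option K) R := (fun o => o.elim 1 (fun _ => 0), 0)

lemma toPt_eq (x : K ⊕ R → ℤ) : toPt q x = e1 q K R + red q x := by
  refine Prod.ext (funext fun o => ?_) (funext fun i => ?_)
  · cases o <;> simp [toPt, e1, red]
  · simp [toPt, e1, red]

lemma red_add (x y : K ⊕ R → ℤ) : red q (x + y) = red q x + red q y := by
  refine Prod.ext (funext fun o => ?_) (funext fun i => ?_)
  · cases o <;> simp [red]
  · simp [red]

lemma red_sub (x y : K ⊕ R → ℤ) : red q (x - y) = red q x - red q y := by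
  rw [eq_sub_iff_add_eq, ← red_add, sub_add_cancel]

lemma red_smul (σ : ℤ) (x : K ⊕ R → ℤ) : red q (σ • x) = (σ : ZMod q) • red q x := by
  refine Prod.ext (funext fun o => ?_) (funext fun i => ?_)
  · cases o <;> simp [red]
  · simp [red]

lemma red_zero : red q (0 : K ⊕ R → ℤ) = 0 := by
  refine Prod.ext (funext fun o => ?_) (funext fun i => ?_)
  · cases o <;> simp [red]
  · simp [red]

lemma red_coord {x y : K ⊕ R → ℤ} {c : ZMod q} (h : red q x = c • red q y) (p : K ⊕ R) :
    (x p : ZMod q) = c * y p := by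
  rcases p with p | i
  · exact congrFun (congrArg Prod.fst h) (some p)
  · exact congrFun (congrArg Prod.snd h) i

lemma eq_of_cast {a b : ℤ} (h : (a : ZMod q) = b) (h2 : |a - b| < q) : a = b := by
  have h3 : (q : ℤ) ∣ a - b := (ZMod.intCast_eq_intCast_iff_dvd_sub b a q).mp h.symm
  exact sub_eq_zero.mp (Int.eq_zero_of_abs_lt_dvd h3 h2)

lemma red_inj {x y : K ⊕ R → ℤ} (h : red q x = red q y) (h2 : ∀ p, |x p - y p| < q) : x = y := by
  funext p
  refine eq_of_cast ?_ (h2 p)
  have := red_coord (q := q) (x := x) (y := y) (c := 1) (by rw [one_smul]; exact h) p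
  rwa [one_mul] at this

variable {S : Finset (K ⊕ R → ℤ)} {w : (K ⊕ R → ℤ) → ℝ} {b : ℝ} {D : ℕ}

lemma toPt_inj (hS : Supp S w b D) (hD : D < q) :
    ∀ x ∈ S, ∀ y ∈ S, toPt q x = toPt q y → x = y := by
  intro x hx y hy h
  rw [toPt_eq, toPt_eq, add_right_inj] at h
  exact red_inj h fun p => (hS.diam x hx y hy p).trans_lt (by exact_mod_cast hD)

lemma push_nonneg (hS : Supp S w b D) (γ : Pt q (Option K) R) : 0 ≤ push q S w γ :=
  Finset.sum_nonneg fun x _ => (hS.bd x).1

lemma mem_of_ne (hS : Supp S w b D) {x : K ⊕ R → ℤ} (h : ENNReal.ofReal (w x) ≠ 0) : x ∈ S := by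
  by_contra h2
  exact h (by rw [hS.out x h2, ENNReal.ofReal_zero])

variable [NeZero q] [Fintype K] [DecidableEq K] [Fintype R] [DecidableEq R]

lemma ofReal_push (hS : Supp S w b D) (γ : Pt q (Option K) R) :
    ENNReal.ofReal (push q S w γ) = pE (toPt q) (fun x => ENNReal.ofReal (w x)) γ := by
  classical
  rw [push, ENNReal.ofReal_sum_of_nonneg fun x _ => (hS.bd x).1, pE,
    tsum_eq_sum (s := S) fun x hx => by rw [hS.out x hx]; simp, Finset.sum_filter]
  exact Finset.sum_congr rfl fun x _ => by congr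

lemma sum_push (F : Pt q (Option K) R → ℝ) :
    ∑ γ, push q S w γ * F γ = ∑ x ∈ S, w x * F (toPt q x) := by
  classical
  simp only [push, Finset.sum_mul]
  rw [← Finset.sum_fiberwise (s := S) (g := toPt q)]
  refine Finset.sum_congr rfl fun γ _ => Finset.sum_congr (by congr) fun x hx => ?_
  rw [(Finset.mem_filter.mp hx).2]

lemma gpw_nonneg {E : Type} [Fintype E] [AddCommGroup E] {v : E → ℝ} (hv : ∀ x, 0 ≤ v x) (i : ℕ)
    (z : E) : 0 ≤ gpw v i z := by
  induction i generalizing z with
  | zero => exact Finset.sum_nonneg fun x _ => mul_nonneg (hv _) (hv _)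
  | succ i ih => exact Finset.sum_nonneg fun x _ => mul_nonneg (ih _) (ih _)

lemma ofReal_gpw (hS : Supp S w b D) (i : ℕ) (ζ : Pt q (Option K) R) :
    ENNReal.ofReal (gpw (push q S w) i ζ) =
      pE (red q) (zpw (fun x => ENNReal.ofReal (w x)) i) ζ := by
  classical
  induction i generalizing ζ with
  | zero =>
    rw [gpw, ENNReal.ofReal_sum_of_nonneg fun x _ =>
      mul_nonneg (push_nonneg hS _) (push_nonneg hS _)]
    simp only [ENNReal.ofReal_mul (push_nonneg hS _), ofReal_push hS]
    rw [conv _ _ _ _ (fun γ => γ + ζ), pE]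
    simp only [zpw]
    rw [tsum_congr fun x => ((Equiv.addLeft x).tsum_eq _).symm, ENNReal.tsum_comm]
    refine tsum_congr fun z => ?_
    have : ∀ x, toPt q (x + z) = toPt q x + ζ ↔ red q z = ζ := fun x => by
      rw [toPt_eq, toPt_eq, red_add, ← add_assoc, add_right_inj]
    simp only [Equiv.coe_addLeft, this]
    split_ifs <;> simp
  | succ i ih =>
    rw [gpw, ENNReal.ofReal_sum_of_nonneg fun x _ =>
      mul_nonneg (gpw_nonneg (push_nonneg hS) _ _) (gpw_nonneg (push_nonneg hS) _ _)]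
    simp only [ENNReal.ofReal_mul (gpw_nonneg (push_nonneg hS) _ _), ih]
    rw [conv _ _ _ _ (fun γ => ζ - γ), pE]
    simp only [zpw]
    rw [tsum_congr fun x => ((Equiv.subRight x).tsum_eq _).symm, ENNReal.tsum_comm]
    refine tsum_congr fun z => ?_
    have : ∀ x, red q (z - x) = ζ - red q x ↔ red q z = ζ := fun x => by
      rw [red_sub, sub_left_inj]
    simp only [Equiv.subRight_apply, this]
    split_ifs <;> simp

lemma zpw_supp (hS : Supp S w b D) (i : ℕ) (z : K ⊕ R → ℤ)
    (h : zpw (fun x => ENNReal.ofReal (w x)) i z ≠ 0) (p : K ⊕ R) : |z p| ≤ 2 ^ i * D := by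
  induction i generalizing z with
  | zero =>
    rw [zpw] at h
    simp only [Ne, ENNReal.tsum_eq_zero, not_forall] at h
    obtain ⟨x, hx⟩ := h
    have := hS.diam _ (mem_of_ne hS (right_ne_zero_of_mul hx)) _
      (mem_of_ne hS (left_ne_zero_of_mul hx)) p
    simpa using this
  | succ i ih =>
    rw [zpw] at h
    simp only [Ne, ENNReal.tsum_eq_zero, not_forall] at h
    obtain ⟨x, hx⟩ := h
    have h1 := ih _ (left_ne_zero_of_mul hx)
    have h2 := ih _ (right_ne_zero_of_mul hx)
    rw [Pi.sub_apply] at h2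
    rw [abs_le] at *
    constructor <;> rw [pow_succ] <;> linarith [h1.1, h1.2, h2.1, h2.2]

lemma coset_le {T : Finset (K ⊕ R → ℤ)} (hw : ∀ x, 0 ≤ w x) {a3 : ℝ} (ha : 0 ≤ a3) {s : ℤ}
    {o : K ⊕ R → ℤ} (h : ∑' y, ENNReal.ofReal (w (o + s • y)) ≤ ENNReal.ofReal a3)
    (hT : ∀ x ∈ T, ∀ p, s ∣ x p - o p) : ∑ x ∈ T, w x ≤ a3 := by
  classical
  rw [← ENNReal.ofReal_le_ofReal_iff ha, ENNReal.ofReal_sum_of_nonneg fun x _ => hw x]
  refine le_trans ?_ h
  have key : ∀ x ∈ T, o + s • (fun p => (x p - o p) / s) = x := fun x hx => by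
    funext p
    simp only [Pi.add_apply, Pi.smul_apply, smul_eq_mul]
    rw [Int.mul_ediv_cancel' (hT x hx p)]; ring
  refine le_trans (le_of_eq ?_) (ENNReal.sum_le_tsum (T.image fun x p => (x p - o p) / s))
  rw [Finset.sum_image]
  · exact Finset.sum_congr rfl fun x hx => by rw [key x hx]
  · intro x hx y hy h
    rw [← key x hx, ← key y hy]
    exact congrArg (fun t => o + s • t) h

end MQ

theorem mq1 : Mq1Stmt := by
  intro q _ K R _ _ _ _ S w b D hS hD
  classical
  refine ⟨MQ.toPt_inj hS hD, fun i En hi hEn h => ?_, fun v => ?_⟩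
  · rw [← ENNReal.ofReal_le_ofReal_iff hEn, MQ.ofReal_gpw hS, MQ.pE, tsum_eq_single 0,
      if_pos MQ.red_zero]
    · exact h
    · intro z hz
      split_ifs with h1
      · by_contra h2
        refine hz (MQ.red_inj (h1.trans MQ.red_zero.symm) fun p => ?_)
        have := MQ.zpw_supp hS i z h2 p
        have h3 : ((2 ^ i * D : ℕ) : ℤ) < q := by exact_mod_cast hi
        push_cast at h3
        simpa using this.trans_lt h3
      · rfl
  · have hb : 0 ≤ b := (hS.bd 0).1.trans (hS.bd 0).2
    have e1 : ∑ y, push q S w (v, y) = ∑ x ∈ S.filter (fun x => (toPt q x).1 = v), w x := by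
      have := MQ.sum_push (q := q) (S := S) (w := w) (fun γ => if γ.1 = v then 1 else 0)
      rw [Fintype.sum_prod_type, Finset.sum_eq_single v (fun u _ hu => by simp [hu]) (by simp)] at this
      simp only [if_true, mul_one, mul_ite, mul_zero] at this
      rw [this, Finset.sum_filter]
    rw [e1]
    refine (Finset.sum_le_card_nsmul _ _ b fun x _ => (hS.bd x).2).trans ?_
    rw [nsmul_eq_mul]
    refine mul_le_mul_of_nonneg_right ?_ hb
    rcases (S.filter (fun x => (toPt q x).1 = v)).eq_empty_or_nonempty with h | ⟨x0, hx0⟩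
    · rw [h]; simp; positivity
    obtain ⟨hx0S, hx0v⟩ := Finset.mem_filter.mp hx0
    have : (S.filter (fun x => (toPt q x).1 = v)).card ≤ (Fintype.piFinset fun i : R =>
        Finset.Icc (x0 (Sum.inr i) - D) (x0 (Sum.inr i) + D)).card := by
      refine Finset.card_le_card_of_injOn (fun x i => x (Sum.inr i)) (fun x hx => ?_) ?_
      · have hx' := (Finset.mem_filter.mp (Finset.mem_coe.mp hx)).1
        refine Finset.mem_coe.mpr (Fintype.mem_piFinset.mpr fun i => Finset.mem_Icc.mpr ?_)
        have := abs_le.mp (hS.diam x hx' x0 hx0S (Sum.inr i))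
        constructor <;> linarith [this.1, this.2]
      · intro x hx y hy h
        obtain ⟨hxS, hxv⟩ := Finset.mem_filter.mp (Finset.mem_coe.mp hx)
        obtain ⟨hyS, hyv⟩ := Finset.mem_filter.mp (Finset.mem_coe.mp hy)
        refine MQ.toPt_inj hS hD x hxS y hyS (Prod.ext (hxv.trans hyv.symm) (funext fun i => ?_))
        exact congrArg (Int.cast : ℤ → ZMod q) (congrFun h i)
    rw [Fintype.card_piFinset] at this
    simp only [Int.card_Icc] at this
    rw [Finset.prod_congr rfl (g := fun _ => 2 * D + 1) (fun i _ => by omega), Finset.prod_const,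
      Finset.card_univ] at this
    exact_mod_cast this

theorem mq2 : Mq2Stmt := by
  intro q _ K R _ _ _ _ S w b E2 a3 D N hS hD hD2 hE2 ha3 h1 h2 c hc
  classical
  have hb : 0 ≤ b := (hS.bd 0).1.trans (hS.bd 0).2
  have hw : ∀ x, 0 ≤ w x := fun x => (hS.bd x).1
  have hp := MQ.push_nonneg (q := q) hS
  have hI0 : ∀ z, 0 ≤ ∑ x, push q S w x * push q S w (z + c • x) := fun z =>
    Finset.sum_nonneg fun x _ => mul_nonneg (hp _) (hp _)
  by_cases hσ : ∃ σ : ℤ, (σ = 1 ∨ σ = -1) ∧ c = σ
  · obtain ⟨σ, hσ, rfl⟩ := hσ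
    refine le_trans ?_ (le_add_of_nonneg_right (by positivity))
    rw [← ENNReal.ofReal_le_ofReal_iff hE2,
      ENNReal.ofReal_sum_of_nonneg fun z _ => pow_nonneg (hI0 z) _]
    refine le_trans (le_of_eq ?_) (h1 σ hσ)
    set J : (K ⊕ R → ℤ) → ℝ≥0∞ := fun z =>
      ∑' x, ENNReal.ofReal (w x) * ENNReal.ofReal (w (z + σ • x)) with hJ
    set ψ : (K ⊕ R → ℤ) → Pt q (Option K) R := fun z =>
      MQ.e1 q K R - (σ : ZMod q) • MQ.e1 q K R + MQ.red q z with hψ
    have e1 : ∀ ζ, ENNReal.ofReal (∑ x, push q S w x * push q S w (ζ + (σ : ZMod q) • x)) =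
        ∑' z, if ψ z = ζ then J z else 0 := by
      intro ζ
      rw [ENNReal.ofReal_sum_of_nonneg fun x _ => mul_nonneg (hp _) (hp _)]
      simp only [ENNReal.ofReal_mul (hp _), MQ.ofReal_push hS]
      rw [MQ.conv _ _ _ _ (fun γ => ζ + (σ : ZMod q) • γ)]
      rw [tsum_congr fun x => ((Equiv.addRight (σ • x)).tsum_eq _).symm, ENNReal.tsum_comm]
      refine tsum_congr fun z => ?_
      have : ∀ x, toPt q (z + σ • x) = ζ + (σ : ZMod q) • toPt q x ↔ ψ z = ζ := fun x => by
        rw [MQ.toPt_eq, MQ.toPt_eq, MQ.red_add, MQ.red_smul, smul_add, hψ, ← add_assoc,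
          ← add_assoc, add_left_inj]
        constructor
        · intro h; simp only; rw [sub_add_eq_add_sub, h]; simp
        · intro h; rw [← h]; simp only; abel
      simp only [Equiv.coe_addRight, this]
      split_ifs <;> simp [hJ]
    have e2 : ∀ ζ, ENNReal.ofReal ((∑ x, push q S w x * push q S w (ζ + (σ : ZMod q) • x)) ^ (N + 1)) =
        ∑' z, if ψ z = ζ then J z ^ (N + 1) else 0 := by
      intro ζ
      rw [ENNReal.ofReal_pow (hI0 ζ), e1, MQ.pow_tsum_single]
      · exact tsum_congr fun z => by split_ifs <;> simp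
      · intro z z' hz hz'
        have a1 : ψ z = ζ := by by_contra h; exact hz (if_neg h)
        have a2 : ψ z' = ζ := by by_contra h; exact hz' (if_neg h)
        rw [if_pos a1] at hz
        rw [if_pos a2] at hz'
        simp only [hJ, Ne, ENNReal.tsum_eq_zero, not_forall] at hz hz'
        obtain ⟨x, hx⟩ := hz
        obtain ⟨x', hx'⟩ := hz'
        have a3 : MQ.red q z = MQ.red q z' := add_left_cancel (a1.trans a2.symm)
        refine MQ.red_inj a3 fun p => ?_
        have b1 := abs_le.mp (hS.diam _ (MQ.mem_of_ne hS (left_ne_zero_of_mul hx)) _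
          (MQ.mem_of_ne hS (left_ne_zero_of_mul hx')) p)
        have b2 := abs_le.mp (hS.diam _ (MQ.mem_of_ne hS (right_ne_zero_of_mul hx)) _
          (MQ.mem_of_ne hS (right_ne_zero_of_mul hx')) p)
        have b3 : ((2 * D : ℕ) : ℤ) < q := by exact_mod_cast hD
        push_cast at b3
        simp only [Pi.add_apply, Pi.smul_apply, smul_eq_mul] at b2
        rw [abs_lt]
        rcases hσ with rfl | rfl <;> constructor <;> linarith [b1.1, b1.2, b2.1, b2.2]
    simp only [e2]
    rw [← tsum_fintype (L := SummationFilter.unconditional _), ENNReal.tsum_comm]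
    refine tsum_congr fun z => ?_
    rw [tsum_eq_single (ψ z) (fun γ h => if_neg (Ne.symm h)), if_pos rfl]
  · refine le_trans ?_ (le_add_of_nonneg_left hE2)
    have hDq : D < q := by omega
    have hinj := MQ.toPt_inj hS hDq
    have hIle : ∀ ζ, ∑ x, push q S w x * push q S w (ζ + c • x) ≤ a3 * b := by
      intro ζ
      set Sol := (S ×ˢ S).filter (fun z => toPt q z.2 = ζ + c • toPt q z.1) with hSol
      have e1 : ∑ x, push q S w x * push q S w (ζ + c • x) = ∑ z ∈ Sol, w z.1 * w z.2 := by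
        rw [MQ.sum_push (fun x => push q S w (ζ + c • x)), hSol, Finset.sum_filter,
          Finset.sum_product]
        refine Finset.sum_congr rfl fun x _ => ?_
        rw [push, Finset.mul_sum, Finset.sum_filter]
        exact Finset.sum_congr rfl fun y _ => by congr
      have mS : ∀ z ∈ Sol, z.1 ∈ S ∧ z.2 ∈ S ∧ toPt q z.2 = ζ + c • toPt q z.1 := fun z hz => by
        obtain ⟨a1, a2⟩ := Finset.mem_filter.mp hz
        exact ⟨(Finset.mem_product.mp a1).1, (Finset.mem_product.mp a1).2, a2⟩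
      have f1 : ∀ (s : ℤ) (o : K ⊕ R → ℤ), 2 ≤ |s| → (∀ z ∈ Sol, ∀ p, s ∣ z.1 p - o p) →
          ∑ z ∈ Sol, w z.1 * w z.2 ≤ a3 * b := by
        intro s o hs h
        calc _ ≤ ∑ z ∈ Sol, w z.1 * b :=
              Finset.sum_le_sum fun z _ => mul_le_mul_of_nonneg_left (hS.bd _).2 (hw _)
          _ = (∑ x ∈ Sol.image Prod.fst, w x) * b := by
              rw [← Finset.sum_mul, Finset.sum_image]
              intro z hz z' hz' h
              obtain ⟨-, a2, a3⟩ := mS z hz
              obtain ⟨-, b2, b3⟩ := mS z' hz'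
              exact Prod.ext h (hinj _ a2 _ b2 (by rw [a3, b3, h]))
          _ ≤ a3 * b := by
              refine mul_le_mul_of_nonneg_right (MQ.coset_le hw ha3 (h2 s o hs) fun x hx => ?_) hb
              obtain ⟨z, hz, rfl⟩ := Finset.mem_image.mp hx
              exact h z hz
      have f2 : ∀ (s : ℤ) (o : K ⊕ R → ℤ), 2 ≤ |s| → (∀ z ∈ Sol, ∀ p, s ∣ z.2 p - o p) →
          ∑ z ∈ Sol, w z.1 * w z.2 ≤ a3 * b := by
        intro s o hs h
        calc _ ≤ ∑ z ∈ Sol, w z.2 * b := Finset.sum_le_sum fun z _ => by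
              rw [mul_comm]; exact mul_le_mul_of_nonneg_left (hS.bd _).2 (hw _)
          _ = (∑ x ∈ Sol.image Prod.snd, w x) * b := by
              rw [← Finset.sum_mul, Finset.sum_image]
              intro z hz z' hz' h
              obtain ⟨a1, -, a3⟩ := mS z hz
              obtain ⟨b1, -, b3⟩ := mS z' hz'
              refine Prod.ext (hinj _ a1 _ b1 ?_) h
              rw [h, b3, add_right_inj] at a3
              exact (smul_right_injective _ hc a3).symm
          _ ≤ a3 * b := by
              refine mul_le_mul_of_nonneg_right (MQ.coset_le hw ha3 (h2 s o hs) fun x hx => ?_) hb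
              obtain ⟨z, hz, rfl⟩ := Finset.mem_image.mp hx
              exact h z hz
      rw [e1]
      rcases Sol.eq_empty_or_nonempty with h | ⟨z0, hz0⟩
      · rw [h, Finset.sum_empty]; positivity
      obtain ⟨m1, m2, m3⟩ := mS z0 hz0
      have cong : ∀ z ∈ Sol, ∀ p, ((z.2 p - z0.2 p : ℤ) : ZMod q) = c * ((z.1 p - z0.1 p : ℤ) : ZMod q) := by
        intro z hz p
        obtain ⟨-, -, a3⟩ := mS z hz
        refine MQ.red_coord (x := z.2 - z0.2) (y := z.1 - z0.1) ?_ p
        have t : ∀ x y : K ⊕ R → ℤ, MQ.red q (x - y) = toPt q x - toPt q y := fun x y => by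
          rw [MQ.red_sub, MQ.toPt_eq, MQ.toPt_eq]; abel
        rw [t, t, a3, m3, smul_sub]; abel
      by_cases h0 : ∀ z ∈ Sol, ∀ p, z.1 p - z0.1 p = 0
      · exact f1 2 z0.1 (by norm_num) fun z hz p => by rw [h0 z hz p]; exact dvd_zero _
      push Not at h0
      obtain ⟨z1, hz1, p1, hp1⟩ := h0
      obtain ⟨n1, n2, -⟩ := mS z1 hz1
      have hg : 0 < Int.gcd (z1.1 p1 - z0.1 p1) (z1.2 p1 - z0.2 p1) := Int.gcd_pos_of_ne_zero_left _ hp1
      obtain ⟨β, α, hco, hβ, hα⟩ := Int.exists_gcd_one hg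
      have d1 := hS.diam _ n1 _ m1 p1
      have d2 := hS.diam _ n2 _ m2 p1
      have c1 := cong z1 hz1 p1
      generalize Int.gcd (z1.1 p1 - z0.1 p1) (z1.2 p1 - z0.2 p1) = g at hg hβ hα
      rw [hβ] at d1 hp1
      rw [hα] at d2
      rw [hβ, hα] at c1
      have hg1 : (1 : ℤ) ≤ g := by exact_mod_cast hg
      rw [abs_mul, abs_of_nonneg (by linarith : (0 : ℤ) ≤ g)] at d1 d2
      have hβ0 : β ≠ 0 := left_ne_zero_of_mul hp1
      have hβ1 : 1 ≤ |β| := Int.one_le_abs hβ0
      have hβD : |β| ≤ D := by nlinarith [abs_nonneg β]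
      have hαD : |α| ≤ D := by nlinarith [abs_nonneg α]
      have hgq : ((g : ℤ) : ZMod q) ≠ 0 := by
        intro h
        have := MQ.eq_of_cast (q := q) (a := g) (b := 0) (by simpa using h) (by
          have : (D : ℤ) < q := by exact_mod_cast hDq
          rw [sub_zero, abs_of_nonneg (by linarith)]
          nlinarith)
        linarith
      have c2 : (α : ZMod q) = c * β := by
        rw [Int.cast_mul, Int.cast_mul, ← mul_assoc] at c1
        exact mul_right_cancel₀ hgq c1
      have rel : ∀ z ∈ Sol, ∀ p, β * (z.2 p - z0.2 p) = α * (z.1 p - z0.1 p) := by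
        intro z hz p
        obtain ⟨a1, a2, -⟩ := mS z hz
        refine MQ.eq_of_cast (q := q) ?_ ?_
        · rw [Int.cast_mul, Int.cast_mul, cong z hz p, c2]; ring
        · have b1 := hS.diam _ a1 _ m1 p
          have b2 := hS.diam _ a2 _ m2 p
          have b3 : ((2 * D ^ 2 : ℕ) : ℤ) < q := by exact_mod_cast hD2
          push_cast at b3
          refine (abs_sub _ _).trans_lt ?_
          rw [abs_mul, abs_mul]
          have := mul_le_mul hβD b2 (abs_nonneg _) (by positivity)
          have := mul_le_mul hαD b1 (abs_nonneg _) (by positivity)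
          nlinarith
      have hcop : IsCoprime β α := Int.isCoprime_iff_gcd_eq_one.mpr hco
      by_cases hβ2 : 2 ≤ |β|
      · exact f1 β z0.1 hβ2 fun z hz p => hcop.dvd_of_dvd_mul_left ⟨_, (rel z hz p).symm⟩
      · refine f2 α z0.2 ?_ fun z hz p => hcop.symm.dvd_of_dvd_mul_left ⟨_, rel z hz p⟩
        by_contra hα2
        have b1 : β = 1 ∨ β = -1 := by
          rcases abs_cases β with h | h <;> omega
        have b2 : α = 0 ∨ α = 1 ∨ α = -1 := by
          rcases abs_cases α with h | h <;> omega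
        have b3 : c = ((α * β : ℤ) : ZMod q) := by
          rw [Int.cast_mul, c2]
          rcases b1 with rfl | rfl <;> simp
        rcases b2 with rfl | b2
        · exact hc (by simpa using b3)
        · refine hσ ⟨α * β, ?_, b3⟩
          rcases b1 with rfl | rfl <;> rcases b2 with rfl | rfl <;> simp
    have hsum : ∑ ζ, ∑ x, push q S w x * push q S w (ζ + c • x) = (∑ x ∈ S, w x) ^ 2 := by
      have t : ∑ γ, push q S w γ = ∑ x ∈ S, w x := by
        simpa using MQ.sum_push (q := q) (S := S) (w := w) (fun _ => 1)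
      rw [Finset.sum_comm, sq]
      simp only [← Finset.mul_sum]
      have : ∀ x, ∑ ζ, push q S w (ζ + c • x) = ∑ x ∈ S, w x := fun x => by
        rw [← t]; exact Equiv.sum_comp (Equiv.addRight (c • x)) (push q S w)
      simp only [this]
      rw [← Finset.sum_mul, t]
    rw [← hsum, Finset.mul_sum]
    refine Finset.sum_le_sum fun ζ _ => ?_
    rw [pow_succ]
    exact mul_le_mul_of_nonneg_right (pow_le_pow_left₀ (hI0 ζ) (hIle ζ) _) (hI0 ζ)

end Crest.Agent.R225.Up
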