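import Crest.Agent.R225.UpD

/-!
# Row 225, task D9: numerics `N0`, `N1`, `N5`
-/

open Finset

namespace Crest.Agent.R225.Up

namespace NA

theorem ev (C : ℝ) : ∃ n0 : ℕ, ∀ n j q : ℕ, n0 ≤ n → Rg n j q → C ≤ j := by
  refine ⟨4 ^ (10 * (⌈C⌉₊ + 1)), fun n j q hn h => ?_⟩
  have h1 : 4 ^ (10 * (⌈C⌉₊ + 1)) < 4 ^ (10 * (j + 1)) := lt_of_le_of_lt hn h.hi
  have h2 := (Nat.pow_lt_pow_iff_right (by norm_num : 1 < 4)).1 h1
  have h3 : ⌈C⌉₊ ≤ j := by omega
  exact le_trans (Nat.le_ceil C) (by exact_mod_cast h3)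

/-- real-number facts on the ranges; `s = 2^j` -/
structure Fx (n j q : ℕ) (s L : ℝ) : Prop where
  js : (j : ℝ) + 1 ≤ s
  lo : s ^ 20 ≤ n
  hi : (n : ℝ) ≤ 2 ^ 20 * s ^ 20
  Llo : 13 * (j : ℝ) ≤ L
  Lhi : L ≤ 20 * ((j : ℝ) + 1) * Real.log 2
  Ls : L ≤ 14 * s
  qlo : (n : ℝ) ^ 40 ≤ q
  qhi : (q : ℝ) ≤ 2 * (n : ℝ) ^ 40
  lq : Real.log q ≤ 40 * L + 1
  M : ((2 ^ (14 * j) : ℕ) : ℝ) = s ^ 14
  M' : (2 : ℝ) ^ (14 * j) = s ^ 14
  m : ((4 ^ j : ℕ) : ℝ) = s ^ 2
  m' : (4 : ℝ) ^ j = s ^ 2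
  npos : (1 : ℝ) ≤ n
  en : Real.exp L = n

theorem fx {n j q : ℕ} (h : Rg n j q) : Fx n j q (2 ^ j) (Real.log n) := by
  have e4 : (4 : ℝ) = 2 ^ 2 := by norm_num
  have hlo : ((2 : ℝ) ^ j) ^ 20 ≤ n := by
    have : ((4 ^ (10 * j) : ℕ) : ℝ) ≤ n := by exact_mod_cast h.lo
    refine le_trans (le_of_eq ?_) this
    push_cast
    rw [e4, ← pow_mul, ← pow_mul]; congr 1; ring
  have hhi : (n : ℝ) ≤ 2 ^ 20 * ((2 : ℝ) ^ j) ^ 20 := by
    have : (n : ℝ) ≤ ((4 ^ (10 * (j + 1)) : ℕ) : ℝ) := by exact_mod_cast h.hi.le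
    refine le_trans this (le_of_eq ?_)
    push_cast
    rw [e4, ← pow_mul, ← pow_mul, ← pow_add]; congr 1; ring
  have h1 : (1 : ℝ) ≤ n := le_trans (one_le_pow₀ (one_le_pow₀ (by norm_num))) hlo
  have hjs : (j : ℝ) + 1 ≤ 2 ^ j := by
    have : j + 1 ≤ 2 ^ j := Nat.lt_two_pow_self
    exact_mod_cast this
  have l2 := Real.log_two_gt_d9
  have l2' := Real.log_two_lt_d9
  have hj0 : (0 : ℝ) ≤ j := Nat.cast_nonneg j
  have hL1 : 20 * (j * Real.log 2) ≤ Real.log n := by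
    have := Real.log_le_log (by positivity) hlo
    rw [Real.log_pow, Real.log_pow] at this
    exact_mod_cast this
  have hL2 : Real.log n ≤ 20 * ((j : ℝ) + 1) * Real.log 2 := by
    have := Real.log_le_log (by positivity) hhi
    rw [Real.log_mul (by positivity) (by positivity), Real.log_pow, Real.log_pow,
      Real.log_pow] at this
    push_cast at this
    linarith
  have hq1 : (n : ℝ) ^ 40 ≤ q := by exact_mod_cast h.qlo
  have hq2 : (q : ℝ) ≤ 2 * (n : ℝ) ^ 40 := by exact_mod_cast h.qhi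
  refine ⟨hjs, hlo, hhi, by nlinarith, hL2, by nlinarith, hq1, hq2, ?_, ?_, ?_, ?_, ?_, h1,
    Real.exp_log (by linarith)⟩
  · have := Real.log_le_log (lt_of_lt_of_le (by positivity) hq1) hq2
    rw [Real.log_mul (by positivity) (by positivity), Real.log_pow] at this
    push_cast at this
    linarith
  · push_cast; rw [← pow_mul, mul_comm]
  · rw [← pow_mul, mul_comm]
  · push_cast; rw [e4, ← pow_mul, ← pow_mul, mul_comm]
  · rw [e4, ← pow_mul, ← pow_mul, mul_comm]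

variable {n j q : ℕ} {s L : ℝ}

/-- `C s^a ≤ n` for `a ≤ 19` as soon as `C ≤ j` -/
theorem Fx.small (h : Fx n j q s L) {C : ℝ} (hC : C ≤ j) {a : ℕ} (ha : a ≤ 19) :
    C * s ^ a ≤ n := by
  have hj0 : (0 : ℝ) ≤ j := Nat.cast_nonneg j
  have h1 : 1 ≤ s := by linarith [h.js]
  calc C * s ^ a ≤ s * s ^ 19 :=
        mul_le_mul (by linarith [h.js]) (pow_le_pow_right₀ h1 ha) (by positivity) (by linarith)
    _ = s ^ 20 := by ring
    _ ≤ n := h.lo

theorem Fx.kk (h : Fx n j q s L) (hj : (50000 : ℝ) ≤ j) :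
    2 ^ (14 * j) + kk n j + 2400 = n ∧ 9 / 10 * (n : ℝ) ≤ kk n j ∧ (kk n j : ℝ) ≤ n := by
  have h1 := h.small hj (a := 14) (by norm_num)
  have h2 := h.small hj (a := 0) (by norm_num)
  have h3 : ((2 ^ (14 * j) + 2400 : ℕ) : ℝ) ≤ n := by
    rw [Nat.cast_add, h.M]; push_cast; linarith
  have h4 : 2 ^ (14 * j) + 2400 ≤ n := by exact_mod_cast h3
  have h5 : 2 ^ (14 * j) + Up.kk n j + 2400 = n := by unfold Up.kk; omega
  have h6 : s ^ 14 + (Up.kk n j : ℝ) + 2400 = n := by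
    rw [← h.M]; exact_mod_cast h5
  have : 0 ≤ s ^ 14 := by positivity
  exact ⟨h5, by linarith, by linarith⟩

theorem pow_le_exp {x a : ℝ} (hx : 0 ≤ x) (h : x ≤ Real.exp a) (N : ℕ) :
    x ^ N ≤ Real.exp (N * a) := by
  rw [Real.exp_nat_mul]; exact pow_le_pow_left₀ hx h N

theorem two_le_exp : (2 : ℝ) ≤ Real.exp 1 := by
  have := Real.add_one_le_exp (1 : ℝ); linarith

theorem le_exp (x : ℝ) : x ≤ Real.exp x := by
  have := Real.add_one_le_exp x; linarith

theorem cdd_inv : 1 / cdd 2400 ≤ Real.exp 4805 := by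
  have h := pow_le_exp (by norm_num) two_le_exp 4805
  unfold cdd
  rw [one_div_one_div]
  refine le_trans (le_of_eq ?_) (le_trans h (le_of_eq (by norm_num)))
  rw [show (4 : ℝ) = 2 ^ 2 by norm_num, show (32 : ℝ) = 2 ^ 5 by norm_num, ← pow_mul, ← pow_add]

theorem cdd_pos : 0 < cdd 2400 := by unfold cdd; positivity

theorem cdd_le : cdd 2400 ≤ 1 := by
  unfold cdd
  rw [div_le_one (by positivity)]
  exact one_le_mul_of_one_le_of_one_le (by norm_num) (one_le_pow₀ (by norm_num))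

end NA

theorem n0 : N0Stmt := by
  intro c0 hc
  have hup : ∀ l, (Gf c0 l : ℝ) ≤ 2 ^ (c0 + 10) * ((l : ℝ) + 1) ^ 10 := by
    intro l
    have hs : 0 < Nat.size (l + 1) := Nat.size_pos.2 (Nat.succ_pos l)
    obtain ⟨t, ht⟩ := Nat.exists_eq_add_of_le' hs
    have h1 : 2 ^ t ≤ l + 1 := Nat.lt_size.1 (by omega)
    have h2 : (2 : ℝ) ^ t ≤ (l : ℝ) + 1 := by exact_mod_cast h1
    unfold Gf
    rw [ht]; push_cast
    calc (2 : ℝ) ^ (c0 + 10 * (t + 1)) = 2 ^ (c0 + 10) * (2 ^ t) ^ 10 := by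
          rw [← pow_mul, ← pow_add]; congr 1; ring
      _ ≤ _ := by gcongr
  have hlo : ∀ l : ℕ, 2048 * ((l : ℝ) + 1) ^ 4 ≤ (Gf c0 l : ℝ) := by
    intro l
    have h1 : l + 1 < 2 ^ Nat.size (l + 1) := Nat.lt_size_self _
    have h2 : (l : ℝ) + 1 ≤ (2 : ℝ) ^ Nat.size (l + 1) := by exact_mod_cast h1.le
    have h0 : (0 : ℝ) ≤ l := Nat.cast_nonneg l
    unfold Gf
    push_cast
    calc 2048 * ((l : ℝ) + 1) ^ 4 ≤ 2 ^ 11 * ((l : ℝ) + 1) ^ 10 := by
          norm_num; exact pow_le_pow_right₀ (by linarith) (by norm_num)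
      _ ≤ 2 ^ c0 * (2 ^ Nat.size (l + 1)) ^ 10 := by gcongr; norm_num
      _ = _ := by rw [← pow_mul, ← pow_add]; congr 1; ring
  have hb : ∀ l, 0 < bet l ∧ bet l ≤ 1 := by
    intro l
    have h0 : (0 : ℝ) ≤ l := Nat.cast_nonneg l
    unfold bet
    refine ⟨by positivity, ?_⟩
    rw [div_le_one (by positivity)]
    have : (1 : ℝ) ≤ ((l : ℝ) + 1) ^ 4 := one_le_pow₀ (by linarith)
    linarith
  refine ⟨fun l => ⟨by unfold Gf; positivity, ?_, hup l⟩, fun J l hl => ?_, fun M => ⟨?_, ?_, ?_⟩,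
    fun M d n κ _ hn h1 => ⟨?_, ?_⟩⟩
  · unfold Gf
    exact (Nat.even_pow.2 ⟨even_two, by omega⟩)
  · unfold Gf
    refine pow_dvd_pow 2 ?_
    have : Nat.size (l + 1) ≤ J + 1 := Nat.size_le.2 (by rw [pow_succ]; omega)
    omega
  · unfold HH
    refine Finset.prod_induction _ (fun x : ℝ => 1 ≤ x)
      (fun a b ha hb => one_le_mul_of_one_le_of_one_le ha hb) le_rfl fun l _ => ?_
    unfold bet
    rw [mul_one_div, le_div_iff₀ (by positivity), one_mul]
    exact hlo l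
  · unfold HH PG
    refine Finset.prod_le_prod (fun l _ => by have := (hb l).1; positivity) fun l _ => ?_
    exact mul_le_of_le_one_right (Nat.cast_nonneg _) (hb l).2
  · unfold PG
    calc ∏ l : Fin M, (Gf c0 l : ℝ) ≤ ∏ _l : Fin M, (2 ^ (c0 + 10) * (M : ℝ) ^ 10) := by
          refine Finset.prod_le_prod (fun l _ => Nat.cast_nonneg _) fun l _ => le_trans (hup l) ?_
          have : ((l : ℕ) : ℝ) + 1 ≤ M := by exact_mod_cast l.2
          gcongr
      _ = _ := by simp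
  · have : (0 : ℝ) < n := by exact_mod_cast h1
    rintro ((l | p) | i) <;> simp only [rho] <;> positivity
  · have hn0 : (0 : ℝ) < n := by exact_mod_cast h1
    have hS : ∀ M : ℕ, ∑ l ∈ range M, 1 / (256 * ((l : ℝ) + 1) ^ 2) ≤ (2 - 1 / (M : ℝ)) / 256 ∨ M = 0 := by
      intro M
      induction M with
      | zero => right; rfl
      | succ M ih =>
        left
        rw [Finset.sum_range_succ]
        rcases ih with ih | rfl
        · rcases Nat.eq_zero_or_pos M with rfl | hM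
          · norm_num
          have hM' : (0 : ℝ) < M := by exact_mod_cast hM
          have : 1 / (256 * ((M : ℝ) + 1) ^ 2) ≤ (1 / M - 1 / (M + 1)) / 256 := by
            rw [div_sub_div _ _ hM'.ne' (by positivity), div_div, div_le_div_iff₀ (by positivity) (by positivity)]
            nlinarith
          push_cast
          linarith
        · norm_num
    have h2 : ∑ l : Fin M, 1 / (256 * (((l : ℕ) : ℝ) + 1) ^ 2) ≤ 2 / 256 := by
      rw [Fin.sum_univ_eq_sum_range (fun l => 1 / (256 * ((l : ℝ) + 1) ^ 2)) M]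
      rcases hS M with h | rfl
      · have : (0 : ℝ) ≤ 1 / M := by positivity
        linarith
      · norm_num
    have hc' : (Fintype.card κ : ℝ) + d ≤ n := by
      rw [← hn]; simp
    rw [Fintype.sum_sum_type, Fintype.sum_sum_type]
    simp only [rho, Finset.sum_const, Finset.card_univ, Fintype.card_fin, nsmul_eq_mul]
    have h3 : (Fintype.card κ : ℝ) * (1 / (256 * n)) + d * (1 / (256 * n)) ≤ 1 / 256 := by
      rw [← add_mul, mul_one_div, div_le_div_iff₀ (by positivity) (by positivity)]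
      linarith
    linarith

open NA in
theorem n1 (h0 : N0Stmt) : N1Stmt := by
  intro c0 C0 hc hC
  obtain ⟨n0, hn0⟩ := ev (50000 + 1000 * c0 + C0)
  refine ⟨n0, fun n j q hn hR => ?_⟩
  have hj := hn0 n j q hn hR
  have hc0 : (0 : ℝ) ≤ c0 := Nat.cast_nonneg _
  have F := fx hR
  set s : ℝ := 2 ^ j with hs
  set L := Real.log n with hL
  obtain ⟨hk1, hk2, hk3⟩ := F.kk (by linarith)
  refine ⟨hk1, ?_⟩
  have hc1 := cdd_pos
  have hc2 := cdd_le
  have hc3 := cdd_inv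
  generalize cdd 2400 = cd at hc1 hc2 hc3 ⊢
  clear hk1
  generalize kk n j = k at hk2 hk3 ⊢
  obtain ⟨d, hd, hd'⟩ : ∃ d : ℕ, 2400 = d ∧ (d : ℝ) = 2400 := ⟨2400, rfl, by norm_num⟩
  rw [hd]
  clear hd
  intro m hm1 hm2
  obtain ⟨hH1, hH2, hH3⟩ := (h0 c0 hc).2.2.1 (2 ^ (14 * j))
  set H := HH c0 (2 ^ (14 * j)) with hH
  have hn1 := F.npos
  have hnb : (50000 : ℝ) ≤ n := by simpa using F.small (C := 50000) (by linarith) (a := 0) (by norm_num)
  have hjn : (j : ℝ) + 1 ≤ n := by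
    have := F.small (C := 1) (by linarith) (a := 1) (by norm_num)
    linarith [F.js]
  have hLb : 1000 ≤ L := by linarith [F.Llo]
  have hG : Gam n = n * L / 200 := rfl
  have hG1 : 1 ≤ Gam n := by rw [hG]; nlinarith
  have hmpos : 0 < m := by
    by_contra hneg
    have : (9 * (n : ℝ)) ^ d * m ≤ 0 := mul_nonpos_of_nonneg_of_nonpos (by positivity) (not_lt.1 hneg)
    have : 0 < (1 / (n : ℝ) ^ 3) ^ d * (1 / (4 * (n : ℝ) ^ 2)) ^ n := by positivity
    linarith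
  have hq0 : (0 : ℝ) < q := lt_of_lt_of_le (by positivity) F.qlo
  set E : ℝ := (1 / (n : ℝ) ^ 3) ^ d with hE
  have hE0 : 0 < E := by positivity
  set Y : ℝ := 8 * (C0 * Gam n) * E * (q : ℝ) ^ (k / 4) * H with hY
  have hY0 : 0 < Y := by positivity
  have hkpos : k ≠ 0 := by
    intro h
    rw [h] at hk2; push_cast at hk2; linarith
  set X : ℝ := cd * m / Y with hX
  have hX0 : 0 < X := by positivity
  set ε : ℝ := X ^ ((k : ℝ)⁻¹) with hε
  have hε0 : 0 < ε := Real.rpow_pos_of_pos hX0 _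
  have hεk : ε ^ k = X := Real.rpow_inv_natCast_pow hX0.le hkpos
  have hk4 : (k : ℝ) - 3 ≤ 4 * ((k / 4 : ℕ) : ℝ) := by
    have : k ≤ 4 * (k / 4) + 3 := by omega
    have : (k : ℝ) ≤ 4 * ((k / 4 : ℕ) : ℝ) + 3 := by exact_mod_cast this
    linarith
  have hk4' : 4 * ((k / 4 : ℕ) : ℝ) ≤ k := by
    have : 4 * (k / 4) ≤ k := by omega
    exact_mod_cast this
  have hup : ε ≤ 1 / (n : ℝ) ^ 5 := by
    refine (pow_le_pow_iff_left₀ hε0.le (by positivity) hkpos).1 ?_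
    rw [hεk, hX, div_le_iff₀ hY0]
    have a1 : (8 * (n : ℝ)) ^ n ≤ (n : ℝ) ^ (2 * n) := by
      rw [pow_mul]; gcongr; nlinarith
    have a2 : 2 * n + 5 * k ≤ 40 * (k / 4) := by
      have : (2 * n + 5 * k : ℝ) ≤ 40 * ((k / 4 : ℕ) : ℝ) := by linarith
      exact_mod_cast this
    have a3 : (n : ℝ) ^ (2 * n) ≤ (1 / (n : ℝ) ^ 5) ^ k * (q : ℝ) ^ (k / 4) := by
      rw [one_div_pow, one_div_mul_eq_div, le_div_iff₀ (by positivity), ← pow_mul, ← pow_add]
      calc (n : ℝ) ^ (2 * n + 5 * k) ≤ (n : ℝ) ^ (40 * (k / 4)) := pow_le_pow_right₀ hn1 a2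
        _ = ((n : ℝ) ^ 40) ^ (k / 4) := pow_mul _ _ _
        _ ≤ _ := by gcongr; exact F.qlo
    have a4 : 1 ≤ 8 * (C0 * Gam n) := by nlinarith
    calc cd * m ≤ 1 * (E * (8 * n) ^ n) := by gcongr
      _ ≤ 1 * (E * ((1 / (n : ℝ) ^ 5) ^ k * (q : ℝ) ^ (k / 4))) * 1 := by
          rw [mul_one]; gcongr; exact a1.trans a3
      _ ≤ (8 * (C0 * Gam n)) * (E * ((1 / (n : ℝ) ^ 5) ^ k * (q : ℝ) ^ (k / 4))) * H := by gcongr
      _ = _ := by rw [hY]; ring
  have hlo : 1 / (n : ℝ) ^ 13 ≤ ε := by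
    refine (pow_le_pow_iff_left₀ (by positivity) hε0.le hkpos).1 ?_
    rw [hεk, hX, le_div_iff₀ hY0]
    have hCn : C0 ≤ n := by simpa using F.small (C := C0) (by linarith) (a := 0) (by norm_num)
    have hLn : L ≤ n := by
      have := le_exp L; rwa [F.en] at this
    have hnp : ∀ a : ℕ, (n : ℝ) ^ a = Real.exp (a * L) := fun a => by
      rw [Real.exp_nat_mul, F.en]
    have b1 : (4 * (n : ℝ) ^ 2) ^ n ≤ Real.exp (n * (2 + 2 * L)) := by
      refine pow_le_exp (by positivity) ?_ n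
      rw [Real.exp_add, hnp 2]
      have := pow_le_exp (by norm_num) two_le_exp 2
      push_cast at this ⊢
      rw [mul_one] at this
      gcongr
      linarith [this]
    have b2 : (9 * (n : ℝ)) ^ d ≤ Real.exp (2400 * (2 * L)) := by
      have := pow_le_exp (x := 9 * (n : ℝ)) (a := 2 * L) (by positivity) (by
        have := hnp 2; push_cast at this; rw [← this]; nlinarith) d
      rwa [hd'] at this
    have b3 : 8 * (C0 * Gam n) ≤ Real.exp (3 * L) := by
      have := hnp 3; push_cast at this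
      rw [← this, hG]
      have : C0 * (n * L / 200) ≤ n * (n * n / 200) := by gcongr
      nlinarith [pow_pos (by linarith : (0 : ℝ) < n) 3]
    have b4 : (q : ℝ) ^ (k / 4) ≤ Real.exp ((k / 4 : ℕ) * (40 * L + 1)) := by
      refine pow_le_exp hq0.le ?_ _
      rw [← Real.exp_log hq0]; exact Real.exp_le_exp.2 F.lq
    have hMn : (c0 + 20) * 100 * s ^ 14 ≤ n := F.small (by linarith) (by norm_num)
    have hs0 : 0 ≤ s ^ 14 := by positivity
    have b5 : H ≤ Real.exp (s ^ 14 * ((c0 + 10) + 10 * L)) := by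
      refine le_trans (hH2.trans hH3) ?_
      have := pow_le_exp (x := 2 ^ (c0 + 10) * ((2 ^ (14 * j) : ℕ) : ℝ) ^ 10)
        (a := (c0 + 10) + 10 * L) (by positivity) (by
          rw [Real.exp_add, F.M]
          have h1 := pow_le_exp (by norm_num) two_le_exp (c0 + 10)
          have h2 := hnp 10
          push_cast at h1 h2
          rw [mul_one] at h1
          rw [← h2]
          have : s ^ 14 ≤ n := by nlinarith
          gcongr) (2 ^ (14 * j))
      rwa [F.M] at this ⊢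
    have b6 : (4 * (n : ℝ) ^ 2) ^ n * (9 * (n : ℝ)) ^ d * (8 * (C0 * Gam n)) * (q : ℝ) ^ (k / 4) *
        H * (1 / cd) ≤ ((n : ℝ) ^ 13) ^ k := by
      rw [← pow_mul, hnp (13 * k)]
      calc _ ≤ Real.exp (n * (2 + 2 * L)) * Real.exp (2400 * (2 * L)) * Real.exp (3 * L) *
            Real.exp ((k / 4 : ℕ) * (40 * L + 1)) * Real.exp (s ^ 14 * ((c0 + 10) + 10 * L)) *
            Real.exp 4805 := by gcongr
        _ ≤ _ := by
          simp only [← Real.exp_add]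
          refine Real.exp_le_exp.2 ?_
          push_cast
          have c1 : ((k / 4 : ℕ) : ℝ) * (40 * L + 1) ≤ 10 * (k * L) + n := by nlinarith
          have c2 : s ^ 14 * ((c0 + 10) + 10 * L) ≤ n * L / 100 := by
            have : (c0 + 10 : ℝ) + 10 * L ≤ (c0 + 20) * L := by nlinarith
            calc s ^ 14 * ((c0 + 10) + 10 * L) ≤ s ^ 14 * ((c0 + 20) * L) := by gcongr
              _ = ((c0 + 20) * 100 * s ^ 14) * L / 100 := by ring
              _ ≤ _ := by gcongr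
          have c3 : 9 / 10 * (n * L) ≤ k * L := by nlinarith
          have c4 : 1000 * n ≤ n * L := by nlinarith
          have c5 : 50000 * L ≤ n * L := by nlinarith
          linarith
    have b7 : E ≤ (4 * (n : ℝ) ^ 2) ^ n * (9 * (n : ℝ)) ^ d * m := by
      rw [one_div_pow, mul_one_div, div_le_iff₀ (by positivity)] at hm1
      linarith
    rw [one_div_pow, one_div_mul_eq_div, div_le_iff₀ (by positivity)]
    calc Y = E * (8 * (C0 * Gam n) * (q : ℝ) ^ (k / 4) * H) := by rw [hY]; ring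
      _ ≤ ((4 * (n : ℝ) ^ 2) ^ n * (9 * (n : ℝ)) ^ d * m) *
          (8 * (C0 * Gam n) * (q : ℝ) ^ (k / 4) * H) := by gcongr
      _ = cd * m * ((4 * (n : ℝ) ^ 2) ^ n * (9 * (n : ℝ)) ^ d * (8 * (C0 * Gam n)) *
          (q : ℝ) ^ (k / 4) * H * (1 / cd)) := by field_simp
      _ ≤ _ := by gcongr
  have hkε : k * ε ≤ 1 / (n : ℝ) ^ 3 / n := by
    calc k * ε ≤ n * (1 / (n : ℝ) ^ 5) := by gcongr
      _ = _ := by field_simp
  have hkε' : k * ε ≤ 1 / (n : ℝ) ^ 3 :=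
    le_trans hkε (div_le_self (by positivity) hn1)
  refine ⟨ε, hε0, ?_, ?_, ?_, ?_⟩
  · rw [hεk, hX]; field_simp
  · calc 1024 * n * (k * ε + d * (1 / (n : ℝ) ^ 3))
        ≤ 1024 * n * (1 / (n : ℝ) ^ 3 + d * (1 / (n : ℝ) ^ 3)) := by gcongr
      _ = 1024 * 2401 / (n : ℝ) ^ 2 := by rw [hd']; field_simp; norm_num
      _ ≤ 1 := by rw [div_le_one (by positivity)]; nlinarith
  · calc 256 * n * (k * ε) * (j + 1) ≤ 256 * n * (1 / (n : ℝ) ^ 3) * n := by gcongr
      _ = 256 / n := by field_simp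
      _ ≤ 1 := by rw [div_le_one (by positivity)]; linarith
  · push_cast
    calc 4 * (n : ℝ) = 1 / (n : ℝ) ^ 13 * (4 * (n : ℝ) ^ 14) := by field_simp
      _ ≤ _ := by gcongr

open NA in
theorem n5 : N5Stmt := by
  intro c0
  obtain ⟨n0, hn0⟩ := ev (200000000 + 1000 * c0)
  refine ⟨n0, fun n j q hn hR => ?_⟩
  have hj := hn0 n j q hn hR
  have hc0 : (0 : ℝ) ≤ c0 := Nat.cast_nonneg _
  have F := fx hR
  set s : ℝ := 2 ^ j with hs
  set L := Real.log n with hL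
  obtain ⟨hk1, hk2, hk3⟩ := F.kk (by linarith)
  clear hk1
  generalize kk n j = k at hk2 hk3 ⊢
  obtain ⟨d, hd, hd'⟩ : ∃ d : ℕ, 2400 = d ∧ (d : ℝ) = 2400 := ⟨2400, rfl, by norm_num⟩
  rw [hd]
  clear hd
  have hn1 := F.npos
  have hnb : (200000000 : ℝ) ≤ n := by
    simpa using F.small (C := 200000000) (by linarith) (a := 0) (by norm_num)
  have hLb : 1000 ≤ L := by linarith [F.Llo]
  have hG : Gam n = n * L / 200 := rfl
  have hq0 : (0 : ℝ) < q := lt_of_lt_of_le (by positivity) F.qlo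
  have hk4' : 4 * ((k / 4 : ℕ) : ℝ) ≤ k := by
    have : 4 * (k / 4) ≤ k := by omega
    exact_mod_cast this
  have hnp : ∀ a : ℕ, (n : ℝ) ^ a = Real.exp (a * L) := fun a => by
    rw [Real.exp_nat_mul, F.en]
  have hqe : (q : ℝ) ≤ Real.exp (40 * L + 1) := by
    rw [← Real.exp_log hq0]; exact Real.exp_le_exp.2 F.lq
  have b1 : (q : ℝ) ^ (k / 4) ≤ Real.exp ((k / 4 : ℕ) * (40 * L + 1)) := pow_le_exp hq0.le hqe _
  have b2 : (QQ c0 j q : ℝ) ^ (2 ^ (14 * j)) ≤
      Real.exp (s ^ 14 * (40 * L + 1 + (c0 + 10 * (14 * j + 1)))) := by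
    have := pow_le_exp (x := (QQ c0 j q : ℝ)) (a := 40 * L + 1 + (c0 + 10 * (14 * j + 1)))
      (Nat.cast_nonneg _) (by
        unfold QQ
        rw [Real.exp_add]
        have h1 := pow_le_exp (by norm_num) two_le_exp (c0 + 10 * (14 * j + 1))
        push_cast at h1 ⊢
        rw [mul_one] at h1
        gcongr) (2 ^ (14 * j))
    rwa [F.M] at this
  have b3 : (8 * n / (1 / (n : ℝ) ^ 3) + 3) ^ d ≤ Real.exp (2400 * (5 * L)) := by
    have := pow_le_exp (x := 8 * n / (1 / (n : ℝ) ^ 3) + 3) (a := 5 * L) (by positivity) (by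
      have := hnp 5; push_cast at this; rw [← this]
      have e : 8 * n / (1 / (n : ℝ) ^ 3) = 8 * (n : ℝ) ^ 4 := by field_simp
      have h4 : (1 : ℝ) ≤ (n : ℝ) ^ 4 := one_le_pow₀ hn1
      rw [e]; nlinarith) d
    rwa [hd'] at this
  have b4 : 6 * Real.exp (-Gam n) ≤ Real.exp (6 - Gam n) := by
    rw [sub_eq_add_neg, Real.exp_add]; gcongr; exact le_exp 6
  have b5 : ((8 * n / (1 / (n : ℝ) ^ 3) + 3) ^ d * (6 * Real.exp (-Gam n))) ^ (d + 1) ≤
      Real.exp (2401 * (2400 * (5 * L) + (6 - Gam n))) := by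
    have := pow_le_exp (x := (8 * n / (1 / (n : ℝ) ^ 3) + 3) ^ d * (6 * Real.exp (-Gam n)))
      (a := 2400 * (5 * L) + (6 - Gam n)) (by positivity) (by rw [Real.exp_add]; gcongr) (d + 1)
    push_cast at this
    rw [hd'] at this
    exact le_trans this (le_of_eq (by norm_num))
  have hMn : (c0 + 100) * 2 * s ^ 14 ≤ n := F.small (by linarith) (by norm_num)
  have hs0 : 0 ≤ s ^ 14 := by positivity
  calc _ ≤ Real.exp ((k / 4 : ℕ) * (40 * L + 1)) *
        Real.exp (s ^ 14 * (40 * L + 1 + (c0 + 10 * (14 * j + 1)))) *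
        Real.exp (2401 * (2400 * (5 * L) + (6 - Gam n))) := by gcongr
    _ < 1 := by
      simp only [← Real.exp_add]
      refine Real.exp_lt_one_iff.2 ?_
      have c1 : ((k / 4 : ℕ) : ℝ) * (40 * L + 1) ≤ 10 * (n * L) + n := by nlinarith
      have c2 : s ^ 14 * (40 * L + 1 + (c0 + 10 * (14 * j + 1))) ≤ n * L / 2 := by
        have : 40 * L + 1 + (c0 + 10 * (14 * j + 1)) ≤ (c0 + 100) * L := by nlinarith [F.Llo]
        calc s ^ 14 * (40 * L + 1 + (c0 + 10 * (14 * j + 1))) ≤ s ^ 14 * ((c0 + 100) * L) := by gcongr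
          _ = ((c0 + 100) * 2 * s ^ 14) * L / 2 := by ring
          _ ≤ _ := by gcongr
      have c4 : 1000 * n ≤ n * L := by nlinarith
      have c5 : 200000000 * L ≤ n * L := by nlinarith
      rw [hG]
      linarith

end Crest.Agent.R225.Up
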