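import Crest.Agent.R225.UpN3

/-! # Row 225, numerics N2 -/

namespace Crest.Agent.R225.Up

theorem N2_cdd (d : ℕ) : 0 < 2 / cdd d := by
  unfold cdd; positivity

theorem N2_pow_le {a t : ℝ} (ha : 0 ≤ a) (h : a ≤ Real.exp t) (E : ℕ) : a ^ E ≤ Real.exp (E * t) := by
  rw [Real.exp_nat_mul]; exact pow_le_pow_left₀ ha h E

theorem N2_aux (Θ : ℝ) (hΘ : 0 < Θ) : ∃ n0 : ℕ, ∀ n j q : ℕ, n0 ≤ n → Rg n j q →
    2 * (4 * n ^ 14) < q ∧ 2 * (4 * n ^ 14) ^ 2 < q ∧ 4 ^ j * (4 * n ^ 14) < q ∧ vr n j ≤ 1 ∧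
    enC j (kk n j) * Θ ^ (2 * 4 ^ j - 1) * (16 * n) ^ (2 ^ (14 * j)) ≤
      vr n j ^ (2 * 4 ^ j - 2) ∧
    enC j (kk n j) ≤ th n j ^ (4 * 4 ^ j) ∧
    2 * th n j ^ (2 * 4 ^ j) * Θ ^ (2 * 4 ^ j + 2) * ((16 * n) ^ (2 ^ (14 * j))) ^ (2 * 4 ^ j) +
      (Θ / 2 ^ kk n j) ^ (2 * 4 ^ j) ≤ Real.exp (-(3 * Gam n)) ∧
    ((2 * (4 * n ^ 14 : ℕ) + 1) / (q : ℝ)) ^ (kk n j / 4) ≤ vr n j ^ (2 * 4 ^ j - 2) := by
  obtain ⟨m0, hm0⟩ : ∃ m0 : ℕ, m0 = 10 ^ 12 + ⌈Θ⌉₊ + ⌈Real.exp 1000⌉₊ := ⟨_, rfl⟩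
  refine ⟨(4 * m0) ^ 10, fun n j q hn h => ?_⟩
  obtain ⟨m, hm⟩ : ∃ m : ℕ, m = 4 ^ j := ⟨_, rfl⟩
  have hlo : m ^ 10 ≤ n := by
    have := h.lo
    rwa [mul_comm, pow_mul, ← hm] at this
  have hhi : n < (4 * m) ^ 10 := by
    have := h.hi
    rwa [mul_comm, pow_mul, pow_succ 4 j, ← hm, mul_comm m 4] at this
  have hmm : m0 < m := by
    have : (4 * m0) ^ 10 < (4 * m) ^ 10 := lt_of_le_of_lt hn hhi
    have := lt_of_pow_lt_pow_left₀ 10 (Nat.zero_le _) this
    omega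
  have hbig : 10 ^ 12 ≤ m := by omega
  have hΘm : ⌈Θ⌉₊ ≤ m := by omega
  have hem : ⌈Real.exp 1000⌉₊ ≤ m := by omega
  have hM : 2 ^ (14 * j) = m ^ 7 := by rw [N3_pow14, hm]
  have hm1 : 1 ≤ m := by omega
  have hmn : m ≤ n := le_trans (Nat.le_self_pow (by norm_num) m) hlo
  have hn12 : 10 ^ 12 ≤ n := le_trans hbig hmn
  have hn1 : 1 ≤ n := by omega
  -- the natural number `k`
  have hk1 : kk n j ≤ n := by unfold kk; omega
  have hk2 : 9 * n ≤ 10 * kk n j := by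
    unfold kk
    rw [hM]
    have e : m ^ 10 = m ^ 7 * m ^ 3 := by ring
    have h3 : 10 ^ 12 ≤ m ^ 3 := le_trans hbig (Nat.le_self_pow (by norm_num) m)
    have h4 : m ^ 7 * 10 ^ 12 ≤ m ^ 7 * m ^ 3 := Nat.mul_le_mul_left _ h3
    generalize m ^ 7 * m ^ 3 = A at *
    generalize m ^ 7 = B at *
    omega
  obtain ⟨k, hk⟩ : ∃ k : ℕ, k = kk n j := ⟨_, rfl⟩
  rw [← hk] at hk1 hk2 ⊢
  have hx : (10 : ℝ) ^ 12 ≤ m := by exact_mod_cast hbig
  obtain ⟨x, hxd⟩ : ∃ x : ℝ, x = m := ⟨_, rfl⟩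
  have hx4 : (4 : ℝ) ^ j = x := by rw [hxd, hm]; push_cast; rfl
  rw [← hxd] at hx
  have hx1 : 1 ≤ x := by linarith
  have hx0 : 0 < x := by linarith
  have hnlo : x ^ 10 ≤ n := by rw [hxd]; exact_mod_cast hlo
  have hnhi : (n : ℝ) ≤ (4 * x) ^ 10 := by rw [hxd]; exact_mod_cast hhi.le
  have hxn : x ≤ n := by rw [hxd]; exact_mod_cast hmn
  have hn0 : (0 : ℝ) < n := by linarith
  have hk1R : (k : ℝ) ≤ n := by exact_mod_cast hk1
  have hk2R : 9 * (n : ℝ) ≤ 10 * k := by exact_mod_cast hk2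
  have hΘx : Θ ≤ x := by
    have h1 : Θ ≤ ⌈Θ⌉₊ := Nat.le_ceil _
    have h2 : (⌈Θ⌉₊ : ℝ) ≤ x := by rw [hxd]; exact_mod_cast hΘm
    linarith
  have hΘe : Θ ≤ Real.exp x := by
    have := Real.add_one_le_exp x; linarith
  obtain ⟨L, hL⟩ : ∃ L : ℝ, L = Real.log n := ⟨_, rfl⟩
  have hL1 : 1000 ≤ L := by
    rw [hL, Real.le_log_iff_exp_le hn0]
    have h1 : Real.exp 1000 ≤ ⌈Real.exp 1000⌉₊ := Nat.le_ceil _
    have h2 : (⌈Real.exp 1000⌉₊ : ℝ) ≤ x := by rw [hxd]; exact_mod_cast hem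
    linarith
  have hl2a : Real.log 2 ≤ 1 := by have := Real.log_two_lt_d9; linarith
  have hl2b : 2 / 3 ≤ Real.log 2 := by have := Real.log_two_gt_d9; linarith
  have hlogx : Real.log x = 2 * (j * Real.log 2) := by
    rw [← hx4, show (4 : ℝ) = 2 ^ 2 by norm_num, ← pow_mul, Real.log_pow]; push_cast; ring
  have hL3 : L ≤ 20 + 20 * (j * Real.log 2) := by
    have h1 : Real.log n ≤ Real.log ((4 * x) ^ 10) := Real.log_le_log hn0 hnhi
    rw [Real.log_pow, Real.log_mul (by norm_num) hx0.ne', hlogx, show (4 : ℝ) = 2 ^ 2 by norm_num,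
      Real.log_pow] at h1
    push_cast at h1; linarith
  have hlx : Real.log x ≤ x := by
    have := Real.log_le_sub_one_of_pos hx0; linarith
  have hL2 : L ≤ 40 * x := by linarith
  have hG : Gam n = n * L / 200 := by rw [hL]; rfl
  have hG1 : x ^ 10 / 200 ≤ Gam n := by
    have : x ^ 10 * 1 ≤ n * L := mul_le_mul hnlo (by linarith) (by norm_num) hn0.le
    linarith
  have hG2 : Gam n ≤ n * x / 5 := by
    have : n * L ≤ n * (40 * x) := mul_le_mul_of_nonneg_left hL2 hn0.le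
    linarith
  have hG0 : 0 ≤ Gam n := le_trans (by positivity) hG1
  -- exact values of the powers of `vr`, `th`
  have hvr : vr n j ^ (2 * 4 ^ j - 2) = Real.exp (-(3 * Gam n)) := by
    unfold vr
    rw [← Real.exp_nat_mul, ← hm, hx4]
    congr 1
    have : ((2 * m - 2 : ℕ) : ℝ) = 2 * x - 2 := by
      rw [Nat.cast_sub (by omega), hxd]; push_cast; ring
    rw [this]
    have : 2 * x - 2 ≠ 0 := by linarith
    exact mul_div_cancel₀ _ this
  have hth : ∀ c : ℕ, th n j ^ (c * 4 ^ j) = Real.exp (-(2 * c * Gam n)) := by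
    intro c
    unfold th
    rw [← Real.exp_nat_mul, ← hm, hx4]
    congr 1
    push_cast
    rw [← hxd]
    field_simp
    ring
  have henC : enC j k ≤ Real.exp (-(8 * Gam n)) := by
    have e1 : enC j k = Real.exp (3 * Real.log 2 + 2 * Real.log x + k * (2 * Real.log 2) -
        k * (j * Real.log 2)) := by
      unfold enC
      have a1 : Real.exp (3 * Real.log 2) = 8 := by
        rw [show (3 : ℝ) = (3 : ℕ) by norm_num, Real.exp_nat_mul, Real.exp_log (by norm_num)]; norm_num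
      have a2 : Real.exp (2 * Real.log x) = x ^ 2 := by
        rw [show (2 : ℝ) = (2 : ℕ) by norm_num, Real.exp_nat_mul, Real.exp_log hx0]
      have a3 : Real.exp (k * (2 * Real.log 2)) = 4 ^ k := by
        rw [Real.exp_nat_mul]
        congr 1
        rw [two_mul, Real.exp_add, Real.exp_log (by norm_num)]; norm_num
      have a4 : Real.exp (k * (j * Real.log 2)) = 2 ^ (j * k) := by
        rw [Real.exp_nat_mul, Real.exp_nat_mul, Real.exp_log (by norm_num), ← pow_mul]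
      rw [Real.exp_sub, Real.exp_add, Real.exp_add, a1, a2, a3, a4, hx4]
    rw [e1, Real.exp_le_exp, hG]
    have hk0 : (0 : ℝ) ≤ k := Nat.cast_nonneg _
    have b1 : k * (L / 20 - 1) ≤ k * (j * Real.log 2) := mul_le_mul_of_nonneg_left (by linarith) hk0
    have b2 : k * (2 * Real.log 2) ≤ k * 2 := mul_le_mul_of_nonneg_left (by linarith) hk0
    have b3 : 9 * (n : ℝ) * L ≤ 10 * k * L := mul_le_mul_of_nonneg_right hk2R (by linarith)
    have b4 : n * 1000 ≤ n * L := mul_le_mul_of_nonneg_left hL1 hn0.le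
    have b5 : x * 2 ≤ n := by
      have : x * 2 ≤ x * x := mul_le_mul_of_nonneg_left (by linarith) hx0.le
      have h10 : x * x ≤ x ^ 10 := by
        rw [← pow_two]; exact pow_le_pow_right₀ hx1 (by norm_num)
      linarith
    have e2 : k * (L / 20 - 1) = (10 * k * L) / 200 - k := by ring
    have e3 : 9 * (n : ℝ) * L = 9 * (n * L) := by ring
    linarith
  have h16 : (16 * (n : ℝ)) ^ (2 ^ (14 * j)) ≤ Real.exp (41 * x ^ 8) := by
    have a1 : 16 * (n : ℝ) ≤ Real.exp (41 * x) := by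
      rw [← Real.log_le_iff_le_exp (by positivity), Real.log_mul (by norm_num) hn0.ne', ← hL,
        show (16 : ℝ) = 2 ^ 4 by norm_num, Real.log_pow]
      push_cast; linarith
    have := N2_pow_le (by positivity) a1 (2 ^ (14 * j))
    rw [hM] at this ⊢
    refine le_trans this (le_of_eq ?_)
    congr 1; push_cast; rw [← hxd]; ring
  have hx9 : x ^ 9 * 10 ^ 12 ≤ x ^ 10 := by
    have : x ^ 9 * 10 ^ 12 ≤ x ^ 9 * x := mul_le_mul_of_nonneg_left hx (by positivity)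
    have e : x ^ 9 * x = x ^ 10 := by ring
    linarith
  have hx8 : x ^ 8 ≤ x ^ 9 := pow_le_pow_right₀ hx1 (by norm_num)
  have hx2 : x * x ≤ x ^ 9 := by
    rw [← pow_two]; exact pow_le_pow_right₀ hx1 (by norm_num)
  have hx19 : 1 ≤ x ^ 9 := one_le_pow₀ hx1
  have hq : n ^ 40 ≤ q := h.qlo
  have hp28 : 32 * n ^ 28 < q := by
    have e : n ^ 40 = n ^ 28 * n ^ 12 := by ring
    have a1 : 10 ^ 12 ≤ n ^ 12 := le_trans hn12 (Nat.le_self_pow (by norm_num) n)
    have a2 : n ^ 28 * 10 ^ 12 ≤ n ^ 28 * n ^ 12 := Nat.mul_le_mul_left _ a1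
    have a3 : 1 ≤ n ^ 28 := Nat.one_le_pow _ _ hn1
    omega
  have hp14 : n ^ 14 ≤ n ^ 28 := Nat.pow_le_pow_right hn1 (by norm_num)
  have hp15 : n ^ 15 ≤ n ^ 28 := Nat.pow_le_pow_right hn1 (by norm_num)
  refine ⟨by omega, ?_, ?_, ?_, ?_, ?_, ?_, ?_⟩
  · have e : 2 * (4 * n ^ 14) ^ 2 = 32 * n ^ 28 := by ring
    omega
  · rw [← hm]
    have a1 : m * (4 * n ^ 14) ≤ n * (4 * n ^ 14) := Nat.mul_le_mul_right _ hmn
    have e : n * (4 * n ^ 14) = 4 * n ^ 15 := by ring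
    omega
  · unfold vr
    rw [Real.exp_le_one_iff, hx4]
    exact div_nonpos_of_nonpos_of_nonneg (by linarith) (by linarith)
  · rw [hvr]
    have a1 := N2_pow_le hΘ.le hΘe (2 * 4 ^ j - 1)
    have a2 : ((2 * 4 ^ j - 1 : ℕ) : ℝ) * x ≤ 2 * (x * x) := by
      have : ((2 * 4 ^ j - 1 : ℕ) : ℝ) ≤ 2 * x := by
        rw [← hm, hxd]; exact_mod_cast Nat.sub_le _ _
      have := mul_le_mul_of_nonneg_right this hx0.le
      linarith
    have a3 := le_trans a1 (Real.exp_le_exp.2 a2)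
    calc _ ≤ Real.exp (-(8 * Gam n)) * Real.exp (2 * (x * x)) * Real.exp (41 * x ^ 8) :=
          mul_le_mul (mul_le_mul henC a3 (by positivity) (by positivity)) h16 (by positivity)
            (by positivity)
      _ ≤ _ := by
          rw [← Real.exp_add, ← Real.exp_add, Real.exp_le_exp]; linarith
  · rw [hth 4]; refine le_trans henC (le_of_eq ?_); congr 1; push_cast; ring
  · rw [hth 2]
    have a1 := N2_pow_le hΘ.le hΘe (2 * 4 ^ j + 2)
    have a2 : ((2 * 4 ^ j + 2 : ℕ) : ℝ) * x ≤ 4 * (x * x) := by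
      have : ((2 * 4 ^ j + 2 : ℕ) : ℝ) ≤ 4 * x := by
        push_cast; rw [hx4]; linarith
      have := mul_le_mul_of_nonneg_right this hx0.le
      linarith
    have a3 := le_trans a1 (Real.exp_le_exp.2 a2)
    have a4 := N2_pow_le (by positivity) h16 (2 * 4 ^ j)
    have a5 : ((2 * 4 ^ j : ℕ) : ℝ) * (41 * x ^ 8) = 82 * x ^ 9 := by
      push_cast; rw [hx4]; ring
    rw [a5] at a4
    have he : (1 / 2 : ℝ) * Real.exp (-(3 * Gam n)) = Real.exp (-(3 * Gam n) - Real.log 2) := by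
      rw [Real.exp_sub, Real.exp_log (by norm_num)]; ring
    have a6 : 2 * Real.exp (-(2 * (2 : ℕ) * Gam n)) * Θ ^ (2 * 4 ^ j + 2) *
        ((16 * (n : ℝ)) ^ (2 ^ (14 * j))) ^ (2 * 4 ^ j) ≤ (1 / 2) * Real.exp (-(3 * Gam n)) := by
      calc _ ≤ Real.exp (Real.log 2) * Real.exp (-(2 * (2 : ℕ) * Gam n)) * Real.exp (4 * (x * x)) *
            Real.exp (82 * x ^ 9) := by
            rw [Real.exp_log (by norm_num)]
            exact mul_le_mul (mul_le_mul_of_nonneg_left a3 (by positivity)) a4 (by positivity)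
              (by positivity)
        _ ≤ _ := by
            rw [he, ← Real.exp_add, ← Real.exp_add, ← Real.exp_add, Real.exp_le_exp]
            push_cast; linarith
    have a7 : Θ / 2 ^ k ≤ Real.exp (-(n / 2)) := by
      have b1 : (2 : ℝ) ^ k = Real.exp (k * Real.log 2) := by
        rw [Real.exp_nat_mul, Real.exp_log (by norm_num)]
      rw [div_le_iff₀ (by positivity), b1, ← Real.exp_add]
      refine le_trans hΘe (Real.exp_le_exp.2 ?_)
      have hk0 : (0 : ℝ) ≤ k := Nat.cast_nonneg _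
      have b2 : k * (2 / 3) ≤ k * Real.log 2 := mul_le_mul_of_nonneg_left hl2b hk0
      have b3 : x ≤ x ^ 9 := le_self_pow₀ hx1 (by norm_num)
      linarith
    have a8 := N2_pow_le (by positivity) a7 (2 * 4 ^ j)
    have a9 : Real.exp (((2 * 4 ^ j : ℕ) : ℝ) * -(n / 2)) ≤ (1 / 2) * Real.exp (-(3 * Gam n)) := by
      rw [he, Real.exp_le_exp]
      push_cast; rw [hx4]
      have b1 : x * 1 ≤ n * x := by
        rw [mul_comm (n : ℝ)]; exact mul_le_mul_of_nonneg_left (by linarith) hx0.le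
      have e : 2 * x * -((n : ℝ) / 2) = -(n * x) := by ring
      linarith
    linarith
  · rw [hvr]
    have hq0 : (0 : ℝ) < q := by
      have : 0 < q := by omega
      exact_mod_cast this
    have a1 : (2 * ((4 * n ^ 14 : ℕ) : ℝ) + 1) / (q : ℝ) ≤ Real.exp (-L) := by
      rw [Real.exp_neg, hL, Real.exp_log hn0, div_le_iff₀ hq0, inv_mul_eq_div, le_div_iff₀ hn0]
      have b1 : (2 * (4 * n ^ 14) + 1) * n ≤ q := by
        have e : (2 * (4 * n ^ 14) + 1) * n = 8 * n ^ 15 + n := by ring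
        have : n ≤ n ^ 28 := Nat.le_self_pow (by norm_num) n
        omega
      exact_mod_cast b1
    have a2 := N2_pow_le (div_nonneg (add_nonneg (mul_nonneg zero_le_two (Nat.cast_nonneg _)) zero_le_one)
      hq0.le) a1 (k / 4)
    refine le_trans a2 (Real.exp_le_exp.2 ?_)
    have a3 : n ≤ 5 * (k / 4) := by omega
    have a4 : (n : ℝ) ≤ 5 * ((k / 4 : ℕ) : ℝ) := by exact_mod_cast a3
    have a5 := mul_le_mul_of_nonneg_right a4 (show 0 ≤ L by linarith)
    have a6 : 0 ≤ (n : ℝ) * L := by positivity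
    rw [hG]
    linarith

theorem n2 : N2Stmt := by
  unfold N2Stmt
  have h := N2_cdd 2400
  generalize 2 / cdd 2400 = Θ at h ⊢
  exact N2_aux Θ h

end Crest.Agent.R225.Up
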