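import Crest.Agent.R225.UpD

/-! # Row 225, numerics N3 -/

namespace Crest.Agent.R225.Up

theorem N3_pow14 (j : ℕ) : 2 ^ (14 * j) = (4 ^ j) ^ 7 := by
  rw [← pow_mul, show (4 : ℕ) = 2 ^ 2 by norm_num, ← pow_mul]; congr 1; ring

theorem N3_pow2 (j : ℕ) : 2 ^ (2 * j) = 4 ^ j := by
  rw [pow_mul]; norm_num

theorem N3_q (n j q : ℕ) (h : Rg n j q) : q ≤ 2 ^ (1601 * 4 ^ j) := by
  have h1 : n ≤ 2 ^ (20 * (j + 1)) := by
    have := h.hi.le
    rwa [show (4 : ℕ) = 2 ^ 2 by norm_num, ← pow_mul, show 2 * (10 * (j + 1)) = 20 * (j + 1) by ring] at this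
  have h2 : n ^ 40 ≤ 2 ^ (800 * (j + 1)) := by
    calc n ^ 40 ≤ (2 ^ (20 * (j + 1))) ^ 40 := Nat.pow_le_pow_left h1 40
      _ = 2 ^ (800 * (j + 1)) := by rw [← pow_mul]; congr 1; ring
  have h3 : j + 1 ≤ 4 ^ j := Nat.succ_le_of_lt (Nat.lt_pow_self (by norm_num))
  have h4 : 1 ≤ 4 ^ j := Nat.one_le_pow _ _ (by norm_num)
  calc q ≤ 2 * n ^ 40 := h.qhi
    _ ≤ 2 * 2 ^ (800 * (j + 1)) := Nat.mul_le_mul_left _ h2
    _ = 2 ^ (800 * (j + 1) + 1) := by rw [pow_succ, mul_comm]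
    _ ≤ 2 ^ (1601 * 4 ^ j) := Nat.pow_le_pow_right (by norm_num) (by omega)

theorem N3_half (M E : ℕ) (q : ℕ) (h : 2 * q ^ E ≤ 2 ^ (M - M / 2)) :
    2 * (1 / 2 : ℝ) ^ M * (q : ℝ) ^ E ≤ (1 / 2) ^ (M / 2) := by
  have h' : (2 : ℝ) * (q : ℝ) ^ E ≤ 2 ^ (M - M / 2) := by exact_mod_cast h
  have hM : M = M / 2 + (M - M / 2) := by omega
  have e1 : (1 / 2 : ℝ) ^ M = (1 / 2) ^ (M / 2) * (1 / 2) ^ (M - M / 2) := by
    rw [← pow_add, ← hM]
  have e2 : (1 / 2 : ℝ) ^ (M - M / 2) * 2 ^ (M - M / 2) = 1 := by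
    rw [← mul_pow]; norm_num
  have p1 : (0 : ℝ) ≤ (1 / 2) ^ (M / 2) * (1 / 2) ^ (M - M / 2) := by positivity
  calc 2 * (1 / 2 : ℝ) ^ M * (q : ℝ) ^ E
      = ((1 / 2) ^ (M / 2) * (1 / 2) ^ (M - M / 2)) * (2 * (q : ℝ) ^ E) := by rw [e1]; ring
    _ ≤ ((1 / 2) ^ (M / 2) * (1 / 2) ^ (M - M / 2)) * 2 ^ (M - M / 2) :=
        mul_le_mul_of_nonneg_left h' p1
    _ = (1 / 2) ^ (M / 2) := by rw [mul_assoc, e2, mul_one]

theorem n3 : N3Stmt := by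
  intro c0 J0 c2 C0 Γ0 hc2 hC0
  obtain ⟨m0, hm0⟩ : ∃ m0 : ℕ, m0 = 10 ^ 12 + 4 ^ J0 + ⌈c2⌉₊ + 200 * ⌈Γ0⌉₊ + c0 := ⟨_, rfl⟩
  refine ⟨(4 * m0) ^ 10, fun n j q hn h => ?_⟩
  obtain ⟨m, hm⟩ : ∃ m : ℕ, m = 4 ^ j := ⟨_, rfl⟩
  have hlo : m ^ 10 ≤ n := by
    have := h.lo
    rwa [mul_comm, pow_mul, ← hm] at this
  have hhi : n < (4 * m) ^ 10 := by
    have := h.hi
    rwa [mul_comm, pow_mul, pow_succ 4 j, ← hm, mul_comm m 4] at this
  have hmm : m0 < m := by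
    have : (4 * m0) ^ 10 < (4 * m) ^ 10 := lt_of_le_of_lt hn hhi
    have := lt_of_pow_lt_pow_left₀ 10 (Nat.zero_le _) this
    omega
  have hJ : 4 ^ J0 ≤ m := by omega
  have hbig : 10 ^ 12 ≤ m := by
    have : 0 ≤ 4 ^ J0 := Nat.zero_le _
    omega
  have hc2m : ⌈c2⌉₊ + 1 ≤ m := by
    have : 0 ≤ 4 ^ J0 := Nat.zero_le _
    omega
  have hΓm : 200 * ⌈Γ0⌉₊ ≤ m := by
    have : 0 ≤ 4 ^ J0 := Nat.zero_le _
    omega
  have hc0m : c0 ≤ m := by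
    have : 0 ≤ 4 ^ J0 := Nat.zero_le _
    omega
  have hM : 2 ^ (14 * j) = m ^ 7 := by rw [N3_pow14, hm]
  have hMR : (2 : ℝ) ^ (14 * j) = (m : ℝ) ^ 7 := by exact_mod_cast hM
  have h2j : 2 ^ (2 * j) = m := by rw [N3_pow2, hm]
  have hq : q ≤ 2 ^ (1601 * m) := by rw [hm]; exact N3_q n j q h
  have hx : (10 : ℝ) ^ 12 ≤ m := by exact_mod_cast hbig
  obtain ⟨x, hxd⟩ : ∃ x : ℝ, x = m := ⟨_, rfl⟩
  rw [← hxd] at hx hMR
  have hx1 : 1 ≤ x := by linarith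
  have hx0 : 0 < x := by linarith
  have hnlo : x ^ 10 ≤ n := by rw [hxd]; exact_mod_cast hlo
  have hnhi : (n : ℝ) ≤ (4 * x) ^ 10 := by rw [hxd]; exact_mod_cast hhi.le
  have hxx : x ≤ x ^ 10 := le_self_pow₀ hx1 (by norm_num)
  have hn0 : (0 : ℝ) < n := by linarith
  have hlog1 : 1 ≤ Real.log n := by
    rw [Real.le_log_iff_exp_le hn0]
    have := Real.exp_one_lt_d9
    linarith
  have hlog2 : Real.log n ≤ 40 * x := by
    have h1 : Real.log n ≤ Real.log ((4 * x) ^ 10) := Real.log_le_log hn0 hnhi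
    rw [Real.log_pow] at h1
    have h2 : Real.log (4 * x) ≤ 4 * x := by
      have := Real.log_le_sub_one_of_pos (show 0 < 4 * x by linarith); linarith
    push_cast at h1; linarith
  have hG1 : x ^ 10 / 200 ≤ Gam n := by
    unfold Gam
    have : x ^ 10 * 1 ≤ n * Real.log n := mul_le_mul hnlo hlog1 (by norm_num) hn0.le
    linarith
  have hG2 : Gam n ≤ 4 ^ 10 * x ^ 11 / 5 := by
    unfold Gam
    have : n * Real.log n ≤ (4 * x) ^ 10 * (40 * x) :=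
      mul_le_mul hnhi hlog2 (by linarith) (by positivity)
    have e : (4 * x) ^ 10 * (40 * x) = 40 * (4 ^ 10 * x ^ 11) := by ring
    linarith
  have hx7 : 0 < x ^ 7 := by positivity
  have hx3 : 10 ^ 12 ≤ x ^ 3 := le_trans hx (le_self_pow₀ hx1 (by norm_num))
  have hx2 : 10 ^ 12 ≤ x ^ 2 := le_trans hx (le_self_pow₀ hx1 (by norm_num))
  have e10 : x ^ 10 = x ^ 7 * x ^ 3 := by ring
  have hG0 : 1 ≤ Gam n := by linarith
  -- bounds on `tp`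
  have htlo : x ^ 3 / 50 ≤ tp n j := by
    unfold tp
    refine le_trans ?_ (Nat.le_ceil _)
    rw [hMR, le_div_iff₀ hx7]
    linarith
  have hthi : tp n j ≤ 4 ^ 11 * m ^ 4 := by
    unfold tp
    rw [Nat.ceil_le, hMR, div_le_iff₀ hx7]
    push_cast
    rw [← hxd]
    have e : (4194304 : ℝ) * x ^ 4 * x ^ 7 = 4 * (4 ^ 10 * x ^ 11) := by ring
    have p : 0 ≤ 4 ^ 10 * x ^ 11 := by positivity
    rw [e]; linarith
  have ht1 : 1 ≤ tp n j := by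
    have : (1 : ℝ) ≤ tp n j := by linarith
    exact_mod_cast this
  have hm1 : 1 ≤ m := by omega
  have hq2 : 2 ≤ q := by
    have h1 : m ≤ m ^ 10 := Nat.le_self_pow (by norm_num) m
    have h2 : n ≤ n ^ 40 := Nat.le_self_pow (by norm_num) n
    have := h.qlo
    omega
  have hm5 : m ^ 7 = m ^ 5 * (m * m) := by ring
  have hm51 : 1 ≤ m ^ 5 := Nat.one_le_pow _ _ hm1
  have key : ∀ E : ℕ, E ≤ 8 * (4 ^ 11 * m ^ 4) → 2 * q ^ E ≤ 2 ^ (m ^ 7 - m ^ 7 / 2) := by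
    intro E hE
    have h1 : q ^ E ≤ 2 ^ (1601 * m * E) := by
      rw [pow_mul]; exact Nat.pow_le_pow_left hq E
    have h2 : 1601 * m * E ≤ 1601 * m * (8 * (4 ^ 11 * m ^ 4)) := Nat.mul_le_mul_left _ hE
    have h3 : 1601 * m * (8 * (4 ^ 11 * m ^ 4)) = 53720645632 * m ^ 5 := by ring
    have h4 : m ^ 5 * 10 ^ 12 ≤ m ^ 5 * (m * m) :=
      Nat.mul_le_mul_left _ (le_trans hbig (Nat.le_mul_self m))
    have h5 : 1601 * m * E + 1 ≤ m ^ 7 - m ^ 7 / 2 := by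
      rw [hm5]
      generalize m ^ 5 * (m * m) = A at *
      generalize 1601 * m * E = B at *
      omega
    calc 2 * q ^ E ≤ 2 * 2 ^ (1601 * m * E) := Nat.mul_le_mul_left _ h1
      _ = 2 ^ (1601 * m * E + 1) := by rw [pow_succ]; ring
      _ ≤ _ := Nat.pow_le_pow_right (by norm_num) h5
  have h7 : 2 * (1 / 2 : ℝ) ^ (2 ^ (14 * j)) * (q : ℝ) ^ (8 * tp n j) ≤ bp j := by
    unfold bp
    rw [hM]
    exact N3_half _ _ _ (key _ (Nat.mul_le_mul_left _ hthi))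
  refine ⟨?_, ?_, ?_, ?_, ?_, ht1, h7, ?_, ?_, ?_, ?_⟩
  · have h1 : Γ0 ≤ ⌈Γ0⌉₊ := Nat.le_ceil _
    have h2 : (200 : ℝ) * ⌈Γ0⌉₊ ≤ x := by rw [hxd]; exact_mod_cast hΓm
    linarith
  · have : 4 ^ J0 ≤ 4 ^ j := hm ▸ hJ
    have := (Nat.pow_le_pow_iff_right (by norm_num : 1 < 4)).1 this
    omega
  · rw [hMR]
    have : x ^ 7 * 10 ^ 12 ≤ x ^ 7 * x ^ 3 := mul_le_mul_of_nonneg_left hx3 hx7.le
    linarith
  · rw [hMR]
    have h1 : Real.log (2 ^ (c0 + 10)) ≤ 2 * x := by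
      rw [Real.log_pow]
      have h2 : Real.log 2 ≤ 1 := by
        have := Real.log_two_lt_d9; linarith
      have h3 : (c0 : ℝ) ≤ x := by rw [hxd]; exact_mod_cast hc0m
      have h4 : ((c0 + 10 : ℕ) : ℝ) * Real.log 2 ≤ ((c0 + 10 : ℕ) : ℝ) * 1 :=
        mul_le_mul_of_nonneg_left h2 (Nat.cast_nonneg _)
      push_cast at h4 ⊢
      linarith
    have h2 : Real.log (x ^ 7 + 1) ≤ 8 * x := by
      have h3 : x ^ 7 + 1 ≤ x ^ 8 := by
        have h5 : 1 ≤ x ^ 7 := one_le_pow₀ hx1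
        have : x ^ 7 * 2 ≤ x ^ 7 * x := mul_le_mul_of_nonneg_left (by linarith) hx7.le
        have e : x ^ 8 = x ^ 7 * x := by ring
        linarith
      have h4 : Real.log (x ^ 7 + 1) ≤ Real.log (x ^ 8) := Real.log_le_log (by positivity) h3
      rw [Real.log_pow] at h4
      have h5 : Real.log x ≤ x := by
        have := Real.log_le_sub_one_of_pos hx0; linarith
      push_cast at h4; linarith
    have h3 : Real.log (2 ^ (c0 + 10)) + 10 * Real.log (x ^ 7 + 1) + 1 ≤ x ^ 3 / 1600 := by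
      have : x * 10 ^ 12 ≤ x * x ^ 2 := mul_le_mul_of_nonneg_left hx2 hx0.le
      have e : x ^ 3 = x * x ^ 2 := by ring
      linarith
    have h4 := mul_le_mul_of_nonneg_left h3 hx7.le
    have e : x ^ 7 * (x ^ 3 / 1600) = x ^ 10 / 200 / 8 := by ring
    linarith
  · unfold BB
    have h0 : (0 : ℝ) ≤ c2 * (2 ^ (14 * j)) ^ 36 := by positivity
    have h1 := Nat.ceil_lt_add_one h0
    have h2 : c2 + 1 ≤ x := by
      have h3 : c2 ≤ ⌈c2⌉₊ := Nat.le_ceil _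
      have h4 : ((⌈c2⌉₊ + 1 : ℕ) : ℝ) ≤ x := by rw [hxd]; exact_mod_cast hc2m
      push_cast at h4; linarith
    have h3 : c2 * (2 ^ (14 * j)) ^ 36 + 1 ≤ q := by
      rw [hMR]
      obtain ⟨y, hy⟩ : ∃ y : ℝ, y = (x ^ 7) ^ 36 := ⟨_, rfl⟩
      rw [← hy]
      have hy1 : 1 ≤ y := by rw [hy]; exact one_le_pow₀ (one_le_pow₀ hx1)
      have h5 : x * y ≤ (x ^ 10) ^ 40 := by
        rw [hy, ← pow_mul, ← pow_mul, ← pow_succ']
        exact pow_le_pow_right₀ hx1 (by norm_num)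
      have h6 : (x ^ 10) ^ 40 ≤ (n : ℝ) ^ 40 := pow_le_pow_left₀ (by positivity) hnlo 40
      have h7 : (n : ℝ) ^ 40 ≤ q := by exact_mod_cast h.qlo
      have h8 : (c2 + 1) * y ≤ x * y := mul_le_mul_of_nonneg_right h2 (by linarith)
      have e : (c2 + 1) * y = c2 * y + y := by ring
      linarith
    exact_mod_cast lt_of_lt_of_le h1 h3
  · refine le_trans ?_ h7
    have h1 : 16 * tp n j ≤ q ^ (8 * tp n j) := by
      have h2 : tp n j ≤ 2 ^ tp n j := (Nat.lt_pow_self (by norm_num)).le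
      have h3 : 2 ^ 4 * 2 ^ tp n j ≤ 2 ^ (8 * tp n j) := by
        rw [← pow_add]; exact Nat.pow_le_pow_right (by norm_num) (by omega)
      have h4 : 2 ^ (8 * tp n j) ≤ q ^ (8 * tp n j) := Nat.pow_le_pow_left hq2 _
      omega
    have h1' : (16 : ℝ) * tp n j ≤ (q : ℝ) ^ (8 * tp n j) := by exact_mod_cast h1
    have p : (0 : ℝ) ≤ 2 * (1 / 2) ^ (2 ^ (14 * j)) := by positivity
    have := mul_le_mul_of_nonneg_left h1' p
    linarith
  · rw [h2j]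
    have : x * 10 ^ 12 ≤ x * x ^ 2 := mul_le_mul_of_nonneg_left hx2 hx0.le
    have e : x ^ 3 = x * x ^ 2 := by ring
    have h1 : x ≤ 3 * (tp n j : ℝ) := by linarith
    rw [hxd] at h1
    exact_mod_cast h1
  · nlinarith
  · rw [h2j, hM]
    have hE : 2 * m * (2 * m - 2) + 2 * m + 2 ≤ 8 * (4 ^ 11 * m ^ 4) := by
      have h1 : 2 * m * (2 * m - 2) ≤ 2 * m * (2 * m) := Nat.mul_le_mul_left _ (Nat.sub_le _ _)
      have h2 : m * m ≤ m ^ 4 := by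
        rw [← pow_two]; exact Nat.pow_le_pow_right hm1 (by norm_num)
      have h3 : m ≤ m * m := Nat.le_mul_self m
      have e : 2 * m * (2 * m) = 4 * (m * m) := by ring
      omega
    have h1 := N3_half _ _ _ (key _ hE)
    have h2 : (1 / 2 : ℝ) ^ (m ^ 7 / 2) ≤ 1 := pow_le_one₀ (by norm_num) (by norm_num)
    have h3 : 1 ≤ C0 * Gam n := by nlinarith
    linarith

end Crest.Agent.R225.Up
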