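import Crest.Agent.R225.UpD

/-! Row 225, task D11: the numerical estimate `N4`. -/

open Finset

namespace Crest.Agent.R225.Up

namespace N4Aux

lemma npow_le (n k : ℕ) (c : ℝ) (hn : 1 ≤ n) (h : 200 * (k : ℝ) ≤ c * n) :
    (n : ℝ) ^ k ≤ Real.exp (c * Gam n) := by
  have hn' : (1 : ℝ) ≤ n := by exact_mod_cast hn
  have hl : 0 ≤ Real.log n := Real.log_nonneg hn'
  rw [← Real.exp_log (by positivity : (0 : ℝ) < (n : ℝ) ^ k), Real.log_pow]
  apply Real.exp_le_exp.2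
  unfold Gam
  nlinarith [mul_le_mul_of_nonneg_right h hl]

/-- the estimate with all parameters abstracted -/
lemma core (n m q t u : ℕ) (R Θ Γ ϱ β' : ℝ) (hΓ : Γ = Gam n) (hm : 65536 ≤ m) (hmn : m ^ 10 ≤ n)
    (hq : q ≤ n ^ 41) (hR0 : 0 ≤ R) (hR : R ≤ (n : ℝ) ^ (14 * m ^ 7)) (hΘ0 : 0 ≤ Θ)
    (hΘ : 2 * Θ ≤ n) (hϱ : ϱ ^ (2 * m - 2) = Real.exp (-(3 * Γ)))
    (ht1 : (2 : ℝ) ^ (88 * t) * β' ^ t ≤ Real.exp (-Γ))
    (ht2 : (2 : ℝ) ^ (88 * t) ≤ Real.exp (2 * Γ)) (hu : 200 * (44 * u : ℝ) ≤ n) :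
    Real.exp (-Γ) + 2 ^ (88 * t) * (β' ^ t + ϱ ^ (2 * m - 2)) +
      (((2 * m : ℕ) : ℝ) * ((2 * m - 2 : ℕ) : ℝ) + 1) * (q : ℝ) ^ (2 * m * (2 * m - 2) * (2 * m - 2)) *
        R ^ (2 * m * (2 * m - 2) + (2 * m - 2)) * ϱ ^ (2 * m - 2) +
      q * Real.exp (-(3 * Γ)) * R ^ (2 * (2 * m) + 2) +
      Real.exp Γ * (u + 1) ^ 2 * (2 * q * Θ) ^ u * ϱ ^ (2 * m - 2) ≤ 6 * Real.exp (-Γ) := by
  have hm1 : 1 ≤ m := by omega
  have hn1 : 1 ≤ n := le_trans (Nat.one_le_pow _ _ hm1) hmn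
  have hn1' : (1 : ℝ) ≤ n := by exact_mod_cast hn1
  have hq' : (q : ℝ) ≤ (n : ℝ) ^ 41 := by exact_mod_cast hq
  have hq0 : (0 : ℝ) ≤ q := Nat.cast_nonneg _
  have h9 : 38500 * m ^ 9 ≤ n := by
    calc 38500 * m ^ 9 ≤ m * m ^ 9 := Nat.mul_le_mul_right _ (by omega)
      _ = m ^ 10 := by ring
      _ ≤ n := hmn
  have hbig : (n : ℝ) ^ (385 * m ^ 9) ≤ Real.exp (2 * Γ) := by
    rw [hΓ]
    apply npow_le _ _ _ hn1
    have : ((38500 * m ^ 9 : ℕ) : ℝ) ≤ n := by exact_mod_cast h9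
    push_cast at this ⊢
    linarith
  have hpw : ∀ a b : ℕ, a ≤ b → m ^ a ≤ m ^ b := fun a b h => Nat.pow_le_pow_right hm1 h
  have e23 : Real.exp (2 * Γ) * Real.exp (-(3 * Γ)) = Real.exp (-Γ) := by
    rw [← Real.exp_add]; ring_nf
  have hE3 : 0 < Real.exp (-(3 * Γ)) := Real.exp_pos _
  rw [hϱ]
  have T2 : (2 : ℝ) ^ (88 * t) * Real.exp (-(3 * Γ)) ≤ Real.exp (-Γ) := by
    rw [← e23]; gcongr
  have T3 : (((2 * m : ℕ) : ℝ) * ((2 * m - 2 : ℕ) : ℝ) + 1) *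
      (q : ℝ) ^ (2 * m * (2 * m - 2) * (2 * m - 2)) * R ^ (2 * m * (2 * m - 2) + (2 * m - 2)) *
      Real.exp (-(3 * Γ)) ≤ Real.exp (-Γ) := by
    rw [← e23]
    gcongr
    refine le_trans ?_ hbig
    have a1 : (((2 * m : ℕ) : ℝ) * ((2 * m - 2 : ℕ) : ℝ) + 1) ≤ (n : ℝ) ^ 1 := by
      have : 2 * m * (2 * m - 2) + 1 ≤ n := by
        have h1 : 2 * m * (2 * m - 2) ≤ 2 * m * (2 * m) := Nat.mul_le_mul_left _ (Nat.sub_le _ _)
        have h2 := hpw 2 9 (by norm_num)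
        have h3 : 1 ≤ m ^ 9 := Nat.one_le_pow _ _ hm1
        nlinarith
      rw [pow_one]
      exact_mod_cast this
    have a2 : (q : ℝ) ^ (2 * m * (2 * m - 2) * (2 * m - 2)) ≤ (n : ℝ) ^ (328 * m ^ 9) := by
      calc (q : ℝ) ^ (2 * m * (2 * m - 2) * (2 * m - 2))
          ≤ ((n : ℝ) ^ 41) ^ (2 * m * (2 * m - 2) * (2 * m - 2)) := by gcongr
        _ = (n : ℝ) ^ (41 * (2 * m * (2 * m - 2) * (2 * m - 2))) := by rw [← pow_mul]
        _ ≤ _ := by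
          apply pow_le_pow_right₀ hn1'
          have h1 : 2 * m * (2 * m - 2) * (2 * m - 2) ≤ 2 * m * (2 * m) * (2 * m) :=
            Nat.mul_le_mul (Nat.mul_le_mul_left _ (Nat.sub_le _ _)) (Nat.sub_le _ _)
          have h2 := hpw 3 9 (by norm_num)
          nlinarith
    have a3 : R ^ (2 * m * (2 * m - 2) + (2 * m - 2)) ≤ (n : ℝ) ^ (56 * m ^ 9) := by
      calc R ^ (2 * m * (2 * m - 2) + (2 * m - 2))
          ≤ ((n : ℝ) ^ (14 * m ^ 7)) ^ (2 * m * (2 * m - 2) + (2 * m - 2)) := by gcongr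
        _ = (n : ℝ) ^ (14 * m ^ 7 * (2 * m * (2 * m - 2) + (2 * m - 2))) := by rw [← pow_mul]
        _ ≤ _ := by
          apply pow_le_pow_right₀ hn1'
          have h1 : 2 * m * (2 * m - 2) + (2 * m - 2) ≤ 4 * m ^ 2 := by
            obtain ⟨k, rfl⟩ := Nat.exists_eq_add_of_le hm1
            have : 2 * (1 + k) - 2 = 2 * k := by omega
            rw [this]; nlinarith
          calc 14 * m ^ 7 * (2 * m * (2 * m - 2) + (2 * m - 2)) ≤ 14 * m ^ 7 * (4 * m ^ 2) :=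
                Nat.mul_le_mul_left _ h1
            _ = 56 * m ^ 9 := by ring
    calc _ ≤ (n : ℝ) ^ 1 * (n : ℝ) ^ (328 * m ^ 9) * (n : ℝ) ^ (56 * m ^ 9) := by gcongr
      _ = (n : ℝ) ^ (1 + 328 * m ^ 9 + 56 * m ^ 9) := by rw [← pow_add, ← pow_add]
      _ ≤ _ := by
        apply pow_le_pow_right₀ hn1'
        have h3 : 1 ≤ m ^ 9 := Nat.one_le_pow _ _ hm1
        omega
  have T4 : q * Real.exp (-(3 * Γ)) * R ^ (2 * (2 * m) + 2) ≤ Real.exp (-Γ) := by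
    rw [← e23, mul_right_comm]
    gcongr
    refine le_trans ?_ hbig
    calc (q : ℝ) * R ^ (2 * (2 * m) + 2)
        ≤ (n : ℝ) ^ 41 * ((n : ℝ) ^ (14 * m ^ 7)) ^ (2 * (2 * m) + 2) := by gcongr
      _ = (n : ℝ) ^ (41 + 14 * m ^ 7 * (2 * (2 * m) + 2)) := by rw [← pow_mul, ← pow_add]
      _ ≤ _ := by
        apply pow_le_pow_right₀ hn1'
        have h1 : 1 ≤ m ^ 9 := Nat.one_le_pow _ _ hm1
        have h2 := hpw 7 9 (by norm_num)
        have h3 := hpw 8 9 (by norm_num)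
        have : 14 * m ^ 7 * (2 * (2 * m) + 2) = 56 * m ^ 8 + 28 * m ^ 7 := by ring
        omega
  have T5 : Real.exp Γ * (u + 1) ^ 2 * (2 * q * Θ) ^ u * Real.exp (-(3 * Γ)) ≤ Real.exp (-Γ) := by
    have hn2 : (2 : ℝ) ≤ n := by
      have : 2 ≤ n := by have h3 : 1 ≤ m ^ 9 := Nat.one_le_pow _ _ hm1; omega
      exact_mod_cast this
    have b1 : ((u : ℝ) + 1) ≤ (n : ℝ) ^ u := by
      have : ((u + 1 : ℕ) : ℝ) ≤ ((2 ^ u : ℕ) : ℝ) := by exact_mod_cast Nat.lt_two_pow_self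
      push_cast at this
      exact this.trans (by gcongr)
    have b2 : 2 * (q : ℝ) * Θ ≤ (n : ℝ) ^ 42 := by
      calc 2 * (q : ℝ) * Θ = q * (2 * Θ) := by ring
        _ ≤ (n : ℝ) ^ 41 * n := by gcongr
        _ = _ := by ring
    have b3 : ((u : ℝ) + 1) ^ 2 * (2 * q * Θ) ^ u ≤ Real.exp Γ := by
      calc ((u : ℝ) + 1) ^ 2 * (2 * q * Θ) ^ u ≤ ((n : ℝ) ^ u) ^ 2 * ((n : ℝ) ^ 42) ^ u := by gcongr
        _ = (n : ℝ) ^ (44 * u) := by ring
        _ ≤ Real.exp (1 * Gam n) := npow_le _ _ _ hn1 (by push_cast; linarith)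
        _ = _ := by rw [one_mul, hΓ]
    calc _ = Real.exp Γ * (((u : ℝ) + 1) ^ 2 * (2 * q * Θ) ^ u) * Real.exp (-(3 * Γ)) := by ring
      _ ≤ Real.exp Γ * Real.exp Γ * Real.exp (-(3 * Γ)) := by gcongr
      _ = _ := by rw [← Real.exp_add, ← Real.exp_add]; ring_nf
  rw [mul_add]
  linarith

end N4Aux

set_option maxHeartbeats 800000 in
theorem n4 (h0 : N0Stmt) : N4Stmt := by
  intro c0 c2 C0 hc0 hc2 hC0
  have hΘ0 : 0 < 8 / cdd 2400 := by unfold cdd; positivity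
  generalize 8 / cdd 2400 = Θ at hΘ0 ⊢
  obtain ⟨K, hK⟩ := exists_nat_ge (65536 * c2)
  obtain ⟨N, hN⟩ := exists_nat_ge (2 * Θ * C0 + 2 ^ (c0 + 10))
  refine ⟨max (4 ^ 10 * K ^ 10) N, fun n j q hn hR => ?_⟩
  obtain ⟨hlo, hhi, -, hqhi⟩ := hR
  obtain ⟨-, -, hPG, -⟩ := h0 c0 hc0
  set m : ℕ := 2 ^ (2 * j) with hmdef
  have e4 : 4 ^ j = m := by rw [hmdef, pow_mul]; norm_num
  have eM : 2 ^ (14 * j) = m ^ 7 := by rw [hmdef, ← pow_mul]; ring_nf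
  have e4R : (4 : ℝ) ^ j = m := by exact_mod_cast e4
  have eMR : (2 : ℝ) ^ (14 * j) = (m : ℝ) ^ 7 := by exact_mod_cast eM
  have hmn : m ^ 10 ≤ n := by rw [← e4, ← pow_mul, mul_comm]; exact hlo
  have hnm : n < 4 ^ 10 * m ^ 10 := by
    rw [← e4, ← pow_mul, ← pow_add]
    convert hhi using 2; ring
  have hKm : K < m := by
    have h1 : 4 ^ 10 * K ^ 10 < 4 ^ 10 * m ^ 10 := lt_of_le_of_lt ((le_max_left _ _).trans hn) hnm
    exact lt_of_pow_lt_pow_left₀ 10 (Nat.zero_le _) (Nat.lt_of_mul_lt_mul_left h1)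
  have hKmR : (K : ℝ) ≤ m := by exact_mod_cast hKm.le
  have hmc : 65536 * c2 ≤ m := hK.trans hKmR
  have hmR : (65536 : ℝ) ≤ m := by nlinarith
  have hm : 65536 ≤ m := by exact_mod_cast hmR
  have hm1 : 1 ≤ m := by omega
  have hNn : (N : ℝ) ≤ n := by exact_mod_cast (le_max_right _ _).trans hn
  have hpw : ∀ a b : ℕ, a ≤ b → m ^ a ≤ m ^ b := fun a b h => Nat.pow_le_pow_right hm1 h
  have hmle : m ≤ n := by have := hpw 1 10 (by norm_num); rw [pow_one] at this; omega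
  have hnR : (65536 : ℝ) ≤ n := by exact_mod_cast hm.trans hmle
  have hn0 : (0 : ℝ) < n := by linarith
  have hn1 : (1 : ℝ) ≤ n := by linarith
  have hl1 : 1 ≤ Real.log n := by
    rw [Real.le_log_iff_exp_le hn0]
    have := Real.exp_one_lt_d9
    linarith
  have hln : Real.log n ≤ n := (Real.log_le_sub_one_of_pos hn0).trans (by linarith)
  have hΓlo : 300 ≤ Gam n := by unfold Gam; nlinarith
  have hΓhi : Gam n ≤ (n : ℝ) ^ 2 := by unfold Gam; nlinarith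
  have hM1 : (65536 : ℝ) ≤ (m : ℝ) ^ 7 := by
    have : m ≤ m ^ 7 := by have := hpw 1 7 (by norm_num); rwa [pow_one] at this
    have h2 : (m : ℝ) ≤ (m : ℝ) ^ 7 := by exact_mod_cast this
    linarith
  have hM0 : (0 : ℝ) < (m : ℝ) ^ 7 := by linarith
  have h2c : (0 : ℝ) < 2 ^ (c0 + 10) := by positivity
  have hΘC : 0 ≤ 2 * Θ * C0 := by positivity
  -- the parameter `t'`
  have htlo : 4 * Gam n / (m : ℝ) ^ 7 ≤ tp n j := by
    unfold tp; rw [eMR]; exact Nat.le_ceil _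
  have hthi : (tp n j : ℝ) ≤ 4 * Gam n / (m : ℝ) ^ 7 + 1 := by
    unfold tp; rw [eMR]; exact (Nat.ceil_lt_add_one (by positivity)).le
  have ht88 : 88 * (tp n j : ℝ) ≤ Gam n / 2 := by
    have : 4 * Gam n / (m : ℝ) ^ 7 ≤ 4 * Gam n / 65536 := by gcongr
    linarith
  have hl2a := Real.log_two_gt_d9
  have hl2b := Real.log_two_lt_d9
  have hexp2 : ∀ k : ℕ, (2 : ℝ) ^ k = Real.exp (k * Real.log 2) := fun k => by
    rw [← Real.log_pow, Real.exp_log (by positivity)]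
  unfold baseErr
  refine N4Aux.core n m q (tp n j) (uu c2 n j) _ Θ (Gam n) (vr n j) (bp j) rfl hm hmn ?_ ?_ ?_
    hΘ0.le ?_ ?_ ?_ ?_ ?_
  · calc q ≤ 2 * n ^ 40 := hqhi
      _ ≤ n * n ^ 40 := Nat.mul_le_mul_right _ (by omega)
      _ = n ^ 41 := by ring
  · have := (hPG (2 ^ (14 * j))).1.trans (hPG (2 ^ (14 * j))).2.1
    have hC : 0 < C0 := by linarith
    have hG : 0 < Gam n := by linarith
    positivity
  · have h1 := (hPG (2 ^ (14 * j))).1.trans (hPG (2 ^ (14 * j))).2.1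
    have h2 := (hPG (2 ^ (14 * j))).2.2
    rw [eM] at h1 h2 ⊢
    rw [one_div, div_inv_eq_mul]
    have hMn : ((m ^ 7 : ℕ) : ℝ) ≤ n := by exact_mod_cast (hpw 7 10 (by norm_num)).trans hmn
    have h3 : (2 : ℝ) ^ (c0 + 10) * ((m ^ 7 : ℕ) : ℝ) ^ 10 ≤ (n : ℝ) ^ 11 := by
      calc (2 : ℝ) ^ (c0 + 10) * ((m ^ 7 : ℕ) : ℝ) ^ 10 ≤ n * (n : ℝ) ^ 10 := by
            gcongr; linarith
        _ = _ := by ring
    have h4 : Θ * (C0 * Gam n) ≤ (n : ℝ) ^ 3 := by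
      have h5 : Θ * C0 ≤ n := by linarith
      calc Θ * (C0 * Gam n) = Θ * C0 * Gam n := by ring
        _ ≤ n * (n : ℝ) ^ 2 := by gcongr
        _ = _ := by ring
    calc Θ * (C0 * Gam n) * PG c0 (m ^ 7) ≤ (n : ℝ) ^ 3 * ((n : ℝ) ^ 11) ^ (m ^ 7) := by
          gcongr
          exact h2.trans (by gcongr)
      _ = (n : ℝ) ^ (3 + 11 * m ^ 7) := by rw [← pow_mul, ← pow_add]
      _ ≤ _ := by
        apply pow_le_pow_right₀ hn1
        have : 1 ≤ m ^ 7 := Nat.one_le_pow _ _ hm1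
        omega
  · have : 2 * Θ * 1 ≤ 2 * Θ * C0 := mul_le_mul_of_nonneg_left hC0 (by linarith)
    linarith
  · unfold vr
    rw [← Real.exp_nat_mul, e4R]
    congr 1
    have : ((2 * m - 2 : ℕ) : ℝ) = 2 * m - 2 := by
      rw [Nat.cast_sub (by omega)]; push_cast; ring
    rw [this]
    have h2 : (2 * (m : ℝ) - 2) ≠ 0 := by linarith
    exact mul_div_cancel₀ _ h2
  · unfold bp
    have hev : ((2 ^ (14 * j) / 2 : ℕ) : ℝ) = (m : ℝ) ^ 7 / 2 := by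
      have hj : j ≠ 0 := by rintro rfl; simp at hmdef; omega
      have : 2 ∣ 2 ^ (14 * j) := dvd_pow_self 2 (by omega)
      rw [Nat.cast_div this (by norm_num), eM]; push_cast; ring
    rw [← pow_mul, one_div, inv_pow, hexp2, hexp2, ← Real.exp_neg, ← Real.exp_add]
    apply Real.exp_le_exp.2
    push_cast
    rw [hev]
    have h1 : 2 * Gam n ≤ (m : ℝ) ^ 7 / 2 * tp n j := by
      rw [div_le_iff₀ hM0] at htlo
      linarith
    nlinarith
  · rw [hexp2]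
    apply Real.exp_le_exp.2
    push_cast
    nlinarith
  · have hu : (uu c2 n j : ℝ) ≤ c2 * Gam n / (m : ℝ) ^ 7 + 1 := by
      unfold uu; rw [eMR]; exact (Nat.ceil_lt_add_one (by positivity)).le
    have hlog : Real.log n ≤ 30 * m := by
      have h1 : (n : ℝ) ≤ (4 * m) ^ 10 := by
        have : n ≤ (4 * m) ^ 10 := by rw [mul_pow]; exact hnm.le
        exact_mod_cast this
      have h2 := Real.log_le_log hn0 h1
      rw [Real.log_pow] at h2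
      have h3 : Real.log (4 * m) ≤ 3 * m := by
        rw [Real.log_mul (by norm_num) (by linarith)]
        have h4 := Real.log_le_sub_one_of_pos (show (0 : ℝ) < 4 by norm_num)
        have h5 := Real.log_le_sub_one_of_pos (show (0 : ℝ) < m by linarith)
        linarith
      push_cast at h2
      linarith
    have hm2 : (m : ℝ) ^ 2 ≤ (m : ℝ) ^ 7 := by exact_mod_cast hpw 2 7 (by norm_num)
    have h6 : c2 * Gam n / (m : ℝ) ^ 7 ≤ n / 17600 - 1 := by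
      rw [div_le_iff₀ hM0]
      unfold Gam
      have h7 : c2 * Real.log n ≤ (m : ℝ) ^ 7 / 2000 := by
        have : c2 * Real.log n ≤ c2 * (30 * m) := by gcongr
        nlinarith
      have h8 : c2 * (n * Real.log n / 200) ≤ n * ((m : ℝ) ^ 7 / 2000) / 200 := by
        have := mul_le_mul_of_nonneg_left h7 hn0.le
        linarith
      nlinarith
    linarith

end Crest.Agent.R225.Up
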