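import Crest.Agent.R225.UpRed

/-!
# Row 225, S0347, task D2: NF
-/

open Finset MeasureTheory
open scoped ENNReal

namespace Crest.Agent.R225.Up

namespace NfL

/-- midpoint Brunn–Minkowski, multiplicative form -/
theorem bm_mid {I : Type} [Fintype I] {A B C : Set (I → ℝ)} (hA : MeasurableSet A)
    (hB : MeasurableSet B) (hC : MeasurableSet C)
    (h : ∀ x ∈ A, ∀ y ∈ B, (1 / 2 : ℝ) • (x + y) ∈ C) :
    volume A * volume B ≤ volume C ^ 2 := by
  have := hasPL_fun I (A.indicator 1) (B.indicator 1) (C.indicator 1)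
    (measurable_one.indicator hA) (measurable_one.indicator hB) (measurable_one.indicator hC) ?_
  · simpa only [lintegral_indicator_one hA, lintegral_indicator_one hB,
      lintegral_indicator_one hC] using this
  intro x y
  by_cases hx : x ∈ A
  · by_cases hy : y ∈ B
    · rw [Set.indicator_of_mem hx, Set.indicator_of_mem hy, Set.indicator_of_mem (h x hx y hy)]
      simp
    · simp [Set.indicator_of_notMem hy]
  · simp [Set.indicator_of_notMem hx]

theorem meas_cap {I : Type} [Fintype I] {K : Set (I → ℝ)} (hK : MeasurableSet K) (u : I → ℝ) :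
    MeasurableSet {x | x ∈ K ∧ x + u ∈ K} :=
  hK.inter (hK.preimage (by fun_prop : Measurable fun x : I → ℝ => x + u))

theorem mid_cap {I : Type} {K : Set (I → ℝ)} (hK : Convex ℝ K) {u x y : I → ℝ}
    (hx : x ∈ {x | x ∈ K ∧ x + u ∈ K}) (hy : y ∈ K) :
    (1 / 2 : ℝ) • (x + y) ∈ {x | x ∈ K ∧ x + (1 / 2 : ℝ) • u ∈ K} := by
  refine ⟨?_, ?_⟩
  · have := hK hx.1 hy (a := 1 / 2) (b := 1 / 2) (by norm_num) (by norm_num) (by norm_num)
    rwa [← smul_add] at this
  · have := hK hx.2 hy (a := 1 / 2) (b := 1 / 2) (by norm_num) (by norm_num) (by norm_num)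
    convert this using 1
    module

theorem gK_half {I : Type} [Fintype I] {K : Set (I → ℝ)} (hm : MeasurableSet K) (hK : Convex ℝ K)
    (u : I → ℝ) : gK K u * volume K ≤ gK K ((1 / 2 : ℝ) • u) ^ 2 :=
  bm_mid (meas_cap hm u) hm (meas_cap hm _) fun _ hx _ hy => mid_cap hK hx hy

theorem gK_le {I : Type} [Fintype I] (K : Set (I → ℝ)) (u : I → ℝ) : gK K u ≤ volume K :=
  measure_mono fun _ hx => hx.1

theorem gK_neg {I : Type} [Fintype I] (K : Set (I → ℝ)) (u : I → ℝ) : gK K (-u) = gK K u := by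
  unfold gK
  rw [← measure_preimage_add_right volume u {x | x ∈ K ∧ x + -u ∈ K}]
  congr 1
  ext x
  simp [and_comm]

theorem gK_anti {I : Type} [Fintype I] {K : Set (I → ℝ)} (hK : Convex ℝ K) (u : I → ℝ) {s a : ℝ}
    (hs : 0 ≤ s) (hsa : s ≤ a) (ha : 0 < a) : gK K (a • u) ≤ gK K (s • u) := by
  refine measure_mono fun x hx => ⟨hx.1, ?_⟩
  have h1 : s / a ≤ 1 := (div_le_one ha).2 hsa
  have := hK hx.1 hx.2 (a := 1 - s / a) (b := s / a) (by linarith) (by positivity) (by ring)
  convert this using 1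
  rw [smul_add, smul_smul, div_mul_cancel₀ _ ha.ne']
  module

theorem dyadic {I : Type} [Fintype I] {K : Set (I → ℝ)} (hm : MeasurableSet K) (hK : Convex ℝ K)
    (u : I → ℝ) (hu : volume K ≤ 2 * gK K u) (i : ℕ) :
    volume K ≤ ENNReal.ofReal (1 + (1 / 2) ^ i) * gK K (((1 / 2 : ℝ) ^ i) • u) := by
  induction i with
  | zero => simpa [one_add_one_eq_two] using hu
  | succ i ih =>
    have h1 := gK_half hm hK (((1 / 2 : ℝ) ^ i) • u)
    rw [smul_smul, ← pow_succ'] at h1
    have h2 : ENNReal.ofReal (1 + (1 / 2 : ℝ) ^ i) ≤ ENNReal.ofReal (1 + (1 / 2) ^ (i + 1)) ^ 2 := by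
      rw [← ENNReal.ofReal_pow (by positivity)]
      refine ENNReal.ofReal_le_ofReal ?_
      rw [pow_succ (1 / 2 : ℝ) i]
      nlinarith [sq_nonneg ((1 / 2 : ℝ) ^ i)]
    refine (ENNReal.pow_le_pow_left_iff two_ne_zero).1 ?_
    calc volume K ^ 2 = volume K * volume K := sq _
      _ ≤ (ENNReal.ofReal (1 + (1 / 2) ^ i) * gK K (((1 / 2 : ℝ) ^ i) • u)) * volume K := by gcongr
      _ = ENNReal.ofReal (1 + (1 / 2) ^ i) * (gK K (((1 / 2 : ℝ) ^ i) • u) * volume K) :=
        mul_assoc _ _ _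
      _ ≤ ENNReal.ofReal (1 + (1 / 2) ^ (i + 1)) ^ 2 * gK K (((1 / 2 : ℝ) ^ (i + 1)) • u) ^ 2 := by
        gcongr
      _ = _ := (mul_pow _ _ _).symm

theorem short {I : Type} [Fintype I] {K : Set (I → ℝ)} (hm : MeasurableSet K) (hK : Convex ℝ K)
    (u : I → ℝ) (hu : volume K ≤ 2 * gK K u) {s : ℝ} (hs0 : 0 ≤ s) (hs1 : s ≤ 1) :
    volume K ≤ gK K (s • u) + ENNReal.ofReal (2 * s) * volume K := by
  rcases hs0.eq_or_lt with rfl | hs
  · simp [gK]
  obtain ⟨i, hi1, hi2⟩ := exists_nat_pow_near_of_lt_one hs hs1 (y := (1 / 2 : ℝ)) (by norm_num)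
    (by norm_num)
  have h1 := dyadic hm hK u hu i
  rw [ENNReal.ofReal_add (by norm_num) (by positivity), ENNReal.ofReal_one, add_mul, one_mul] at h1
  refine h1.trans (add_le_add (gK_anti hK u hs0 hi2 (by positivity)) ?_)
  refine mul_le_mul' (ENNReal.ofReal_le_ofReal ?_) (gK_le _ _)
  rw [pow_succ] at hi1
  linarith

theorem lost {I : Type} [Fintype I] {K : Set (I → ℝ)} (hm : MeasurableSet K)
    (hfin : volume K ≠ ⊤) {u : I → ℝ} {c : ℝ≥0∞} (h : volume K ≤ gK K u + c) :
    volume {x | x ∈ K ∧ x + u ∉ K} ≤ c := by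
  have h1 : gK K u + volume {x | x ∈ K ∧ x + u ∉ K} = volume K := by
    have := measure_inter_add_sdiff (μ := volume) K
      (hm.preimage (by fun_prop : Measurable fun x : I → ℝ => x + u))
    exact this
  rw [← h1] at h
  exact (ENNReal.add_le_add_iff_left (ne_top_of_le_ne_top hfin (gK_le K u))).1 h

theorem mem_ero {I : Type} [Fintype I] [DecidableEq I] {K : Set (I → ℝ)} (hK : Convex ℝ K)
    {ρ : I → ℝ} (hρ : ∀ i, 0 < ρ i) {t : ℝ} (ht : 0 ≤ t) {x : I → ℝ} (hx : x ∈ K)
    (h1 : ∀ i, x + (t * ρ i) • (Pi.single i 1 : I → ℝ) ∈ K)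
    (h2 : ∀ i, x + (t * ρ i) • (-Pi.single i 1 : I → ℝ) ∈ K) : x ∈ ero K ρ t := by
  intro u hu
  rcases ht.eq_or_lt with rfl | ht'
  · have : u = 0 := by
      funext i
      have h3 : |u i| / ρ i ≤ cn ρ u :=
        Finset.single_le_sum (f := fun i => |u i| / ρ i)
          (fun j _ => div_nonneg (abs_nonneg _) (hρ j).le) (Finset.mem_univ i)
      have h4 : |u i| / ρ i ≤ 0 := h3.trans hu
      rw [div_le_iff₀ (hρ i), zero_mul] at h4
      exact abs_nonpos_iff.1 h4
    simpa [this] using hx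
  let w : Option I → ℝ := fun o => o.elim (1 - cn ρ u / t) fun i => |u i| / ρ i / t
  let z : Option I → I → ℝ := fun o => o.elim x fun i =>
    x + (t * ρ i) • (if 0 ≤ u i then (Pi.single i 1 : I → ℝ) else -Pi.single i 1)
  have hw : ∑ i, |u i| / ρ i / t = cn ρ u / t := by rw [cn, Finset.sum_div]
  have key := hK.sum_mem (t := Finset.univ) (w := w) (z := z) ?_ ?_ ?_
  · convert key using 1
    rw [Fintype.sum_option]
    simp only [w, z, Option.elim, smul_add, Finset.sum_add_distrib, ← Finset.sum_smul, hw]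
    rw [← add_assoc, ← add_smul, sub_add_cancel, one_smul]
    congr 1
    conv_lhs => rw [pi_eq_sum_univ' u]
    refine Finset.sum_congr rfl fun i _ => ?_
    have := (hρ i).ne'
    rw [smul_smul, show |u i| / ρ i / t * (t * ρ i) = |u i| by field_simp]
    split_ifs with h
    · rw [abs_of_nonneg h]
    · rw [abs_of_neg (not_le.1 h), smul_neg, neg_smul, neg_neg]
  · rintro (_ | i) -
    · simp only [w, Option.elim, sub_nonneg]
      exact (div_le_one ht').2 hu
    · have := hρ i
      simp only [w, Option.elim]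
      positivity
  · rw [Fintype.sum_option]
    simp only [w, Option.elim, hw]
    ring
  · rintro (_ | i) -
    · exact hx
    · simp only [z, Option.elim]
      split_ifs
      · exact h1 i
      · exact h2 i

theorem ero_vol {I : Type} [Fintype I] [DecidableEq I] {K : Set (I → ℝ)} (hN : Norm K)
    (ρ : I → ℝ) (t : ℝ) (hρ : ∀ i, 0 < ρ i) (ht : 0 ≤ t) (h1 : ∀ i, t * ρ i ≤ 1) :
    volume K ≤ volume (ero K ρ t) + ENNReal.ofReal (4 * t * ∑ i, ρ i) * volume K := by
  have hm := hN.cpt.measurableSet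
  have hfin := hN.cpt.measure_lt_top (μ := volume)
  have hsub : K ⊆ ero K ρ t ∪ ⋃ i, ({x | x ∈ K ∧ x + (t * ρ i) • (Pi.single i 1 : I → ℝ) ∉ K} ∪
      {x | x ∈ K ∧ x + (t * ρ i) • (-Pi.single i 1 : I → ℝ) ∉ K}) := by
    intro x hx
    by_contra hc
    simp only [Set.mem_union, Set.mem_iUnion, Set.mem_ofPred_eq, not_or, not_exists, not_and,
      not_not] at hc
    exact hc.1 (mem_ero hN.cvx hρ ht hx (fun i => (hc.2 i).1 hx) (fun i => (hc.2 i).2 hx))
  refine (measure_mono hsub).trans ((measure_union_le _ _).trans (add_le_add le_rfl ?_))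
  refine (measure_iUnion_fintype_le _ _).trans ?_
  have hs : ∀ i, 0 ≤ t * ρ i := fun i => mul_nonneg ht (hρ i).le
  calc _ ≤ ∑ i, ENNReal.ofReal (4 * t * ρ i) * volume K := by
        refine Finset.sum_le_sum fun i _ => (measure_union_le _ _).trans ?_
        have a := lost hm hfin.ne (short hm hN.cvx _ (hN.ge i) (hs i) (h1 i))
        have b := lost hm hfin.ne (short hm hN.cvx (-Pi.single i 1)
          (by rw [gK_neg]; exact hN.ge i) (hs i) (h1 i))
        refine (add_le_add a b).trans (le_of_eq ?_)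
        have := hs i
        rw [← add_mul, ← ENNReal.ofReal_add (by positivity) (by positivity)]
        congr 2
        ring
    _ = _ := by
        rw [← Finset.sum_mul, ← ENNReal.ofReal_sum_of_nonneg, Finset.mul_sum]
        intro i _
        have := hs i
        rw [mul_assoc]
        positivity

end NfL

open NfL

theorem nf : NfStmt := by
  intro I _ _ K n hn h1 hN
  have hm := hN.cpt.measurableSet
  have hfin := hN.cpt.measure_lt_top (μ := volume)
  have hn' : (1 : ℝ) ≤ n := by exact_mod_cast h1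
  have hdiam : ∀ x ∈ K, ∀ y ∈ K, ‖x - y‖ ≤ 4 * n := by
    intro x hx y hy
    have h2 := hN.le _ (RedL.gK_homo hN.cvx hy hx (l := 1 / (2 * n)) (by positivity)
      (by rw [hn]; field_simp; exact le_rfl) (by rw [div_le_one (by positivity)]; linarith))
    rw [norm_smul, Real.norm_eq_abs, abs_of_pos (by positivity), one_div,
      inv_mul_le_iff₀ (by positivity)] at h2
    linarith
  have hcube : ∃ x0 : I → ℝ, ∀ u : I → ℝ, ‖u‖ ≤ 1 / (8 * (n : ℝ) ^ 2) → x0 + u ∈ K := by
    have h2 := ero_vol hN (fun _ => 1 / (8 * n)) 1 (fun _ => by positivity) zero_le_one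
      (fun _ => by rw [one_mul, div_le_one (by positivity)]; linarith)
    have h3 : volume (ero K (fun _ => 1 / (8 * (n : ℝ))) 1) ≠ 0 := by
      intro h0
      rw [h0, zero_add, Finset.sum_const, Finset.card_univ, hn, nsmul_eq_mul] at h2
      have h4 : ENNReal.ofReal (4 * 1 * ((n : ℝ) * (1 / (8 * n)))) < 1 := by
        rw [ENNReal.ofReal_lt_one]
        field_simp
        norm_num
      have := ENNReal.mul_lt_mul_left hN.pos.ne' hfin.ne h4
      rw [one_mul] at this
      exact absurd h2 (not_le.2 this)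
    obtain ⟨x0, hx0⟩ := nonempty_of_measure_ne_zero h3
    refine ⟨x0, fun u hu => hx0 u ?_⟩
    calc cn (fun _ => 1 / (8 * (n : ℝ))) u ≤ ∑ _i : I, (1 / (8 * (n : ℝ) ^ 2)) / (1 / (8 * n)) :=
          Finset.sum_le_sum fun i _ =>
            div_le_div_of_nonneg_right ((norm_le_pi_norm u i).trans hu) (by positivity)
      _ = 1 := by
          rw [Finset.sum_const, Finset.card_univ, hn, nsmul_eq_mul]
          field_simp
  refine ⟨fun i => ?_, hdiam, fun ρ t => ero_vol hN ρ t, hcube, ?_⟩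
  · induction i with
    | zero =>
      intro u hu
      have : ¬ volume K ≤ 2 * gK K u := fun h => absurd (hN.le u h) (by simpa using hu)
      simpa using (not_le.1 this).le
    | succ i ih =>
      intro u hu
      have h2 := ih ((1 / 2 : ℝ) • u) (by
        rw [norm_smul, Real.norm_eq_abs, abs_of_pos (by norm_num)]
        rw [pow_succ] at hu
        linarith)
      have h3 := gK_half hm hN.cvx u
      refine (ENNReal.mul_le_mul_iff_left hN.pos.ne' hfin.ne).1 ?_
      calc 2 ^ 2 ^ (i + 1) * gK K u * volume K = (2 ^ 2 ^ i) ^ 2 * (gK K u * volume K) := by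
            rw [mul_assoc, ← pow_mul, ← pow_succ]
        _ ≤ (2 ^ 2 ^ i) ^ 2 * gK K ((1 / 2 : ℝ) • u) ^ 2 := by gcongr
        _ = (2 ^ 2 ^ i * gK K ((1 / 2 : ℝ) • u)) ^ 2 := (mul_pow _ _ _).symm
        _ ≤ volume K ^ 2 := by gcongr
        _ = volume K * volume K := sq _
  · obtain ⟨x0, hx0⟩ := hcube
    have hx0K : x0 ∈ K := by simpa using hx0 0 (by simp)
    have hdet : ((1 / (4 * (n : ℝ) ^ 2)) • (1 : Matrix I I ℝ)).det = (1 / (4 * (n : ℝ) ^ 2)) ^ n := by
      rw [Matrix.det_smul, Matrix.det_one, hn, mul_one]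
    refine ⟨(1 / (4 * (n : ℝ) ^ 2)) • (1 : Matrix I I ℝ), by rw [hdet]; positivity, fun x => ?_, ?_⟩
    · refine ⟨fun i => round ((x i - x0 i) * (4 * (n : ℝ) ^ 2)), ?_⟩
      have := hx0 (fun i => (x i - x0 i) -
        (1 / (4 * (n : ℝ) ^ 2)) * round ((x i - x0 i) * (4 * (n : ℝ) ^ 2))) ?_
      · convert this using 1
        funext i
        simp only [Matrix.smul_mulVec, Matrix.one_mulVec, Pi.sub_apply, Pi.smul_apply, smul_eq_mul,
          Pi.add_apply]
        ring
      refine (pi_norm_le_iff_of_nonneg (by positivity)).2 fun i => ?_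
      have h2 := abs_sub_round ((x i - x0 i) * (4 * (n : ℝ) ^ 2))
      rw [Real.norm_eq_abs, show (x i - x0 i) -
        (1 / (4 * (n : ℝ) ^ 2)) * round ((x i - x0 i) * (4 * (n : ℝ) ^ 2)) = (1 / (4 * (n : ℝ) ^ 2)) *
          ((x i - x0 i) * (4 * (n : ℝ) ^ 2) - round ((x i - x0 i) * (4 * (n : ℝ) ^ 2))) by
          field_simp, abs_mul, abs_of_pos (by positivity)]
      calc _ ≤ (1 / (4 * (n : ℝ) ^ 2)) * (1 / 2) := by gcongr
        _ = _ := by field_simp; norm_num
    · have h2 : volume K ≤ ENNReal.ofReal ((2 * (4 * n)) ^ n) := by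
        have := Real.volume_pi_closedBall x0 (r := 4 * n) (by positivity)
        rw [hn] at this
        rw [← this]
        exact measure_mono fun y hy => mem_closedBall_iff_norm.2 (hdiam y hy x0 hx0K)
      have h3 := ENNReal.toReal_le_of_le_ofReal (by positivity) h2
      rw [hdet, abs_of_pos (by positivity), div_le_iff₀ (by positivity), ← mul_pow]
      refine h3.trans (le_of_eq ?_)
      congr 1
      field_simp
      norm_num

end Crest.Agent.R225.Up
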