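import Crest.Agent.R225.UpB
import Crest.Agent.R225.UpAv

/-!
# Row 225, part B6: expected weight of long linear circuits in the random lattice
-/

open Finset

set_option linter.unusedSectionVars false

namespace Crest.Agent.R225.Up

namespace NU

lemma sum_sub {κ E : Type} [Fintype κ] [DecidableEq κ] [Fintype E] [DecidableEq E] (A : Finset E)
    (f : (κ → E) → ℝ) :
    ∑ x : κ → A, f (fun i => (x i : E)) = ∑ x : κ → E, SB.ind (∀ i, x i ∈ A) * f x := by
  classical
  simp only [← SB.ite_eq_ind]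
  rw [← Finset.sum_filter]
  refine Finset.sum_bij (fun x _ => fun i => (x i : E)) ?_ ?_ ?_ ?_
  · intro x _
    exact Finset.mem_filter.mpr ⟨Finset.mem_univ _, fun i => (x i).2⟩
  · intro x _ y _ h
    funext i
    exact Subtype.ext (congrFun h i)
  · intro x hx
    exact ⟨fun i => ⟨x i, (Finset.mem_filter.mp hx).2 i⟩, Finset.mem_univ _, rfl⟩
  · intro x _; rfl

lemma circ {q : ℕ} [Fact q.Prime] {E : Type} [DecidableEq E] [AddCommGroup E] [Module (ZMod q) E]
    {d : ℕ} (x : Fin (d + 1) → E) (hx : Function.Injective x) (hC : LCirc q (univ.image x)) :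
    LinearIndependent (ZMod q) (fun i : Fin d => x i.succ) ∧
      ∃ c : Fin d → ZMod q, (∀ i, c i ≠ 0) ∧ x 0 = ∑ i, c i • x i.succ := by
  obtain ⟨h1, h2⟩ := hC
  have hk : ∀ k : Fin (d + 1), LinearIndependent (ZMod q) (fun i : Fin d => x (k.succAbove i)) := by
    intro k
    have h3 := h2 (x k) (Finset.mem_image_of_mem _ (Finset.mem_univ _))
    have hinj : Function.Injective (fun i : Fin d => x (k.succAbove i)) :=
      hx.comp Fin.succAbove_right_injective
    rw [← linearIndepOn_id_range_iff hinj]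
    refine h3.mono ?_
    rintro _ ⟨i, rfl⟩
    simp only [Finset.coe_erase, Finset.coe_image, Finset.coe_univ, Set.image_univ, Set.mem_sdiff,
      Set.mem_range, Set.mem_singleton_iff]
    exact ⟨⟨_, rfl⟩, fun h => Fin.succAbove_ne k i (hx h)⟩
  have h4 : ¬ LinearIndependent (ZMod q) x := by
    rw [← linearIndepOn_id_range_iff hx]
    simpa using h1
  obtain ⟨g, hg, i0, hi0⟩ := Fintype.not_linearIndependent_iff.mp h4
  have hne : ∀ k, g k ≠ 0 := by
    intro k hk0
    rw [Fin.sum_univ_succAbove _ k, hk0, zero_smul, zero_add] at hg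
    have h5 := Fintype.linearIndependent_iff.mp (hk k) (fun i => g (k.succAbove i)) hg
    rcases Fin.eq_self_or_eq_succAbove k i0 with rfl | ⟨j, rfl⟩
    · exact hi0 hk0
    · exact hi0 (h5 j)
  refine ⟨by simpa using hk 0, fun i => -((g 0)⁻¹ * g i.succ), fun i => ?_, ?_⟩
  · exact neg_ne_zero.mpr (mul_ne_zero (inv_ne_zero (hne 0)) (hne _))
  · rw [Fin.sum_univ_succ] at hg
    have h6 : g 0 • x 0 = -∑ i : Fin d, g i.succ • x i.succ := eq_neg_of_add_eq_zero_left hg
    calc x 0 = (g 0)⁻¹ • (g 0 • x 0) := by rw [smul_smul, inv_mul_cancel₀ (hne 0), one_smul]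
      _ = _ := by
        rw [h6, smul_neg, Finset.smul_sum, ← Finset.sum_neg_distrib]
        exact Finset.sum_congr rfl fun i _ => by rw [smul_smul, neg_smul]

section main
variable {q : ℕ} [Fact q.Prime] {P R : Type} [Fintype P] [DecidableEq P] [Fintype R]
    [DecidableEq R]

lemma pi0_nonneg : 0 ≤ pi0 q R := by unfold pi0; positivity

lemma level (h : ProbStmt) (w : Pt q P R → ℝ) (a b ϱ : ℝ) (n d : ℕ)
    (hw : ∀ x, 0 ≤ w x ∧ w x ≤ b) (hS : Step q w a b ϱ n) (hd : n + 1 ≤ d) :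
    av (fun Gm : R → P → ZMod q => ((d + 1).factorial : ℝ) *
      ∑ C ∈ (Lat w Gm).powersetCard (d + 1), SB.ind (LCirc q C) * ∏ x ∈ C, w x) ≤
      (q : ℝ) ^ d * (pi0 q R ^ d * (2 * a ^ d * b * ϱ ^ n)) := by
  classical
  set 𝒞 : Finset (Fin d → ZMod q) := univ.filter (fun c => ∀ i, c i ≠ 0) with h𝒞
  have hp : ∀ {κ : Type} [Fintype κ] (y : κ → Pt q P R), 0 ≤ ∏ i, w (y i) := fun y =>
    Finset.prod_nonneg fun i _ => (hw _).1
  have s1 : ∀ Gm : R → P → ZMod q, ((d + 1).factorial : ℝ) *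
      ∑ C ∈ (Lat w Gm).powersetCard (d + 1), SB.ind (LCirc q C) * ∏ x ∈ C, w x ≤
      ∑ c ∈ 𝒞, ∑ x : Fin d → Pt q P R, (SB.ind (LinearIndependent (ZMod q) x) *
        ((∏ i, w (x i)) * w (0 + ∑ i, c i • x i))) * SB.ind (∀ i, mem Gm (x i)) := by
    intro Gm
    have e1 := SB.tup (κ := Fin (d + 1)) (Lat w Gm) (fun C => SB.ind (LCirc q C) * ∏ x ∈ C, w x)
    rw [Fintype.card_fin] at e1
    rw [← e1]
    have e2 := sum_sub (κ := Fin (d + 1)) (Lat w Gm) (fun x => SB.ind (Function.Injective x) *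
      (SB.ind (LCirc q (univ.image x)) * ∏ y ∈ univ.image x, w y))
    have e3 : ∑ x : Fin (d + 1) → (Lat w Gm), SB.ind (Function.Injective x) *
        (SB.ind (LCirc q (SB.im x)) * ∏ y ∈ SB.im x, w y) =
        ∑ x : Fin (d + 1) → (Lat w Gm), SB.ind (Function.Injective (fun i => (x i : Pt q P R))) *
        (SB.ind (LCirc q (univ.image (fun i => (x i : Pt q P R)))) *
          ∏ y ∈ univ.image (fun i => (x i : Pt q P R)), w y) := by
      refine Finset.sum_congr rfl fun x _ => ?_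
      rw [SB.ind_congr (show Function.Injective x ↔
        Function.Injective (fun i => (x i : Pt q P R)) from
        ⟨SB.inj_coe, fun h i j hij => h (congrArg Subtype.val hij)⟩)]
      rfl
    rw [e3, e2, ← (Fin.consEquiv (fun _ : Fin (d + 1) => Pt q P R)).sum_comp, Fintype.sum_prod_type,
      Finset.sum_comm, Finset.sum_comm (s := 𝒞)]
    refine Finset.sum_le_sum fun x _ => ?_
    have e4 : ∀ c ∈ 𝒞, (SB.ind (LinearIndependent (ZMod q) x) *
        ((∏ i, w (x i)) * w (0 + ∑ i, c i • x i))) * SB.ind (∀ i, mem Gm (x i)) =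
        ∑ y, SB.ind (y = ∑ i, c i • x i) * ((SB.ind (LinearIndependent (ZMod q) x) *
        ((∏ i, w (x i)) * w y)) * SB.ind (∀ i, mem Gm (x i))) := by
      intro c _
      simp only [← SB.ite_eq_ind (_ = _)]
      rw [Finset.sum_ite_eq' univ, if_pos (Finset.mem_univ _), zero_add]
    rw [Finset.sum_congr rfl e4, Finset.sum_comm]
    refine Finset.sum_le_sum fun y _ => ?_
    have hnn : ∀ c ∈ 𝒞, 0 ≤ SB.ind (y = ∑ i, c i • x i) * ((SB.ind (LinearIndependent (ZMod q) x) *
        ((∏ i, w (x i)) * w y)) * SB.ind (∀ i, mem Gm (x i))) := fun c _ =>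
      mul_nonneg (SB.ind_nonneg _) (mul_nonneg (mul_nonneg (SB.ind_nonneg _)
        (mul_nonneg (hp x) (hw y).1)) (SB.ind_nonneg _))
    set z : Fin (d + 1) → Pt q P R := (Fin.consEquiv (fun _ : Fin (d + 1) => Pt q P R)) (y, x) with hz
    have hz0 : z 0 = y := rfl
    have hzs : ∀ i : Fin d, z i.succ = x i := fun i => rfl
    by_cases h1 : ∀ i, z i ∈ Lat w Gm
    swap
    · rw [SB.ind_neg h1, zero_mul]; exact Finset.sum_nonneg hnn
    by_cases h2 : Function.Injective z
    swap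
    · rw [SB.ind_neg h2, zero_mul, mul_zero]; exact Finset.sum_nonneg hnn
    by_cases h3 : LCirc q (univ.image z)
    swap
    · rw [SB.ind_neg h3, zero_mul, mul_zero, mul_zero]; exact Finset.sum_nonneg hnn
    obtain ⟨h4, c, hc, hc0⟩ := circ z h2 h3
    simp only [hzs, hz0] at h4 hc0
    have hm : c ∈ 𝒞 := Finset.mem_filter.mpr ⟨Finset.mem_univ _, hc⟩
    have h5 := Finset.single_le_sum hnn hm
    have h6 : ∀ i, mem Gm (x i) := fun i => by
      have := h1 i.succ
      rw [hzs] at this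
      exact (Finset.mem_filter.mp this).2.2
    refine le_trans (le_of_eq ?_) h5
    rw [SB.ind_pos hc0, SB.ind_pos (show LinearIndependent (ZMod q) x from h4), SB.ind_pos h6]
    rw [SB.ind_pos h1, SB.ind_pos h2, SB.ind_pos h3, Finset.prod_image (fun _ _ _ _ h => h2 h),
      Fin.prod_univ_succ]
    simp only [hzs, hz0]
    ring
  refine (SB.av_mono s1).trans ?_
  rw [SB.av_sum]
  have s2 : ∀ c ∈ 𝒞, av (fun Gm : R → P → ZMod q => ∑ x : Fin d → Pt q P R,
      (SB.ind (LinearIndependent (ZMod q) x) *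
        ((∏ i, w (x i)) * w (0 + ∑ i, c i • x i))) * SB.ind (∀ i, mem Gm (x i))) ≤
      pi0 q R ^ d * (2 * a ^ d * b * ϱ ^ n) := by
    intro c hc
    have hc' : ∀ i, c i ≠ 0 := (Finset.mem_filter.mp hc).2
    have : Nonempty (Fin d) := ⟨⟨0, by omega⟩⟩
    have t1 := hS (Fin d) c 0 hc'
    rw [Fintype.card_fin, min_eq_right (by omega)] at t1
    rw [SB.av_sum]
    refine le_trans ?_ (mul_le_mul_of_nonneg_left t1 (pow_nonneg pi0_nonneg _))
    rw [Finset.mul_sum]
    refine Finset.sum_le_sum fun x _ => ?_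
    rw [SB.av_const_mul, ← SB.prob_eq]
    have t2 : 0 ≤ (∏ i, w (x i)) * w (0 + ∑ i, c i • x i) := mul_nonneg (hp x) (hw _).1
    by_cases hx : LinearIndependent (ZMod q) x
    · have t3 := (h q P R).2 (Fin d) x hx
      rw [Fintype.card_fin] at t3
      rw [SB.ind_pos hx, one_mul, mul_comm]
      exact mul_le_mul_of_nonneg_right t3 t2
    · rw [SB.ind_neg hx, zero_mul, zero_mul]
      exact mul_nonneg (pow_nonneg pi0_nonneg _) t2
  refine (Finset.sum_le_card_nsmul _ _ _ s2).trans ?_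
  rw [nsmul_eq_mul]
  have t0 : 0 ≤ pi0 q R ^ d * (2 * a ^ d * b * ϱ ^ n) := by
    have : Nonempty (Fin d) := ⟨⟨0, by omega⟩⟩
    have t1 := hS (Fin d) (fun _ => 1) 0 (fun _ => one_ne_zero)
    rw [Fintype.card_fin, min_eq_right (by omega)] at t1
    exact mul_nonneg (pow_nonneg pi0_nonneg _) (le_trans (Finset.sum_nonneg fun x _ =>
      mul_nonneg (hp x) (hw _).1) t1)
  refine mul_le_mul_of_nonneg_right ?_ t0
  have c1 : 𝒞.card ≤ q ^ d := by
    refine (Finset.card_filter_le _ _).trans ?_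
    simp [ZMod.card]
  exact_mod_cast c1

end main

end NU

theorem nu (h : ProbStmt) : NuStmt := by
  intro q _ P R _ _ _ _ w a b ϱ V Θ n s u hw ha hϱ hϱ1 hS hs hV hb hΘ haΘ
  simp only [SB.fam_eq]
  rw [SB.av_sum]
  have hq : (1 : ℝ) ≤ q := by exact_mod_cast (Fact.out : q.Prime).one_le
  have hqΘ : (1 : ℝ) ≤ q * Θ := by nlinarith
  refine (Finset.sum_le_card_nsmul _ _ ((q * Θ) ^ u * ϱ ^ n) fun j hj => ?_).trans
    (by rw [Finset.card_range, nsmul_eq_mul]; push_cast; exact le_of_eq (by ring))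
  have hj' : j ≤ u := Nat.lt_succ_iff.mp (Finset.mem_range.mp hj)
  by_cases hjs : s < j
  · obtain ⟨d, rfl⟩ : ∃ d, j = d + 1 := ⟨j - 1, by omega⟩
    have a1 := NU.level h w a b ϱ n d hw hS (by omega)
    have a2 : av (fun Gm : R → P → ZMod q => (((d + 1).factorial : ℝ) *
        ∑ C ∈ (Lat w Gm).powersetCard (d + 1),
          SB.ind (s < C.card ∧ LCirc q C) * ∏ x ∈ C, w x) / V ^ (d + 1)) ≤
        av (fun Gm : R → P → ZMod q => (V ^ (d + 1))⁻¹ * (((d + 1).factorial : ℝ) *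
        ∑ C ∈ (Lat w Gm).powersetCard (d + 1), SB.ind (LCirc q C) * ∏ x ∈ C, w x)) := by
      refine SB.av_mono fun Gm => ?_
      rw [div_eq_inv_mul]
      refine mul_le_mul_of_nonneg_left (mul_le_mul_of_nonneg_left (Finset.sum_le_sum fun C _ =>
        mul_le_mul_of_nonneg_right (SB.ind_mono fun h => h.2)
          (Finset.prod_nonneg fun x _ => (hw x).1)) (by positivity)) (by positivity)
    refine a2.trans ?_
    rw [SB.av_const_mul]
    refine (mul_le_mul_of_nonneg_left a1 (by positivity)).trans ?_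
    have hπ : 0 ≤ pi0 q R := NU.pi0_nonneg
    have hb0 : 0 ≤ b := (hw 0).1.trans (hw 0).2
    have b1 : (a * pi0 q R) ^ d ≤ (Θ * V) ^ d := pow_le_pow_left₀ (by positivity) haΘ _
    have b2 : (q * Θ : ℝ) ^ d ≤ (q * Θ) ^ u := pow_le_pow_right₀ hqΘ (by omega)
    rw [inv_mul_le_iff₀ (by positivity)]
    calc _ = (q : ℝ) ^ d * (a * pi0 q R) ^ d * (2 * b) * ϱ ^ n := by ring
      _ ≤ (q : ℝ) ^ d * (Θ * V) ^ d * V * ϱ ^ n := by gcongr
      _ = V ^ (d + 1) * ((q * Θ) ^ d * ϱ ^ n) := by ring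
      _ ≤ _ := by gcongr
  · refine le_trans (le_of_eq ?_) (by positivity : (0 : ℝ) ≤ (q * Θ) ^ u * ϱ ^ n)
    rw [SB.av_congr (g := fun _ => 0), SB.av_const]
    intro Gm
    rw [Finset.sum_eq_zero, mul_zero, zero_div]
    intro C hC
    rw [SB.ind_neg, zero_mul]
    rw [(Finset.mem_powersetCard.mp hC).2]
    exact fun h => hjs h.1

end Crest.Agent.R225.Up
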