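import Crest.Agent.R225.UpB
import Crest.Agent.R225.UpAv

/-!
# Row 225, task B3: ORD
-/

open Finset

set_option linter.unusedSectionVars false

namespace Crest.Agent.R225.Up

namespace ORD

lemma tupU {ι : Type} [Fintype ι] [DecidableEq ι] (u : ℕ) (g : Finset ι → ℝ) :
    (u.factorial : ℝ) * ∑ C ∈ (univ : Finset ι).powersetCard u, g C =
      ∑ x : Fin u → ι, SB.ind (Function.Injective x) * g (univ.image x) := by
  have h := SB.tup (κ := Fin u) (univ : Finset ι) g
  rw [Fintype.card_fin] at h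
  rw [← h]
  refine Fintype.sum_bijective (fun (x : Fin u → (univ : Finset ι)) i => (x i : ι))
    ⟨fun x y e => funext fun i => Subtype.ext (congrFun e i),
      fun x => ⟨fun i => ⟨x i, mem_univ _⟩, rfl⟩⟩ _ _ fun x => ?_
  rw [SB.ind_congr (show Function.Injective x ↔ Function.Injective fun i => (x i : ι) from
    ⟨SB.inj_coe, fun h => Function.Injective.of_comp (f := Subtype.val) h⟩)]
  rfl

variable {q : ℕ} [Fact q.Prime] {P R : Type} [Fintype P] [DecidableEq P] [Fintype R] [DecidableEq R]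

lemma pi0_pos : 0 < pi0 q R := by
  have : (0 : ℝ) < q := by exact_mod_cast (Fact.out : q.Prime).pos
  unfold pi0
  positivity

lemma ind_eq (Gm : R → P → ZMod q) (x : Pt q P R) : ind Gm x = SB.ind (mem Gm x) := rfl

lemma prod_ind {κ : Type} (S : Finset κ) (E : κ → Prop) :
    ∏ j ∈ S, SB.ind (E j) = SB.ind (∀ j ∈ S, E j) := by
  by_cases h : ∀ j ∈ S, E j
  · rw [SB.ind_pos h]
    exact prod_eq_one fun j hj => SB.ind_pos (h j hj)
  · rw [SB.ind_neg h]
    push Not at h
    obtain ⟨j, hj, h⟩ := h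
    exact prod_eq_zero hj (SB.ind_neg h)

open Classical in
/-- the factor of an extra point -/
noncomputable def gg (w : Pt q P R → ℝ) (b : Prop) (p t : Pt q P R) : ℝ :=
  if b then (if p = t then w p else 0) else (if p.1 = t.1 then pi0 q R * w p else 0)

lemma gg_nonneg {w : Pt q P R → ℝ} (hw : ∀ x, 0 ≤ w x) (b : Prop) (p t : Pt q P R) :
    0 ≤ gg w b p t := by
  have := hw p
  have := pi0_pos (q := q) (R := R)
  unfold gg
  split_ifs <;> positivity

lemma sum_gg_pos (w : Pt q P R → ℝ) {b : Prop} (hb : b) (t : Pt q P R) :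
    ∑ p, gg w b p t = w t := by
  simp [gg, hb]

lemma sum_gg_neg (w : Pt q P R → ℝ) {b : Prop} (hb : ¬ b) (t : Pt q P R) :
    ∑ p, gg w b p t = pi0 q R * ∑ y, w (t.1, y) := by
  simp only [gg, if_neg hb, Fintype.sum_prod_type]
  rw [sum_comm, mul_sum]
  simp

variable {u : ℕ}

noncomputable def term (w : Pt q P R → ℝ) (S D : Finset (Fin u))
    (c : {j // j ∉ D} → {d // d ∈ D} → ZMod q) (x : Fin u → Pt q P R) : ℝ :=
  pi0 q R ^ D.card * ((∏ d : {d // d ∈ D}, w (x d)) *
    ∏ j : {j // j ∉ D}, gg w (j.1 ∈ S) (x j) (∑ d, c j d • x d))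

lemma term_nonneg {w : Pt q P R → ℝ} (hw : ∀ x, 0 ≤ w x) (S D : Finset (Fin u))
    (c : {j // j ∉ D} → {d // d ∈ D} → ZMod q) (x : Fin u → Pt q P R) : 0 ≤ term w S D c x :=
  mul_nonneg (pow_nonneg pi0_pos.le _) (mul_nonneg (prod_nonneg fun _ _ => hw _)
    (prod_nonneg fun _ _ => gg_nonneg hw _ _ _))

open Classical in
noncomputable def cov {D : Finset (Fin u)} (c : {j // j ∉ D} → {d // d ∈ D} → ZMod q) : ℕ :=
  (univ.filter (fun i => ∃ j, c j i ≠ 0)).card

lemma card_ext (D : Finset (Fin u)) : Fintype.card {j // j ∉ D} = u - D.card := by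
  rw [Fintype.card_subtype_compl, Fintype.card_fin, Fintype.card_coe]

lemma sum_term {w : Pt q P R → ℝ} {a b ϱ : ℝ} {n i : ℕ} (hw : ∀ x, 0 ≤ w x ∧ w x ≤ b)
    (ha : ∑ x, w x = a) (h0 : 0 < ϱ) (h1 : ϱ ≤ 1) (hT : Typ q w a b ϱ n)
    (hζ : ∀ v, pi0 q R * ∑ y, w (v, y) ≤ b * ϱ ^ n) (S D : Finset (Fin u))
    (c : {j // j ∉ D} → {d // d ∈ D} → ZMod q) (hc : 2 * i ≤ (u - D.card) + cov c) :
    ∑ x, term w S D c x ≤ (a * pi0 q R) ^ D.card * (2 * b) ^ (u - D.card) *
      ϱ ^ min (2 * i - 2 * (u - D.card)) n := by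
  have hb : 0 ≤ b := (hw 0).1.trans (hw 0).2
  have ha0 : 0 ≤ a := ha ▸ sum_nonneg fun x _ => (hw x).1
  have hπ := pi0_pos (q := q) (R := R)
  have e : ∑ x, term w S D c x = pi0 q R ^ D.card * ∑ y : {d // d ∈ D} → Pt q P R,
      (∏ d, w (y d)) * ∏ j : {j // j ∉ D}, ∑ p, gg w (j.1 ∈ S) p (∑ d, c j d • y d) := by
    rw [← (Equiv.piEquivPiSubtypeProd (· ∈ D) (fun _ => Pt q P R)).symm.sum_comp,
      Fintype.sum_prod_type, mul_sum]
    refine sum_congr rfl fun y _ => ?_
    rw [prod_univ_sum, Fintype.piFinset_univ, mul_sum, mul_sum]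
    refine sum_congr rfl fun z _ => ?_
    have h1 : ∀ d : {d // d ∈ D},
        (Equiv.piEquivPiSubtypeProd (· ∈ D) (fun _ => Pt q P R)).symm (y, z) d = y d :=
      fun d => by simp
    have h2 : ∀ d : {d // d ∉ D},
        (Equiv.piEquivPiSubtypeProd (· ∈ D) (fun _ => Pt q P R)).symm (y, z) d = z d :=
      fun d => by simp [d.2]
    simp only [term, h1, h2]
  rw [e, mul_pow, mul_comm (a ^ _), mul_assoc, mul_assoc]
  refine mul_le_mul_of_nonneg_left ?_ (pow_nonneg hπ.le _)
  by_cases hS : ∀ j : {j // j ∉ D}, j.1 ∈ S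
  · simp only [fun j => sum_gg_pos w (hS j)]
    refine (hT _ _ c).trans ?_
    rw [Fintype.card_coe, card_ext, mul_assoc]
    refine mul_le_mul_of_nonneg_left (mul_le_mul_of_nonneg_left
      (pow_le_pow_of_le_one h0.le h1 (min_le_min_right _ ?_)) (by positivity)) (by positivity)
    change _ ≤ cov c - _
    omega
  · push Not at hS
    obtain ⟨j₀, hj₀⟩ := hS
    have hϱ : ϱ ^ n ≤ 1 := pow_le_one₀ h0.le h1
    have h2 : ∀ y : {d // d ∈ D} → Pt q P R,
        ∏ j : {j // j ∉ D}, ∑ p, gg w (j.1 ∈ S) p (∑ d, c j d • y d) ≤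
          (2 * b) ^ (u - D.card) * ϱ ^ min (2 * i - 2 * (u - D.card)) n := fun y => by
      calc _ ≤ ∏ j : {j // j ∉ D}, b * (if j = j₀ then ϱ ^ n else 1) := by
            refine prod_le_prod (fun j _ => sum_nonneg fun p _ => gg_nonneg (fun x => (hw x).1) _ _ _)
              fun j _ => ?_
            by_cases hj : j.1 ∈ S
            · rw [sum_gg_pos w hj, if_neg (by rintro rfl; exact hj₀ hj), mul_one]
              exact (hw _).2
            · rw [sum_gg_neg w hj]
              refine (hζ _).trans (mul_le_mul_of_nonneg_left ?_ hb)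
              split_ifs
              exacts [le_rfl, hϱ]
        _ = b ^ (u - D.card) * ϱ ^ n := by
            rw [prod_mul_distrib, prod_const, card_univ, card_ext, prod_ite_eq']
            simp
        _ ≤ _ := mul_le_mul (pow_le_pow_left₀ hb (by linarith) _)
            (pow_le_pow_of_le_one h0.le h1 (min_le_right _ _)) (by positivity) (by positivity)
    calc _ ≤ ∑ y : {d // d ∈ D} → Pt q P R, (∏ d, w (y d)) *
          ((2 * b) ^ (u - D.card) * ϱ ^ min (2 * i - 2 * (u - D.card)) n) :=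
          sum_le_sum fun y _ => mul_le_mul_of_nonneg_left (h2 y) (prod_nonneg fun _ _ => (hw _).1)
      _ = _ := by
          rw [← sum_mul, ← Fintype.piFinset_univ, ← prod_univ_sum, prod_const, ha, card_univ,
            Fintype.card_coe]

lemma exists_basis (v : Fin u → P → ZMod q) (S : Finset (Fin u)) :
    ∃ (D : Finset (Fin u)) (c : {j // j ∉ D} → {d // d ∈ D} → ZMod q),
      LinearIndepOn (ZMod q) v D ∧ (∀ j : {j // j ∉ D}, v j = ∑ d, c j d • v d) ∧
      ∀ j d, j.1 ∈ S → d.1 ∉ S → c j d = 0 := by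
  classical
  obtain ⟨D1, h1S, -, h1, h1i⟩ := exists_linearIndepOn_extension
    (linearIndepOn_empty (ZMod q) v) (Set.empty_subset (S : Set (Fin u)))
  obtain ⟨D, -, h1D, h2, hD⟩ := exists_linearIndepOn_extension h1i (Set.subset_univ D1)
  lift D1 to Finset (Fin u) using Set.toFinite D1
  lift D to Finset (Fin u) using Set.toFinite D
  have h : ∀ j : {j // j ∉ D}, ∃ c : {d // d ∈ D} → ZMod q, v j = ∑ d, c d • v d ∧
      ∀ d, j.1 ∈ S → d.1 ∉ S → c d = 0 := fun j => by
    by_cases hj : j.1 ∈ S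
    · obtain ⟨c, hc⟩ := (Submodule.mem_span_image_finset_iff_exists_fun' _).1 (h1 ⟨j, hj, rfl⟩)
      refine ⟨fun d => if d.1 ∈ D1 then c d else 0, ?_, fun d _ hd => if_neg fun h => hd (h1S h)⟩
      rw [sum_coe_sort D (fun d => (if d ∈ D1 then c d else 0) • v d), ← hc]
      simp only [ite_smul, zero_smul]
      rw [← sum_filter, filter_mem_eq_inter, inter_eq_right.2 (coe_subset.1 h1D)]
    · obtain ⟨c, hc⟩ := (Submodule.mem_span_image_finset_iff_exists_fun _).1
        (h2 ⟨j, Set.mem_univ _, rfl⟩)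
      exact ⟨c, hc.symm, fun d h => absurd h hj⟩
  choose c hc hc' using h
  exact ⟨D, c, hD, hc, hc'⟩

open Classical in
lemma nc_le (x : Fin u → Pt q P R) (U : Finset (Pt q P R)) (hU : ∀ y ∈ U, ∃ j, x j = y)
    (D : Finset (Fin u))
    (c : {j // j ∉ D} → {d // d ∈ D} → ZMod q) (hD : LinearIndepOn (ZMod q) (fun j => (x j).1) D)
    (hc : ∀ j : {j // j ∉ D}, (x j).1 = ∑ d, c j d • (x d).1) :
    nc U ≤ (u - D.card) + cov c := by
  unfold nc
  refine (card_le_card
    (t := (Dᶜ ∪ (univ.filter (fun i => ∃ j, c j i ≠ 0)).image Subtype.val).image x)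
    fun y hy => ?_).trans (card_image_le.trans ((card_union_le _ _).trans ?_))
  · simp only [mem_filter] at hy
    obtain ⟨hy1, hy2⟩ := hy
    obtain ⟨d, rfl⟩ := hU y hy1
    refine mem_image_of_mem _ ?_
    by_contra hd
    rw [mem_union, not_or, mem_compl, not_not] at hd
    obtain ⟨hdD, hd⟩ := hd
    have hd' : ∀ j, c j ⟨d, hdD⟩ = 0 := fun j => by
      by_contra h
      exact hd (mem_image.2 ⟨⟨d, hdD⟩, mem_filter.2 ⟨mem_univ _, j, h⟩, rfl⟩)
    refine hD.notMem_span (mem_coe.2 hdD) (Submodule.span_le.2 ?_ hy2)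
    rintro _ ⟨z, hz, rfl⟩
    simp only [mem_coe, mem_erase] at hz
    obtain ⟨hz1, hz2⟩ := hz
    obtain ⟨j, rfl⟩ := hU z hz2
    by_cases hj : j ∈ D
    · exact Submodule.subset_span ⟨j, ⟨hj, fun e => hz1 (congrArg x e)⟩, rfl⟩
    · rw [SetLike.mem_coe, hc ⟨j, hj⟩]
      refine Submodule.sum_mem _ fun d' _ => ?_
      by_cases e : d' = ⟨d, hdD⟩
      · rw [e, hd', zero_smul]
        exact zero_mem _
      · exact Submodule.smul_mem _ _ (Submodule.subset_span
          ⟨d', ⟨d'.2, fun e' => e (Subtype.ext e')⟩, rfl⟩)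
  · rw [card_compl, Fintype.card_fin]
    exact Nat.add_le_add_left card_image_le _

lemma mem_comb {Gm : R → P → ZMod q} {κ : Type} [Fintype κ] {x : κ → Pt q P R} {c : κ → ZMod q}
    (hx : ∀ d, c d ≠ 0 → mem Gm (x d)) {y : Pt q P R} (hy : mem Gm y)
    (h : y.1 = ∑ d, c d • (x d).1) : y = ∑ d, c d • x d := by
  refine Prod.ext (by rw [h, Prod.fst_sum]; rfl) ?_
  funext i
  rw [← hy i, h, Prod.snd_sum]
  simp only [Finset.sum_apply, Pi.smul_apply, smul_eq_mul, mul_sum, Prod.smul_snd]
  rw [sum_comm]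
  refine sum_congr rfl fun d _ => ?_
  by_cases hd : c d = 0
  · simp [hd]
  · rw [← hx d hd i, mul_sum]
    exact sum_congr rfl fun p _ => by ring

lemma point (hP : ProbStmt) {w : Pt q P R → ℝ} (hw : ∀ x, 0 ≤ w x) (x : Fin u → Pt q P R)
    (S D : Finset (Fin u)) (c : {j // j ∉ D} → {d // d ∈ D} → ZMod q)
    (hD : LinearIndepOn (ZMod q) (fun j => (x j).1) D)
    (hc : ∀ j : {j // j ∉ D}, (x j).1 = ∑ d, c j d • (x d).1)
    (hc' : ∀ j d, j.1 ∈ S → d.1 ∉ S → c j d = 0) :
    (∏ j, w (x j)) * (pi0 q R ^ Sᶜ.card *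
      av (fun Gm : R → P → ZMod q => ∏ j ∈ S, ind Gm (x j))) ≤ term w S D c x := by
  have hπ := pi0_pos (q := q) (R := R)
  by_cases h : ∀ j : {j // j ∉ D}, j.1 ∈ S → x j = ∑ d, c j d • x d
  · have h1 : av (fun Gm : R → P → ZMod q => ∏ j ∈ S, ind Gm (x j)) ≤ pi0 q R ^ (D ∩ S).card := by
      have h2 := (hP q P R).2 {d // d ∈ D ∩ S} (fun d => x d) (LinearIndependent.of_comp
        (LinearMap.fst (ZMod q) _ _) (hD.mono (coe_subset.2 inter_subset_left)))
      rw [Fintype.card_coe, SB.prob_eq] at h2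
      refine (SB.av_mono fun Gm => ?_).trans h2
      simp only [ind_eq, prod_ind]
      exact SB.ind_mono fun h d => h _ (mem_inter.1 d.2).2
    have h3 : ∏ j : {j // j ∉ D}, gg w (j.1 ∈ S) (x j) (∑ d, c j d • x d) =
        pi0 q R ^ (Sᶜ \ D).card * ∏ j : {j // j ∉ D}, w (x j) := by
      have : ∀ j : {j // j ∉ D}, gg w (j.1 ∈ S) (x j) (∑ d, c j d • x d) =
          (if j.1 ∈ S then 1 else pi0 q R) * w (x j) := fun j => by
        by_cases hj : j.1 ∈ S
        · rw [gg, if_pos hj, if_pos hj, if_pos (h j hj), one_mul]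
        · rw [gg, if_neg hj, if_neg hj, if_pos (by rw [hc j, Prod.fst_sum]; rfl)]
      simp only [this, prod_mul_distrib]
      congr 1
      rw [← prod_subtype Dᶜ (fun j => mem_compl) fun j => if j ∈ S then 1 else pi0 q R, prod_ite,
        prod_const_one, one_mul, prod_const]
      congr 2
      ext j
      simp [and_comm]
    have h4 : Sᶜ.card + (D ∩ S).card = D.card + (Sᶜ \ D).card := by
      have a := card_sdiff_add_card_inter Sᶜ D
      have b := card_sdiff_add_card_inter D S
      have : Sᶜ ∩ D = D \ S := by ext j; simp [and_comm]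
      rw [this] at a
      omega
    calc _ ≤ (∏ j, w (x j)) * (pi0 q R ^ Sᶜ.card * pi0 q R ^ (D ∩ S).card) :=
          mul_le_mul_of_nonneg_left (mul_le_mul_of_nonneg_left h1 (by positivity))
            (prod_nonneg fun _ _ => hw _)
      _ = _ := by
          have e : ∏ j, w (x j) =
              (∏ d : {d // d ∈ D}, w (x d)) * ∏ d : {d // d ∉ D}, w (x d) := by
            convert (Fintype.prod_subtype_mul_prod_subtype (· ∈ D) fun j => w (x j)).symm
          rw [term, h3, ← pow_add, h4, pow_add, e]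
          ring
  · push Not at h
    obtain ⟨j, hj, h⟩ := h
    have : av (fun Gm : R → P → ZMod q => ∏ j ∈ S, ind Gm (x j)) = 0 := by
      rw [← SB.av_const (Ω := R → P → ZMod q) 0]
      refine SB.av_congr fun Gm => ?_
      simp only [ind_eq, prod_ind]
      refine SB.ind_neg fun hm => h (mem_comb (fun d hd => hm _ ?_) (hm _ hj) (hc j))
      by_contra hdS
      exact hd (hc' j d hj hdS)
    rw [this, mul_zero, mul_zero]
    exact term_nonneg hw _ _ _ _

end ORD

open ORD in
theorem ord (hP : ProbStmt) : OrdStmt := by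
  classical
  intro q _ P R _ _ _ _ w a b ϱ n u i hw ha h0 h1 hT hζ
  have hw0 : ∀ x, 0 ≤ w x := fun x => (hw x).1
  have hb : 0 ≤ b := (hw 0).1.trans (hw 0).2
  have ha0 : 0 ≤ a := ha ▸ sum_nonneg fun x _ => (hw x).1
  have hπ := pi0_pos (q := q) (R := R)
  have hq : (1 : ℝ) ≤ q := by exact_mod_cast (Fact.out : q.Prime).one_le
  set F : ℕ → ℝ := fun e =>
    (a * pi0 q R) ^ (u - e) * (2 * b * (q : ℝ) ^ u) ^ e * ϱ ^ min (2 * i - 2 * e) n with hF
  have hF0 : ∀ e, 0 ≤ F e := fun e => by simp only [hF]; positivity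
  rw [sum_filter]
  rw [tupU]
  calc _ ≤ ∑ x : Fin u → Pt q P R, ∑ S : Finset (Fin u), ∑ D : Finset (Fin u),
        ∑ c : {j // j ∉ D} → {d // d ∈ D} → ZMod q,
          SB.ind (2 * i ≤ (u - D.card) + cov c) * term w S D c x := by
        refine sum_le_sum fun x _ => ?_
        have hn : ∀ (S D : Finset (Fin u)) (c : {j // j ∉ D} → {d // d ∈ D} → ZMod q),
            0 ≤ SB.ind (2 * i ≤ (u - D.card) + cov c) * term w S D c x := fun S D c =>
          mul_nonneg (SB.ind_nonneg _) (term_nonneg hw0 _ _ _ _)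
        have hn' : 0 ≤ ∑ S : Finset (Fin u), ∑ D : Finset (Fin u),
            ∑ c : {j // j ∉ D} → {d // d ∈ D} → ZMod q,
              SB.ind (2 * i ≤ (u - D.card) + cov c) * term w S D c x :=
          sum_nonneg fun S _ => sum_nonneg fun D _ => sum_nonneg fun c _ => hn S D c
        by_cases hx : Function.Injective x
        swap
        · rwa [SB.ind_neg hx, zero_mul]
        rw [SB.ind_pos hx, one_mul]
        split_ifs with hi
        swap
        · exact hn'
        have hp : ∀ f : Pt q P R → ℝ, ∏ y ∈ univ.image x, f y = ∏ j, f (x j) := fun f =>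
          prod_image fun a _ b _ h => hx h
        simp only [hp]
        simp only [prod_add, SB.av_sum, mul_sum, powerset_univ,
          prod_const, mul_comm _ (pi0 q R ^ _), SB.av_const_mul, ← compl_eq_univ_sdiff]
        refine sum_le_sum (N := ℝ) fun S _ => ?_
        obtain ⟨D, c, hD, hc, hc'⟩ := exists_basis (fun j => (x j).1) S
        refine le_trans ?_ (single_le_sum (fun D _ => sum_nonneg fun c _ => hn S D c) (mem_univ D))
        refine le_trans ?_ (single_le_sum (fun c _ => hn S D c) (mem_univ c))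
        rw [SB.ind_pos (hi.trans (nc_le x _ (by simp) D c hD hc)), one_mul]
        exact point hP hw0 x S D c hD hc hc'
    _ = ∑ S : Finset (Fin u), ∑ D : Finset (Fin u), ∑ c : {j // j ∉ D} → {d // d ∈ D} → ZMod q,
          SB.ind (2 * i ≤ (u - D.card) + cov c) * ∑ x, term w S D c x := by
        rw [sum_comm]
        refine sum_congr rfl fun S _ => ?_
        rw [sum_comm]
        refine sum_congr rfl fun D _ => ?_
        rw [sum_comm]
        exact sum_congr rfl fun c _ => (mul_sum _ _ _).symm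
    _ ≤ ∑ _S : Finset (Fin u), ∑ _D : Finset (Fin u), ∑ e ∈ range (u + 1), F e := by
        refine sum_le_sum fun S _ => sum_le_sum fun D _ => ?_
        have hD : D.card ≤ u := by simpa using card_le_univ D
        refine le_trans ?_ (single_le_sum (fun e _ => hF0 e)
          (mem_range.2 (Nat.lt_succ_of_le (Nat.sub_le u D.card))))
        calc _ ≤ ∑ _c : {j // j ∉ D} → {d // d ∈ D} → ZMod q, (a * pi0 q R) ^ D.card *
              (2 * b) ^ (u - D.card) * ϱ ^ min (2 * i - 2 * (u - D.card)) n := by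
              refine sum_le_sum fun c _ => ?_
              by_cases hc : 2 * i ≤ (u - D.card) + cov c
              · rw [SB.ind_pos hc, one_mul]
                exact sum_term hw ha h0 h1 hT hζ S D c hc
              · rw [SB.ind_neg hc, zero_mul]
                positivity
          _ = ((q : ℝ) ^ D.card) ^ (u - D.card) * ((a * pi0 q R) ^ D.card *
              (2 * b) ^ (u - D.card) * ϱ ^ min (2 * i - 2 * (u - D.card)) n) := by
              rw [sum_const, card_univ, Fintype.card_fun, Fintype.card_fun, card_ext, ZMod.card,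
                Fintype.card_coe, nsmul_eq_mul]
              push_cast
              rfl
          _ ≤ ((q : ℝ) ^ u) ^ (u - D.card) * ((a * pi0 q R) ^ D.card *
              (2 * b) ^ (u - D.card) * ϱ ^ min (2 * i - 2 * (u - D.card)) n) := by
              gcongr
          _ = _ := by
              simp only [hF, Nat.sub_sub_self hD, mul_pow (2 * b)]
              ring
    _ = _ := by
        simp only [sum_const, card_univ, Fintype.card_finset, Fintype.card_fin, nsmul_eq_mul]
        push_cast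
        rw [← mul_assoc, ← mul_pow]
        norm_num

end Crest.Agent.R225.Up
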