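import Crest.Agent.R225.UpB

open Finset

namespace Crest.Agent.R225.Up

namespace PB

theorem av_mono {Ω : Type} [Fintype Ω] {f g : Ω → ℝ} (h : ∀ ω, f ω ≤ g ω) : av f ≤ av g :=
  div_le_div_of_nonneg_right (Finset.sum_le_sum fun ω _ => h ω) (Nat.cast_nonneg _)

theorem prob_le_sum {Ω I : Type} [Fintype Ω] (E : Ω → Prop) (s : Finset I) (g : I → Ω → ℝ)
    (hg : ∀ i ω, 0 ≤ g i ω) (h : ∀ ω, E ω → ∃ i ∈ s, 1 ≤ g i ω) :
    prob E ≤ ∑ i ∈ s, av (g i) := by
  have : ∑ i ∈ s, av (g i) = av (fun ω => ∑ i ∈ s, g i ω) := by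
    simp only [av]; rw [Finset.sum_comm, Finset.sum_div]
  rw [this]
  refine av_mono fun ω => ?_
  split_ifs with hE
  · obtain ⟨i, hi, h1⟩ := h ω hE
    exact h1.trans (Finset.single_le_sum (f := fun i => g i ω) (fun j _ => hg j ω) hi)
  · exact Finset.sum_nonneg fun i _ => hg i ω

open Classical in
theorem av_ind {Ω : Type} [Fintype Ω] (E : Ω → Prop) (K : ℝ) :
    av (fun ω => (if E ω then 1 else 0) * K) = prob E * K := by
  simp only [prob, av, ← Finset.sum_mul]; ring

theorem union {Ω I : Type} [Fintype Ω] (E : Ω → Prop) (s : Finset I) (Ev : I → Ω → Prop)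
    (K : I → ℝ) (hK : ∀ i, 0 ≤ K i) (h : ∀ ω, E ω → ∃ i ∈ s, Ev i ω ∧ 1 ≤ K i) :
    prob E ≤ ∑ i ∈ s, prob (Ev i) * K i := by
  simp only [← av_ind]
  refine prob_le_sum E s _ (fun i ω => mul_nonneg (by split_ifs <;> norm_num) (hK i)) fun ω hω => ?_
  obtain ⟨i, hi, h1, h2⟩ := h ω hω
  exact ⟨i, hi, by rw [if_pos h1, one_mul]; exact h2⟩

theorem pi0_pos (q : ℕ) [Fact q.Prime] (R : Type) [Fintype R] : 0 < pi0 q R := by
  have : (0 : ℝ) < q := by exact_mod_cast (Fact.out : q.Prime).pos
  unfold pi0; positivity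

open Classical in
theorem one (q : ℕ) [Fact q.Prime] (P R : Type) [Fintype P] [DecidableEq P] [Fintype R]
    [DecidableEq R] (U : Finset (Pt q P R)) (x : Pt q P R) (F : Finset (Pt q P R) → ℝ)
    (hx : x.1 ∉ Submodule.span (ZMod q) (Prod.fst '' (U : Set (Pt q P R)))) :
    av (fun Gm : R → P → ZMod q => ind Gm x * F (U.filter (mem Gm))) =
      pi0 q R * av (fun Gm : R → P → ZMod q => F (U.filter (mem Gm))) := by
  obtain ⟨ℓ, hℓ0, hℓ1⟩ := LinearMap.exists_extend_of_notMem (0 : _ →ₗ[ZMod q] ZMod q) hx 1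
  have hU : ∀ u ∈ U, ℓ u.1 = 0 := fun u hu =>
    congrArg (fun f : _ →ₗ[ZMod q] ZMod q => f ⟨u.1, Submodule.subset_span ⟨u, hu, rfl⟩⟩) hℓ0
  let lam : P → ZMod q := fun p => ℓ (fun j => if p = j then 1 else 0)
  have hlam : ∀ v : P → ZMod q, ∑ p, lam p * v p = ℓ v := fun v => by
    rw [LinearMap.pi_apply_eq_sum_univ ℓ v]
    exact Finset.sum_congr rfl fun p _ => by simp [lam, mul_comm]
  let sh : (R → ZMod q) → (R → P → ZMod q) := fun y i p => y i * lam p
  have hmem : ∀ (Gm : R → P → ZMod q) (y : R → ZMod q) (u : Pt q P R), mem (Gm + sh y) u ↔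
      ∀ i, ∑ p, Gm i p * u.1 p + y i * ℓ u.1 = u.2 i := fun Gm y u => by
    simp only [mem, Pi.add_apply, sh, add_mul, Finset.sum_add_distrib, mul_assoc, ← Finset.mul_sum,
      hlam]
  have hfil : ∀ (Gm : R → P → ZMod q) (y : R → ZMod q),
      U.filter (mem (Gm + sh y)) = U.filter (mem Gm) := fun Gm y => by
    refine Finset.filter_congr fun u hu => ?_
    rw [hmem, hU u hu]; simp [mem]
  have h1 : ∀ y : R → ZMod q, ∑ Gm : R → P → ZMod q, ind Gm x * F (U.filter (mem Gm)) =
      ∑ Gm : R → P → ZMod q, ind (Gm + sh y) x * F (U.filter (mem Gm)) := fun y => by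
    rw [← Equiv.sum_comp (Equiv.addRight (sh y))]
    simp only [Equiv.coe_addRight, hfil]
  have h2 : ∀ Gm : R → P → ZMod q, ∑ y : R → ZMod q, ind (Gm + sh y) x = 1 := fun Gm => by
    have : ∀ y : R → ZMod q, ind (Gm + sh y) x =
        if y = fun i => x.2 i - ∑ p, Gm i p * x.1 p then 1 else 0 := fun y => by
      unfold ind
      refine if_congr ?_ rfl rfl
      rw [hmem, hℓ1, funext_iff]
      exact forall_congr' fun i => by rw [mul_one, eq_sub_iff_add_eq']
    simp [this]
  have h3 : (Fintype.card (R → ZMod q) : ℝ) *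
      ∑ Gm : R → P → ZMod q, ind Gm x * F (U.filter (mem Gm)) =
      ∑ Gm : R → P → ZMod q, F (U.filter (mem Gm)) := by
    rw [← nsmul_eq_mul, ← Finset.card_univ, ← Finset.sum_const, Finset.sum_congr rfl fun y _ => h1 y,
      Finset.sum_comm]
    simp only [← Finset.sum_mul, h2, one_mul]
  have hq : (0 : ℝ) < q := by exact_mod_cast (Fact.out : q.Prime).pos
  simp only [av]
  rw [← h3, Fintype.card_fun (α := R) (β := ZMod q), ZMod.card, pi0]
  push_cast
  field_simp
  rw [mul_assoc, ← mul_pow, one_div_mul_cancel hq.ne', one_pow, mul_one]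

theorem two (q : ℕ) [Fact q.Prime] (P R : Type) [Fintype P] [DecidableEq P] [Fintype R]
    [DecidableEq R] (D : Type) [Fintype D] (x : D → Pt q P R) (hx : LinearIndependent (ZMod q) x) :
    prob (fun Gm : R → P → ZMod q => ∀ i, mem Gm (x i)) ≤ pi0 q R ^ Fintype.card D := by
  classical
  by_cases hl : LinearIndependent (ZMod q) (fun i => (x i).1)
  · have key : ∀ s : Finset D,
        prob (fun Gm : R → P → ZMod q => ∀ i ∈ s, mem Gm (x i)) = pi0 q R ^ s.card := by
      intro s
      induction s using Finset.induction_on with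
      | empty => simp [prob, av]
      | insert a s ha ih =>
        have hsp : (x a).1 ∉ Submodule.span (ZMod q)
            (Prod.fst '' ((s.image x : Finset (Pt q P R)) : Set (Pt q P R))) := by
          have := hl.notMem_span_image (s := (s : Set D)) (x := a) (by simpa using ha)
          rwa [Finset.coe_image, Set.image_image]
        have h := one q P R (s.image x) (x a) (fun T => if T = s.image x then 1 else 0) hsp
        have e : ∀ Gm : R → P → ZMod q, ((s.image x).filter (mem Gm) = s.image x) ↔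
            ∀ i ∈ s, mem Gm (x i) := fun Gm => by
          rw [Finset.filter_eq_self]; simp
        rw [Finset.card_insert_of_notMem ha, pow_succ', ← ih]
        simp only [e] at h
        simp only [prob]
        convert h using 2
        · funext Gm
          unfold ind
          simp only [Finset.forall_mem_insert]
          by_cases h1 : mem Gm (x a) <;> by_cases h2 : ∀ i ∈ s, mem Gm (x i) <;> simp [h1, h2]
        · convert rfl
    have := key univ
    simp only [mem_univ, true_implies, card_univ] at this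
    exact this.le
  · have hE : ∀ Gm : R → P → ZMod q, ¬ ∀ i, mem Gm (x i) := fun Gm hG => by
      apply hl
      rw [Fintype.linearIndependent_iff] at hx ⊢
      intro g hg
      apply hx g
      refine Prod.ext (by simpa [Prod.fst_sum] using hg) ?_
      funext r
      simp only [Prod.snd_sum, Prod.smul_snd, Finset.sum_apply, Pi.smul_apply, smul_eq_mul,
        Prod.snd_zero, Pi.zero_apply]
      have h1 : ∀ i, (x i).2 r = ∑ p, Gm r p * (x i).1 p := fun i => (hG i r).symm
      simp only [h1, Finset.mul_sum]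
      rw [Finset.sum_comm]
      refine Finset.sum_eq_zero fun p _ => ?_
      have := congrFun hg p
      simp only [Finset.sum_apply, Pi.smul_apply, smul_eq_mul, Pi.zero_apply] at this
      calc _ = Gm r p * ∑ i, g i * (x i).1 p := by
            rw [Finset.mul_sum]; exact Finset.sum_congr rfl fun i _ => by ring
        _ = 0 := by rw [this, mul_zero]
    simp only [prob, av, hE, if_false, sum_const_zero, zero_div]
    exact pow_nonneg (pi0_pos q R).le _

end PB

theorem probS : ProbStmt := fun q _ P R _ _ _ _ => ⟨PB.one q P R, PB.two q P R⟩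

open PB in
theorem bad1 (hP : ProbStmt) : Bad1Stmt := by
  intro q _ P R _ _ _ _ w a b ϱ wmin u0 ρ hw hwm hlow hϱ hT hb hμ
  classical
  have hπ := pi0_pos q R
  have hb0 : 0 ≤ b := (hw 0).1.trans (hw 0).2
  have ha : 0 < a := pos_of_mul_pos_left (hwm.trans_le hμ) hπ.le
  have hq1 : (1 : ℝ) ≤ q := by exact_mod_cast (Fact.out : q.Prime).one_le
  have hr : 1 ≤ a * pi0 q R / wmin := by rw [le_div_iff₀ hwm]; linarith
  let Ev : ℕ → (R → P → ZMod q) → Prop := fun d Gm =>
    ∃ (c : Fin ρ → Fin d → ZMod q) (x : Fin d → Pt q P R), LinearIndependent (ZMod q) x ∧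
      2 * ρ ≤ (univ.filter (fun i => ∃ j, c j i ≠ 0)).card ∧ (∀ i, x i ∈ Lat w Gm) ∧
      ∀ j, ∑ i, c j i • x i ∈ Lat w Gm
  have h1 : prob (fun Gm : R → P → ZMod q => Bad1 q (Lat w Gm) u0 ρ) ≤
      ∑ d ∈ range (u0 + 1), prob (Ev d) * 1 := by
    refine union _ _ Ev (fun _ => 1) (fun _ => zero_le_one) ?_
    rintro Gm ⟨D, c, hDL, hDc, hli, hsum, hcov⟩
    refine ⟨D.card, mem_range.2 (by omega), ?_, le_rfl⟩
    let e : Fin D.card ≃ D := D.equivFin.symm
    refine ⟨fun j i => c j (e i), fun i => e i, hli.comp e e.injective, hcov.trans ?_,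
      fun i => hDL (e i).2, fun j => ?_⟩
    · refine le_trans (Finset.card_le_card ?_) (Finset.card_image_le (f := fun i => (e i : Pt q P R)))
      intro y hy
      obtain ⟨hyD, j, hj⟩ := mem_filter.1 hy
      exact mem_image.2 ⟨e.symm ⟨y, hyD⟩, mem_filter.2 ⟨mem_univ _, j, by simpa using hj⟩, by simp⟩
    · have := hsum j
      rw [← Finset.sum_coe_sort, ← e.sum_comp] at this
      exact this
  have h2 : ∀ d ∈ range (u0 + 1), prob (Ev d) ≤
      (q : ℝ) ^ (u0 * ρ) * (a * pi0 q R / wmin) ^ (u0 + ρ) * ϱ ^ ρ := by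
    intro d hd
    have hd' : d ≤ u0 := by simpa [Nat.lt_succ_iff] using hd
    let W : (Fin ρ → Fin d → ZMod q) → (Fin d → Pt q P R) → ℝ := fun c x =>
      (∏ i, w (x i)) * ∏ j, w (∑ i, c j i • x i)
    have hW : ∀ c x, 0 ≤ W c x := fun c x =>
      mul_nonneg (prod_nonneg fun i _ => (hw _).1) (prod_nonneg fun i _ => (hw _).1)
    let ok : (Fin ρ → Fin d → ZMod q) × (Fin d → Pt q P R) → Prop := fun z =>
      LinearIndependent (ZMod q) z.2 ∧ 2 * ρ ≤ (univ.filter (fun i => ∃ j, z.1 j i ≠ 0)).card
    have h3 := union (Ev d) (univ.filter ok) (fun z Gm => ∀ i, mem Gm (z.2 i))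
      (fun z => W z.1 z.2 / wmin ^ (d + ρ))
      (fun z => div_nonneg (hW _ _) (by positivity)) (by
        rintro Gm ⟨c, x, hli, hcov, hx, hc⟩
        simp only [Lat, mem_filter, mem_univ, true_and] at hx hc
        refine ⟨(c, x), mem_filter.2 ⟨mem_univ _, hli, hcov⟩, fun i => (hx i).2, ?_⟩
        rw [le_div_iff₀ (by positivity), one_mul, pow_add]
        refine mul_le_mul ?_ ?_ (by positivity) (prod_nonneg fun i _ => (hw _).1)
        · simpa using Finset.prod_le_prod (s := (univ : Finset (Fin d))) (f := fun _ => wmin)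
            (fun _ _ => hwm.le) fun i _ => hlow _ (hx i).1
        · simpa using Finset.prod_le_prod (s := (univ : Finset (Fin ρ))) (f := fun _ => wmin)
            (fun _ _ => hwm.le) fun i _ => hlow _ (hc i).1)
    refine h3.trans ?_
    let cv : (Fin ρ → Fin d → ZMod q) → Prop := fun c =>
      2 * ρ ≤ (univ.filter (fun i => ∃ j, c j i ≠ 0)).card
    calc _ ≤ ∑ z ∈ univ.filter ok, pi0 q R ^ d * (W z.1 z.2 / wmin ^ (d + ρ)) := by
          refine Finset.sum_le_sum fun z hz => ?_
          apply mul_le_mul_of_nonneg_right _ (div_nonneg (hW _ _) (by positivity))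
          simpa using (hP q P R).2 (Fin d) z.2 (mem_filter.1 hz).2.1
      _ ≤ ∑ z ∈ (univ.filter cv) ×ˢ (univ : Finset (Fin d → Pt q P R)),
          pi0 q R ^ d * (W z.1 z.2 / wmin ^ (d + ρ)) := by
          apply Finset.sum_le_sum_of_subset_of_nonneg
          · intro z hz
            exact mem_product.2 ⟨mem_filter.2 ⟨mem_univ _, (mem_filter.1 hz).2.2⟩, mem_univ _⟩
          · intro z _ _
            exact mul_nonneg (by positivity) (div_nonneg (hW _ _) (by positivity))
      _ ≤ ∑ c ∈ univ.filter cv, (a * pi0 q R / wmin) ^ (u0 + ρ) * ϱ ^ ρ := by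
          rw [Finset.sum_product]
          refine Finset.sum_le_sum fun c hc => ?_
          have h4 := hT (Fin d) (Fin ρ) c
          have h5 : min ((univ.filter (fun i => ∃ j, c j i ≠ 0)).card - ρ) ρ = ρ := by
            have : 2 * ρ ≤ (univ.filter (fun i => ∃ j, c j i ≠ 0)).card := (mem_filter.1 hc).2
            omega
          have h6 : ∑ x, W c x ≤ a ^ d * (2 * b) ^ ρ * ϱ ^ ρ := by
            simp only [Fintype.card_fin] at h4
            refine h4.trans (le_of_eq ?_)
            congr 2
            convert h5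
          simp only
          rw [← Finset.mul_sum, ← Finset.sum_div]
          calc _ ≤ pi0 q R ^ d * (a ^ d * (a * pi0 q R) ^ ρ * ϱ ^ ρ / wmin ^ (d + ρ)) := by
                gcongr
                exact h6.trans (by gcongr)
            _ = (a * pi0 q R / wmin) ^ (d + ρ) * ϱ ^ ρ := by rw [div_pow, mul_pow, mul_pow]; ring
            _ ≤ _ := by gcongr
      _ ≤ _ := by
          rw [sum_const, nsmul_eq_mul, mul_assoc]
          apply mul_le_mul_of_nonneg_right _ (by positivity)
          calc ((univ.filter cv).card : ℝ) ≤ Fintype.card (Fin ρ → Fin d → ZMod q) := by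
                exact_mod_cast Finset.card_le_univ _
            _ = (q : ℝ) ^ (d * ρ) := by simp [ZMod.card, pow_mul]
            _ ≤ _ := pow_le_pow_right₀ hq1 (Nat.mul_le_mul_right _ hd')
  simp only [mul_one] at h1
  refine h1.trans ((Finset.sum_le_sum h2).trans (le_of_eq ?_))
  rw [sum_const, card_range, nsmul_eq_mul]
  push_cast
  ring

open PB in
theorem bad2 (hP : ProbStmt) : Bad2Stmt := by
  intro q _ P R _ _ _ _ w a b ε2 wmin N hw ha hwm hlow hε hb hpair
  classical
  have hπ := pi0_pos q R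
  have hb0 : 0 ≤ b := (hw 0).1.trans (hw 0).2
  let I := ZMod q × Pt q P R × (Fin (N + 1) → Pt q P R)
  let W : I → ℝ := fun z => ∏ i, (w (z.2.2 i) * w (z.2.1 + z.1 • z.2.2 i))
  have hW : ∀ z, 0 ≤ W z := fun z => prod_nonneg fun i _ => mul_nonneg (hw _).1 (hw _).1
  let v : I → Fin (N + 2) → Pt q P R := fun z => Fin.cons (z.2.1 + z.1 • z.2.2 0) z.2.2
  let ok : I → Prop := fun z => z.1 ≠ 0 ∧ LinearIndependent (ZMod q) (v z)
  have h3 := union (fun Gm : R → P → ZMod q => Bad2 q (Lat w Gm) N) (univ.filter ok)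
    (fun z Gm => ∀ i, mem Gm (v z i)) (fun z => W z / wmin ^ (2 * N + 2))
    (fun z => div_nonneg (hW _) (by positivity)) (by
      rintro Gm ⟨c, z, x, hc, hx, hli⟩
      simp only [Lat, mem_filter, mem_univ, true_and] at hx
      refine ⟨(c, z, x), mem_filter.2 ⟨mem_univ _, hc, hli⟩, ?_, ?_⟩
      swap
      · rw [le_div_iff₀ (by positivity), one_mul]
        have := Finset.prod_le_prod (s := (univ : Finset (Fin (N + 1)))) (f := fun _ => wmin * wmin)
          (g := fun i => w (x i) * w (z + c • x i)) (fun _ _ => by positivity)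
          fun i _ => mul_le_mul (hlow _ (hx i).1.1) (hlow _ (hx i).2.1) hwm.le (hw _).1
        refine le_trans (le_of_eq ?_) this
        simp only [prod_const, card_univ, Fintype.card_fin]
        ring
      · intro i
        refine Fin.cases ?_ (fun i => ?_) i
        · exact (hx 0).2.2
        · exact (hx i).1.2)
  refine h3.trans ?_
  calc _ ≤ ∑ z ∈ univ.filter ok, pi0 q R ^ (N + 2) * (W z / wmin ^ (2 * N + 2)) := by
        refine Finset.sum_le_sum fun z hz => ?_
        apply mul_le_mul_of_nonneg_right _ (div_nonneg (hW _) (by positivity))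
        simpa using (hP q P R).2 (Fin (N + 2)) (v z) (mem_filter.1 hz).2.2
    _ ≤ ∑ z ∈ (univ.filter (fun c : ZMod q => c ≠ 0)) ×ˢ
          (univ : Finset (Pt q P R × (Fin (N + 1) → Pt q P R))),
        pi0 q R ^ (N + 2) * (W z / wmin ^ (2 * N + 2)) := by
        apply Finset.sum_le_sum_of_subset_of_nonneg
        · intro z hz
          exact mem_product.2 ⟨mem_filter.2 ⟨mem_univ _, (mem_filter.1 hz).2.1⟩, mem_univ _⟩
        · intro z _ _
          exact mul_nonneg (by positivity) (div_nonneg (hW _) (by positivity))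
    _ ≤ ∑ c ∈ univ.filter (fun c : ZMod q => c ≠ 0), ε2 * (a * pi0 q R / wmin) ^ (2 * N + 2) := by
        rw [Finset.sum_product]
        refine Finset.sum_le_sum fun c hc => ?_
        have h4 := hpair c (mem_filter.1 hc).2
        have h6 : ∑ y : Pt q P R × (Fin (N + 1) → Pt q P R), W (c, y) =
            ∑ z, (∑ x, w x * w (z + c • x)) ^ (N + 1) := by
          rw [Fintype.sum_prod_type]
          refine Finset.sum_congr rfl fun z _ => ?_
          simp only [W]
          rw [← Fintype.piFinset_univ, ← Finset.prod_univ_sum (fun _ : Fin (N + 1) => univ)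
            (fun _ x => w x * w (z + c • x))]
          simp
        rw [← Finset.mul_sum, ← Finset.sum_div, h6]
        calc _ ≤ pi0 q R ^ (N + 2) * (ε2 * a ^ (N + 2) * (a * pi0 q R) ^ N / wmin ^ (2 * N + 2)) := by
              gcongr
              exact h4.trans (by gcongr)
          _ = _ := by rw [div_pow, mul_pow, mul_pow]; ring
    _ ≤ _ := by
        rw [sum_const, nsmul_eq_mul, mul_assoc]
        apply mul_le_mul_of_nonneg_right _ (by positivity)
        calc ((univ.filter (fun c : ZMod q => c ≠ 0)).card : ℝ) ≤ Fintype.card (ZMod q) := by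
              exact_mod_cast Finset.card_le_univ _
          _ = q := by simp [ZMod.card]

end Crest.Agent.R225.Up
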