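import Crest.Agent.R225.UpD

/-!
# Row 225, S0347, task D1: NMD, RED, ERO
-/

open Finset MeasureTheory
open scoped ENNReal

namespace Crest.Agent.R225.Up

namespace RedL

theorem exists_cols (I : Type) [Fintype I] [DecidableEq I] (Y : Set (I → ℝ))
    (hY : Submodule.span ℝ Y = ⊤) :
    ∃ A : Matrix I I ℝ, A.det ≠ 0 ∧ ∀ j, (fun i => A i j) ∈ Y := by
  obtain ⟨f, hf, -, hli⟩ := Submodule.exists_fun_fin_finrank_span_eq ℝ Y
  have hc : Fintype.card I = Module.finrank ℝ (Submodule.span ℝ Y) := by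
    rw [hY, finrank_top, Module.finrank_fintype_fun_eq_card]
  let e : I ≃ Fin (Module.finrank ℝ (Submodule.span ℝ Y)) := Fintype.equivFinOfCardEq hc
  refine ⟨Matrix.of fun i j => f (e j) i, ?_, fun j => hf (e j)⟩
  have h1 : LinearIndependent ℝ (Matrix.of fun i j => f (e j) i).col :=
    hli.comp e e.injective
  rw [Matrix.linearIndependent_cols_iff_isUnit, Matrix.isUnit_iff_isUnit_det] at h1
  exact h1.ne_zero

theorem det_bdd (I : Type) [Fintype I] [DecidableEq I] (Y : Set (I → ℝ))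
    (hY : Bornology.IsBounded Y) :
    BddAbove ((fun A : Matrix I I ℝ => |A.det|) '' {A | ∀ j, (fun i => A i j) ∈ Y}) := by
  obtain ⟨R, hR⟩ := hY.exists_norm_le
  refine ⟨(Fintype.card I).factorial • |R| ^ Fintype.card I, ?_⟩
  rintro _ ⟨A, hA, rfl⟩
  have := Matrix.det_le (A := A) (abv := AbsoluteValue.abs) (x := |R|) (fun i j => by
    have h1 := norm_le_pi_norm (fun i => A i j) i
    have h2 := hR _ (hA j)
    simp only [AbsoluteValue.abs_apply]
    exact (h1.trans h2).trans (le_abs_self R))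
  simpa using this

/-- homothety bound for the covariogram -/
theorem gK_homo {I : Type} [Fintype I] {K : Set (I → ℝ)} (hK : Convex ℝ K) {x0 x1 : I → ℝ}
    (h0 : x0 ∈ K) (h1 : x1 ∈ K) {l : ℝ} (hl0 : 0 ≤ l) (hl : 2 * l * Fintype.card I ≤ 1)
    (hl1 : l ≤ 1) : volume K ≤ 2 * gK K (l • (x1 - x0)) := by
  have hsub : AffineMap.homothety x0 (1 - l) '' K ⊆ {x | x ∈ K ∧ x + l • (x1 - x0) ∈ K} := by
    rintro _ ⟨z, hz, rfl⟩
    refine ⟨?_, ?_⟩
    · have := hK hz h0 (sub_nonneg.2 hl1) hl0 (by ring)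
      convert this using 1
      simp only [AffineMap.homothety_apply, vsub_eq_sub, vadd_eq_add]
      module
    · have := hK hz h1 (sub_nonneg.2 hl1) hl0 (by ring)
      convert this using 1
      simp only [AffineMap.homothety_apply, vsub_eq_sub, vadd_eq_add]
      module
  have h2 := measure_mono (μ := volume) hsub
  rw [Measure.addHaar_image_homothety, Module.finrank_fintype_fun_eq_card] at h2
  have h3 : (1 / 2 : ℝ) ≤ |(1 - l) ^ Fintype.card I| := by
    have := one_add_mul_le_pow (a := -l) (by linarith) (Fintype.card I)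
    rw [← sub_eq_add_neg] at this
    refine le_trans ?_ (le_abs_self _)
    linarith
  have h4 : (1 : ℝ≥0∞) ≤ 2 * ENNReal.ofReal |(1 - l) ^ Fintype.card I| := by
    rw [← ENNReal.ofReal_ofNat 2, ← ENNReal.ofReal_mul (by norm_num), ← ENNReal.ofReal_one]
    exact ENNReal.ofReal_le_ofReal (by linarith)
  calc volume K = 1 * volume K := (one_mul _).symm
    _ ≤ (2 * ENNReal.ofReal |(1 - l) ^ Fintype.card I|) * volume K := by gcongr
    _ = 2 * (ENNReal.ofReal |(1 - l) ^ Fintype.card I| * volume K) := mul_assoc _ _ _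
    _ ≤ 2 * gK K (l • (x1 - x0)) := by unfold gK; gcongr

theorem vol_pre {I : Type} [Fintype I] [DecidableEq I] {A : Matrix I I ℝ} (hA : A.det ≠ 0)
    (S : Set (I → ℝ)) :
    volume {x | A.mulVec x ∈ S} = ENNReal.ofReal |A.det⁻¹| * volume S := by
  have := Measure.addHaar_preimage_linearMap (μ := (volume : Measure (I → ℝ)))
    (f := Matrix.toLin' A) (by rwa [LinearMap.det_toLin']) S
  rw [LinearMap.det_toLin'] at this
  exact this

theorem cn_add {I : Type} [Fintype I] {ρ : I → ℝ} (hρ : ∀ i, 0 < ρ i) (u v : I → ℝ) :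
    cn ρ (u + v) ≤ cn ρ u + cn ρ v := by
  unfold cn
  rw [← Finset.sum_add_distrib]
  refine Finset.sum_le_sum fun i _ => ?_
  rw [← add_div]
  exact div_le_div_of_nonneg_right (abs_add_le _ _) (hρ i).le

end RedL

open RedL

theorem nmd : NmdStmt := by
  intro I _ _ Y hb hY
  obtain ⟨A0, hA0, hA0Y⟩ := exists_cols I Y hY
  have hbd := det_bdd I Y hb
  set S := (fun A : Matrix I I ℝ => |A.det|) '' {A | ∀ j, (fun i => A i j) ∈ Y} with hS
  have hne : S.Nonempty := ⟨_, A0, hA0Y, rfl⟩
  have hpos : 0 < sSup S := (abs_pos.2 hA0).trans_le (le_csSup hbd ⟨A0, hA0Y, rfl⟩)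
  obtain ⟨_, ⟨A, hAY, rfl⟩, hA⟩ := exists_lt_of_lt_csSup hne (half_lt_self hpos)
  have hA' : 0 < |A.det| := lt_trans (half_pos hpos) hA
  have hdet : A.det ≠ 0 := abs_pos.1 hA'
  refine ⟨A, hdet, hAY, fun y hy => ⟨A.det⁻¹ • Matrix.cramer A y, ?_, ?_⟩⟩
  · refine (pi_norm_le_iff_of_nonneg (by norm_num)).2 fun j => ?_
    have h1 : |(A.updateCol j y).det| ≤ sSup S := by
      refine le_csSup hbd ⟨A.updateCol j y, fun k => ?_, rfl⟩
      by_cases hk : k = j
      · subst hk; simpa using hy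
      · simpa [Matrix.updateCol_ne hk] using hAY k
    simp only [Pi.smul_apply, Matrix.cramer_apply, smul_eq_mul, norm_mul, norm_inv,
      Real.norm_eq_abs]
    rw [inv_mul_le_iff₀ hA']
    simp only at hA
    linarith
  · rw [Matrix.mulVec_smul, Matrix.mulVec_cramer, smul_smul, inv_mul_cancel₀ hdet, one_smul]

theorem red (hN : NmdStmt) : RedStmt := by
  intro I _ _ c hc K hK hcv hint
  have hpos : 0 < volume K := Measure.measure_pos_of_nonempty_interior _ hint
  set Y : Set (I → ℝ) := {u | volume K ≤ 2 * gK K u} with hY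
  have hYb : Bornology.IsBounded Y := by
    obtain ⟨R, hR⟩ := hK.isBounded.exists_norm_le
    refine isBounded_iff_forall_norm_le.2 ⟨R + R, fun u hu => ?_⟩
    have h1 : gK K u ≠ 0 := by
      intro h
      have : volume K ≤ 2 * gK K u := hu
      rw [h, mul_zero] at this
      exact absurd hpos (not_lt.2 this)
    obtain ⟨x, hx1, hx2⟩ := nonempty_of_measure_ne_zero h1
    calc ‖u‖ = ‖(x + u) - x‖ := by congr 1; abel
      _ ≤ ‖x + u‖ + ‖x‖ := norm_sub_le _ _
      _ ≤ R + R := add_le_add (hR _ hx2) (hR _ hx1)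
  have hYs : Submodule.span ℝ Y = ⊤ := by
    obtain ⟨x0, hx0⟩ := hint
    obtain ⟨r, hr, hball⟩ := Metric.mem_nhds_iff.1 (mem_interior_iff_mem_nhds.1 hx0)
    set l : ℝ := 1 / (2 * (Fintype.card I + 1)) with hl
    have hl0 : 0 < l := by positivity
    have hn : (0 : ℝ) ≤ Fintype.card I := Nat.cast_nonneg _
    have hl1 : l ≤ 1 := by rw [hl, div_le_one (by positivity)]; linarith
    have hl2 : 2 * l * Fintype.card I ≤ 1 := by
      rw [hl, mul_one_div, div_mul_eq_mul_div, div_le_one (by positivity)]; linarith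
    have hsub : Metric.ball (0 : I → ℝ) (l * r) ⊆ Y := by
      intro u hu
      have h1 : x0 + l⁻¹ • u ∈ K := by
        apply hball
        rw [mem_ball_zero_iff] at hu
        rw [mem_ball_iff_norm, add_sub_cancel_left, norm_smul, norm_inv, Real.norm_eq_abs,
          abs_of_pos hl0, inv_mul_lt_iff₀ hl0]
        exact hu
      have h2 := gK_homo hcv (interior_subset hx0) h1 hl0.le hl2 hl1
      rwa [add_sub_cancel_left, smul_smul, mul_inv_cancel₀ hl0.ne', one_smul] at h2
    refine Submodule.eq_top_of_nonempty_interior' _ ⟨0, ?_⟩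
    refine mem_interior_iff_mem_nhds.2 (Filter.mem_of_superset
      (Metric.ball_mem_nhds 0 (mul_pos hl0 hr)) (hsub.trans Submodule.subset_span))
  obtain ⟨A, hA, hAY, hAs⟩ := hN I Y hYb hYs
  have hAu : IsUnit A.det := hA.isUnit
  set K' : Set (I → ℝ) := {x | A.mulVec x ∈ K} with hK'
  set κ : ℝ≥0∞ := ENNReal.ofReal |A.det⁻¹| with hκ
  have hκ0 : κ ≠ 0 := by
    rw [hκ]; simpa using hA
  have hκt : κ ≠ ⊤ := ENNReal.ofReal_ne_top
  have hv : volume K' = κ * volume K := vol_pre hA K
  have hg : ∀ u, gK K' u = κ * gK K (A.mulVec u) := by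
    intro u
    unfold gK
    rw [← vol_pre hA]
    congr 1
    ext x
    simp [hK', Matrix.mulVec_add]
  have hiff : ∀ u, volume K' ≤ 2 * gK K' u ↔ A.mulVec u ∈ Y := by
    intro u
    rw [hv, hg, mul_left_comm, ENNReal.mul_le_mul_iff_right hκ0 hκt]
    rfl
  have hN' : Norm K' := by
    refine ⟨?_, ?_, ?_, fun i => ?_, fun u hu => ?_⟩
    · have : K' = (fun y => A⁻¹.mulVec y) '' K := by
        ext x
        constructor
        · intro hx
          exact ⟨_, hx, by simp [Matrix.mulVec_mulVec, Matrix.nonsing_inv_mul _ hAu]⟩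
        · rintro ⟨y, hy, rfl⟩
          simpa [hK', Matrix.mulVec_mulVec, Matrix.mul_nonsing_inv _ hAu] using hy
      rw [this]
      exact hK.image (by fun_prop)
    · exact hcv.linear_preimage (Matrix.toLin' A)
    · rw [hv]; exact ENNReal.mul_pos hκ0 hpos.ne'
    · rw [hiff, Matrix.mulVec_single_one]
      exact hAY i
    · obtain ⟨s, hs, e⟩ := hAs _ ((hiff u).1 hu)
      have : u = s := by
        have h2 := congrArg (fun y => A⁻¹.mulVec y) e
        simpa [Matrix.mulVec_mulVec, Matrix.nonsing_inv_mul _ hAu] using h2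
      rwa [this]
  obtain ⟨g, hg0, hcov, hvol⟩ := hc K' hN'
  refine ⟨A * g, by rw [Matrix.det_mul]; exact mul_ne_zero hA hg0, fun x => ?_, ?_⟩
  · obtain ⟨z, hz⟩ := hcov (A⁻¹.mulVec x)
    refine ⟨z, ?_⟩
    simpa [hK', Matrix.mulVec_sub, Matrix.mulVec_mulVec, Matrix.mul_nonsing_inv _ hAu] using hz
  · rw [hv, ENNReal.toReal_mul, hκ, ENNReal.toReal_ofReal (abs_nonneg _), abs_inv] at hvol
    rw [Matrix.det_mul, abs_mul]
    convert hvol using 1
    field_simp

theorem eroS : EroStmt := by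
  intro I _ K ρ hρ hK hcv
  refine ⟨fun t ht => ?_, fun t s x u hx hu u' hu' => ?_⟩
  · have hsub : ero K ρ t ⊆ K := fun x hx => by simpa using hx 0 (by simpa [cn] using ht)
    refine ⟨hsub, hK.of_isClosed_subset ?_ hsub, ?_⟩
    · have : ero K ρ t = ⋂ u ∈ {u | cn ρ u ≤ t}, (fun x => x + u) ⁻¹' K := by
        ext x; simp [ero]
      rw [this]
      exact isClosed_biInter fun u _ => hK.isClosed.preimage (by fun_prop)
    · intro x hx y hy a b ha hb hab u hu
      have := hcv (hx u hu) (hy u hu) ha hb hab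
      convert this using 1
      rw [smul_add, smul_add, add_add_add_comm, ← add_smul, hab, one_smul]
  · rw [add_assoc]
    exact hx _ ((cn_add hρ u u').trans (by linarith))

end Crest.Agent.R225.Up
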