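import Crest.Agent.R225.UpD
import Crest.Agent.R225.UpAv

/-!
# Row 225, task D7: the failure probability of one row
-/

open Finset

namespace Crest.Agent.R225.Up

theorem row (hT : TreeStmt) (hB : BaseStmt) : RowStmt := by
  intro q Q M _ _ K R _ _ _ _ G S C a wmin ϱ ε2 V Θ β' α β i t' u B hq hG hWin hinj hWt hCore hBq
    h1 h2 h3 h4 h5 h6 h7 h8 h9 h10 h11 h12
  classical
  choose T hT1 hT2 hT3 using fun x => hT M G (C x) hG (hWin x)
  obtain ⟨W0, h01, h02, -⟩ := hT M G ∅ hG (by intro j hj; simp at hj)
  set w : (K ⊕ R → ℤ) → ℝ := fun x => (C x).card / ∏ l : Fin M, (G l : ℝ) with hw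
  let X : Pt q (Option K) R → Option K → ZMod Q := fun γ o => o.elim 1
    (fun p => if h : ∃ x ∈ S, toPt q x = γ then ((h.choose (Sum.inl p) : ℤ) : ZMod Q) else 0)
  let W : Pt q (Option K) R → (ℕ → ℕ) → ℕ → ℝ := fun γ =>
    if h : ∃ x ∈ S, toPt q x = γ then T h.choose else W0
  have hex : ∀ γ, push q S w γ ≠ 0 → ∃ x ∈ S, toPt q x = γ := by
    intro γ hγ
    by_contra hn
    apply hγ
    unfold push
    apply Finset.sum_eq_zero
    intro x hx
    simp only [Finset.mem_filter] at hx
    exact absurd ⟨x, hx.1, hx.2⟩ hn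
  have hWM : ∀ γ lab, W γ lab M = push q S w γ := by
    intro γ lab
    by_cases h : ∃ x ∈ S, toPt q x = γ
    · simp only [W, dif_pos h]
      rw [hT2]
      unfold push
      rw [Finset.sum_eq_single_of_mem h.choose]
      · simp only [Finset.mem_filter]
        exact h.choose_spec
      · intro y hy hne
        simp only [Finset.mem_filter] at hy
        exact absurd (hinj y hy.1 _ h.choose_spec.1 (hy.2.trans h.choose_spec.2.symm)) hne
    · simp only [W, dif_neg h]
      rw [h02]
      by_contra hne
      apply h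
      apply hex
      intro h0
      apply hne
      rw [h0]; simp
  have hTree : ∀ γ, Tree G M (W γ) := by
    intro γ
    by_cases h : ∃ x ∈ S, toPt q x = γ
    · simp only [W, dif_pos h]; exact hT1 _
    · simp only [W, dif_neg h]; exact h01
  let Fl : Finset (Pt q (Option K) R) → ℝ := fun A =>
    prob (fun θ : Fin M → Option K → ZMod Q => ∀ γ ∈ A, W γ (labs X G θ γ) 0 = 0)
  have key := hB q (Option K) R (push q S w) none a ((1 / 2) ^ M) wmin ϱ ε2 V Θ β' α β i t' u B Q hq
    X Fl hWt ?_ hBq h1 h2 h3 h4 h5 h6 h7 h8 h9 h10 h11 h12 ?_ ?_ ?_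
  · refine le_trans ?_ key
    rw [SB.prob_eq, SB.av_prod]
    refine SB.av_mono fun Gm => ?_
    simp only [Fl]
    rw [SB.prob_eq]
    refine SB.av_mono fun θ => SB.ind_mono fun hn γ hγ => ?_
    by_contra hne
    apply hn
    simp only [Lat, Finset.mem_filter, Finset.mem_univ, true_and] at hγ
    have h := hex γ hγ.1
    simp only [W, dif_pos h] at hne
    obtain ⟨j, hj, hl⟩ := hT3 _ _ hne
    refine ⟨h.choose, j, hj, ?_, fun l => ?_⟩
    · rw [h.choose_spec.2]; exact hγ.2
    · have := hl l
      simp only [labs, l.2, dif_pos, val, Fintype.sum_option, X, Option.elim, dif_pos h,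
        mul_one] at this
      exact this
  · intro γ hγ p
    have h := hex γ hγ
    cases p with
    | none =>
      simp only [X, Option.elim, map_one]
      exact (hWt.aff γ hγ).symm
    | some p =>
      simp only [X, Option.elim, dif_pos h, map_intCast]
      have := congrArg (fun z : Pt q (Option K) R => z.1 (some p)) h.choose_spec.2
      simpa [toPt] using this
  · intro A
    simp only [Fl]
    rw [SB.prob_eq]
    exact SB.av_le_const fun θ => SB.ind_le_one _
  · intro A A' hA
    simp only [Fl]
    rw [SB.prob_eq, SB.prob_eq]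
    exact SB.av_mono fun θ => SB.ind_mono fun h γ hγ => h γ (hA hγ)
  · intro A hA1 hA2
    have := hCore (Pt q (Option K) R) (Option K) X none W A (fun _ => rfl) hTree
      (by simpa only [hWM] using hA1) (by simpa only [hWM] using hA2)
    simpa only [hWM] using this

end Crest.Agent.R225.Up
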