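import Crest.Agent.R225.UpD

/-! # Row 225, task D4: good rows -/

open Finset MeasureTheory Filter Topology
open scoped ENNReal

namespace Crest.Agent.R225.Up

namespace ROWS

lemma convex_of_mid {E : Type} [NormedAddCommGroup E] [NormedSpace ℝ E] {S : Set E} (hc : IsClosed S)
    (hm : ∀ x ∈ S, ∀ y ∈ S, (1 / 2 : ℝ) • (x + y) ∈ S) : Convex ℝ S := by
  intro x hx y hy a b ha hb hab
  have key : ∀ n k : ℕ, k ≤ 2 ^ n → x + ((k : ℝ) / 2 ^ n) • (y - x) ∈ S := by
    intro n
    induction n with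
    | zero =>
      intro k hk
      rcases Nat.le_one_iff_eq_zero_or_eq_one.1 hk with rfl | rfl
      · simpa using hx
      · simpa using hy
    | succ n ih =>
      intro k hk
      have h1 := hm _ (ih (k / 2) (by rw [pow_succ] at hk; omega)) _
        (ih ((k + 1) / 2) (by rw [pow_succ] at hk; omega))
      convert h1 using 1
      have h2 : (k : ℝ) = ((k / 2 : ℕ) : ℝ) + (((k + 1) / 2 : ℕ) : ℝ) := by
        exact_mod_cast (by omega : k = k / 2 + (k + 1) / 2)
      have h3 : (k : ℝ) / 2 ^ (n + 1) =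
          1 / 2 * (((k / 2 : ℕ) : ℝ) / 2 ^ n) + 1 / 2 * ((((k + 1) / 2 : ℕ) : ℝ) / 2 ^ n) := by
        conv_lhs => rw [h2]
        field_simp
        ring
      rw [h3]
      module
  have hb1 : b ≤ 1 := by linarith
  have ht : Tendsto (fun n : ℕ => x + ((⌊b * 2 ^ n⌋₊ : ℝ) / 2 ^ n) • (y - x)) atTop
      (𝓝 (x + b • (y - x))) :=
    (((tendsto_nat_floor_mul_div_atTop hb).comp
      (tendsto_pow_atTop_atTop_of_one_lt (one_lt_two (α := ℝ)))).smul_const _).const_add _
  have := hc.mem_of_tendsto ht (Eventually.of_forall fun n => key n _ (by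
    refine Nat.floor_le_of_le ?_
    push_cast
    have : (0 : ℝ) < 2 ^ n := by positivity
    nlinarith))
  convert this using 1
  rw [show a = 1 - b by linarith]
  module

lemma convex_closure {E : Type} [NormedAddCommGroup E] [NormedSpace ℝ E] {S : Set E}
    (hm : ∀ x ∈ S, ∀ y ∈ S, (1 / 2 : ℝ) • (x + y) ∈ S) : Convex ℝ (closure S) :=
  convex_of_mid isClosed_closure fun _ hx _ hy =>
    map_mem_closure₂ (f := fun x y : E => (1 / 2 : ℝ) • (x + y)) (by fun_prop) hx hy hm

lemma lint_half {d : ℕ} (F : (Fin d → ℝ) → ℝ≥0∞) (hF : Measurable F) (w : Fin d → ℝ) :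
    ∫⁻ v, F ((1 / 2 : ℝ) • (v + w)) = 2 ^ d * ∫⁻ v, F v := by
  rw [lintegral_add_right_eq_self (fun v => F ((1 / 2 : ℝ) • v)) w,
    ← lintegral_map hF (by fun_prop), Measure.map_addHaar_smul _ (by norm_num), lintegral_smul_measure]
  congr 1
  simp only [Module.finrank_fintype_fun_eq_card, Fintype.card_fin, one_div, inv_pow, inv_inv]
  rw [abs_of_pos (by positivity), ENNReal.ofReal_pow (by norm_num)]
  simp

/-- the lattice with basis `η` -/
lemma lattice (hN : NmdStmt) {d : ℕ} (Y : Set (Fin d → ℝ)) (hb : Bornology.IsBounded Y)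
    (hm : ∀ x ∈ Y, ∀ y ∈ Y, (1 / 2 : ℝ) • (x + y) ∈ Y) (hpos : volume Y ≠ 0) :
    ∃ η : Matrix (Fin d) (Fin d) ℝ, η.det ≠ 0 ∧
      volume Y ≤ ENNReal.ofReal (4 ^ d * (d + 1) ^ d * |η.det|) ∧
      ∀ y : Fin d → ℝ, ∃ b0 : Fin d → ℤ, ∀ o, y - η.mulVec (fun i => (nb b0 o i : ℝ)) ∈ closure Y := by
  obtain ⟨y0, hy0⟩ := nonempty_of_measure_ne_zero hpos
  set Y' : Set (Fin d → ℝ) := (fun y => y + y0) ⁻¹' Y with hY'
  have hv : volume Y' = volume Y := measure_preimage_add_right _ _ _
  have hb' : Bornology.IsBounded Y' := by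
    obtain ⟨R, hR⟩ := hb.exists_norm_le
    refine (Metric.isBounded_closedBall (x := (0 : Fin d → ℝ)) (r := R + ‖y0‖)).subset fun y hy => ?_
    rw [mem_closedBall_zero_iff]
    have := norm_sub_le (y + y0) y0
    rw [add_sub_cancel_right] at this
    linarith [hR _ hy]
  have hs : Submodule.span ℝ Y' = ⊤ := by
    by_contra h
    have := Measure.addHaar_submodule (volume : Measure (Fin d → ℝ)) _ h
    exact hpos (hv ▸ measure_mono_null Submodule.subset_span this)
  obtain ⟨A, hA, hcol, hall⟩ := hN (Fin d) Y' hb' hs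
  have hd : (0 : ℝ) < d + 1 := by positivity
  have hdet : ((-1 / (d + 1) : ℝ) • A).det = (-1 / (d + 1)) ^ d * A.det := by
    rw [Matrix.det_smul, Fintype.card_fin]
  refine ⟨(-1 / (d + 1) : ℝ) • A, ?_, ?_, fun y => ?_⟩
  · rw [hdet]
    exact mul_ne_zero (pow_ne_zero _ (div_ne_zero (by norm_num) hd.ne')) hA
  · have h1 : Y' ⊆ (Matrix.toLin' A) '' Metric.closedBall 0 2 := by
      intro y hy
      obtain ⟨s, hs, rfl⟩ := hall y hy
      exact ⟨s, mem_closedBall_zero_iff.2 hs, rfl⟩
    rw [← hv]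
    refine (measure_mono h1).trans ?_
    rw [Measure.addHaar_image_linearMap, LinearMap.det_toLin', Real.volume_pi_closedBall _ (by norm_num),
      ← ENNReal.ofReal_mul (abs_nonneg _), hdet, Fintype.card_fin]
    refine ENNReal.ofReal_le_ofReal (le_of_eq ?_)
    rw [abs_mul, abs_pow, abs_div, abs_neg, abs_one, abs_of_pos hd, div_pow]
    field_simp
    norm_num
  · let t : Fin d → ℝ := ((d : ℝ) + 1) • A⁻¹.mulVec (y - y0)
    refine ⟨fun i => -⌊t i⌋, fun o => ?_⟩
    let s : Fin d → ℝ := fun i => (t i + (nb (fun i => -⌊t i⌋) o i : ℝ)) / (d + 1)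
    let ob : Fin d → ℤ := o.elim 0 (fun j => Pi.single j 1)
    have hob0 : ∀ i, 0 ≤ ob i := by
      intro i
      cases o with
      | none => simp [ob]
      | some j => simp only [ob, Option.elim, Pi.single_apply]; split_ifs <;> simp
    have hob1 : ∑ i, ob i ≤ 1 := by
      cases o with
      | none => simp [ob]
      | some j => simp [ob]
    have hs : ∀ i, s i = (Int.fract (t i) + ob i) / (d + 1) := by
      intro i
      simp only [s, nb, Pi.add_apply, ob, Int.fract]
      push_cast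
      ring
    have hs0 : ∀ i, 0 ≤ s i := fun i => by
      rw [hs]
      have := Int.fract_nonneg (t i)
      have : (0 : ℝ) ≤ ob i := by exact_mod_cast hob0 i
      positivity
    have hs1 : ∑ i, s i ≤ 1 := by
      simp_rw [hs]
      rw [← Finset.sum_div, div_le_one hd, Finset.sum_add_distrib]
      have h1 : ∑ i, Int.fract (t i) ≤ ∑ _i : Fin d, (1 : ℝ) :=
        Finset.sum_le_sum fun i _ => (Int.fract_lt_one _).le
      have h2 : ∑ i, (ob i : ℝ) ≤ 1 := by exact_mod_cast hob1
      simp only [Finset.sum_const, Finset.card_univ, Fintype.card_fin, nsmul_eq_mul, mul_one] at h1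
      linarith
    have hcv := convex_closure hm
    have hmem := hcv.sum_mem (t := univ) (w := fun o : Option (Fin d) => o.elim (1 - ∑ i, s i) s)
      (z := fun o : Option (Fin d) => o.elim y0 (fun j => (fun i => A i j) + y0))
      (fun o _ => by cases o with
        | none => simpa using hs1
        | some j => exact hs0 j)
      (by simp [Fintype.sum_option])
      (fun o _ => by cases o with
        | none => exact subset_closure hy0
        | some j => exact subset_closure (hcol j))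
    convert hmem using 1
    have h1 : A.mulVec t = ((d : ℝ) + 1) • (y - y0) := by
      simp only [t]
      rw [Matrix.mulVec_smul, Matrix.mulVec_mulVec, Matrix.mul_nonsing_inv _ (Ne.isUnit hA),
        Matrix.one_mulVec]
    have h2 : A.mulVec s = (1 / ((d : ℝ) + 1)) •
        (A.mulVec t + A.mulVec (fun i => (nb (fun i => -⌊t i⌋) o i : ℝ))) := by
      rw [← Matrix.mulVec_add, ← Matrix.mulVec_smul]
      congr 1
      funext i
      simp only [s, Pi.smul_apply, Pi.add_apply, smul_eq_mul]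
      ring
    have h3 : ∑ o : Option (Fin d), o.elim (1 - ∑ i, s i) s •
        o.elim y0 (fun j => (fun i => A i j) + y0) = y0 + A.mulVec s := by
      funext i
      simp only [Fintype.sum_option, Option.elim, Pi.add_apply, Pi.smul_apply, smul_eq_mul,
        Finset.sum_apply, Matrix.mulVec, dotProduct, mul_add, Finset.sum_add_distrib,
        ← Finset.sum_mul]
      simp_rw [mul_comm (s _) (A i _)]
      ring
    rw [h3, h2, h1, Matrix.smul_mulVec]
    funext i
    simp only [Pi.add_apply, Pi.smul_apply, Pi.sub_apply, smul_eq_mul]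
    field_simp
    ring

lemma meas_slab {A : Type} [Fintype A] {d : ℕ} (e : ℝ) (v : Fin d → ℝ) :
    MeasurableSet (slab (A := A) e v) := by
  have : slab (A := A) e v = ⋂ j, {x | v j ≤ x (Sum.inr j)} ∩ {x | x (Sum.inr j) < v j + e} := by
    ext; simp [slab]
  rw [this]
  exact MeasurableSet.iInter fun j => (measurableSet_le (by fun_prop) (by fun_prop)).inter
    (measurableSet_lt (by fun_prop) (by fun_prop))

end ROWS

theorem rows (hN : NmdStmt) (hE : EroStmt) (hF : NfStmt) (hS : SlabStmt) : RowsStmt := by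
  classical
  intro A _ _ d n K ρ e hn hn1 hK hρ hρ24 he he1 hρe
  obtain ⟨-, hdiam, hero, ⟨xc, hxc⟩, -⟩ := hF _ K n hn hn1 hK
  obtain ⟨hE1, hE2⟩ := hE _ K ρ hρ hK.cpt hK.cvx
  obtain ⟨hS1, hS2, -⟩ := hS A d e he
  have hn' : (1 : ℝ) ≤ n := by exact_mod_cast hn1
  have hKm := hK.cpt.measurableSet
  have hKf : volume K ≠ ⊤ := hK.cpt.measure_lt_top.ne
  have hx0 : xc ∈ K := by simpa using hxc 0 (by rw [norm_zero]; positivity)
  have hco : ∀ x ∈ K, ∀ i, |x i - xc i| ≤ 4 * n := fun x hx i =>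
    (norm_le_pi_norm (x - xc) i).trans (hdiam x hx xc hx0)
  set 𝔪 := ⨆ v, volume (K ∩ slab e v) with h𝔪
  have hle : ∀ v, volume (K ∩ slab e v) ≤ 𝔪 := fun v => le_iSup (fun v => volume (K ∩ slab e v)) v
  have h𝔪f : 𝔪 ≠ ⊤ := ne_top_of_le_ne_top hKf (iSup_le fun v => measure_mono Set.inter_subset_left)
  have hed : ENNReal.ofReal (e ^ d) ≠ 0 := by simpa using pow_pos he d
  have h𝔪0 : 𝔪 ≠ 0 := by
    intro h
    have h1 := (hS1 K hKm).2
    rw [lintegral_congr (g := fun _ => 0) (fun v => le_zero_iff.1 (h ▸ hle v)), lintegral_zero] at h1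
    exact mul_ne_zero hed hK.pos.ne' h1.symm
  set m := 𝔪.toReal with hm
  have hm0 : 0 < m := ENNReal.toReal_pos h𝔪0 h𝔪f
  have hmm : ENNReal.ofReal m = 𝔪 := ENNReal.ofReal_toReal h𝔪f
  have hcd : 0 < cdd d := by unfold cdd; positivity
  have hc0 : ENNReal.ofReal (cdd d * m) ≠ 0 := by simpa using mul_pos hcd hm0
  -- support of the slab function
  have hsupp : ∀ v, volume (K ∩ slab e v) ≠ 0 →
      v ∈ Set.Icc (fun j => xc (Sum.inr j) - 4 * n - e) (fun j => xc (Sum.inr j) + 4 * n) := by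
    intro v hv
    obtain ⟨x, hx, hxs⟩ := nonempty_of_measure_ne_zero hv
    constructor <;> intro j <;> have h1 := abs_le.1 (hco x hx (Sum.inr j)) <;> have h2 := hxs j <;>
      simp only <;> linarith [h1.1, h1.2, h2.1, h2.2]
  set E := ero K ρ 3 with hEdef
  obtain ⟨hEK, hEc, hEv⟩ := hE1 3 (by norm_num)
  have hEm := hEc.measurableSet
  set Y : Set (Fin d → ℝ) := {v | ENNReal.ofReal (cdd d * m) ≤ volume (E ∩ slab e v)} with hY
  have hYm : MeasurableSet Y := measurableSet_le measurable_const (hS1 E hEm).1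
  have hYb : Bornology.IsBounded Y := by
    refine (Metric.isBounded_Icc _ _).subset fun v hv => hsupp v fun h => hc0 ?_
    exact le_zero_iff.1 (h ▸ (le_trans hv (measure_mono (Set.inter_subset_inter_left _ hEK))))
  have hmidE : ∀ x ∈ E, ∀ y ∈ E, (1 / 2 : ℝ) • (x + y) ∈ E := fun x hx y hy => by
    rw [smul_add]; exact hEv hx hy (by norm_num) (by norm_num) (by norm_num)
  have hYmid : ∀ x ∈ Y, ∀ y ∈ Y, (1 / 2 : ℝ) • (x + y) ∈ Y := by
    intro x hx y hy
    have h1 := hS2 E E E x y hEm hEm hEm hmidE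
    have h2 : ENNReal.ofReal (cdd d * m) ^ 2 ≤ _ := (by rw [sq]; exact mul_le_mul' hx hy : _ ≤ _).trans h1
    exact (ENNReal.pow_le_pow_left_iff two_ne_zero).1 h2
  -- the volume of `Y`
  obtain ⟨w, hw⟩ : ∃ w, 𝔪 / 2 < volume (K ∩ slab e w) :=
    lt_iSup_iff.1 (ENNReal.half_lt_self h𝔪0 h𝔪f)
  have hoff : ∀ v, v ∉ Y → 4 * 2 ^ d * volume (E ∩ slab e v) ≤
      volume (K ∩ slab e ((1 / 2 : ℝ) • (v + w))) := by
    intro v hv
    have h1 := hS2 E K K v w hEm hKm hKm fun x hx y hy => by
      rw [smul_add]; exact hK.cvx (hEK hx) hy (by norm_num) (by norm_num) (by norm_num)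
    have h2 : volume (E ∩ slab e v) ≤ ENNReal.ofReal (cdd d * m) := (not_le.1 hv).le
    refine (ENNReal.pow_le_pow_left_iff two_ne_zero).1 (le_trans ?_ h1)
    have h3 : (4 * 2 ^ d) ^ 2 * ENNReal.ofReal (cdd d * m) = 𝔪 / 2 := by
      rw [← hmm, show (2 : ℝ≥0∞) = ENNReal.ofReal 2 by simp, show (4 : ℝ≥0∞) = ENNReal.ofReal 4 by simp,
        ← ENNReal.ofReal_pow (by norm_num), ← ENNReal.ofReal_mul (by norm_num),
        ← ENNReal.ofReal_pow (by positivity), ← ENNReal.ofReal_mul (by positivity),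
        ← ENNReal.ofReal_div_of_pos (by norm_num)]
      congr 1
      unfold cdd
      rw [show (4 : ℝ) ^ d = (2 ^ d) ^ 2 by rw [← pow_mul, mul_comm, pow_mul]; norm_num]
      field_simp
      norm_num
    calc (4 * 2 ^ d * volume (E ∩ slab e v)) ^ 2
        = volume (E ∩ slab e v) * ((4 * 2 ^ d) ^ 2 * volume (E ∩ slab e v)) := by ring
      _ ≤ volume (E ∩ slab e v) * ((4 * 2 ^ d) ^ 2 * ENNReal.ofReal (cdd d * m)) := by gcongr
      _ ≤ _ := by rw [h3]; gcongr
  have hvE : volume K ≤ 2 * volume E := by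
    have hsum : 0 ≤ ∑ i, ρ i := Finset.sum_nonneg fun i _ => (hρ i).le
    have h1 := hero ρ 3 hρ (by norm_num) fun i => by
      have := Finset.single_le_sum (f := ρ) (fun i _ => (hρ i).le) (Finset.mem_univ i)
      linarith
    have h2 : ENNReal.ofReal (4 * 3 * ∑ i, ρ i) ≤ 2⁻¹ := by
      rw [show (2⁻¹ : ℝ≥0∞) = ENNReal.ofReal 2⁻¹ by rw [ENNReal.ofReal_inv_of_pos (by norm_num)]; simp]
      exact ENNReal.ofReal_le_ofReal (by linarith)
    have h3 : volume K ≤ volume E + 2⁻¹ * volume K := h1.trans (by gcongr)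
    have h4 : 2 * volume K ≤ 2 * volume E + volume K := by
      calc 2 * volume K ≤ 2 * (volume E + 2⁻¹ * volume K) := by gcongr
        _ = _ := by rw [mul_add, ← mul_assoc, ENNReal.mul_inv_cancel (by simp) (by simp), one_mul]
    rw [two_mul] at h4
    exact ENNReal.le_of_add_le_add_right hKf h4
  have hYv : ENNReal.ofReal (e ^ d) * volume K ≤ 4 * (𝔪 * volume Y) := by
    have h2d : (2 : ℝ≥0∞) ^ d ≠ 0 := by simp
    have h1 : ∫⁻ v in Y, volume (E ∩ slab e v) ≤ 𝔪 * volume Y := by
      rw [← setLIntegral_const]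
      exact lintegral_mono fun v => (measure_mono (Set.inter_subset_inter_left _ hEK)).trans (hle v)
    have h2 : 4 * ∫⁻ v in Yᶜ, volume (E ∩ slab e v) ≤ ENNReal.ofReal (e ^ d) * volume K := by
      refine (ENNReal.mul_le_mul_iff_right h2d (by simp)).1 ?_
      rw [← (hS1 K hKm).2, ← ROWS.lint_half _ (hS1 K hKm).1 w, ← mul_assoc, mul_comm _ 4,
        ← lintegral_const_mul _ (hS1 E hEm).1]
      refine le_trans (setLIntegral_mono' hYm.compl fun v hv => hoff v hv) ?_
      exact setLIntegral_le_lintegral _ _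
    have h3 : 2 * (ENNReal.ofReal (e ^ d) * volume K) ≤
        4 * (𝔪 * volume Y) + ENNReal.ofReal (e ^ d) * volume K := by
      calc 2 * (ENNReal.ofReal (e ^ d) * volume K)
          ≤ 2 * (ENNReal.ofReal (e ^ d) * (2 * volume E)) := by gcongr
        _ = 4 * (ENNReal.ofReal (e ^ d) * volume E) := by ring
        _ = 4 * (∫⁻ v in Y, volume (E ∩ slab e v)) + 4 * ∫⁻ v in Yᶜ, volume (E ∩ slab e v) := by
          rw [← (hS1 E hEm).2, ← lintegral_add_compl _ hYm, mul_add]
        _ ≤ _ := by gcongr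
    rw [two_mul] at h3
    exact ENNReal.le_of_add_le_add_right (ENNReal.mul_ne_top (by simp) hKf) h3
  have hY0 : volume Y ≠ 0 := by
    intro h
    rw [h, mul_zero, mul_zero] at hYv
    exact mul_ne_zero hed hK.pos.ne' (le_zero_iff.1 hYv)
  obtain ⟨η, hη, hvol, hcov⟩ := ROWS.lattice hN Y hYb hYmid hY0
  let P := Fintype.piFinset fun j : Fin d =>
    Finset.Icc ⌊(xc (Sum.inr j) - 4 * n) / e⌋ ⌊(xc (Sum.inr j) + 4 * n) / e⌋
  refine ⟨m, η, P.filter fun b =>
    ENNReal.ofReal (cdd d * m) ≤ volume (ero K ρ 2 ∩ slab e (fun j => e * b j)), hm0, hη,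
    fun v => hmm ▸ hle v, ?_, ?_, ?_, ?_, fun b hb => (Finset.mem_filter.1 hb).2, fun y => ?_⟩
  · have h1 : ENNReal.ofReal (e ^ d) * volume K ≤ ENNReal.ofReal (Cdd d * m * |η.det|) := by
      refine hYv.trans ?_
      calc 4 * (𝔪 * volume Y) ≤ 4 * (𝔪 * ENNReal.ofReal (4 ^ d * (d + 1) ^ d * |η.det|)) := by gcongr
        _ = _ := by
          rw [← hmm, show (4 : ℝ≥0∞) = ENNReal.ofReal 4 by simp, ← ENNReal.ofReal_mul hm0.le,
            ← ENNReal.ofReal_mul (by norm_num)]
          congr 1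
          unfold Cdd
          ring
    have h2 := ENNReal.toReal_mono (by simp) h1
    rwa [ENNReal.toReal_mul, ENNReal.toReal_ofReal (by positivity),
      ENNReal.toReal_ofReal (by unfold Cdd; positivity)] at h2
  · have h1 : ENNReal.ofReal ((1 / (4 * (n : ℝ) ^ 2)) ^ n) ≤ volume K := by
      have : Metric.closedBall xc (1 / (8 * (n : ℝ) ^ 2)) ⊆ K := fun x hx => by
        simpa using hxc (x - xc) (by rwa [Metric.mem_closedBall, dist_eq_norm] at hx)
      refine le_trans (le_of_eq ?_) (measure_mono this)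
      rw [Real.volume_pi_closedBall _ (by positivity), hn]
      congr 2
      field_simp
      norm_num
    have h2 : ENNReal.ofReal (e ^ d) * volume K ≤ 𝔪 * ENNReal.ofReal ((9 * n) ^ d) := by
      rw [← (hS1 K hKm).2]
      calc _ ≤ ∫⁻ v, (Set.Icc (fun j => xc (Sum.inr j) - 4 * n - e)
            (fun j => xc (Sum.inr j) + 4 * n)).indicator (fun _ => 𝔪) v := by
            refine lintegral_mono fun v => ?_
            by_cases hv : volume (K ∩ slab e v) = 0
            · simp [hv]
            · rw [Set.indicator_of_mem (hsupp v hv)]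
              exact hle v
        _ ≤ _ := by
          rw [lintegral_indicator measurableSet_Icc, setLIntegral_const, Real.volume_Icc_pi]
          gcongr
          rw [ENNReal.ofReal_pow (by positivity)]
          refine (Finset.prod_le_pow_card _ _ (ENNReal.ofReal (9 * n)) fun j _ => ?_).trans (by simp)
          exact ENNReal.ofReal_le_ofReal (by linarith)
    have h3 : ENNReal.ofReal (e ^ d * (1 / (4 * (n : ℝ) ^ 2)) ^ n) ≤ ENNReal.ofReal ((9 * n) ^ d * m) := by
      rw [ENNReal.ofReal_mul (by positivity), ENNReal.ofReal_mul (by positivity), hmm, mul_comm _ 𝔪]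
      exact le_trans (by gcongr) h2
    exact (ENNReal.ofReal_le_ofReal_iff (by positivity)).1 h3
  · refine ENNReal.toReal_le_of_le_ofReal (by positivity) (iSup_le fun v => ?_)
    have h1 : K ∩ slab e v ⊆ Set.Icc (Sum.elim (fun a => xc (Sum.inl a) - 4 * n) v)
        (Sum.elim (fun a => xc (Sum.inl a) + 4 * n) (fun j => v j + e)) := by
      rintro x ⟨hx, hxs⟩
      constructor <;> rintro (a | j)
      · simp only [Sum.elim_inl]; linarith [(abs_le.1 (hco x hx (Sum.inl a))).1]
      · exact (hxs j).1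
      · simp only [Sum.elim_inl]; linarith [(abs_le.1 (hco x hx (Sum.inl a))).2]
      · exact (hxs j).2.le
    refine (measure_mono h1).trans ?_
    rw [Real.volume_Icc_pi, Fintype.prod_sum_type]
    simp only [Sum.elim_inl, Sum.elim_inr, add_sub_cancel_left, add_sub_sub_cancel, Finset.prod_const,
      Finset.card_univ, Fintype.card_fin]
    rw [← ENNReal.ofReal_pow (by positivity), ← ENNReal.ofReal_pow he.le,
      ← ENNReal.ofReal_mul (by positivity), mul_comm]
    refine ENNReal.ofReal_le_ofReal ?_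
    rw [show 4 * (n : ℝ) + 4 * n = 8 * n by ring]
    gcongr
    · linarith
    · rw [← hn, Fintype.card_sum]; omega
  · refine le_trans (Nat.cast_le.2 (Finset.card_filter_le _ _)) ?_
    rw [Fintype.card_piFinset]
    push_cast
    refine (Finset.prod_le_prod (fun _ _ => by positivity) (g := fun _ => 8 * n / e + 3)
      fun j _ => ?_).trans (by simp)
    rw [Int.card_Icc]
    have h3 := Int.floor_le ((xc (Sum.inr j) + 4 * n) / e)
    have h4 := Int.lt_floor_add_one ((xc (Sum.inr j) - 4 * n) / e)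
    have h5 : ⌊(xc (Sum.inr j) - 4 * n) / e⌋ ≤ ⌊(xc (Sum.inr j) + 4 * n) / e⌋ :=
      Int.floor_mono (by gcongr; linarith)
    have h6 : (((⌊(xc (Sum.inr j) + 4 * n) / e⌋ + 1 - ⌊(xc (Sum.inr j) - 4 * n) / e⌋).toNat : ℤ) : ℝ) =
        (⌊(xc (Sum.inr j) + 4 * n) / e⌋ + 1 - ⌊(xc (Sum.inr j) - 4 * n) / e⌋ : ℤ) := by
      rw [Int.toNat_of_nonneg (by omega)]
    push_cast at h6
    rw [h6]
    have : 8 * n / e = (xc (Sum.inr j) + 4 * n) / e - (xc (Sum.inr j) - 4 * n) / e := by ring
    linarith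
  · obtain ⟨b0, hb0⟩ := hcov y
    refine ⟨b0, fun o => ?_⟩
    set p := y - η.mulVec (fun i => (nb b0 o i : ℝ)) with hp
    obtain ⟨v, hv, hvp⟩ := Metric.mem_closure_iff.1 (hb0 o) e he
    have hgood : ENNReal.ofReal (cdd d * m) ≤
        volume (ero K ρ 2 ∩ slab e (fun j => e * (⌊p j / e⌋ : ℤ))) := by
      let u : A ⊕ Fin d → ℝ := Sum.elim 0 fun j => e * (⌊p j / e⌋ : ℤ) - v j
      have hu : cn ρ u ≤ 1 := by
        refine le_trans ?_ hρe
        unfold cn
        rw [Fintype.sum_sum_type]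
        simp only [u, Sum.elim_inl, Sum.elim_inr, Pi.zero_apply, abs_zero, zero_div,
          Finset.sum_const_zero, zero_add]
        refine Finset.sum_le_sum fun j _ => ?_
        have := hρ (Sum.inr j)
        gcongr
        have h1 := Int.floor_le (p j / e)
        have h2 := Int.lt_floor_add_one (p j / e)
        rw [le_div_iff₀ he] at h1
        rw [div_lt_iff₀ he] at h2
        have h3 : |p j - v j| < e := (dist_le_pi_dist p v j).trans_lt hvp
        rw [abs_lt] at h3
        rw [abs_le]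
        constructor <;> nlinarith
      refine le_trans hv ?_
      rw [← measure_preimage_add_right volume u (ero K ρ 2 ∩ _)]
      refine measure_mono ?_
      rintro x ⟨hx, hxs⟩
      refine ⟨by simpa [show (3 : ℝ) - 1 = 2 by norm_num] using hE2 3 1 x u hx hu, fun j => ?_⟩
      have := hxs j
      simp only [u, Pi.add_apply, Sum.elim_inr]
      constructor <;> linarith [this.1, this.2]
    refine Finset.mem_filter.2 ⟨Fintype.mem_piFinset.2 fun j => ?_, hgood⟩
    obtain ⟨x, hx, hxs⟩ := nonempty_of_measure_ne_zero (fun h => hc0 (le_zero_iff.1 (h ▸ hgood)))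
    have h1 := abs_le.1 (hco x ((hE1 2 (by norm_num)).1 hx) (Sum.inr j))
    have h2 : ⌊p j / e⌋ = ⌊x (Sum.inr j) / e⌋ := by
      symm
      rw [Int.floor_eq_iff, le_div_iff₀ he, div_lt_iff₀ he]
      have := hxs j
      constructor <;> linarith [this.1, this.2]
    rw [h2]
    refine Finset.mem_Icc.2 ⟨Int.floor_mono ?_, Int.floor_mono ?_⟩ <;> gcongr <;> linarith [h1.1, h1.2]

end Crest.Agent.R225.Up
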