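import Crest.Agent.R225.UpA

/-!
# Row 225, S0347: the numerical schedule
-/

open Finset

namespace Crest.Agent.R225.Up

namespace SCHED

theorem choose_le (D t : ℕ) : (((D * t).choose t : ℕ) : ℝ) ≤ (3 * D) ^ t := by
  have h1 := Nat.choose_le_pow_div (α := ℝ) t (D * t)
  have h2 := Real.pow_div_factorial_le_exp (t : ℝ) (Nat.cast_nonneg t) t
  have h3 : Real.exp t ≤ 3 ^ t := by
    rw [← mul_one (t : ℝ), Real.exp_nat_mul]
    exact pow_le_pow_left₀ (Real.exp_pos _).le (by linarith [Real.exp_one_lt_d9]) t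
  refine h1.trans ?_
  push_cast
  rw [mul_pow, mul_div_assoc, mul_pow, mul_comm]
  gcongr
  exact h2.trans h3

theorem mainT_le (l t N : ℕ) (Γ V K0 : ℝ) (hN : 1 ≤ N) (hΓ : 0 < Γ) (ht1 : 16 * Γ / N ≤ t)
    (ht2 : (t : ℝ) ≤ 17 * Γ) (hV1 : 1 ≤ V) (hV : 612 * 64 ^ 4 * K0 * Γ ≤ V)
    (hh : (1 / 2) ^ l * (N : ℝ) ^ 8 * Real.exp (N / 8) ≤ K0) :
    mainT l t (64 * N ^ 2 * t) (1 / (64 * (N : ℝ) ^ 2)) V ≤ 2 * Real.exp (-2 * Γ) := by
  have hN0 : (0 : ℝ) < N := by exact_mod_cast hN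
  have hV0 : 0 < V := by linarith
  have hK0 : 0 < K0 := lt_of_lt_of_le (by positivity) hh
  unfold mainT
  rw [mul_assoc]
  gcongr
  set h : ℝ := (1 / 2) ^ l with hh'
  have h0 : 0 < h := by positivity
  have hb : (3 * ((64 * N ^ 2 : ℕ) : ℝ)) * (6 * h * ((64 * N ^ 2 * t : ℕ) : ℝ) * (V + 1) /
      ((1 / (64 * (N : ℝ) ^ 2)) ^ 2 * V ^ 2)) ≤ Real.exp (-(N / 8)) := by
    have e : (3 * ((64 * N ^ 2 : ℕ) : ℝ)) * (6 * h * ((64 * N ^ 2 * t : ℕ) : ℝ) * (V + 1) /
        ((1 / (64 * (N : ℝ) ^ 2)) ^ 2 * V ^ 2)) =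
        18 * 64 ^ 4 * (h * (N : ℝ) ^ 8) * t * ((V + 1) / V) / V := by
      push_cast; field_simp; ring
    have h1 : (V + 1) / V ≤ 2 := by rw [div_le_iff₀ hV0]; linarith
    have h2 : h * (N : ℝ) ^ 8 ≤ K0 * Real.exp (-(N / 8)) := by
      rw [Real.exp_neg, ← div_eq_mul_inv, le_div_iff₀ (Real.exp_pos _)]; exact hh
    rw [e, div_le_iff₀ hV0]
    calc 18 * 64 ^ 4 * (h * (N : ℝ) ^ 8) * t * ((V + 1) / V)
        ≤ 18 * 64 ^ 4 * (K0 * Real.exp (-(N / 8))) * (17 * Γ) * 2 := by gcongr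
      _ = Real.exp (-(N / 8)) * (612 * 64 ^ 4 * K0 * Γ) := by ring
      _ ≤ _ := by gcongr
  calc _ ≤ (3 * ((64 * N ^ 2 : ℕ) : ℝ)) ^ t * (6 * h * ((64 * N ^ 2 * t : ℕ) : ℝ) * (V + 1) /
        ((1 / (64 * (N : ℝ) ^ 2)) ^ 2 * V ^ 2)) ^ t := by
        gcongr; exact choose_le _ _
    _ ≤ (Real.exp (-(N / 8))) ^ t := by
        rw [← mul_pow]; gcongr
    _ ≤ _ := by
        rw [← Real.exp_nat_mul]
        apply Real.exp_le_exp.2
        rw [div_le_iff₀ hN0] at ht1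
        linarith

theorem errT_le (g t N k : ℕ) (Γ V : ℝ) (hN : 1 ≤ N) (hk : 1 ≤ k) (ht0 : 1 ≤ t)
    (ht2 : (t : ℝ) ≤ 17 * Γ / N) (hV1 : 1 ≤ V) (hg : 2 ^ 23 * (g : ℝ) ^ 2 ≤ k * (N : ℝ) ^ 20)
    (hA : 39168 * Real.log (5 * k) * (1 + Real.log N) ≤ N) (hκ : 1 ≤ Real.log (5 * k))
    (hΓ : 0 < Γ) :
    errT g t (64 * N ^ 2 * t) (1 / (64 * (N : ℝ) ^ 2)) V ≤ Real.exp (Γ / 8) := by
  have hN1 : (1 : ℝ) ≤ N := by exact_mod_cast hN
  have hk1 : (1 : ℝ) ≤ k := by exact_mod_cast hk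
  have ht1 : (1 : ℝ) ≤ t := by exact_mod_cast ht0
  have hN0 : (0 : ℝ) < N := by linarith
  have hV0 : 0 < V := by linarith
  have hl : 0 ≤ Real.log N := Real.log_nonneg hN1
  set κ := Real.log (5 * k) with hκ'
  unfold errT
  have h1 : 4 * g * (V + 1) / (1 / (64 * (N : ℝ) ^ 2) * V) ≤ 512 * g * (N : ℝ) ^ 2 := by
    have e : 4 * g * (V + 1) / (1 / (64 * (N : ℝ) ^ 2) * V) =
        256 * g * (N : ℝ) ^ 2 * ((V + 1) / V) := by field_simp; ring
    have h1 : (V + 1) / V ≤ 2 := by rw [div_le_iff₀ hV0]; linarith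
    rw [e]
    calc _ ≤ 256 * g * (N : ℝ) ^ 2 * 2 := by gcongr
      _ = _ := by ring
  have h2 : 3 * ((64 * N ^ 2 : ℕ) : ℝ) * 2 * (512 * g * (N : ℝ) ^ 2) ^ 2 ≤
      Real.exp (2 * κ + 26 * Real.log N) := by
    have e1 : Real.exp (2 * κ + 26 * Real.log N) = (5 * k) ^ 2 * (N : ℝ) ^ 26 := by
      rw [Real.exp_add, show (2 : ℝ) * κ = (2 : ℕ) * κ by norm_num,
        show (26 : ℝ) * Real.log N = (26 : ℕ) * Real.log N by norm_num, Real.exp_nat_mul,
        Real.exp_nat_mul, hκ', Real.exp_log (by positivity), Real.exp_log hN0]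
    rw [e1]
    calc _ = 12 * (2 ^ 23 * (g : ℝ) ^ 2) * (N : ℝ) ^ 6 := by push_cast; ring
      _ ≤ 12 * (k * (N : ℝ) ^ 20) * (N : ℝ) ^ 6 := by gcongr
      _ = (12 * k) * (N : ℝ) ^ 26 := by ring
      _ ≤ _ := by gcongr; nlinarith
  calc _ ≤ Real.exp t * (3 * ((64 * N ^ 2 : ℕ) : ℝ)) ^ t * 2 ^ t *
        (512 * g * (N : ℝ) ^ 2) ^ (2 * t) := by
        gcongr
        · linarith [Real.add_one_le_exp (t : ℝ)]
        · exact choose_le _ _
    _ = Real.exp t * (3 * ((64 * N ^ 2 : ℕ) : ℝ) * 2 * (512 * g * (N : ℝ) ^ 2) ^ 2) ^ t := by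
        rw [pow_mul, mul_pow (_ * 2) _ t, mul_pow _ 2 t]; ring
    _ ≤ Real.exp t * (Real.exp (2 * κ + 26 * Real.log N)) ^ t := by gcongr
    _ ≤ _ := by
        rw [← Real.exp_nat_mul, ← Real.exp_add]
        apply Real.exp_le_exp.2
        have h3 : 1 + (2 * κ + 26 * Real.log N) ≤ 29 * (κ * (1 + Real.log N)) := by nlinarith
        have h4 : κ * (1 + Real.log N) ≤ N / 39168 := by
          rw [le_div_iff₀ (by norm_num)]; linarith
        have h5 : (t : ℝ) * N ≤ 17 * Γ := by rwa [le_div_iff₀ hN0] at ht2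
        calc (t : ℝ) + t * (2 * κ + 26 * Real.log N) = t * (1 + (2 * κ + 26 * Real.log N)) := by ring
          _ ≤ t * (29 * (N / 39168)) := by gcongr; linarith
          _ = 29 / 39168 * (t * N) := by ring
          _ ≤ Γ / 8 := by linarith

theorem ratio_le (δ V : ℝ) (h0 : 0 < δ) (h1 : δ ≤ 1 / 8) (hV : 0 ≤ V) :
    (1 + δ) * (V + 1) / ((1 - 4 * δ) * V + 1) ≤ Real.exp (9 * δ) := by
  have h2 : 0 < (1 - 4 * δ) * V + 1 := by
    have : 0 ≤ (1 - 4 * δ) * V := mul_nonneg (by linarith) hV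
    linarith
  rw [div_le_iff₀ h2]
  have h3 : V + 1 ≤ (1 + 8 * δ) * ((1 - 4 * δ) * V + 1) := by
    have : 0 ≤ δ * (1 - 8 * δ) * V := mul_nonneg (mul_nonneg h0.le (by linarith)) hV
    nlinarith
  calc (1 + δ) * (V + 1) ≤ (1 + δ) * ((1 + 8 * δ) * ((1 - 4 * δ) * V + 1)) := by gcongr
    _ ≤ Real.exp δ * (Real.exp (8 * δ) * ((1 - 4 * δ) * V + 1)) := by
        gcongr
        · linarith [Real.add_one_le_exp δ]
        · linarith [Real.add_one_le_exp (8 * δ)]
    _ = _ := by rw [← mul_assoc, ← Real.exp_add]; congr 2; ring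

theorem bnd_le (t t' N k : ℕ) (Γ : ℝ) (hN : 1 ≤ N) (hk : 1 ≤ k) (ht0 : 1 ≤ t) (ht' : t' ≤ t)
    (ht2 : (t : ℝ) ≤ 17 * Γ / N) (hκ : 1 ≤ Real.log (5 * k)) :
    (2 * t + 1 : ℝ) * (2 ^ (2 * t) + (4 * ((k * N ^ 36 : ℕ) : ℝ) + 1) ^ (2 * t) * (t' + 1) * 64 ^ t')
      ≤ Real.exp (1224 * Real.log (5 * k) * Γ * (1 + Real.log N) / N) := by
  have hN1 : (1 : ℝ) ≤ N := by exact_mod_cast hN
  have hk1 : (1 : ℝ) ≤ k := by exact_mod_cast hk
  have ht1 : (1 : ℝ) ≤ t := by exact_mod_cast ht0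
  have ht3 : (t' : ℝ) ≤ t := by exact_mod_cast ht'
  have hN0 : (0 : ℝ) < N := by linarith
  have hl : 0 ≤ Real.log N := Real.log_nonneg hN1
  set κ := Real.log (5 * k) with hκ'
  have hB : (1 : ℝ) ≤ k * (N : ℝ) ^ 36 := one_le_mul_of_one_le_of_one_le hk1 (one_le_pow₀ hN1)
  have e1 : Real.exp (κ + 36 * Real.log N) = 5 * k * (N : ℝ) ^ 36 := by
    rw [Real.exp_add, show (36 : ℝ) * Real.log N = (36 : ℕ) * Real.log N by norm_num,
      Real.exp_nat_mul, hκ', Real.exp_log (by positivity), Real.exp_log hN0]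
  have h1 : 4 * ((k * N ^ 36 : ℕ) : ℝ) + 1 ≤ Real.exp (κ + 36 * Real.log N) := by
    rw [e1]; push_cast; linarith
  have h2 : (2 : ℝ) ≤ Real.exp (κ + 36 * Real.log N) := by rw [e1]; linarith
  have h3 : (64 : ℝ) ≤ Real.exp 5 := by
    have := Real.exp_one_gt_d9
    calc (64 : ℝ) ≤ 2.7 ^ 5 := by norm_num
      _ ≤ Real.exp 1 ^ 5 := by gcongr; linarith
      _ = Real.exp 5 := by rw [← Real.exp_nat_mul]; norm_num
  set Y := Real.exp (κ + 36 * Real.log N) ^ (2 * t) * Real.exp t * Real.exp 5 ^ t with hY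
  have h4 : (2 : ℝ) ^ (2 * t) ≤ Y := by
    calc (2 : ℝ) ^ (2 * t) = 2 ^ (2 * t) * 1 * 1 := by ring
      _ ≤ Y := by
        rw [hY]; gcongr
        · exact Real.one_le_exp (by linarith)
        · exact one_le_pow₀ (by linarith)
  have h5 : (4 * ((k * N ^ 36 : ℕ) : ℝ) + 1) ^ (2 * t) * (t' + 1) * 64 ^ t' ≤ Y := by
    rw [hY]
    refine mul_le_mul (mul_le_mul (by gcongr) (by linarith [Real.add_one_le_exp (t : ℝ)])
      (by positivity) (by positivity)) ?_ (by positivity) (by positivity)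
    exact (pow_le_pow_right₀ (by norm_num) ht').trans (by gcongr)
  calc _ ≤ Real.exp (2 * t) * (Real.exp t * Y) := by
        refine mul_le_mul (by linarith [Real.add_one_le_exp (2 * t : ℝ)]) ?_ (by positivity)
          (by positivity)
        have h6 : 2 ≤ Real.exp t := by linarith [Real.add_one_le_exp (t : ℝ)]
        have h7 : 0 ≤ Y := by positivity
        nlinarith
    _ = Real.exp (t * (9 + 2 * κ + 72 * Real.log N)) := by
        rw [hY, ← Real.exp_nat_mul, ← Real.exp_nat_mul, ← Real.exp_add, ← Real.exp_add,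
          ← Real.exp_add, ← Real.exp_add]
        congr 1; push_cast; ring
    _ ≤ _ := by
        apply Real.exp_le_exp.2
        have h6 : 9 + 2 * κ + 72 * Real.log N ≤ 72 * (κ * (1 + Real.log N)) := by nlinarith
        calc _ ≤ 17 * Γ / N * (72 * (κ * (1 + Real.log N))) := by
              gcongr
              linarith
          _ = _ := by ring

/-- the group of a level -/
def grp (g0 J l : ℕ) : ℕ := min J (max g0 (Nat.size l))

theorem grp_ge {g0 J : ℕ} (h : g0 ≤ J) (l : ℕ) : g0 ≤ grp g0 J l := by unfold grp; omega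

theorem grp_le (g0 J l : ℕ) : grp g0 J l ≤ J := min_le_left _ _

theorem grp_top (g0 J : ℕ) : grp g0 J (2 ^ J) = J := by unfold grp; rw [Nat.size_pow]; omega

theorem lt_grp (g0 : ℕ) {J l : ℕ} (h : l < 2 ^ J) : l + 1 ≤ 2 ^ grp g0 J l := by
  have h1 := Nat.size_le.2 h
  exact (Nat.lt_size_self l).trans_le (Nat.pow_le_pow_right two_pos (by unfold grp; omega))

theorem grp_or {g0 J : ℕ} (h : g0 ≤ J) (l : ℕ) : grp g0 J l = g0 ∨ 2 ^ grp g0 J l ≤ 2 * l := by
  by_cases h1 : grp g0 J l = g0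
  · exact Or.inl h1
  · right
    have h2 := grp_ge h l
    obtain ⟨m, hm⟩ : ∃ m, grp g0 J l = m + 1 := ⟨grp g0 J l - 1, by omega⟩
    have h3 : m < Nat.size l := by unfold grp at hm h1; omega
    rw [hm, pow_succ]
    have := Nat.lt_size.1 h3
    omega

theorem grp_succ (g0 J l : ℕ) :
    grp g0 J (l + 1) = grp g0 J l ∨ grp g0 J (l + 1) = grp g0 J l + 1 := by
  have h1 : Nat.size l ≤ Nat.size (l + 1) := Nat.size_le_size (Nat.le_succ l)
  have h2 : Nat.size (l + 1) ≤ Nat.size l + 1 := by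
    rw [Nat.size_le, pow_succ]
    have := Nat.lt_size_self l
    omega
  unfold grp; omega

theorem prod_ge (δ : ℕ → ℝ) (M : ℕ) (h0 : ∀ l, 0 ≤ δ l)
    (h1 : ∀ l < M, 4 * δ l ≤ 1 / (16 * ((l : ℝ) + 1) ^ 2)) (l : ℕ) (hl : l ≤ M) :
    1 / 2 + 1 / (2 * ((l : ℝ) + 1)) ≤ ∏ k ∈ range l, (1 - 4 * δ k) := by
  induction l with
  | zero => norm_num
  | succ l ih =>
    have h2 := ih (by omega)
    have h3 := h1 l (by omega)
    have h4 := h0 l
    have hl0 : (0 : ℝ) ≤ l := Nat.cast_nonneg l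
    have h5 : 1 / (2 * ((l : ℝ) + 1)) ≤ 1 / 2 := one_div_le_one_div_of_le (by norm_num) (by linarith)
    have h6 : 1 / (16 * ((l : ℝ) + 1) ^ 2) ≤ 1 / 16 :=
      one_div_le_one_div_of_le (by norm_num) (by nlinarith)
    have h7 : 1 / (2 * ((l : ℝ) + 1 + 1)) + 1 / (16 * ((l : ℝ) + 1) ^ 2) ≤
        1 / (2 * ((l : ℝ) + 1)) := by
      rw [div_add_div _ _ (by positivity) (by positivity), div_le_div_iff₀ (by positivity)
        (by positivity)]
      nlinarith [sq_nonneg (l : ℝ), mul_nonneg hl0 (sq_nonneg (l : ℝ))]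
    rw [prod_range_succ]
    push_cast
    calc _ ≤ (1 / 2 + 1 / (2 * ((l : ℝ) + 1))) * (1 - 4 * δ l) := by nlinarith
      _ ≤ _ := by gcongr; linarith

set_option maxHeartbeats 1000000 in
theorem core (c1 : ℝ) (hc1 : 1 ≤ c1) (k g0 : ℕ) (hk : 1 ≤ k) (hκ : 1 ≤ Real.log (5 * k))
    (hk2 : 2 ^ 23 * c1 ^ 3 ≤ k)
    (hA : ∀ N : ℕ, 2 ^ g0 ≤ N → 39168 * Real.log (5 * k) * (1 + Real.log N) ≤ N)
    (K0 : ℝ) (hK0 : K0 = ((2 ^ g0 : ℕ) : ℝ) ^ 8 * Real.exp (((2 ^ g0 : ℕ) : ℝ) / 8))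
    (Γ : ℝ) (J Q : ℕ) (G : ℕ → ℕ) (hΓ : 2 ≤ Γ) (hJ : g0 ≤ J) (hJΓ : (2 : ℝ) ^ J ≤ Γ)
    (hlam : (2 : ℝ) ^ J * (Real.log c1 + 10 * Real.log (2 ^ J + 1) + 1) ≤ Γ / 8)
    (hG : ∀ l, 1 ≤ G l ∧ (G l : ℝ) ≤ c1 * (l + 1) ^ 10)
    (hQ : (2 * k + 34 : ℝ) * (2 ^ J) ^ 36 ≤ Q) :
    ∃ (V δ α β : ℕ → ℝ) (B t T : ℕ → ℕ), Sched G (2 ^ J) Q V δ α β B t T ∧
      V (2 ^ J) = 1224 * 64 ^ 4 * K0 * Γ ∧ α (2 ^ J) ≤ Real.exp (-Γ) ∧ β (2 ^ J) ≤ Real.exp Γ ∧
      0 ≤ β (2 ^ J) ∧ (2 * B (2 ^ J) : ℝ) ≤ (2 * k + 34) * (2 ^ J) ^ 36 ∧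
      (2 * t (2 ^ J) : ℝ) ≤ (2 * k + 34) * Γ / 2 ^ J := by
  have hΓ0 : 0 < Γ := by linarith
  have hk1 : (1 : ℝ) ≤ k := by exact_mod_cast hk
  set κ := Real.log (5 * k) with hκ'
  obtain ⟨N, hN⟩ : ∃ N : ℕ → ℕ, ∀ l, N l = 2 ^ grp g0 J l := ⟨_, fun _ => rfl⟩
  have hN1 : ∀ l, 1 ≤ N l := fun l => by rw [hN]; exact Nat.one_le_two_pow
  have hN1' : ∀ l, (1 : ℝ) ≤ N l := fun l => by exact_mod_cast hN1 l
  have hN0 : ∀ l, (0 : ℝ) < N l := fun l => by linarith [hN1' l]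
  have hNA : ∀ l, 39168 * κ * (1 + Real.log (N l)) ≤ N l := fun l =>
    hA _ (by rw [hN]; exact Nat.pow_le_pow_right two_pos (grp_ge hJ l))
  have hlN : ∀ l, 0 ≤ Real.log (N l) := fun l => Real.log_nonneg (hN1' l)
  have hNbig : ∀ l, (39168 : ℝ) * (1 + Real.log (N l)) ≤ N l := fun l => by
    refine le_trans ?_ (hNA l)
    have := hlN l
    gcongr; linarith
  have hNJ : ∀ l, (N l : ℝ) ≤ 2 ^ J := fun l => by
    rw [hN]; exact_mod_cast Nat.pow_le_pow_right two_pos (grp_le g0 J l)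
  have hNΓ : ∀ l, (N l : ℝ) ≤ Γ := fun l => (hNJ l).trans hJΓ
  have hNl : ∀ l : ℕ, l < 2 ^ J → (l : ℝ) + 1 ≤ N l := fun l hl => by
    rw [hN]; exact_mod_cast lt_grp g0 hl
  have hNtop : (N (2 ^ J) : ℝ) = 2 ^ J := by rw [hN, grp_top]; push_cast; rfl
  have hK1 : 1 ≤ K0 := by
    rw [hK0]
    exact one_le_mul_of_one_le_of_one_le (one_le_pow₀ (by exact_mod_cast Nat.one_le_two_pow))
      (Real.one_le_exp (by positivity))
  have hhalf : (1 / 2 : ℝ) ≤ Real.exp (-(1 / 2)) := by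
    linarith [Real.add_one_le_exp (-(1 / 2) : ℝ)]
  have hpow : ∀ l : ℕ, (N l : ℝ) ≤ 2 * l → (1 / 2 : ℝ) ^ l ≤ Real.exp (-(N l / 4)) := by
    intro l hl
    calc (1 / 2 : ℝ) ^ l ≤ Real.exp (-(1 / 2)) ^ l := by gcongr
      _ ≤ _ := by
        rw [← Real.exp_nat_mul]; apply Real.exp_le_exp.2; linarith
  have hh : ∀ l, (1 / 2) ^ l * (N l : ℝ) ^ 8 * Real.exp (N l / 8) ≤ K0 := by
    intro l
    rcases grp_or hJ l with h | h
    · rw [hK0, hN, h, mul_assoc]
      exact mul_le_of_le_one_left (by positivity) (pow_le_one₀ (by norm_num) (by norm_num))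
    · refine le_trans ?_ hK1
      have h1 := hpow l (by rw [hN]; exact_mod_cast h)
      have h2 : (N l : ℝ) ^ 8 = Real.exp (8 * Real.log (N l)) := by
        rw [show (8 : ℝ) * Real.log (N l) = (8 : ℕ) * Real.log (N l) by norm_num, Real.exp_nat_mul,
          Real.exp_log (hN0 l)]
      calc _ ≤ Real.exp (-(N l / 4)) * (N l : ℝ) ^ 8 * Real.exp (N l / 8) := by gcongr
        _ ≤ 1 := by
          rw [h2, ← Real.exp_add, ← Real.exp_add, Real.exp_le_one_iff]
          have := hNbig l; have := hlN l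
          linarith
  have hh' : ∀ l, ∀ j ≤ 8, (1 / 2) ^ l * (N l : ℝ) ^ j ≤ K0 := by
    intro l j hj
    refine le_trans ?_ (hh l)
    calc (1 / 2) ^ l * (N l : ℝ) ^ j = (1 / 2) ^ l * (N l : ℝ) ^ j * 1 := by ring
      _ ≤ _ := by
        gcongr
        · exact hN1' l
        · exact Real.one_le_exp (by have := hN0 l; positivity)
  -- the parameters
  obtain ⟨δ, hδ⟩ : ∃ δ : ℕ → ℝ, ∀ l, δ l = 1 / (64 * (N l : ℝ) ^ 2) := ⟨_, fun _ => rfl⟩
  obtain ⟨t, ht⟩ : ∃ t : ℕ → ℕ, ∀ l, t l = ⌈16 * Γ / N l⌉₊ := ⟨_, fun _ => rfl⟩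
  have hδ0 : ∀ l, 0 < δ l := fun l => by rw [hδ]; have := hN0 l; positivity
  have hδ1 : ∀ l, δ l ≤ 1 / 8 := fun l => by
    rw [hδ]
    exact one_div_le_one_div_of_le (by norm_num) (by nlinarith [hN1' l])
  have ht1 : ∀ l, 16 * Γ / N l ≤ t l := fun l => by rw [ht]; exact Nat.le_ceil _
  have hΓN : ∀ l, 1 ≤ Γ / N l := fun l => by rw [le_div_iff₀ (hN0 l)]; linarith [hNΓ l]
  have ht2 : ∀ l, (t l : ℝ) ≤ 17 * Γ / N l := fun l => by
    have h1 := Nat.ceil_lt_add_one (show 0 ≤ 16 * Γ / N l by have := hN0 l; positivity)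
    have h2 := hΓN l
    rw [ht]
    have e1 := mul_div_assoc 16 Γ (N l)
    have e2 := mul_div_assoc 17 Γ (N l)
    linarith
  have ht3 : ∀ l, (t l : ℝ) ≤ 17 * Γ := fun l =>
    (ht2 l).trans (div_le_self (by positivity) (hN1' l))
  have ht0 : ∀ l, 1 ≤ t l := fun l => by
    have h1 := ht1 l
    have h2 := hΓN l
    rw [mul_div_assoc] at h1
    exact_mod_cast (show (1 : ℝ) ≤ t l by linarith)
  obtain ⟨Pr, hPr⟩ : ∃ Pr : ℕ → ℝ, ∀ l, Pr l = ∏ k ∈ range l, (1 - 4 * δ k) := ⟨_, fun _ => rfl⟩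
  have hPr0 : ∀ l, 0 < Pr l := fun l => by
    rw [hPr]; exact prod_pos fun k _ => by linarith [hδ1 k]
  have hPr1 : ∀ l, Pr l ≤ 1 := fun l => by
    rw [hPr]
    exact prod_le_one (fun k _ => by linarith [hδ1 k]) (fun k _ => by linarith [hδ0 k])
  have hPrM : 1 / 2 ≤ Pr (2 ^ J) := by
    rw [hPr]
    refine le_trans (le_add_of_nonneg_right (by positivity))
      (prod_ge δ (2 ^ J) (fun l => (hδ0 l).le) (fun l hl => ?_) _ le_rfl)
    rw [hδ, mul_one_div, div_le_div_iff₀ (by have := hN0 l; positivity) (by positivity)]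
    have h1 : ((l : ℝ) + 1) ^ 2 ≤ (N l : ℝ) ^ 2 := by gcongr; exact hNl l hl
    linarith
  obtain ⟨V, hV⟩ : ∃ V : ℕ → ℝ, ∀ l, V l = 1224 * 64 ^ 4 * K0 * Γ * Pr (2 ^ J) / Pr l :=
    ⟨_, fun _ => rfl⟩
  have hKΓ : Γ ≤ K0 * Γ := le_mul_of_one_le_left hΓ0.le hK1
  have hV2 : ∀ l, 612 * 64 ^ 4 * K0 * Γ ≤ V l := fun l => by
    rw [hV, le_div_iff₀ (hPr0 l)]
    calc 612 * 64 ^ 4 * K0 * Γ * Pr l ≤ 612 * 64 ^ 4 * K0 * Γ * 1 := by gcongr; exact hPr1 l
      _ = 1224 * 64 ^ 4 * K0 * Γ * (1 / 2) := by ring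
      _ ≤ _ := by gcongr
  have hV3 : ∀ l, 612 * 64 ^ 4 * (K0 * Γ) ≤ V l := fun l => by rw [← mul_assoc]; exact hV2 l
  have hV1 : ∀ l, 1 ≤ V l := fun l => by linarith [hV3 l]
  have hVrec : ∀ l, V l = (1 - 4 * δ l) * V (l + 1) := fun l => by
    have h1 : Pr (l + 1) = Pr l * (1 - 4 * δ l) := by rw [hPr, hPr, prod_range_succ]
    have h2 : 1 - 4 * δ l ≠ 0 := by linarith [hδ1 l]
    have h3 := (hPr0 l).ne'
    rw [hV, hV, h1]; field_simp
  set lam := Real.log c1 + 10 * Real.log (2 ^ J + 1) + 1 with hlam'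
  have hlam0 : 0 ≤ lam := by
    have h1 := Real.log_nonneg hc1
    have h2 : 0 ≤ Real.log (2 ^ J + 1) := Real.log_nonneg (by
      have : (0 : ℝ) < 2 ^ J := by positivity
      linarith)
    linarith
  obtain ⟨ψ, hψ⟩ : ∃ ψ : ℕ → ℝ, ∀ l, ψ l = 2448 * κ * Γ * (2 + Real.log (N l)) / N l :=
    ⟨_, fun _ => rfl⟩
  have hψ0 : ∀ l, 0 ≤ ψ l := fun l => by
    rw [hψ]; have := hN0 l; have := hlN l; positivity
  have hψ1 : ∀ l, ψ l ≤ Γ / 8 := fun l => by
    rw [hψ, div_le_iff₀ (hN0 l)]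
    have h1 := hNA l
    have h2 := hlN l
    calc 2448 * κ * Γ * (2 + Real.log (N l)) ≤ 2448 * κ * Γ * (2 * (1 + Real.log (N l))) := by
          gcongr; linarith
      _ = Γ / 8 * (39168 * κ * (1 + Real.log (N l))) := by ring
      _ ≤ _ := by gcongr
  obtain ⟨b, hb⟩ : ∃ b : ℕ → ℝ, ∀ l, b l = 3 * Γ / 8 + l * lam - Γ / 8 / (l + 1) - ψ l :=
    ⟨_, fun _ => rfl⟩
  have hb1 : ∀ l, Γ / 8 ≤ b l := fun l => by
    have h1 : Γ / 8 / (l + 1) ≤ Γ / 8 := div_le_self (by positivity) (by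
      linarith [Nat.cast_nonneg (α := ℝ) l])
    have h2 : 0 ≤ l * lam := by positivity
    rw [hb]; linarith [hψ1 l]
  have hb2 : ∀ l ≤ 2 ^ J, b l ≤ Γ := fun l hl => by
    have h1 : 0 ≤ Γ / 8 / (l + 1) := by positivity
    have h2 : l * lam ≤ 2 ^ J * lam := by gcongr; exact_mod_cast hl
    rw [hb]; linarith [hψ0 l]
  have hGN : ∀ l < 2 ^ J, (G l : ℝ) ≤ c1 * (N l : ℝ) ^ 10 := fun l hl =>
    (hG l).2.trans (by gcongr; exact hNl l hl)
  refine ⟨V, δ, fun l => 3 * l * Real.exp (-2 * Γ), fun l => Real.exp (b l),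
    fun l => k * N l ^ 36, t, fun l => 64 * N l ^ 2 * t l, ?_, ?_, ?_, ?_, (Real.exp_pos _).le,
    ?_, ?_⟩
  · refine
      { V1 := fun l _ => hV1 l, Vrec := fun l _ => hVrec l, δ0 := fun l _ => ⟨hδ0 l, hδ1 l⟩,
        Bbig := fun l hl => ?_, BQ := fun l _ => ?_, t1 := fun l _ => ht0 l,
        tT := fun l _ => ?_, tV := fun l _ => ?_, TV := fun l _ => ?_, α0 := by simp,
        β0 := (Real.exp_pos _).le, step := fun l hl => ?_ }
    · have h1 : (G l : ℝ) ^ 3 ≤ (c1 * (N l : ℝ) ^ 10) ^ 3 := by gcongr; exact hGN l hl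
      have h0 := hN0 l
      have e : δ l ^ 3 * ((k * N l ^ 36 : ℕ) : ℝ) = k * (N l : ℝ) ^ 30 / 2 ^ 18 := by
        rw [hδ]; push_cast; field_simp; norm_num
      rw [e, le_div_iff₀ (by positivity)]
      calc 32 * (G l : ℝ) ^ 3 * 2 ^ 18 ≤ 32 * (c1 * (N l : ℝ) ^ 10) ^ 3 * 2 ^ 18 := by gcongr
        _ = 2 ^ 23 * c1 ^ 3 * (N l : ℝ) ^ 30 := by ring
        _ ≤ _ := by gcongr
    · have h1 : (N l : ℝ) ^ 36 ≤ (2 ^ J) ^ 36 := by gcongr; exact hNJ l
      have h2 : (0 : ℝ) < (2 ^ J) ^ 36 := by positivity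
      have h3 : (k : ℝ) * (N l : ℝ) ^ 36 ≤ k * (2 ^ J) ^ 36 := by gcongr
      have h4 : ((2 * (k * N l ^ 36) : ℕ) : ℝ) < Q := by push_cast; linarith
      exact_mod_cast h4
    · have h0 := hN0 l
      rw [hδ]; push_cast; field_simp; exact le_rfl
    · have h0 := hN0 l
      have e : δ l ^ 2 * V (l + 1) = V (l + 1) / (64 ^ 2 * (N l : ℝ) ^ 4) := by
        rw [hδ]; field_simp
      rw [e, le_div_iff₀ (by positivity)]
      calc 4 * (t l : ℝ) * (1 / 2) ^ l * (64 ^ 2 * (N l : ℝ) ^ 4)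
          = 4 * 64 ^ 2 * ((1 / 2) ^ l * (N l : ℝ) ^ 4) * t l := by ring
        _ ≤ 4 * 64 ^ 2 * K0 * (17 * Γ) := by
            gcongr
            · exact hh' l 4 (by norm_num)
            · exact ht3 l
        _ ≤ _ := by linarith [hV3 (l + 1)]
    · push_cast
      calc 2 * (1 / 2) ^ l * (64 * (N l : ℝ) ^ 2 * t l)
          = 128 * ((1 / 2) ^ l * (N l : ℝ) ^ 2) * t l := by ring
        _ ≤ 128 * K0 * (17 * Γ) := by
            gcongr
            · exact hh' l 2 (by norm_num)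
            · exact ht3 l
        _ ≤ _ := by linarith [hV3 (l + 1)]
    · have hl0 : (0 : ℝ) ≤ l := Nat.cast_nonneg l
      have h0 := hN0 l
      set x := lam + (Γ / 8 / (l + 1) - Γ / 8 / (l + 1 + 1)) with hx
      have hbx : b (l + 1) = b l + x + (ψ l - ψ (l + 1)) := by
        rw [hb, hb, hx]; push_cast; ring
      refine ⟨3 * l * Real.exp (-2 * Γ) + 2 * Real.exp (-2 * Γ), Real.exp (b l + x), ?_, ?_, ?_⟩
      · rw [hδ]
        gcongr
        exact mainT_le l (t l) (N l) Γ _ K0 (hN1 l) hΓ0 (ht1 l) (ht3 l) (hV1 _) (hV2 _) (hh l)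
      · have h1 : errT (G l) (t l) (64 * N l ^ 2 * t l) (δ l) (V (l + 1)) ≤ Real.exp (b l) := by
          rw [hδ]
          refine (errT_le (G l) (t l) (N l) k Γ _ (hN1 l) hk (ht0 l) (ht2 l) (hV1 _) ?_ (hNA l) hκ
            hΓ0).trans (Real.exp_le_exp.2 (hb1 l))
          have h2 : c1 ^ 2 ≤ c1 ^ 3 := pow_le_pow_right₀ hc1 (by norm_num)
          calc 2 ^ 23 * (G l : ℝ) ^ 2 ≤ 2 ^ 23 * (c1 * (N l : ℝ) ^ 10) ^ 2 := by
                gcongr; exact hGN l hl
            _ = 2 ^ 23 * c1 ^ 2 * (N l : ℝ) ^ 20 := by ring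
            _ ≤ _ := by gcongr; linarith
        have h2 : ((1 + δ l) * (V (l + 1) + 1) / (V l + 1)) ^ (2 * t l) ≤
            Real.exp (Γ / 8 / (l + 1) - Γ / 8 / (l + 1 + 1)) := by
          have h3 := ratio_le (δ l) (V (l + 1)) (hδ0 l) (hδ1 l) (by linarith [hV1 (l + 1)])
          rw [← hVrec] at h3
          have h4 := hδ0 l
          have h5 := hV1 l
          have h6 := hV1 (l + 1)
          refine (pow_le_pow_left₀ (by positivity) h3 _).trans ?_
          rw [← Real.exp_nat_mul]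
          apply Real.exp_le_exp.2
          have e1 : Γ / 8 / (l + 1) - Γ / 8 / (l + 1 + 1) = Γ / (8 * (l + 1) * (l + 1 + 1)) := by
            field_simp; ring
          have h7 : (39168 : ℝ) ≤ N l := by have := hNbig l; have := hlN l; linarith
          have h8 := hNl l hl
          rw [e1]
          push_cast
          calc 2 * (t l : ℝ) * (9 * δ l) ≤ 2 * (17 * Γ / N l) * (9 * δ l) := by
                gcongr; exact ht2 l
            _ = Γ / (64 / 306 * N l * (N l * N l)) := by rw [hδ]; field_simp; norm_num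
            _ ≤ _ := by
                apply div_le_div_of_nonneg_left hΓ0.le (by positivity)
                calc 8 * ((l : ℝ) + 1) * (l + 1 + 1) ≤ 8 * (l + 1) * (2 * (l + 1)) := by
                      gcongr; linarith
                  _ = 16 * ((l + 1) * (l + 1)) := by ring
                  _ ≤ _ := by gcongr; linarith
        have h3 : 2 * (G l : ℝ) ≤ Real.exp lam := by
          have h4 : (l : ℝ) + 1 ≤ 2 ^ J + 1 := by linarith [hNl l hl, hNJ l]
          have h5 : (G l : ℝ) ≤ c1 * (2 ^ J + 1) ^ 10 := (hG l).2.trans (by gcongr)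
          have e : Real.exp lam = c1 * (2 ^ J + 1) ^ 10 * Real.exp 1 := by
            rw [hlam', Real.exp_add, Real.exp_add, Real.exp_log (by linarith),
              show (10 : ℝ) * Real.log (2 ^ J + 1) = (10 : ℕ) * Real.log (2 ^ J + 1) by norm_num,
              Real.exp_nat_mul, Real.exp_log (by positivity)]
          rw [e, mul_comm]
          gcongr
          linarith [Real.add_one_le_exp (1 : ℝ)]
        have h4 : (1 : ℝ) ≤ G l := by exact_mod_cast (hG l).1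
        have h5 : 1 ≤ Real.exp (Γ / 8 / (l + 1) - Γ / 8 / (l + 1 + 1)) := by
          apply Real.one_le_exp
          rw [sub_nonneg]
          exact div_le_div_of_nonneg_left (by positivity) (by positivity) (by linarith)
        set Y := Real.exp (Γ / 8 / (l + 1) - Γ / 8 / (l + 1 + 1)) with hY
        have h6 : 1 ≤ G l * Y := one_le_mul_of_one_le_of_one_le h4 h5
        calc _ ≤ Real.exp (b l) * (G l * Y) + Real.exp (b l) * G l * Y := by
              gcongr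
              exact h1.trans (le_mul_of_one_le_right (Real.exp_pos _).le h6)
          _ = Real.exp (b l) * (2 * G l * Y) := by ring
          _ ≤ Real.exp (b l) * (Real.exp lam * Y) := by gcongr
          _ = _ := by rw [hx, Real.exp_add (b l), Real.exp_add lam]
      · rcases grp_succ g0 J l with hg | hg
        · left
          have hNN : N (l + 1) = N l := by rw [hN, hN, hg]
          refine ⟨by simp only [hNN], by rw [ht, ht, hNN], ?_, ?_⟩
          · push_cast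
            have := Real.exp_pos (-2 * Γ)
            linarith
          · apply Real.exp_le_exp.2
            rw [hbx, hψ, hψ, hNN]; linarith
        · right
          have hNN : N (l + 1) = 2 * N l := by rw [hN, hN, hg, pow_succ']
          have hNN' : (N (l + 1) : ℝ) = 2 * N l := by exact_mod_cast hNN
          have htt : t (l + 1) ≤ t l := by
            rw [ht, ht]
            apply Nat.ceil_mono
            exact div_le_div_of_nonneg_left (by positivity) h0 (by linarith)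
          have hbn := bnd_le (t l) (t (l + 1)) (N l) k Γ (hN1 l) hk (ht0 l) htt (ht2 l) hκ
          have hψd : 1224 * κ * Γ * (1 + Real.log (N l)) / N l ≤ ψ l - ψ (l + 1) := by
            rw [hψ, hψ, hNN', Real.log_mul two_ne_zero h0.ne']
            have e : 2448 * κ * Γ * (2 + Real.log (N l)) / N l -
                2448 * κ * Γ * (2 + (Real.log 2 + Real.log (N l))) / (2 * N l) =
                1224 * κ * Γ * (2 - Real.log 2 + Real.log (N l)) / N l := by field_simp; ring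
            rw [e]
            gcongr
            linarith [Real.log_two_lt_d9]
          have hβ : Real.exp (b l + x) * (2 * t l + 1) * (2 ^ (2 * t l) +
              (4 * ((k * N l ^ 36 : ℕ) : ℝ) + 1) ^ (2 * t l) * (t (l + 1) + 1) * 64 ^ t (l + 1)) ≤
              Real.exp (b (l + 1)) := by
            rw [mul_assoc, hbx, Real.exp_add (b l + x)]
            gcongr
            exact hbn.trans (Real.exp_le_exp.2 hψd)
          have hhalf1 : (1 / 2 : ℝ) ^ (l + 1) ≤ 1 := pow_le_one₀ (by norm_num) (by norm_num)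
          refine ⟨?_, ?_, ?_, hβ⟩
          · simp only [hNN]
            rw [mul_pow]
            nlinarith [Nat.zero_le (k * N l ^ 36)]
          · calc 2 * (t (l + 1) : ℝ) * (1 / 2) ^ (l + 1) ≤ 2 * (17 * Γ) * 1 := by
                  gcongr; exact ht3 _
              _ ≤ _ := by linarith [hV3 (l + 1)]
          · have h1 : Real.exp (b l + x) * (2 * t l + 1) *
                (4 * ((k * N l ^ 36 : ℕ) : ℝ) + 1) ^ (2 * t l) ≤ Real.exp Γ := by
              refine le_trans ?_ (hβ.trans (Real.exp_le_exp.2 (hb2 (l + 1) hl)))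
              gcongr
              calc _ = 0 + (4 * ((k * N l ^ 36 : ℕ) : ℝ) + 1) ^ (2 * t l) * 1 * 1 := by ring
                _ ≤ _ := by
                  gcongr
                  · positivity
                  · linarith [Nat.cast_nonneg (α := ℝ) (t (l + 1))]
                  · exact one_le_pow₀ (by norm_num)
            have h2 : (N (l + 1) : ℝ) ≤ 2 * ((l + 1 : ℕ) : ℝ) := by
              rcases grp_or hJ (l + 1) with h | h
              · have := grp_ge hJ l; omega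
              · rw [hN]; exact_mod_cast h
            have h3 : ((t (l + 1) : ℝ) * (1 / 2) ^ (l + 1) / (V (l + 1) + 1)) ^ t (l + 1) ≤
                Real.exp (-3 * Γ) := by
              have h4 := hV1 (l + 1)
              have h5 : (t (l + 1) : ℝ) * (1 / 2) ^ (l + 1) / (V (l + 1) + 1) ≤
                  Real.exp (-(N (l + 1) / 4)) := by
                refine le_trans ?_ (hpow (l + 1) h2)
                rw [div_le_iff₀ (by linarith), mul_comm]
                gcongr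
                linarith [ht3 (l + 1), hV3 (l + 1)]
              refine (pow_le_pow_left₀ (by positivity) h5 _).trans ?_
              rw [← Real.exp_nat_mul]
              apply Real.exp_le_exp.2
              have h6 := ht1 (l + 1)
              rw [div_le_iff₀ (hN0 _)] at h6
              linarith
            have h4 : Real.exp Γ * Real.exp (-3 * Γ) = Real.exp (-2 * Γ) := by
              rw [← Real.exp_add]; congr 1; ring
            have h5 := mul_le_mul h1 h3 (by have := hV1 (l + 1); positivity) (Real.exp_pos _).le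
            push_cast at h5 ⊢
            linarith
  · rw [hV, mul_div_assoc, div_self (hPr0 _).ne', mul_one]
  · have h1 : 3 * Γ ≤ Real.exp Γ := by
      have := Real.quadratic_le_exp_of_nonneg hΓ0.le
      have h2 := Real.sum_le_exp_of_nonneg hΓ0.le 4
      simp only [sum_range_succ, range_zero, sum_empty, Nat.factorial] at h2
      norm_num at h2
      nlinarith [sq_nonneg (Γ - 2)]
    push_cast
    calc 3 * 2 ^ J * Real.exp (-2 * Γ) ≤ Real.exp Γ * Real.exp (-2 * Γ) := by gcongr; linarith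
      _ = _ := by rw [← Real.exp_add]; congr 1; ring
  · exact Real.exp_le_exp.2 (hb2 _ le_rfl)
  · push_cast
    rw [hNtop]
    have : (0 : ℝ) < (2 ^ J) ^ 36 := by positivity
    linarith
  · have h1 := ht2 (2 ^ J)
    rw [hNtop] at h1
    have h2 : 0 ≤ Γ / 2 ^ J := by positivity
    rw [mul_div_assoc] at h1 ⊢
    nlinarith

end SCHED

theorem sched : SchedStmt := by
  intro c1 hc1
  set k : ℕ := ⌈2 ^ 23 * c1 ^ 3⌉₊ with hk
  have hk2 : 2 ^ 23 * c1 ^ 3 ≤ k := Nat.le_ceil _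
  have hk1 : (1 : ℝ) ≤ k := by
    have : 1 ≤ c1 ^ 3 := one_le_pow₀ hc1
    linarith
  have hκ : 1 ≤ Real.log (5 * k) := by
    rw [Real.le_log_iff_exp_le (by positivity)]
    linarith [Real.exp_one_lt_d9]
  set A := 39168 * Real.log (5 * k) with hA
  have hA0 : 0 < A := by positivity
  have hev : ∀ᶠ x : ℝ in Filter.atTop, A * (1 + Real.log x) ≤ x := by
    filter_upwards [Real.isLittleO_log_id_atTop.bound (show 0 < 1 / (2 * A) by positivity),
      Filter.eventually_ge_atTop (2 * A)] with x h1 h2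
    have hx : 0 < x := by linarith
    rw [id, Real.norm_eq_abs, Real.norm_eq_abs, abs_of_pos hx] at h1
    have h3 : A * Real.log x ≤ A * (1 / (2 * A) * x) := by
      gcongr; exact (le_abs_self _).trans h1
    have e : A * (1 / (2 * A) * x) = x / 2 := by field_simp
    linarith
  obtain ⟨x0, hx0⟩ := Filter.eventually_atTop.1 hev
  obtain ⟨g0, hg0⟩ := pow_unbounded_of_one_lt x0 (show (1 : ℝ) < 2 by norm_num)
  set K0 : ℝ := ((2 ^ g0 : ℕ) : ℝ) ^ 8 * Real.exp (((2 ^ g0 : ℕ) : ℝ) / 8) with hK0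
  have hK1 : 1 ≤ K0 :=
    one_le_mul_of_one_le_of_one_le (one_le_pow₀ (by exact_mod_cast Nat.one_le_two_pow))
      (Real.one_le_exp (by positivity))
  refine ⟨2 * k + 34, 1224 * 64 ^ 4 * K0, 2, g0, by linarith, by linarith, ?_⟩
  intro Γ J Q G h1 h2 h3 h4 h5 h6
  refine SCHED.core c1 hc1 k g0 (by exact_mod_cast hk1) hκ hk2 (fun N hN => hx0 _ ?_) K0 hK0 Γ J Q G
    h1 h2 h3 h4 h5 h6
  exact hg0.le.trans (by exact_mod_cast hN)

end Crest.Agent.R225.Up
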