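import Crest.Agent.R225.UpNf

/-!
# Row 225, S0347, task D3: SLAB, MAJ
-/

open Finset MeasureTheory
open scoped ENNReal

namespace Crest.Agent.R225.Up

namespace SlabL

theorem meas_slab {A : Type} {d : ℕ} (e : ℝ) (v : Fin d → ℝ) :
    MeasurableSet (slab (A := A) e v) := by
  unfold slab
  measurability

/-- Tonelli for a family of sets -/
theorem tonelli {X Y : Type} [Fintype X] [Fintype Y] (S : (Y → ℝ) → Set (X → ℝ)) (c : ℝ≥0∞)
    (hS : MeasurableSet {p : (Y → ℝ) × (X → ℝ) | p.2 ∈ S p.1})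
    (hc : ∀ x, volume {v | x ∈ S v} = c) (L : Set (X → ℝ)) (hL : MeasurableSet L) :
    Measurable (fun v => volume (L ∩ S v)) ∧ ∫⁻ v, volume (L ∩ S v) = c * volume L := by
  have hT : MeasurableSet {p : (Y → ℝ) × (X → ℝ) | p.2 ∈ L ∧ p.2 ∈ S p.1} :=
    (hL.preimage measurable_snd).inter hS
  refine ⟨measurable_measure_prodMk_left hT, ?_⟩
  have h1 := Measure.prod_apply (μ := volume) (ν := volume) hT
  have h2 := Measure.prod_apply_symm (μ := volume) (ν := volume) hT
  have h3 : ∫⁻ v, volume (L ∩ S v) = ∫⁻ x, L.indicator (fun _ => c) x := by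
    refine h1.symm.trans (h2.trans (lintegral_congr fun x => ?_))
    by_cases hx : x ∈ L
    · rw [Set.indicator_of_mem hx, ← hc x]
      congr 1
      ext v
      simp [hx]
    · rw [Set.indicator_of_notMem hx]
      simp [hx]
  rw [h3, lintegral_indicator_const hL]

theorem lint_half {d : ℕ} (f : (Fin d → ℝ) → ℝ≥0∞) (hf : Measurable f) (v : Fin d → ℝ) :
    ∫⁻ w, f ((1 / 2 : ℝ) • (v + w)) = 2 ^ d * ∫⁻ w, f w := by
  rw [lintegral_add_left_eq_self (fun w => f ((1 / 2 : ℝ) • w)) v,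
    ← lintegral_map hf (measurable_const_smul _), Measure.map_addHaar_smul _ (by norm_num),
    lintegral_smul_measure, Module.finrank_fintype_fun_eq_card, Fintype.card_fin]
  congr 1
  rw [← inv_pow, abs_of_pos (by positivity), ENNReal.ofReal_pow (by positivity)]
  norm_num

theorem mid_slab {A : Type} {d : ℕ} {e : ℝ} {v v' : Fin d → ℝ} {x y : A ⊕ Fin d → ℝ}
    (hx : x ∈ slab e v) (hy : y ∈ slab e v') :
    (1 / 2 : ℝ) • (x + y) ∈ slab e ((1 / 2 : ℝ) • (v + v')) := by
  intro j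
  have h1 := hx j
  have h2 := hy j
  simp only [Pi.smul_apply, Pi.add_apply, smul_eq_mul]
  constructor <;> linarith

/-- volume of a half-open box -/
theorem vol_box {I : Type} [Fintype I] (a w : I → ℝ) (hw : ∀ i, 0 ≤ w i) :
    volume {y : I → ℝ | ∀ i, a i ≤ y i ∧ y i < a i + w i} = ENNReal.ofReal (∏ i, w i) := by
  have : {y : I → ℝ | ∀ i, a i ≤ y i ∧ y i < a i + w i} =
      Set.pi Set.univ fun i => Set.Ico (a i) (a i + w i) := by
    ext y; simp
  rw [this, Real.volume_pi_Ico, ENNReal.ofReal_prod_of_nonneg fun i _ => hw i]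
  simp

/-- the base strip -/
def strip {M d : ℕ} {κ : Type} (ε : ℝ) (y : κ → ℝ) : Set ((Fin M ⊕ κ) ⊕ Fin d → ℝ) :=
  {x | ∀ p, ε * y p ≤ x (Sum.inl (Sum.inr p)) ∧ x (Sum.inl (Sum.inr p)) < ε * (y p + 1)}

theorem meas_strip {M d : ℕ} {κ : Type} [Fintype κ] (ε : ℝ) (y : κ → ℝ) :
    MeasurableSet (strip (M := M) (d := d) ε y) := by
  unfold strip
  measurability

theorem bet_pos (l : ℕ) : 0 < bet l := by unfold bet; positivity

theorem box_eq {M d : ℕ} {κ : Type} (ε e : ℝ) (j : Fin M → ℤ) (x : κ → ℤ) (b : Fin d → ℤ) :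
    box ε e j x b = {y | ∀ i,
      Sum.elim (Sum.elim (fun l : Fin M => bet l * j l) (fun p => ε * x p)) (fun i => e * b i) i ≤ y i ∧
      y i < Sum.elim (Sum.elim (fun l : Fin M => bet l * j l) (fun p => ε * x p)) (fun i => e * b i) i +
        Sum.elim (Sum.elim (fun l : Fin M => bet l) (fun _ => ε)) (fun _ => e) i} := by
  ext y
  simp [box, slab, Sum.forall, mul_add, and_assoc]

theorem vol_box' {M d : ℕ} {κ : Type} [Fintype κ] {ε e : ℝ} (hε : 0 < ε) (he : 0 < e)
    (j : Fin M → ℤ) (x : κ → ℤ) (b : Fin d → ℤ) :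
    volume (box ε e j x b) =
      ENNReal.ofReal ((∏ l : Fin M, bet l) * ε ^ Fintype.card κ * e ^ d) := by
  rw [box_eq, vol_box]
  · simp [Fintype.prod_sum_type]
  · rintro ((l | p) | i)
    exacts [(bet_pos _).le, hε.le, he.le]

theorem meas_box {M d : ℕ} {κ : Type} [Fintype κ] (ε e : ℝ) (j : Fin M → ℤ) (x : κ → ℤ)
    (b : Fin d → ℤ) : MeasurableSet (box ε e j x b) := by
  rw [box_eq]
  measurability

theorem corner_mem {M d : ℕ} {κ : Type} {ε e : ℝ} (hε : 0 < ε) (he : 0 < e)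
    (j : Fin M → ℤ) (x : κ → ℤ) (b : Fin d → ℤ) :
    Sum.elim (Sum.elim (fun l : Fin M => bet l * j l) (fun p => ε * x p)) (fun i => e * b i) ∈
      box ε e j x b := by
  rw [box_eq]
  rintro ((l | p) | i)
  · exact ⟨le_rfl, lt_add_of_pos_right _ (bet_pos _)⟩
  · exact ⟨le_rfl, lt_add_of_pos_right _ hε⟩
  · exact ⟨le_rfl, lt_add_of_pos_right _ he⟩

theorem box_disj {M d : ℕ} {κ : Type} (ε e : ℝ) {j j' : Fin M → ℤ} (h : j ≠ j') (x : κ → ℤ)
    (b : Fin d → ℤ) : Disjoint (box ε e j x b) (box ε e j' x b) := by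
  refine Set.disjoint_left.2 fun y hy hy' => h (funext fun l => ?_)
  have h1 := hy.1 l
  have h2 := hy'.1 l
  have hb := bet_pos l
  have a : (j l : ℝ) < j' l + 1 := lt_of_mul_lt_mul_left (h1.1.trans_lt h2.2) hb.le
  have a' : (j' l : ℝ) < j l + 1 := lt_of_mul_lt_mul_left (h2.1.trans_lt h1.2) hb.le
  have c : j l < j' l + 1 := by exact_mod_cast a
  have c' : j' l < j l + 1 := by exact_mod_cast a'
  omega

end SlabL

open SlabL

theorem slabS : SlabStmt := by
  intro A _ d e he
  have h1 : ∀ L : Set (A ⊕ Fin d → ℝ), MeasurableSet L →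
      Measurable (fun v => volume (L ∩ slab e v)) ∧
      ∫⁻ v, volume (L ∩ slab e v) = ENNReal.ofReal (e ^ d) * volume L := by
    refine tonelli (fun v => slab e v) _ ?_ fun x => ?_
    · unfold slab
      simp only [Set.mem_ofPred_eq]
      measurability
    · have : {v : Fin d → ℝ | x ∈ slab e v} =
          Set.pi Set.univ fun j => Set.Ioc (x (Sum.inr j) - e) (x (Sum.inr j)) := by
        ext v
        simp only [slab, Set.mem_ofPred_eq, Set.mem_pi, Set.mem_univ, forall_true_left, Set.mem_Ioc]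
        exact forall_congr' fun j => ⟨fun h => ⟨by linarith, h.1⟩, fun h => ⟨h.2, by linarith⟩⟩
      rw [this, Real.volume_pi_Ioc, ENNReal.ofReal_pow he.le]
      simp
  have h2 : ∀ (L L' L'' : Set (A ⊕ Fin d → ℝ)) (v v' : Fin d → ℝ), MeasurableSet L →
      MeasurableSet L' → MeasurableSet L'' → (∀ x ∈ L, ∀ y ∈ L', (1 / 2 : ℝ) • (x + y) ∈ L'') →
      volume (L ∩ slab e v) * volume (L' ∩ slab e v') ≤
        volume (L'' ∩ slab e ((1 / 2 : ℝ) • (v + v'))) ^ 2 :=
    fun L L' L'' v v' a b c h => NfL.bm_mid (a.inter (meas_slab _ _)) (b.inter (meas_slab _ _))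
      (c.inter (meas_slab _ _)) fun x hx y hy => ⟨h x hx.1 y hy.1, mid_slab hx.2 hy.2⟩
  refine ⟨h1, h2, fun K m hK hcv hm v u => ?_⟩
  have hKm := hK.measurableSet
  obtain ⟨m1, i1⟩ := h1 K hKm
  obtain ⟨m2, i2⟩ := h1 _ (NfL.meas_cap hKm ((1 / 2 : ℝ) • u))
  have he0 : ENNReal.ofReal (e ^ d) ≠ 0 := by simp; positivity
  refine (ENNReal.mul_le_mul_iff_right he0 ENNReal.ofReal_ne_top).1 ?_
  calc ENNReal.ofReal (e ^ d) * (volume ({y | y ∈ K ∧ y + u ∈ K} ∩ slab e v) * volume K)
      = ∫⁻ w, volume ({y | y ∈ K ∧ y + u ∈ K} ∩ slab e v) * volume (K ∩ slab e w) := by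
        rw [lintegral_const_mul _ m1, i1, mul_left_comm]
    _ ≤ ∫⁻ w, m * volume ({y | y ∈ K ∧ y + (1 / 2 : ℝ) • u ∈ K} ∩
          slab e ((1 / 2 : ℝ) • (v + w))) := by
        refine lintegral_mono fun w => ?_
        refine (h2 _ _ _ v w (NfL.meas_cap hKm u) hKm (NfL.meas_cap hKm ((1 / 2 : ℝ) • u))
          fun x hx y hy => NfL.mid_cap hcv hx hy).trans ?_
        rw [sq]
        refine mul_le_mul_left (le_trans (measure_mono ?_) (hm ((1 / 2 : ℝ) • (v + w)))) _
        exact fun y hy => ⟨hy.1.1, hy.2⟩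
    _ = _ := by
        have m3 : Measurable fun w : Fin d → ℝ => volume ({y | y ∈ K ∧ y + (1 / 2 : ℝ) • u ∈ K} ∩
          slab e ((1 / 2 : ℝ) • (v + w))) :=
          m2.comp (f := fun w : Fin d → ℝ => (1 / 2 : ℝ) • (v + w)) (by fun_prop)
        rw [lintegral_const_mul _ m3, lint_half _ m2, i2, gK]
        ring

theorem maj (hE : EroStmt) (hF : NfStmt) : MajStmt := by
  intro M d n κ _ _ G K ε e m τ b D C hn h1 hN hε he hm hG hτ hD hsl hC
  have hn' : (1 : ℝ) ≤ n := by exact_mod_cast h1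
  have hρ : ∀ i : (Fin M ⊕ κ) ⊕ Fin d, 0 < rho n i := by
    rintro ((l | p) | i) <;> simp only [rho] <;> positivity
  have hsub := ((hE _ K (rho n) hρ hN.cpt hN.cvx).1 1 zero_le_one).1
  have hdiam := (hF _ K n hn h1 hN).2.1
  have hKm := hN.cpt.measurableSet
  refine ⟨fun x y ⟨j, hj⟩ ⟨j', hj'⟩ p => ?_, ?_⟩
  · have h2 := (norm_le_pi_norm _ (Sum.inl (Sum.inr p))).trans
      ((hdiam _ (hsub (hC x j hj (corner_mem hε he j x b))) _
        (hsub (hC y j' hj' (corner_mem hε he j' y b)))).trans hD)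
    simp only [Pi.sub_apply, Sum.elim_inl, Sum.elim_inr, Real.norm_eq_abs, ← mul_sub, abs_mul,
      abs_of_pos hε] at h2
    have h3 := le_of_mul_le_mul_left h2 hε
    exact_mod_cast h3
  have hG' : ∀ l, (0 : ℝ) < G l := fun l => by exact_mod_cast hG l
  have hPG : 0 < ∏ l : Fin M, (G l : ℝ) := Finset.prod_pos fun l _ => hG' l
  have hPb : 0 < ∏ l : Fin M, bet l := Finset.prod_pos fun l _ => bet_pos l
  have hH : ∏ l : Fin M, (G l : ℝ) * bet l = (∏ l : Fin M, (G l : ℝ)) * ∏ l : Fin M, bet l :=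
    Finset.prod_mul_distrib
  set c : ℝ := 1 / ((∏ l : Fin M, (G l : ℝ) * bet l) * ε ^ Fintype.card κ * e ^ d) with hc
  have hc0 : 0 < c := by rw [hc, hH]; positivity
  set L := K ∩ slab e (fun i => e * b i) with hL
  have hLm : MeasurableSet L := hKm.inter (meas_slab _ _)
  obtain ⟨m1, i1⟩ := tonelli (fun y => strip (M := M) (d := d) ε y) 1 (by
      unfold strip
      simp only [Set.mem_ofPred_eq]
      measurability) (fun x => by
      have : {v : κ → ℝ | x ∈ strip (M := M) (d := d) ε v} = Set.pi Set.univ fun p =>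
          Set.Ioc (x (Sum.inl (Sum.inr p)) / ε - 1) (x (Sum.inl (Sum.inr p)) / ε) := by
        ext v
        simp only [strip, Set.mem_ofPred_eq, Set.mem_pi, Set.mem_univ, forall_true_left,
          Set.mem_Ioc, sub_lt_iff_lt_add, div_lt_iff₀' hε, le_div_iff₀' hε]
        exact forall_congr' fun _ => and_comm
      rw [this, Real.volume_pi_Ioc]
      simp) L hLm
  refine ⟨fun y => ENNReal.ofReal c * volume (L ∩ strip ε y), ⟨m1.const_mul _, fun x y => ?_⟩,
    fun x u hu => ?_, ?_, fun y => ?_⟩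
  · rw [mul_mul_mul_comm, mul_pow, ← sq]
    refine mul_le_mul_right (NfL.bm_mid (hLm.inter (meas_strip _ _)) (hLm.inter (meas_strip _ _))
      (hLm.inter (meas_strip _ _)) fun s hs t ht => ⟨⟨?_, ?_⟩, fun p => ?_⟩) _
    · have := hN.cvx hs.1.1 ht.1.1 (a := 1 / 2) (b := 1 / 2) (by norm_num) (by norm_num)
        (by norm_num)
      rwa [← smul_add] at this
    · have := mid_slab hs.1.2 ht.1.2
      convert this using 2
      funext i
      simp only [Pi.smul_apply, Pi.add_apply, smul_eq_mul]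
      ring
    · have a := hs.2 p
      have a' := ht.2 p
      simp only [Pi.smul_apply, Pi.add_apply, smul_eq_mul]
      constructor <;> linarith
  · let w : (Fin M ⊕ κ) ⊕ Fin d → ℝ := Sum.elim (Sum.elim 0 (fun p => ε * u p)) 0
    have hw : cn (rho n) w ≤ 1 := by
      have h2 : cn (rho n) w = ∑ p, ε * |u p| * (256 * n) := by
        simp [cn, Fintype.sum_sum_type, w, rho, abs_mul, abs_of_pos hε, div_eq_mul_inv, mul_comm]
      rw [h2]
      calc _ ≤ ∑ _p : κ, ε * τ * (256 * n) := Finset.sum_le_sum fun p _ => by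
            have := (norm_le_pi_norm u p).trans hu
            rw [Real.norm_eq_abs] at this
            gcongr
        _ ≤ 1 := by
            rw [Finset.sum_const, Finset.card_univ, nsmul_eq_mul]
            linarith
    have h3 : (⋃ j ∈ C x, box ε e j x b) ⊆
        (fun y => y + w) ⁻¹' (L ∩ strip ε ((fun p => (x p : ℝ)) + u)) := by
      intro y hy
      simp only [Set.mem_iUnion] at hy
      obtain ⟨j, hj, hy⟩ := hy
      refine ⟨⟨hC x j hj hy w hw, fun i => ?_⟩, fun p => ?_⟩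
      · simpa [w] using hy.2.2 i
      · have := hy.2.1 p
        simp only [w, Pi.add_apply, Sum.elim_inl, Sum.elim_inr]
        constructor <;> linarith
    have h4 := measure_mono (μ := volume) h3
    rw [measure_preimage_add_right, measure_biUnion_finset
      (fun j _ j' _ h => box_disj ε e h x b) (fun j _ => meas_box _ _ _ _ _)] at h4
    simp only [vol_box' hε he, Finset.sum_const, nsmul_eq_mul] at h4
    refine le_trans (le_of_eq ?_) (mul_le_mul_right h4 _)
    rw [← ENNReal.ofReal_natCast, ← ENNReal.ofReal_mul (by positivity),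
      ← ENNReal.ofReal_mul hc0.le, hc, hH]
    field_simp
  · rw [lintegral_const_mul _ m1, i1, one_mul]
    refine (mul_le_mul_right (hsl _) _).trans (le_of_eq ?_)
    rw [← ENNReal.ofReal_mul hc0.le, hc]
    congr 1
    ring
  · obtain ⟨x0, hx0⟩ := nonempty_of_measure_ne_zero hN.pos.ne'
    have h3 : L ∩ strip ε y ⊆ Set.pi Set.univ fun i => Set.Icc
        (Sum.elim (Sum.elim (fun l : Fin M => x0 (Sum.inl (Sum.inl l)) - 4 * n) (fun p => ε * y p))
          (fun i => e * b i) i)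
        (Sum.elim (Sum.elim (fun l : Fin M => x0 (Sum.inl (Sum.inl l)) + 4 * n)
          (fun p => ε * (y p + 1))) (fun i => e * b i + e) i) := by
      rintro z hz ((l | p) | i) -
      · have := (norm_le_pi_norm _ (Sum.inl (Sum.inl l))).trans (hdiam z hz.1.1 x0 hx0)
        rw [Real.norm_eq_abs, abs_le, Pi.sub_apply] at this
        simp only [Sum.elim_inl]
        constructor <;> linarith
      · exact ⟨(hz.2 p).1, (hz.2 p).2.le⟩
      · exact ⟨(hz.1.2 i).1, (hz.1.2 i).2.le⟩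
    have h4 := measure_mono (μ := volume) h3
    rw [Set.pi_univ_Icc, Real.volume_Icc_pi] at h4
    have h5 : volume (L ∩ strip ε y) ≤
        ENNReal.ofReal ((8 * n) ^ M * ε ^ Fintype.card κ * e ^ d) := by
      refine h4.trans (le_of_eq ?_)
      rw [ENNReal.ofReal_mul (by positivity), ENNReal.ofReal_mul (by positivity),
        ENNReal.ofReal_pow (by positivity), ENNReal.ofReal_pow hε.le, ENNReal.ofReal_pow he.le]
      have : ∀ t : ℝ, t + 4 * n - (t - 4 * n) = 8 * n := fun t => by ring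
      simp [Fintype.prod_sum_type, this, mul_add]
    refine (mul_le_mul_right h5 _).trans (le_of_eq ?_)
    rw [← ENNReal.ofReal_mul hc0.le, hc, hH]
    congr 1
    field_simp

end Crest.Agent.R225.Up
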