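import Crest.Agent.R225.UpAv

/-!
# Row 225, part A5: one stage
-/

open Finset

set_option linter.unusedSectionVars false

namespace Crest.Agent.R225.Up

namespace ST
open SB

lemma sum_div_steps (F : ℕ → ℝ) (c G : ℕ) (hc : 0 < c) :
    ∑ n ∈ range (c * G), F (n / c) = c * ∑ a ∈ range G, F a := by
  induction G with
  | zero => simp
  | succ G ih =>
    rw [Nat.mul_succ, Finset.sum_range_add, ih, Finset.sum_range_succ, mul_add]
    congr 1
    rw [Finset.sum_congr rfl (g := fun _ => F G)]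
    · simp
    · intro r hr
      congr 1
      rw [Nat.mul_add_div hc, Nat.div_eq_of_lt (Finset.mem_range.mp hr), add_zero]

lemma av_step (Q c G : ℕ) [NeZero Q] (hQ : Q = c * G) (F : ℕ → ℝ) :
    av (fun u : ZMod Q => F (u.val / c)) = (∑ a ∈ range G, F a) / G := by
  have hQ0 : Q ≠ 0 := NeZero.ne Q
  have hc : 0 < c := Nat.pos_of_ne_zero fun h => hQ0 (by rw [hQ, h, zero_mul])
  have hG : 0 < G := Nat.pos_of_ne_zero fun h => hQ0 (by rw [hQ, h, mul_zero])
  have e : ∑ u : ZMod Q, F (u.val / c) = ∑ n ∈ range Q, F (n / c) := by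
    refine Finset.sum_bij (fun u _ => u.val) (fun u _ => Finset.mem_range.mpr (ZMod.val_lt u))
      (fun u _ v _ h => ZMod.val_injective Q h) (fun n hn => ⟨(n : ZMod Q), Finset.mem_univ _,
        ZMod.val_cast_of_lt (Finset.mem_range.mp hn)⟩) (fun _ _ => rfl)
  rw [av, e, ZMod.card, hQ, sum_div_steps F c G hc]
  push_cast
  have : (c : ℝ) ≠ 0 := by exact_mod_cast hc.ne'
  field_simp

lemma trim {ι : Type} [DecidableEq ι] (w : ι → ℝ) (V : ℝ) (hV : 0 ≤ V) (A : Finset ι)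
    (hw : ∀ x ∈ A, w x ≤ 1) (h : V ≤ ∑ x ∈ A, w x) :
    ∃ A' ⊆ A, V ≤ ∑ x ∈ A', w x ∧ ∑ x ∈ A', w x ≤ V + 1 := by
  induction A using Finset.induction_on with
  | empty => exact ⟨∅, subset_rfl, h, by simp; linarith⟩
  | insert a A ha ih =>
    by_cases h2 : V ≤ ∑ x ∈ A, w x
    · obtain ⟨A', h3, h4⟩ := ih (fun x hx => hw x (Finset.mem_insert_of_mem hx)) h2
      exact ⟨A', h3.trans (Finset.subset_insert _ _), h4⟩
    · refine ⟨insert a A, subset_rfl, h, ?_⟩
      rw [Finset.sum_insert ha]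
      have := hw a (Finset.mem_insert_self _ _)
      linarith

section main
variable {ι P : Type} [DecidableEq ι] [Fintype P] [DecidableEq P] {Q : ℕ} [NeZero Q]

/-- the data of one stage -/
structure Dat (A : Finset ι) (w : ι → ℝ) (φ lo hi : ι → ZMod Q → ℝ) (B : ℕ) (s g δ : ℝ) : Prop where
  s0 : 0 ≤ s
  w0 : ∀ x, 0 ≤ w x
  ws : ∀ x, w x ≤ s / 2
  g1 : 1 ≤ g
  φ0 : ∀ x u, 0 ≤ φ x u
  φg : ∀ x u, φ x u ≤ g * w x
  tlo : ∀ x, Trig Q B (lo x)
  thi : ∀ x, Trig Q B (hi x)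
  lo_le : ∀ x u, lo x u ≤ φ x u
  le_hi : ∀ x u, φ x u ≤ hi x u
  avlo : ∀ x, (1 - δ) * w x ≤ av (lo x)
  avlo' : ∀ x, av (lo x) ≤ w x
  avhi : ∀ x, av (hi x) ≤ (1 + δ) * w x
  los : ∀ x u, |lo x u| ≤ s
  log : ∀ x u, |lo x u| ≤ g * w x
  avabs : ∀ x, av (fun u => |lo x u|) ≤ 2 * w x

variable {A : Finset ι} {w : ι → ℝ} {φ lo hi : ι → ZMod Q → ℝ} {B : ℕ} {s g δ : ℝ}

lemma moment (hT : TrigStmt) (D : Dat A w φ lo hi B s g δ) (hδ : δ ≤ 1) (X : ι → P → ZMod Q)
    (hQ : 2 * B < Q) (t i : ℕ) (U E : Finset ι) (hi' : i ≤ t) (hE : E ⊆ U)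
    (hU : U.card = t + i) (hEc : E.card = t - i) :
    |av (fun θ : P → ZMod Q => (∏ x ∈ E, (lo x (val X θ x) - av (lo x)) ^ 2) *
        ∏ x ∈ U \ E, (lo x (val X θ x) - av (lo x)))| ≤
      ind (i = 0) * ((6 * s) ^ t * ∏ x ∈ U, w x) +
        (2 * s) ^ (t - i) * (2 * g) ^ (t + i) * (ind (¬ Dis X (2 * B) U) * ∏ x ∈ U, w x) := by
  obtain ⟨t1, t2, t3, -, t5⟩ := hT Q
  have hs := D.s0
  have hg := D.g1
  have μ0 : ∀ x, 0 ≤ av (lo x) := fun x =>
    (mul_nonneg (by linarith) (D.w0 x)).trans (D.avlo x)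
  have Z1 : ∀ x u, |lo x u - av (lo x)| ≤ |lo x u| + w x := fun x u => by
    refine (abs_sub _ _).trans (add_le_add le_rfl ?_)
    rw [abs_of_nonneg (μ0 x)]; exact D.avlo' x
  have Zs : ∀ x u, |lo x u - av (lo x)| ≤ 2 * s := fun x u => by
    linarith [Z1 x u, D.los x u, D.ws x]
  have Zg : ∀ x u, |lo x u - av (lo x)| ≤ 2 * g * w x := fun x u => by
    nlinarith [Z1 x u, D.log x u, D.w0 x]
  have hwU : 0 ≤ ∏ x ∈ U, w x := Finset.prod_nonneg fun x _ => D.w0 x
  have n1 : 0 ≤ ind (i = 0) * ((6 * s) ^ t * ∏ x ∈ U, w x) :=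
    mul_nonneg (ind_nonneg _) (by positivity)
  have n2 : 0 ≤ (2 * s) ^ (t - i) * (2 * g) ^ (t + i) *
      (ind (¬ Dis X (2 * B) U) * ∏ x ∈ U, w x) :=
    mul_nonneg (by positivity) (mul_nonneg (ind_nonneg _) hwU)
  have hc : (U \ E).card = 2 * i := by rw [Finset.card_sdiff_of_subset hE]; omega
  by_cases hD : Dis X (2 * B) U
  · set f : ι → ZMod Q → ℝ := fun x u =>
      if x ∈ E then (lo x u - av (lo x)) ^ 2 else lo x u - av (lo x) with hf
    have e1 : ∀ θ : P → ZMod Q, (∏ x ∈ E, (lo x (val X θ x) - av (lo x)) ^ 2) *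
        ∏ x ∈ U \ E, (lo x (val X θ x) - av (lo x)) = ∏ x ∈ U, f x (val X θ x) := by
      intro θ
      rw [← Finset.prod_sdiff hE, mul_comm]
      congr 1
      · exact Finset.prod_congr rfl fun x hx => by simp [hf, (Finset.mem_sdiff.mp hx).2]
      · exact Finset.prod_congr rfl fun x hx => by simp [hf, hx]
    have e2 := t5 ι P X (2 * B) U f hQ hD (fun x _ => by
      by_cases hx : x ∈ E
      · have := t3 B _ _ (t2 B _ (av (lo x)) (D.tlo x)) (t2 B _ (av (lo x)) (D.tlo x))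
        simpa [hf, hx, sq] using this
      · have := t1 B (2 * B) _ (by omega) (t2 B _ (av (lo x)) (D.tlo x))
        simpa [hf, hx] using this)
    rw [av_congr e1, e2]
    rcases Nat.eq_zero_or_pos i with rfl | hi0
    · have hEU : E = U := Finset.eq_of_subset_of_card_le hE (by omega)
      subst hEU
      rw [ind_pos rfl, one_mul]
      refine le_trans ?_ (le_add_of_nonneg_right n2)
      have a1 : ∀ x ∈ E, 0 ≤ av (f x) ∧ av (f x) ≤ 6 * s * w x := by
        intro x hx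
        have : f x = fun u => (lo x u - av (lo x)) ^ 2 := by funext u; simp [hf, hx]
        rw [this]
        refine ⟨av_nonneg fun u => sq_nonneg _, ?_⟩
        calc _ ≤ av (fun u => (2 * s) * (|lo x u| + w x)) := av_mono fun u => by
              rw [← sq_abs, sq]
              exact mul_le_mul (Zs x u) (Z1 x u) (abs_nonneg _) (by linarith)
          _ = (2 * s) * (av (fun u => |lo x u|) + w x) := by
              rw [av_const_mul, av_add, av_const]
          _ ≤ (2 * s) * (2 * w x + w x) := by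
              gcongr; exact D.avabs x
          _ = _ := by ring
      rw [abs_of_nonneg (Finset.prod_nonneg fun x hx => (a1 x hx).1)]
      refine (Finset.prod_le_prod (fun x hx => (a1 x hx).1) (fun x hx => (a1 x hx).2)).trans ?_
      rw [Finset.prod_mul_distrib, Finset.prod_const, hU, add_zero]
    · obtain ⟨x, hx⟩ : (U \ E).Nonempty := Finset.card_pos.mp (by omega)
      obtain ⟨hx1, hx2⟩ := Finset.mem_sdiff.mp hx
      rw [Finset.prod_eq_zero hx1, abs_zero]
      · exact add_nonneg n1 n2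
      · have : f x = fun u => lo x u - av (lo x) := by funext u; simp [hf, hx2]
        rw [this, av_sub, av_const, sub_self]
  · refine le_trans (abs_av_le fun θ => ?_) (le_add_of_nonneg_left n1)
    rw [ind_pos hD, one_mul, abs_mul, Finset.abs_prod, Finset.abs_prod]
    have a1 : ∏ x ∈ E, |(lo x (val X θ x) - av (lo x)) ^ 2| ≤ ∏ x ∈ E, (2 * s) * (2 * g * w x) :=
      Finset.prod_le_prod (fun _ _ => abs_nonneg _) fun x _ => by
        rw [abs_pow, sq]
        exact mul_le_mul (Zs x _) (Zg x _) (abs_nonneg _) (by linarith)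
    have a2 : ∏ x ∈ U \ E, |lo x (val X θ x) - av (lo x)| ≤ ∏ x ∈ U \ E, (2 * g * w x) :=
      Finset.prod_le_prod (fun _ _ => abs_nonneg _) fun x _ => Zg x _
    refine (mul_le_mul a1 a2 (Finset.prod_nonneg fun _ _ => abs_nonneg _)
      (Finset.prod_nonneg fun x _ => by have := D.w0 x; positivity)).trans (le_of_eq ?_)
    simp only [Finset.prod_mul_distrib, Finset.prod_const]
    rw [← Finset.prod_sdiff hE, hc, hEc, show t + i = (t - i) + 2 * i by omega]
    simp only [mul_pow, pow_add]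
    ring

lemma tail (hT : TrigStmt) (hL : LTStmt) (D : Dat A w φ lo hi B s g δ) (hδ0 : 0 < δ)
    (hδ : δ ≤ 1 / 8) (X : ι → P → ZMod Q) (hQ : 2 * B < Q) (V : ℝ) (t T : ℕ) (hV : 1 ≤ V)
    (ht : 1 ≤ t) (htT : (t : ℝ) ≤ δ * T) (htV : 4 * t * s ≤ δ ^ 2 * V) (hTV : 2 * s * T ≤ V + 1)
    (m1 : V ≤ ∑ x ∈ A, w x) (m2 : ∑ x ∈ A, w x ≤ V + 1) :
    prob (fun θ : P → ZMod Q => ∑ x ∈ A, φ x (val X θ x) < (1 - 4 * δ) * V) ≤
      2 * (T.choose t : ℝ) * (6 * s * T * (V + 1) / (δ ^ 2 * V ^ 2)) ^ t +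
      2 * (T.choose t : ℝ) * 2 ^ t * (4 * g * (V + 1) / (δ * V)) ^ (2 * t) *
        Phi X (2 * B) (2 * t) A w (V + 1) := by
  have hs := D.s0
  have hg := D.g1
  have ht' : (1 : ℝ) ≤ t := by exact_mod_cast ht
  have hT0 : (0 : ℝ) < T := by
    by_contra h
    nlinarith [mul_nonneg hδ0.le (neg_nonneg.mpr (not_lt.mp h))]
  have htT' : t ≤ T := by
    have : (t : ℝ) ≤ T := by nlinarith
    exact_mod_cast this
  have μ0 : ∀ x, 0 ≤ av (lo x) := fun x =>
    (mul_nonneg (by linarith) (D.w0 x)).trans (D.avlo x)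
  have hS2 : ∑ x ∈ A, av (lo x) ^ 2 ≤ s * V := by
    calc _ ≤ ∑ x ∈ A, s / 2 * w x := Finset.sum_le_sum fun x _ => by
          rw [sq]
          exact mul_le_mul ((D.avlo' x).trans (D.ws x)) (D.avlo' x) (μ0 x) (by linarith)
      _ = s / 2 * ∑ x ∈ A, w x := by rw [Finset.mul_sum]
      _ ≤ s / 2 * (V + 1) := by gcongr
      _ ≤ s * V := by nlinarith
  have h1 := hL ι (P → ZMod Q) A (fun x θ => φ x (val X θ x)) (fun x θ => lo x (val X θ x))
    (fun x => av (lo x)) (s * V) (δ * V / T) t T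
    (fun U i => ind (i = 0) * ((6 * s) ^ t * ∏ x ∈ U, w x) +
        (2 * s) ^ (t - i) * (2 * g) ^ (t + i) * (ind (¬ Dis X (2 * B) U) * ∏ x ∈ U, w x))
    (fun x _ θ => ⟨D.φ0 x _, D.lo_le x _⟩) (fun x _ => μ0 x) hS2 ht htT' (by positivity)
    (fun i U E hi _ hE hU hEc => moment hT D (by linarith) X hQ t i U E hi hE hU hEc)
  have hμ : (1 - δ) * V ≤ ∑ x ∈ A, av (lo x) := by
    calc (1 - δ) * V ≤ (1 - δ) * ∑ x ∈ A, w x := by gcongr; linarith
      _ = ∑ x ∈ A, (1 - δ) * w x := by rw [Finset.mul_sum]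
      _ ≤ _ := Finset.sum_le_sum fun x _ => D.avlo x
  have hthr : (1 - 4 * δ) * V ≤ ∑ x ∈ A, av (lo x) - t * (∑ x ∈ A, av (lo x)) / T -
      Real.sqrt (2 * t * (s * V)) - T * (δ * V / T) := by
    have a1 : Real.sqrt (2 * t * (s * V)) ≤ δ * V := by
      refine Real.sqrt_le_iff.mpr ⟨by positivity, ?_⟩
      have := mul_le_mul_of_nonneg_right htV (by linarith : 0 ≤ V)
      have h2 : 0 ≤ t * s * V := by positivity
      nlinarith
    have a2 : (T : ℝ) * (δ * V / T) = δ * V := by field_simp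
    have hM : 0 ≤ ∑ x ∈ A, av (lo x) := Finset.sum_nonneg fun x _ => μ0 x
    have a3 : t * (∑ x ∈ A, av (lo x)) / T ≤ δ * ∑ x ∈ A, av (lo x) := by
      rw [div_le_iff₀ hT0]
      nlinarith [mul_le_mul_of_nonneg_right htT hM]
    have a4 : (1 - δ) * ((1 - δ) * V) ≤ (1 - δ) * ∑ x ∈ A, av (lo x) := by gcongr; linarith
    nlinarith [mul_nonneg (sq_nonneg δ) (by linarith : 0 ≤ V)]
  refine (av_mono fun θ => ind_mono fun h => lt_of_lt_of_le h hthr).trans (h1.trans ?_)
  have hw : ∀ x ∈ A, 0 ≤ w x := fun x _ => D.w0 x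
  have hΦ : 0 ≤ Phi X (2 * B) (2 * t) A w (V + 1) := fam_nonneg _ _ hw (by linarith)
  have term : ∀ i ∈ range (t + 1), (t.choose i : ℝ) * ((t + i).factorial : ℝ) / (T : ℝ) ^ (t + i) *
      ∑ U ∈ A.powersetCard (t + i), (ind (i = 0) * ((6 * s) ^ t * ∏ x ∈ U, w x) +
        (2 * s) ^ (t - i) * (2 * g) ^ (t + i) * (ind (¬ Dis X (2 * B) U) * ∏ x ∈ U, w x)) ≤
      (if i = 0 then (6 * s * (V + 1) / T) ^ t else 0) + (t.choose i : ℝ) *
        ((4 * g * (V + 1) / T) ^ (2 * t) * Phi X (2 * B) (2 * t) A w (V + 1)) := by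
    intro i hi
    have hi' : i ≤ t := Nat.lt_succ_iff.mp (Finset.mem_range.mp hi)
    rw [Finset.sum_add_distrib, mul_add]
    refine add_le_add ?_ ?_
    · split_ifs with h0
      · subst h0
        simp only [ind_pos True.intro, one_mul, ← Finset.mul_sum, Nat.choose_zero_right, add_zero,
          Nat.cast_one]
        have := esymm_le' hw m2 t
        calc _ = (6 * s) ^ t / (T : ℝ) ^ t *
              ((t.factorial : ℝ) * ∑ U ∈ A.powersetCard t, ∏ x ∈ U, w x) := by ring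
          _ ≤ (6 * s) ^ t / (T : ℝ) ^ t * (V + 1) ^ t := by gcongr
          _ = _ := by simp only [div_pow, mul_pow]; ring
      · simp [ind_neg h0]
    · rw [← Finset.mul_sum]
      have a1 := nondis_le X (2 * B) A w (V + 1) (t + i) (2 * t) (by linarith) hw m2 (by omega)
      have a2 : 2 * s ≤ 4 * g * (V + 1) / T := by
        rw [le_div_iff₀ hT0]; nlinarith
      have a3 : (2 * s) ^ (t - i) ≤ (4 * g * (V + 1) / T) ^ (t - i) :=
        pow_le_pow_left₀ (by linarith) a2 _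
      calc _ = (t.choose i : ℝ) * ((2 * s) ^ (t - i) * ((2 * g) ^ (t + i) / (T : ℝ) ^ (t + i) *
            (((t + i).factorial : ℝ) * ∑ U ∈ A.powersetCard (t + i),
              ind (¬ Dis X (2 * B) U) * ∏ x ∈ U, w x))) := by ring
        _ ≤ (t.choose i : ℝ) * ((4 * g * (V + 1) / T) ^ (t - i) *
            ((2 * g) ^ (t + i) / (T : ℝ) ^ (t + i) *
            (2 ^ (t + i) * (V + 1) ^ (t + i) * Phi X (2 * B) (2 * t) A w (V + 1)))) := by
          gcongr
          exact mul_nonneg (by positivity) (mul_nonneg (by positivity) (Finset.sum_nonneg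
            fun U _ => mul_nonneg (ind_nonneg _) (Finset.prod_nonneg fun x _ => D.w0 x)))
        _ = _ := by
          rw [show 2 * t = (t - i) + (t + i) by omega, pow_add (4 * g * (V + 1) / T) (t - i) (t + i),
            show 4 * g * (V + 1) / T = (2 * g) / T * 2 * (V + 1) by ring]
          simp only [mul_pow, div_pow]
          ring
  have hsum := Finset.sum_le_sum term
  rw [Finset.sum_add_distrib, Finset.sum_ite_eq', if_pos (Finset.mem_range.mpr (by omega)),
    ← Finset.sum_mul, ← Nat.cast_sum, Nat.sum_range_choose] at hsum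
  refine (mul_le_mul_of_nonneg_left hsum (by positivity)).trans (le_of_eq ?_)
  have e1 : 6 * s * T * (V + 1) / (δ ^ 2 * V ^ 2) = (6 * s * (V + 1) / T) / (δ * V / T) ^ 2 := by
    field_simp
  have e2 : 4 * g * (V + 1) / (δ * V) = (4 * g * (V + 1) / T) / (δ * V / T) := by
    field_simp
  rw [e1, e2, div_pow _ ((δ * V / T) ^ 2), div_pow _ (δ * V / T), ← pow_mul]
  push_cast
  ring

lemma avPhi (hT : TrigStmt) (D : Dat A w φ lo hi B s g δ) (hδ0 : 0 < δ) (X : ι → P → ZMod Q)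
    (hQ : 2 * B < Q) (V V' : ℝ) (u : ℕ) (hV' : 0 ≤ V') (hVV : V' ≤ V) :
    av (fun θ : P → ZMod Q => Phi X (2 * B) u A (fun x => φ x (val X θ x)) (V' + 1)) ≤
      g * ((1 + δ) * (V + 1) / (V' + 1)) ^ u * Phi X (2 * B) u A w (V + 1) := by
  classical
  obtain ⟨t1, -, -, -, t5⟩ := hT Q
  have hg := D.g1
  simp only [Phi, Fam]
  rw [av_sum, Finset.mul_sum]
  refine Finset.sum_le_sum fun C hC => ?_
  obtain ⟨-, hCu, hC1, hC2⟩ := Finset.mem_filter.mp hC
  obtain ⟨x0, hx0⟩ : C.Nonempty := by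
    rw [Finset.nonempty_iff_ne_empty]
    rintro rfl
    exact hC1 (dis_empty _ _)
  have a1 : ∀ θ : P → ZMod Q, ∏ x ∈ C, φ x (val X θ x) ≤
      g * w x0 * ∏ x ∈ C.erase x0, hi x (val X θ x) := by
    intro θ
    rw [← Finset.mul_prod_erase _ _ hx0]
    exact mul_le_mul (D.φg _ _) (Finset.prod_le_prod (fun x _ => D.φ0 x _) fun x _ => D.le_hi x _)
      (Finset.prod_nonneg fun x _ => D.φ0 x _) (mul_nonneg (by linarith) (D.w0 _))
  have a2 := t5 ι P X (2 * B) (C.erase x0) hi hQ (hC2 x0 hx0)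
    (fun x _ => t1 B (2 * B) _ (by omega) (D.thi x))
  have a3 : ∏ x ∈ C.erase x0, av (hi x) ≤ ∏ x ∈ C.erase x0, (1 + δ) * w x :=
    Finset.prod_le_prod (fun x _ => av_nonneg fun u => (D.φ0 x u).trans (D.le_hi x u))
      fun x _ => D.avhi x
  have hwe : 0 ≤ ∏ x ∈ C.erase x0, w x := Finset.prod_nonneg fun x _ => D.w0 x
  have hw0 := D.w0 x0
  have a4 : av (fun θ : P → ZMod Q => ∏ x ∈ C, φ x (val X θ x)) ≤
      g * (1 + δ) ^ C.card * ∏ x ∈ C, w x := by
    refine (av_mono a1).trans ?_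
    rw [av_const_mul, a2]
    refine (mul_le_mul_of_nonneg_left a3 (by positivity)).trans ?_
    rw [Finset.prod_mul_distrib, Finset.prod_const, ← Finset.mul_prod_erase _ _ hx0]
    have : (1 + δ) ^ (C.erase x0).card ≤ (1 + δ) ^ C.card :=
      pow_le_pow_right₀ (by linarith) Finset.card_erase_le
    calc _ = g * (1 + δ) ^ (C.erase x0).card * (w x0 * ∏ x ∈ C.erase x0, w x) := by ring
      _ ≤ _ := by gcongr
  have hwC : 0 ≤ ∏ x ∈ C, w x := Finset.prod_nonneg fun x _ => D.w0 x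
  have a5 : ((1 + δ) * (V + 1) / (V' + 1)) ^ C.card ≤ ((1 + δ) * (V + 1) / (V' + 1)) ^ u := by
    refine pow_le_pow_right₀ ?_ hCu
    rw [le_div_iff₀ (by linarith)]
    nlinarith
  have hV0 : 0 < V + 1 := by linarith
  calc _ = (C.card.factorial : ℝ) / (V' + 1) ^ C.card *
        av (fun θ : P → ZMod Q => ∏ x ∈ C, φ x (val X θ x)) := by
        rw [← av_const_mul]; exact av_congr fun θ => by ring
    _ ≤ (C.card.factorial : ℝ) / (V' + 1) ^ C.card * (g * (1 + δ) ^ C.card * ∏ x ∈ C, w x) := by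
        gcongr
    _ = g * ((1 + δ) * (V + 1) / (V' + 1)) ^ C.card *
        ((C.card.factorial : ℝ) * (∏ x ∈ C, w x) / (V + 1) ^ C.card) := by
        simp only [div_pow, mul_pow]; field_simp
    _ ≤ _ := by gcongr

end main

end ST

open SB in
theorem stage (_hS : SubStmt) (hT : TrigStmt) (hF : FejStmt) (hL : LTStmt) : StageStmt := by
  intro ι P _ _ _ Q _ X p0 G M W l B t T V δ α β hX hW hl hG hδ0 hδ1 hB hQ hV ht htT htV hTV hα hβ
    hLev A lab m1 m2
  have hQ0 : Q ≠ 0 := NeZero.ne Q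
  have hQc : Q = Q / G l * G l := (Nat.div_mul_cancel hG).symm
  have hG0 : 0 < G l := Nat.pos_of_ne_zero fun h => hQ0 (by rw [hQc, h, mul_zero])
  have hG1 : (1 : ℝ) ≤ G l := by exact_mod_cast hG0
  have hc0 : 0 < Q / G l := Nat.pos_of_ne_zero fun h => hQ0 (by rw [hQc, h, zero_mul])
  set F : ι → ℕ → ℝ := fun x a => W x (Function.update (lab x) l a) l with hFd
  set w : ι → ℝ := fun x => W x (lab x) (l + 1) with hw
  have hav : ∀ x, av (fun u : ZMod Q => F x (u.val / (Q / G l))) = w x := fun x => by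
    rw [ST.av_step Q _ _ hQc, hw]
    exact ((hW x).avg _ _ hl).symm
  have hF0 : ∀ x a, 0 ≤ F x a := fun x a => (hW x).nonneg _ _
  have hFg : ∀ x a, a < G l → F x a ≤ G l * w x := fun x a ha => by
    have h1 : w x = (∑ a ∈ range (G l), F x a) / G l := (hW x).avg _ _ hl
    rw [h1, mul_div_cancel₀ _ (by linarith)]
    exact Finset.single_le_sum (fun a _ => hF0 x a) (Finset.mem_range.mpr ha)
  have hlt : ∀ u : ZMod Q, u.val / (Q / G l) < G l := fun u => by
    rw [Nat.div_lt_iff_lt_mul hc0, mul_comm, ← hQc]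
    exact ZMod.val_lt u
  have hfe := fun x => hF Q (Q / G l) (G l) B (F x) δ hQc (hF0 x) hδ0 (by linarith) hB (by omega)
  choose lo hi f1 f2 f3 f4 f5 f6 f7 using hfe
  simp only [hav] at f4 f5 f7
  have D : ST.Dat A w (fun x u => F x (u.val / (Q / G l))) lo hi B ((1 / 2) ^ l) (G l) δ :=
    { s0 := by positivity
      w0 := fun x => (hW x).nonneg _ _
      ws := fun x => by
        have := (hW x).le (lab x) (l + 1) hl
        rw [pow_succ] at this
        simp only [hw]; linarith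
      g1 := hG1
      φ0 := fun x u => hF0 x _
      φg := fun x u => hFg x _ (hlt u)
      tlo := f1
      thi := f2
      lo_le := fun x u => (f3 x u).1
      le_hi := fun x u => (f3 x u).2
      avlo := f4
      avlo' := fun x => by rw [← hav x]; exact av_mono fun u => (f3 x u).1
      avhi := f5
      los := fun x => f6 x _ fun a _ => (hW x).le _ _ hl.le
      log := fun x => f6 x _ (hFg x)
      avabs := f7 }
  have h1 := ST.tail hT hL D hδ0 hδ1 X hQ V t T hV ht htT htV hTV m1 m2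
  have hV' : 0 ≤ (1 - 4 * δ) * V := mul_nonneg (by linarith) (by linarith)
  have h2 := ST.avPhi hT D hδ0 X hQ V ((1 - 4 * δ) * V) (2 * t) hV' (by nlinarith)
  have pt : ∀ θ : P → ZMod Q, fail X G W A l (relab X G l lab θ) ≤
      ind (∑ x ∈ A, F x ((val X θ x).val / (Q / G l)) < (1 - 4 * δ) * V) + (α + β *
        Phi X (2 * B) (2 * t) A (fun x => F x ((val X θ x).val / (Q / G l)))
          ((1 - 4 * δ) * V + 1)) := by
    intro θ
    have hΦ : 0 ≤ Phi X (2 * B) (2 * t) A (fun x => F x ((val X θ x).val / (Q / G l)))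
          ((1 - 4 * δ) * V + 1) := fam_nonneg _ _ (fun x _ => hF0 x _) (by linarith)
    by_cases h : ∑ x ∈ A, F x ((val X θ x).val / (Q / G l)) < (1 - 4 * δ) * V
    · rw [ind_pos h]
      have := fail_le_one X G W A l (relab X G l lab θ)
      have := mul_nonneg hβ hΦ
      linarith
    · rw [ind_neg h, zero_add]
      obtain ⟨A', hA', b1, b2⟩ := ST.trim (fun x => F x ((val X θ x).val / (Q / G l))) _ hV' A
        (fun x _ => ((hW x).le _ _ hl.le).trans (pow_le_one₀ (by norm_num) (by norm_num)))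
        (not_lt.mp h)
      refine (fail_anti X G W hA' l _).trans ((hLev A' (relab X G l lab θ) b1 b2).trans ?_)
      refine add_le_add le_rfl (mul_le_mul_of_nonneg_left ?_ hβ)
      exact fam_mono (fun x _ => hF0 x _) (by linarith) (fun _ h => h) le_rfl hA'
  rw [fail]
  refine (av_mono pt).trans ?_
  rw [av_add, av_add, av_const, av_const_mul]
  have h3 := mul_le_mul_of_nonneg_left h2 hβ
  rw [prob_eq] at h1
  unfold mainT errT
  nlinarith

end Crest.Agent.R225.Up
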