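import Crest.Agent.R225.UpA

/-!
# Row 225, part A1: supersets of members of a family; long circuits against short ones
-/

open Finset

set_option linter.unusedSectionVars false

namespace Crest.Agent.R225.Up

namespace SB

open Classical in
/-- indicator -/
noncomputable def ind (P : Prop) : ℝ := if P then 1 else 0

lemma ind_nonneg (P : Prop) : 0 ≤ ind P := by unfold ind; split_ifs <;> norm_num
lemma ind_le_one (P : Prop) : ind P ≤ 1 := by unfold ind; split_ifs <;> norm_num
lemma ind_pos {P : Prop} (h : P) : ind P = 1 := by unfold ind; simp [h]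
lemma ind_neg {P : Prop} (h : ¬ P) : ind P = 0 := by unfold ind; simp [h]
lemma ind_mono {P Q : Prop} (h : P → Q) : ind P ≤ ind Q := by
  by_cases hP : P
  · rw [ind_pos hP, ind_pos (h hP)]
  · rw [ind_neg hP]; exact ind_nonneg _
lemma ind_congr {P Q : Prop} (h : P ↔ Q) : ind P = ind Q := by rw [propext h]
lemma ind_and (P Q : Prop) : ind (P ∧ Q) = ind P * ind Q := by
  by_cases hP : P <;> by_cases hQ : Q <;> simp [ind, hP, hQ]
lemma ite_eq_ind (P : Prop) [Decidable P] (a : ℝ) : (if P then a else 0) = ind P * a := by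
  by_cases hP : P <;> simp [ind, hP]

variable {ι : Type} [DecidableEq ι]

lemma esymm_le (w : ι → ℝ) (A : Finset ι) (hw : ∀ x ∈ A, 0 ≤ w x) (k : ℕ) :
    (k.factorial : ℝ) * ∑ D ∈ A.powersetCard k, ∏ x ∈ D, w x ≤ (∑ x ∈ A, w x) ^ k := by
  induction A using Finset.induction_on generalizing k with
  | empty =>
    rcases k with _ | k
    · simp
    · rw [Finset.powersetCard_eq_empty.mpr (by simp)]; simp
  | insert a A ha ih =>
    have hw' : ∀ x ∈ A, 0 ≤ w x := fun x hx => hw x (Finset.mem_insert_of_mem hx)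
    have hwa : 0 ≤ w a := hw a (Finset.mem_insert_self _ _)
    rcases k with _ | k
    · simp
    have hS : 0 ≤ ∑ x ∈ A, w x := Finset.sum_nonneg hw'
    rw [Finset.powersetCard_succ_insert ha, Finset.sum_union, Finset.sum_image, Finset.sum_insert ha]
    · have e : ∑ D ∈ A.powersetCard k, ∏ x ∈ insert a D, w x =
          w a * ∑ D ∈ A.powersetCard k, ∏ x ∈ D, w x := by
        rw [Finset.mul_sum]
        refine Finset.sum_congr rfl fun D hD => Finset.prod_insert fun h => ha ?_
        exact (Finset.mem_powersetCard.mp hD).1 h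
      rw [e]
      have h1 := ih hw' (k + 1)
      have h2 := ih hw' k
      have h3 := pow_add_mul_le_add_pow (b := w a) hS (by linarith) (k + 1)
      rw [add_comm (w a)]
      refine le_trans ?_ h3
      simp only [Nat.succ_eq_add_one, Nat.add_sub_cancel, Nat.factorial_succ] at *
      push_cast at *
      have h4 := mul_le_mul_of_nonneg_left h2 (mul_nonneg (by positivity : (0 : ℝ) ≤ k + 1) hwa)
      nlinarith
    · intro D hD D' hD' h
      have h1 : a ∉ D := fun h => ha ((Finset.mem_powersetCard.mp hD).1 h)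
      have h2 : a ∉ D' := fun h => ha ((Finset.mem_powersetCard.mp hD').1 h)
      rw [← Finset.erase_insert h1, ← Finset.erase_insert h2]
      exact congrArg (fun S => Finset.erase S a) h
    · rw [Finset.disjoint_left]
      intro D hD hD'
      obtain ⟨D', _, rfl⟩ := Finset.mem_image.mp hD'
      exact ha ((Finset.mem_powersetCard.mp hD).1 (Finset.mem_insert_self _ _))

lemma esymm_le' {w : ι → ℝ} {A : Finset ι} {V : ℝ} (hw : ∀ x ∈ A, 0 ≤ w x)
    (hV : ∑ x ∈ A, w x ≤ V) (k : ℕ) :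
    (k.factorial : ℝ) * ∑ D ∈ A.powersetCard k, ∏ x ∈ D, w x ≤ V ^ k :=
  (esymm_le w A hw k).trans (pow_le_pow_left₀ (Finset.sum_nonneg hw) hV k)

lemma super_le {w : ι → ℝ} {A : Finset ι} (hw : ∀ x ∈ A, 0 ≤ w x) (C : Finset ι) (hC : C ⊆ A)
    (j : ℕ) :
    ∑ U ∈ (A.powersetCard j).filter (fun U => C ⊆ U), ∏ x ∈ U, w x ≤
      (∏ x ∈ C, w x) * ∑ D ∈ A.powersetCard (j - C.card), ∏ x ∈ D, w x := by
  have e : ∑ U ∈ (A.powersetCard j).filter (fun U => C ⊆ U), ∏ x ∈ U, w x =
      (∏ x ∈ C, w x) * ∑ U ∈ (A.powersetCard j).filter (fun U => C ⊆ U), ∏ x ∈ U \ C, w x := by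
    rw [Finset.mul_sum]
    refine Finset.sum_congr rfl fun U hU => ?_
    rw [mul_comm, Finset.prod_sdiff (Finset.mem_filter.mp hU).2]
  rw [e]
  refine mul_le_mul_of_nonneg_left ?_ (Finset.prod_nonneg fun x hx => hw x (hC hx))
  rw [← Finset.sum_image (g := fun U => U \ C) (f := fun D => ∏ x ∈ D, w x)]
  · refine Finset.sum_le_sum_of_subset_of_nonneg ?_ fun D hD _ => ?_
    · intro D hD
      obtain ⟨U, hU, rfl⟩ := Finset.mem_image.mp hD
      obtain ⟨h1, h2⟩ := Finset.mem_filter.mp hU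
      obtain ⟨h3, h4⟩ := Finset.mem_powersetCard.mp h1
      exact Finset.mem_powersetCard.mpr ⟨Finset.sdiff_subset.trans h3,
        by rw [Finset.card_sdiff_of_subset h2, h4]⟩
    · exact Finset.prod_nonneg fun x hx => hw x ((Finset.mem_powersetCard.mp hD).1 hx)
  · intro U hU U' hU' h
    have h1 := (Finset.mem_filter.mp hU).2
    have h2 := (Finset.mem_filter.mp hU').2
    rw [← Finset.sdiff_union_of_subset h1, ← Finset.sdiff_union_of_subset h2]
    exact congrArg (fun S => S ∪ C) h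

omit [DecidableEq ι] in
lemma fam_nonneg (F : Finset ι → Prop) (u : ℕ) {A : Finset ι} {w : ι → ℝ} {V : ℝ}
    (hw : ∀ x ∈ A, 0 ≤ w x) (hV : 0 ≤ V) : 0 ≤ Fam F u A w V := by
  classical
  refine Finset.sum_nonneg fun C hC => ?_
  have h1 := Finset.mem_powerset.mp (Finset.mem_filter.mp hC).1
  have := Finset.prod_nonneg fun x hx => hw x (h1 hx)
  positivity

omit [DecidableEq ι] in
lemma fam_mono {F F' : Finset ι → Prop} {u u' : ℕ} {A A' : Finset ι} {w : ι → ℝ} {V : ℝ}
    (hw : ∀ x ∈ A', 0 ≤ w x) (hV : 0 ≤ V) (hF : ∀ C, F C → F' C) (hu : u ≤ u') (hA : A ⊆ A') :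
    Fam F u A w V ≤ Fam F' u' A' w V := by
  classical
  refine Finset.sum_le_sum_of_subset_of_nonneg ?_ fun C hC _ => ?_
  · intro C hC
    simp only [Finset.mem_filter, Finset.mem_powerset] at hC ⊢
    exact ⟨hC.1.trans hA, hC.2.1.trans hu, hF C hC.2.2⟩
  · have h1 := Finset.mem_powerset.mp (Finset.mem_filter.mp hC).1
    have := Finset.prod_nonneg fun x hx => hw x (h1 hx)
    positivity

open Classical in
lemma sub' (F : Finset ι → Prop) (A : Finset ι) (w : ι → ℝ) (V : ℝ) (j : ℕ) (hV : 0 < V)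
    (hw : ∀ x ∈ A, 0 ≤ w x) (hS : ∑ x ∈ A, w x ≤ V) (P : Finset ι → Prop)
    (hP : ∀ U, P U → ∃ C ⊆ U, F C) :
    (j.factorial : ℝ) * ∑ U ∈ A.powersetCard j, (if P U then ∏ x ∈ U, w x else 0) ≤
      2 ^ j * V ^ j * Fam F j A w V := by
  set 𝒞 := A.powerset.filter (fun C => C.card ≤ j ∧ F C) with h𝒞
  have h1 : ∑ U ∈ A.powersetCard j, (if P U then ∏ x ∈ U, w x else 0) ≤
      ∑ U ∈ A.powersetCard j, ∑ C ∈ 𝒞, if C ⊆ U then ∏ x ∈ U, w x else 0 := by
    refine Finset.sum_le_sum fun U hU => ?_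
    obtain ⟨hUA, hUj⟩ := Finset.mem_powersetCard.mp hU
    have hp : 0 ≤ ∏ x ∈ U, w x := Finset.prod_nonneg fun x hx => hw x (hUA hx)
    have hnn : ∀ C ∈ 𝒞, 0 ≤ if C ⊆ U then ∏ x ∈ U, w x else 0 := fun C _ => by
      split_ifs
      · exact hp
      · exact le_rfl
    split_ifs with h
    · obtain ⟨C, hCU, hC⟩ := hP U h
      have hm : C ∈ 𝒞 := Finset.mem_filter.mpr ⟨Finset.mem_powerset.mpr (hCU.trans hUA),
        hUj ▸ Finset.card_le_card hCU, hC⟩
      have := Finset.single_le_sum hnn hm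
      rwa [if_pos hCU] at this
    · exact Finset.sum_nonneg hnn
  rw [Finset.sum_comm] at h1
  refine (mul_le_mul_of_nonneg_left h1 (by positivity)).trans ?_
  rw [Fam, Finset.mul_sum, Finset.mul_sum]
  refine Finset.sum_le_sum fun C hC => ?_
  obtain ⟨hCA, hCj, -⟩ := Finset.mem_filter.mp hC
  have hCA' := Finset.mem_powerset.mp hCA
  rw [← Finset.sum_filter]
  have h2 := super_le hw C hCA' j
  have h3 := esymm_le' hw hS (j - C.card)
  have hp : 0 ≤ ∏ x ∈ C, w x := Finset.prod_nonneg fun x hx => hw x (hCA' hx)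
  have h4 : (j.factorial : ℝ) ≤ 2 ^ j * C.card.factorial * (j - C.card).factorial := by
    have := Nat.choose_mul_factorial_mul_factorial hCj
    have h5 := Nat.choose_le_two_pow j C.card
    have h6 : j.factorial ≤ 2 ^ j * C.card.factorial * (j - C.card).factorial := by
      rw [← this]; gcongr
    exact_mod_cast h6
  have hE : 0 ≤ ∑ D ∈ A.powersetCard (j - C.card), ∏ x ∈ D, w x :=
    Finset.sum_nonneg fun D hD => Finset.prod_nonneg fun x hx =>
      hw x ((Finset.mem_powersetCard.mp hD).1 hx)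
  have h7 : V ^ j = V ^ (j - C.card) * V ^ C.card := by rw [← pow_add]; congr 1; omega
  calc _ ≤ (j.factorial : ℝ) * ((∏ x ∈ C, w x) *
        ∑ D ∈ A.powersetCard (j - C.card), ∏ x ∈ D, w x) :=
        mul_le_mul_of_nonneg_left h2 (by positivity)
    _ ≤ (2 ^ j * C.card.factorial * (j - C.card).factorial) * ((∏ x ∈ C, w x) *
        ∑ D ∈ A.powersetCard (j - C.card), ∏ x ∈ D, w x) :=
        mul_le_mul_of_nonneg_right h4 (mul_nonneg hp hE)
    _ = (2 ^ j * C.card.factorial * ∏ x ∈ C, w x) * ((j - C.card).factorial *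
        ∑ D ∈ A.powersetCard (j - C.card), ∏ x ∈ D, w x) := by ring
    _ ≤ (2 ^ j * C.card.factorial * ∏ x ∈ C, w x) * V ^ (j - C.card) :=
        mul_le_mul_of_nonneg_left h3 (by positivity)
    _ = _ := by rw [h7]; field_simp

/-! ### dissociated sets -/

variable {P : Type} {Q : ℕ}

omit [DecidableEq ι] in
lemma dis_mono {X : ι → P → ZMod Q} {B B' : ℕ} (h : B ≤ B') {U : Finset ι} (hU : Dis X B' U) :
    Dis X B U := fun c hc => hU c fun x hx => (hc x hx).trans (by exact_mod_cast h)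

omit [DecidableEq ι] in
lemma dis_empty (X : ι → P → ZMod Q) (B : ℕ) : Dis X B ∅ := fun _ _ _ x hx =>
  absurd hx (Finset.notMem_empty x)

lemma exists_circ (X : ι → P → ZMod Q) (B : ℕ) (U : Finset ι) (h : ¬ Dis X B U) :
    ∃ C ⊆ U, Circ X B C := by
  induction U using Finset.strongInduction with
  | H U ih =>
    by_cases h2 : ∀ x ∈ U, Dis X B (U.erase x)
    · exact ⟨U, subset_rfl, h, h2⟩
    · push Not at h2
      obtain ⟨x, hx, hx'⟩ := h2
      obtain ⟨C, hC, hC'⟩ := ih _ (Finset.erase_ssubset hx) hx'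
      exact ⟨C, hC.trans (Finset.erase_subset _ _), hC'⟩

lemma circ_coeff {X : ι → P → ZMod Q} {B : ℕ} {C : Finset ι} (h : Circ X B C) :
    ∃ c : ι → ℤ, (∀ x ∈ C, |c x| ≤ B ∧ c x ≠ 0) ∧ ∑ x ∈ C, c x • X x = 0 := by
  obtain ⟨h1, h2⟩ := h
  unfold Dis at h1
  push Not at h1
  obtain ⟨c, hc, hs, x0, hx0, hx0'⟩ := h1
  refine ⟨c, fun x hx => ⟨hc x hx, fun h0 => ?_⟩, hs⟩
  have hne : x0 ≠ x := fun h => hx0' (h ▸ h0)
  refine hx0' (h2 x hx c (fun y hy => hc y (Finset.mem_of_mem_erase hy)) ?_ x0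
    (Finset.mem_erase.mpr ⟨hne, hx0⟩))
  rw [← Finset.add_sum_erase _ _ hx, h0, zero_smul, zero_add] at hs
  exact hs

open Classical in
lemma nondis_le (X : ι → P → ZMod Q) (B : ℕ) (A : Finset ι) (w : ι → ℝ) (V : ℝ) (j u : ℕ)
    (hV : 0 < V) (hw : ∀ x ∈ A, 0 ≤ w x) (hS : ∑ x ∈ A, w x ≤ V) (hj : j ≤ u) :
    (j.factorial : ℝ) * ∑ U ∈ A.powersetCard j, ind (¬ Dis X B U) * ∏ x ∈ U, w x ≤
      2 ^ j * V ^ j * Phi X B u A w V := by
  have h := sub' (Circ X B) A w V j hV hw hS (fun U => ¬ Dis X B U) (exists_circ X B)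
  simp only [ite_eq_ind] at h
  exact h.trans (mul_le_mul_of_nonneg_left
    (fam_mono hw hV.le (fun _ h => h) hj subset_rfl) (by positivity))

/-! ### tuples -/

/-- image of a tuple -/
def im {κ : Type} [Fintype κ] {A : Finset ι} (x : κ → A) : Finset ι :=
  Finset.univ.image (fun i => (x i : ι))

lemma im_subset {κ : Type} [Fintype κ] {A : Finset ι} (x : κ → A) : im x ⊆ A := by
  intro y hy
  obtain ⟨i, _, rfl⟩ := Finset.mem_image.mp hy
  exact (x i).2

lemma mem_im {κ : Type} [Fintype κ] {A : Finset ι} (x : κ → A) (i : κ) : (x i : ι) ∈ im x :=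
  Finset.mem_image.mpr ⟨i, Finset.mem_univ _, rfl⟩

lemma inj_coe {κ : Type} {A : Finset ι} {x : κ → A} (hx : Function.Injective x) :
    Function.Injective (fun i => (x i : ι)) := fun _ _ h => hx (Subtype.ext h)

lemma card_im {κ : Type} [Fintype κ] {A : Finset ι} {x : κ → A} (hx : Function.Injective x) :
    (im x).card = Fintype.card κ := by
  rw [im, Finset.card_image_of_injective _ (inj_coe hx), Finset.card_univ]

lemma prod_im {κ : Type} [Fintype κ] {A : Finset ι} {x : κ → A} (hx : Function.Injective x)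
    {M : Type} [CommMonoid M] (f : ι → M) : ∏ y ∈ im x, f y = ∏ i, f (x i) :=
  Finset.prod_image fun _ _ _ _ h => inj_coe hx h

lemma sum_im {κ : Type} [Fintype κ] {A : Finset ι} {x : κ → A} (hx : Function.Injective x)
    {M : Type} [AddCommMonoid M] (f : ι → M) : ∑ y ∈ im x, f y = ∑ i, f (x i) :=
  Finset.sum_image fun _ _ _ _ h => inj_coe hx h

open Classical in
lemma tup {κ : Type} [Fintype κ] [DecidableEq κ] (A : Finset ι) (g : Finset ι → ℝ) :
    ∑ x : κ → A, ind (Function.Injective x) * g (im x) =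
      ((Fintype.card κ).factorial : ℝ) * ∑ C ∈ A.powersetCard (Fintype.card κ), g C := by
  simp only [← ite_eq_ind]
  rw [← Finset.sum_filter, ← Finset.sum_fiberwise_of_maps_to (g := fun x : κ → A => im x)
    (t := A.powersetCard (Fintype.card κ)), Finset.mul_sum]
  · refine Finset.sum_congr rfl fun C hC => ?_
    obtain ⟨hCA, hCc⟩ := Finset.mem_powersetCard.mp hC
    rw [Finset.sum_congr rfl (g := fun _ => g C) fun x hx => by rw [(Finset.mem_filter.mp hx).2],
      Finset.sum_const, nsmul_eq_mul]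
    congr 2
    have hc : Fintype.card (κ ↪ C) = (Fintype.card κ).factorial := by
      rw [Fintype.card_embedding_eq, Fintype.card_coe, hCc, Nat.descFactorial_self]
    rw [← hc, ← Finset.card_univ]
    symm
    refine Finset.card_bij (fun e _ => fun i => ⟨(e i : ι), hCA (e i).2⟩) ?_ ?_ ?_
    · intro e _
      have hinj : Function.Injective (fun i => (⟨(e i : ι), hCA (e i).2⟩ : A)) :=
        fun i i' h => e.injective (Subtype.ext (congrArg Subtype.val h :))
      simp only [Finset.mem_filter, Finset.mem_univ, true_and]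
      refine ⟨hinj, Finset.eq_of_subset_of_card_le ?_ (by rw [card_im hinj, hCc])⟩
      intro y hy
      obtain ⟨i, _, rfl⟩ := Finset.mem_image.mp hy
      exact (e i).2
    · intro e _ e' _ h
      ext i
      exact (congrArg Subtype.val (congrFun h i) :)
    · intro x hx
      simp only [Finset.mem_filter, Finset.mem_univ, true_and] at hx
      refine ⟨⟨fun i => ⟨(x i : ι), hx.2 ▸ mem_im x i⟩, fun i i' h => hx.1 (Subtype.ext
        (congrArg Subtype.val h :))⟩, Finset.mem_univ _, rfl⟩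
  · intro x hx
    exact Finset.mem_powersetCard.mpr ⟨im_subset x, card_im (Finset.mem_filter.mp hx).2⟩

omit [DecidableEq ι] in
lemma sum_tup {κ : Type} [Fintype κ] [DecidableEq κ] (A : Finset ι) (f : ι → ℝ) :
    ∑ x : κ → A, ∏ i, f (x i) = (∑ y ∈ A, f y) ^ Fintype.card κ := by
  rw [← Finset.sum_coe_sort A f, ← Finset.card_univ, ← Finset.prod_const, Finset.prod_univ_sum,
    Fintype.piFinset_univ]

open Classical in
/-- energy form of Cauchy–Schwarz -/
lemma energy {Y Y' Γ : Type} [Fintype Y] [Fintype Y'] (L : Y → Γ) (L' : Y' → Γ) (a : Y → ℝ)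
    (a' : Y' → ℝ) :
    2 * ∑ y, ∑ y', ind (L y = L' y') * (a y * a' y') ≤
      (∑ y, ∑ z, ind (L y = L z) * (a y * a z)) +
        ∑ y, ∑ z, ind (L' y = L' z) * (a' y * a' z) := by
  simp only [← ite_eq_ind]
  set T : Finset Γ := Finset.univ.image L ∪ Finset.univ.image L' with hT
  have key : ∀ {Z Z' : Type} [Fintype Z] [Fintype Z'] (M : Z → Γ) (M' : Z' → Γ) (b : Z → ℝ)
      (b' : Z' → ℝ), (∀ z, M z ∈ T) →
      ∑ z, ∑ z', (if M z = M' z' then b z * b' z' else 0) =
        ∑ v ∈ T, (∑ z, if M z = v then b z else 0) * (∑ z', if M' z' = v then b' z' else 0) := by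
    intro Z Z' _ _ M M' b b' hM
    simp only [Finset.sum_mul_sum]
    rw [Finset.sum_comm (s := T)]
    refine Finset.sum_congr rfl fun z _ => ?_
    rw [Finset.sum_comm (s := T)]
    refine Finset.sum_congr rfl fun z' _ => ?_
    rw [Finset.sum_eq_single (M z)]
    · by_cases h : M z = M' z'
      · simp [h]
      · simp [h, Ne.symm h]
    · intro v _ hv
      simp [Ne.symm hv]
    · intro h; exact absurd (hM z) h
  have m1 : ∀ y, L y ∈ T := fun y =>
    Finset.mem_union_left _ (Finset.mem_image_of_mem _ (Finset.mem_univ _))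
  have m2 : ∀ y, L' y ∈ T := fun y =>
    Finset.mem_union_right _ (Finset.mem_image_of_mem _ (Finset.mem_univ _))
  rw [key L L' a a' m1, key L L a a m1, key L' L' a' a' m2, Finset.mul_sum,
    ← Finset.sum_add_distrib]
  refine Finset.sum_le_sum fun v _ => ?_
  nlinarith [sq_nonneg ((∑ z, if L z = v then a z else 0) - ∑ z', if L' z' = v then a' z' else 0)]

/-- pairs of `s`-sets with a non-dissociated union -/
lemma pairs_le (X : ι → P → ZMod Q) (B : ℕ) (A : Finset ι) (w : ι → ℝ) (Wb V : ℝ) (s : ℕ)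
    (hV : 0 < V) (hw : ∀ x ∈ A, 0 ≤ w x ∧ w x ≤ Wb) (hS : ∑ x ∈ A, w x ≤ V) (hWb : 0 ≤ Wb)
    (hs : s * Wb ≤ V) :
    (s.factorial : ℝ) * ∑ Y ∈ A.powersetCard s, (s.factorial : ℝ) * ∑ Y' ∈ A.powersetCard s,
        ind (¬ Dis X B (Y ∪ Y')) * ((∏ x ∈ Y, w x) * ∏ x ∈ Y', w x) ≤
      V ^ (2 * s) * ((s + 1) * 64 ^ s * Phi X B (2 * s) A w V) := by
  classical
  have hw0 : ∀ x ∈ A, 0 ≤ w x := fun x hx => (hw x hx).1
  have hΦ : 0 ≤ Phi X B (2 * s) A w V := fam_nonneg _ _ hw0 hV.le
  set h : Finset ι → ℝ := fun U => ind (¬ Dis X B U) * ((∏ x ∈ U, w x) * Wb ^ (2 * s - U.card))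
    with hh
  set 𝒯 := (Finset.range (s + 1)).biUnion (fun i => A.powersetCard (s + i)) with h𝒯
  have hmem : ∀ U ∈ 𝒯, U ⊆ A := by
    intro U hU
    obtain ⟨i, _, hi⟩ := Finset.mem_biUnion.mp hU
    exact (Finset.mem_powersetCard.mp hi).1
  have hh0 : ∀ U ⊆ A, 0 ≤ h U := fun U hU =>
    mul_nonneg (ind_nonneg _) (mul_nonneg (Finset.prod_nonneg fun x hx => hw0 x (hU hx))
      (pow_nonneg hWb _))
  have s1 : ∑ Y ∈ A.powersetCard s, ∑ Y' ∈ A.powersetCard s,
      ind (¬ Dis X B (Y ∪ Y')) * ((∏ x ∈ Y, w x) * ∏ x ∈ Y', w x) ≤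
      ∑ z ∈ A.powersetCard s ×ˢ A.powersetCard s, h (z.1 ∪ z.2) := by
    rw [Finset.sum_product]
    refine Finset.sum_le_sum fun Y hY => Finset.sum_le_sum fun Y' hY' => ?_
    obtain ⟨h1, h2⟩ := Finset.mem_powersetCard.mp hY
    obtain ⟨h3, h4⟩ := Finset.mem_powersetCard.mp hY'
    refine mul_le_mul_of_nonneg_left ?_ (ind_nonneg _)
    rw [← Finset.prod_union_inter]
    refine mul_le_mul_of_nonneg_left ?_
      (Finset.prod_nonneg fun x hx => hw0 x (Finset.union_subset h1 h3 hx))
    have hc := Finset.card_union_add_card_inter Y Y'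
    have : 2 * s - (Y ∪ Y').card = (Y ∩ Y').card := by omega
    rw [this, ← Finset.prod_const]
    exact Finset.prod_le_prod (fun x hx => hw0 x (h1 (Finset.mem_inter.mp hx).1))
      (fun x hx => (hw x (h1 (Finset.mem_inter.mp hx).1)).2)
  have s2 : ∑ z ∈ A.powersetCard s ×ˢ A.powersetCard s, h (z.1 ∪ z.2) ≤
      ∑ U ∈ 𝒯, 4 ^ U.card * h U := by
    rw [← Finset.sum_fiberwise_of_maps_to (g := fun z : Finset ι × Finset ι => z.1 ∪ z.2) (t := 𝒯)]
    · refine Finset.sum_le_sum fun U hU => ?_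
      rw [Finset.sum_congr rfl (g := fun _ => h U) fun z hz => by rw [(Finset.mem_filter.mp hz).2],
        Finset.sum_const, nsmul_eq_mul]
      refine mul_le_mul_of_nonneg_right ?_ (hh0 U (hmem U hU))
      have : ((A.powersetCard s ×ˢ A.powersetCard s).filter (fun z => z.1 ∪ z.2 = U)).card ≤
          (U.powerset ×ˢ U.powerset).card := by
        refine Finset.card_le_card fun z hz => ?_
        have := (Finset.mem_filter.mp hz).2
        simp only [Finset.mem_product, Finset.mem_powerset, ← this]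
        exact ⟨Finset.subset_union_left, Finset.subset_union_right⟩
      rw [Finset.card_product, Finset.card_powerset, ← mul_pow] at this
      exact_mod_cast this
    · intro z hz
      obtain ⟨hY, hY'⟩ := Finset.mem_product.mp hz
      obtain ⟨h1, h2⟩ := Finset.mem_powersetCard.mp hY
      obtain ⟨h3, h4⟩ := Finset.mem_powersetCard.mp hY'
      have c1 := Finset.card_union_le z.1 z.2
      have c2 : z.1.card ≤ (z.1 ∪ z.2).card := Finset.card_le_card Finset.subset_union_left
      refine Finset.mem_biUnion.mpr ⟨(z.1 ∪ z.2).card - s, Finset.mem_range.mpr (by omega),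
        Finset.mem_powersetCard.mpr ⟨Finset.union_subset h1 h3, by omega⟩⟩
  have s3 : ∑ U ∈ 𝒯, 4 ^ U.card * h U = ∑ i ∈ Finset.range (s + 1),
      4 ^ (s + i) * Wb ^ (s - i) *
        ∑ U ∈ A.powersetCard (s + i), ind (¬ Dis X B U) * ∏ x ∈ U, w x := by
    rw [h𝒯, Finset.sum_biUnion]
    · refine Finset.sum_congr rfl fun i _ => ?_
      rw [Finset.mul_sum]
      refine Finset.sum_congr rfl fun U hU => ?_
      have hc := (Finset.mem_powersetCard.mp hU).2
      simp only [hh, hc, show 2 * s - (s + i) = s - i by omega]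
      ring
    · intro i _ i' _ hne
      refine Finset.disjoint_left.mpr fun U h1 h2 => hne ?_
      have := (Finset.mem_powersetCard.mp h1).2
      have := (Finset.mem_powersetCard.mp h2).2
      omega
  have s4 : ∀ i ∈ Finset.range (s + 1), (s.factorial : ℝ) * s.factorial *
      (4 ^ (s + i) * Wb ^ (s - i) *
        ∑ U ∈ A.powersetCard (s + i), ind (¬ Dis X B U) * ∏ x ∈ U, w x) ≤
      V ^ (2 * s) * (64 ^ s * Phi X B (2 * s) A w V) := by
    intro i hi
    have hi' : i ≤ s := Nat.lt_succ_iff.mp (Finset.mem_range.mp hi)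
    have a1 := nondis_le X B A w V (s + i) (2 * s) hV hw0 hS (by omega)
    have a0 : 0 ≤ ∑ U ∈ A.powersetCard (s + i), ind (¬ Dis X B U) * ∏ x ∈ U, w x :=
      Finset.sum_nonneg fun U hU => mul_nonneg (ind_nonneg _) (Finset.prod_nonneg fun x hx =>
        hw0 x ((Finset.mem_powersetCard.mp hU).1 hx))
    have a2 : s.factorial * s.factorial ≤ s ^ (s - i) * (s + i).factorial := by
      have b1 : s.factorial * i.factorial ≤ (s + i).factorial :=
        Nat.le_of_dvd (Nat.factorial_pos _) (Nat.factorial_mul_factorial_dvd_factorial_add s i)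
      have b2 : s.factorial ≤ s ^ (s - i) * i.factorial := by
        have := Nat.factorial_mul_descFactorial (Nat.sub_le s i)
        rw [show s - (s - i) = i by omega] at this
        rw [← this, mul_comm]
        exact Nat.mul_le_mul_right _ (Nat.descFactorial_le_pow _ _)
      calc s.factorial * s.factorial ≤ s.factorial * (s ^ (s - i) * i.factorial) :=
            Nat.mul_le_mul_left _ b2
        _ = s ^ (s - i) * (s.factorial * i.factorial) := by ring
        _ ≤ _ := Nat.mul_le_mul_left _ b1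
    have a2' : (s.factorial : ℝ) * s.factorial ≤ (s : ℝ) ^ (s - i) * (s + i).factorial := by
      exact_mod_cast a2
    have a3 : (s : ℝ) ^ (s - i) * Wb ^ (s - i) ≤ V ^ (s - i) := by
      rw [← mul_pow]; exact pow_le_pow_left₀ (by positivity) hs _
    have a4 : (4 : ℝ) ^ (s + i) * 2 ^ (s + i) ≤ 64 ^ s := by
      rw [← mul_pow, show (64 : ℝ) = (4 * 2) ^ 2 by norm_num, ← pow_mul]
      exact pow_le_pow_right₀ (by norm_num) (by omega)
    have a5 : V ^ (2 * s) = V ^ (s - i) * V ^ (s + i) := by rw [← pow_add]; congr 1; omega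
    calc _ ≤ ((s : ℝ) ^ (s - i) * (s + i).factorial) * (4 ^ (s + i) * Wb ^ (s - i) *
          ∑ U ∈ A.powersetCard (s + i), ind (¬ Dis X B U) * ∏ x ∈ U, w x) :=
          mul_le_mul_of_nonneg_right a2' (by positivity)
      _ = (4 ^ (s + i) * ((s : ℝ) ^ (s - i) * Wb ^ (s - i))) * (((s + i).factorial : ℝ) *
          ∑ U ∈ A.powersetCard (s + i), ind (¬ Dis X B U) * ∏ x ∈ U, w x) := by ring
      _ ≤ (4 ^ (s + i) * V ^ (s - i)) * (2 ^ (s + i) * V ^ (s + i) * Phi X B (2 * s) A w V) := by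
          gcongr
      _ = V ^ (2 * s) * ((4 ^ (s + i) * 2 ^ (s + i)) * Phi X B (2 * s) A w V) := by
          rw [a5]; ring
      _ ≤ _ := by gcongr
  rw [← Finset.mul_sum, ← mul_assoc]
  refine (mul_le_mul_of_nonneg_left (s1.trans (s2.trans s3.le)) (by positivity)).trans ?_
  rw [Finset.mul_sum]
  refine (Finset.sum_le_sum s4).trans (le_of_eq ?_)
  rw [Finset.sum_const, Finset.card_range, nsmul_eq_mul]
  push_cast
  ring

/-- additive energy of injective tuples -/
lemma energy_le (X : ι → P → ZMod Q) (B'' B' : ℕ) (A : Finset ι) (w : ι → ℝ) (Wb V : ℝ) (s : ℕ)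
    (hV : 0 < V) (hw : ∀ x ∈ A, 0 ≤ w x ∧ w x ≤ Wb) (hS : ∑ x ∈ A, w x ≤ V) (hWb : 0 ≤ Wb)
    (hs : s * Wb ≤ V) (hB : 2 * B'' ≤ B') (c : Fin s → ℤ) (hc : ∀ i, |c i| ≤ B'' ∧ c i ≠ 0) :
    ∑ y : Fin s → A, ∑ z : Fin s → A,
      ind (∑ i, c i • X (y i) = ∑ i, c i • X (z i)) *
        ((ind (Function.Injective y) * ∏ i, w (y i)) * (ind (Function.Injective z) * ∏ i, w (z i))) ≤
      V ^ (2 * s) * ((s * Wb / V) ^ s + (s + 1) * 64 ^ s * Phi X B' (2 * s) A w V) := by
  classical
  have hw0 : ∀ x ∈ A, 0 ≤ w x := fun x hx => (hw x hx).1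
  have hp : ∀ y : Fin s → A, 0 ≤ ∏ i, w (y i) := fun y =>
    Finset.prod_nonneg fun i _ => hw0 _ (y i).2
  have pt : ∀ y z : Fin s → A, ind (∑ i, c i • X (y i) = ∑ i, c i • X (z i)) *
      ((ind (Function.Injective y) * ∏ i, w (y i)) * (ind (Function.Injective z) * ∏ i, w (z i))) ≤
      (∏ i, w (y i)) * (∏ i, ind ((z i : ι) ∈ im y) * w (z i)) +
      ind (Function.Injective y) * (ind (Function.Injective z) *
        (ind (¬ Dis X B' (im y ∪ im z)) * ((∏ x ∈ im y, w x) * ∏ x ∈ im z, w x))) := by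
    intro y z
    have n1 : 0 ≤ (∏ i, w (y i)) * (∏ i, ind ((z i : ι) ∈ im y) * w (z i)) :=
      mul_nonneg (hp y) (Finset.prod_nonneg fun i _ => mul_nonneg (ind_nonneg _) (hw0 _ (z i).2))
    have n2 : 0 ≤ ind (Function.Injective y) * (ind (Function.Injective z) *
        (ind (¬ Dis X B' (im y ∪ im z)) * ((∏ x ∈ im y, w x) * ∏ x ∈ im z, w x))) :=
      mul_nonneg (ind_nonneg _) (mul_nonneg (ind_nonneg _) (mul_nonneg (ind_nonneg _)
        (mul_nonneg (Finset.prod_nonneg fun x hx => hw0 x (im_subset y hx))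
          (Finset.prod_nonneg fun x hx => hw0 x (im_subset z hx)))))
    by_cases he : ∑ i, c i • X (y i) = ∑ i, c i • X (z i)
    swap
    · rw [ind_neg he, zero_mul]; exact add_nonneg n1 n2
    by_cases hy : Function.Injective y
    swap
    · rw [ind_neg hy]; simpa using n1
    by_cases hz : Function.Injective z
    swap
    · rw [ind_neg hz]; simpa using n1
    by_cases hsub : ∀ i, (z i : ι) ∈ im y
    · rw [ind_pos he, ind_pos hy, ind_pos hz] at *
      simp only [ind_pos (hsub _), one_mul] at *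
      linarith
    · push Not at hsub
      obtain ⟨i0, hi0⟩ := hsub
      have hnd : ¬ Dis X B' (im y ∪ im z) := by
        intro hD
        have key : ∀ (v : Fin s → A), Function.Injective v → ∀ x : ι,
            |∑ i, if (v i : ι) = x then c i else 0| ≤ B'' := by
          intro v hv x
          by_cases hx : ∃ i, (v i : ι) = x
          · obtain ⟨i, rfl⟩ := hx
            rw [Finset.sum_eq_single i (fun j _ hj => if_neg fun h => hj (inj_coe hv h)) (by simp),
              if_pos rfl]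
            exact (hc i).1
          · push Not at hx
            simp [hx]
        have key2 : ∀ (v : Fin s → A), (∀ i, (v i : ι) ∈ im y ∪ im z) →
            ∑ x ∈ im y ∪ im z, (∑ i, if (v i : ι) = x then c i else 0) • X x =
              ∑ i, c i • X (v i) := by
          intro v hv
          simp only [Finset.sum_smul]
          rw [Finset.sum_comm]
          refine Finset.sum_congr rfl fun i _ => ?_
          rw [Finset.sum_eq_single (v i : ι) (fun x _ hx => by rw [if_neg (Ne.symm hx), zero_smul])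
            (fun h => absurd (hv i) h), if_pos rfl]
        have := hD (fun x => (∑ i, if (y i : ι) = x then c i else 0) -
          ∑ i, if (z i : ι) = x then c i else 0) (fun x _ => by
            have a1 := key y hy x
            have a2 := key z hz x
            have a3 : ((2 * B'' : ℕ) : ℤ) ≤ B' := by exact_mod_cast hB
            push_cast at a3
            rw [abs_le] at *
            constructor <;> linarith [a1.1, a1.2, a2.1, a2.2]) (by
            simp only [sub_smul, Finset.sum_sub_distrib]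
            rw [key2 y fun i => Finset.mem_union_left _ (mem_im y i),
              key2 z fun i => Finset.mem_union_right _ (mem_im z i), he, sub_self])
          (z i0) (Finset.mem_union_right _ (mem_im z i0))
        rw [Finset.sum_eq_zero (fun i _ => if_neg fun h : (y i : ι) = z i0 => hi0 (h ▸ mem_im y i)),
          Finset.sum_eq_single i0 (fun j _ hj => if_neg fun h => hj (inj_coe hz h)) (by simp),
          if_pos rfl] at this
        exact (hc i0).2 (by linarith)
      rw [ind_pos he, ind_pos hy, ind_pos hz, ind_pos hnd, prod_im hy, prod_im hz]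
      simp only [one_mul]
      linarith
  refine (Finset.sum_le_sum fun y _ => Finset.sum_le_sum fun z _ => pt y z).trans ?_
  simp only [Finset.sum_add_distrib]
  rw [mul_add]
  refine add_le_add ?_ ?_
  · have b1 : ∀ y : Fin s → A, ∑ z : Fin s → A, (∏ i, w (y i)) *
        (∏ i, ind ((z i : ι) ∈ im y) * w (z i)) ≤ (∏ i, w (y i)) * (s * Wb) ^ s := by
      intro y
      rw [← Finset.mul_sum, sum_tup A (fun x => ind (x ∈ im y) * w x), Fintype.card_fin]
      refine mul_le_mul_of_nonneg_left (pow_le_pow_left₀ (Finset.sum_nonneg fun x hx =>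
        mul_nonneg (ind_nonneg _) (hw0 x hx)) ?_ _) (hp y)
      simp only [← ite_eq_ind]
      rw [← Finset.sum_filter]
      refine (Finset.sum_le_card_nsmul _ _ Wb fun x hx => (hw x (Finset.mem_filter.mp hx).1).2).trans ?_
      rw [nsmul_eq_mul]
      refine mul_le_mul_of_nonneg_right ?_ hWb
      have : (A.filter (fun x => x ∈ im y)).card ≤ s := by
        refine (Finset.card_le_card fun x hx => (Finset.mem_filter.mp hx).2).trans ?_
        exact Finset.card_image_le.trans (by simp)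
      exact_mod_cast this
    refine (Finset.sum_le_sum fun y _ => b1 y).trans ?_
    rw [← Finset.sum_mul, sum_tup A w, Fintype.card_fin]
    have b2 : (∑ x ∈ A, w x) ^ s ≤ V ^ s := pow_le_pow_left₀ (Finset.sum_nonneg hw0) hS _
    calc _ ≤ V ^ s * (s * Wb) ^ s := mul_le_mul_of_nonneg_right b2 (by positivity)
      _ = _ := by rw [div_pow, two_mul, pow_add]; field_simp
  · simp only [← Finset.mul_sum]
    have e1 : ∀ y : Fin s → A, ∑ z : Fin s → A, ind (Function.Injective z) *
        (ind (¬ Dis X B' (im y ∪ im z)) * ((∏ x ∈ im y, w x) * ∏ x ∈ im z, w x)) =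
        (s.factorial : ℝ) * ∑ Y' ∈ A.powersetCard s,
          ind (¬ Dis X B' (im y ∪ Y')) * ((∏ x ∈ im y, w x) * ∏ x ∈ Y', w x) := by
      intro y
      have := tup (κ := Fin s) A (fun Y' =>
        ind (¬ Dis X B' (im y ∪ Y')) * ((∏ x ∈ im y, w x) * ∏ x ∈ Y', w x))
      rwa [Fintype.card_fin] at this
    simp only [e1]
    have := tup (κ := Fin s) A (fun Y => (s.factorial : ℝ) * ∑ Y' ∈ A.powersetCard s,
          ind (¬ Dis X B' (Y ∪ Y')) * ((∏ x ∈ Y, w x) * ∏ x ∈ Y', w x))
    rw [Fintype.card_fin] at this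
    rw [this]
    exact pairs_le X B' A w Wb V s hV hw hS hWb hs

/-- long circuits -/
lemma long_le (X : ι → P → ZMod Q) (B'' B' : ℕ) (A : Finset ι) (w : ι → ℝ) (Wb V : ℝ) (s r : ℕ)
    (hV : 0 < V) (hw : ∀ x ∈ A, 0 ≤ w x ∧ w x ≤ Wb) (hS : ∑ x ∈ A, w x ≤ V) (hWb : 0 ≤ Wb)
    (hs : s * Wb ≤ V) (hB : 2 * B'' ≤ B') :
    ((s + s + r).factorial : ℝ) * ∑ C ∈ A.powersetCard (s + s + r),
        ind (Circ X B'' C) * ∏ x ∈ C, w x ≤
      (2 * B'' + 1) ^ (s + s + r) * (V ^ (s + s + r) *
        ((s * Wb / V) ^ s + (s + 1) * 64 ^ s * Phi X B' (2 * s) A w V)) := by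
  classical
  have hw0 : ∀ x ∈ A, 0 ≤ w x := fun x hx => (hw x hx).1
  set K := (s * Wb / V) ^ s + (s + 1) * 64 ^ s * Phi X B' (2 * s) A w V with hK
  have hΦ : 0 ≤ Phi X B' (2 * s) A w V := fam_nonneg _ _ hw0 hV.le
  have hK0 : 0 ≤ K := by positivity
  have hcard : Fintype.card ((Fin s ⊕ Fin s) ⊕ Fin r) = s + s + r := by simp
  have e1 := tup (κ := (Fin s ⊕ Fin s) ⊕ Fin r) A (fun C => ind (Circ X B'' C) * ∏ x ∈ C, w x)
  rw [hcard] at e1
  rw [← e1]
  set I : Finset ℤ := (Finset.Icc (-(B'' : ℤ)) B'').erase 0 with hI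
  set 𝒞 := Fintype.piFinset (fun _ : (Fin s ⊕ Fin s) ⊕ Fin r => I) with h𝒞
  have hp : ∀ {κ : Type} [Fintype κ] (y : κ → A), 0 ≤ ∏ i, w (y i) := fun y =>
    Finset.prod_nonneg fun i _ => hw0 _ (y i).2
  have s1 : ∀ x : (Fin s ⊕ Fin s) ⊕ Fin r → A,
      ind (Function.Injective x) * (ind (Circ X B'' (im x)) * ∏ y ∈ im x, w y) ≤
      ∑ c ∈ 𝒞, ind (Function.Injective x ∧ ∑ i, c i • X (x i) = 0) * ∏ i, w (x i) := by
    intro x
    have hnn : ∀ c ∈ 𝒞, 0 ≤ ind (Function.Injective x ∧ ∑ i, c i • X (x i) = 0) * ∏ i, w (x i) :=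
      fun c _ => mul_nonneg (ind_nonneg _) (hp x)
    by_cases hx : Function.Injective x
    swap
    · rw [ind_neg hx, zero_mul]; exact Finset.sum_nonneg hnn
    by_cases hC : Circ X B'' (im x)
    swap
    · rw [ind_neg hC, zero_mul, mul_zero]; exact Finset.sum_nonneg hnn
    obtain ⟨c, hc, hc0⟩ := circ_coeff hC
    have hm : (fun i => c (x i)) ∈ 𝒞 := by
      refine Fintype.mem_piFinset.mpr fun i => Finset.mem_erase.mpr ⟨(hc _ (mem_im x i)).2, ?_⟩
      exact Finset.mem_Icc.mpr (abs_le.mp (hc _ (mem_im x i)).1)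
    have := Finset.single_le_sum hnn hm
    rw [sum_im hx] at hc0
    rw [ind_pos (And.intro hx hc0)] at this
    rw [ind_pos hx, ind_pos hC, prod_im hx]
    simpa using this
  have s2 : ∀ c ∈ 𝒞, ∑ x : (Fin s ⊕ Fin s) ⊕ Fin r → A,
      ind (Function.Injective x ∧ ∑ i, c i • X (x i) = 0) * ∏ i, w (x i) ≤ V ^ (s + s + r) * K := by
    intro c hc
    have hc' : ∀ i, |c i| ≤ B'' ∧ c i ≠ 0 := fun i => by
      have := Finset.mem_erase.mp (Fintype.mem_piFinset.mp hc i)
      exact ⟨abs_le.mpr (Finset.mem_Icc.mp this.2), this.1⟩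
    rw [← (Equiv.sumArrowEquivProdArrow _ _ _).symm.sum_comp, Fintype.sum_prod_type,
      Finset.sum_comm]
    have s3 : ∀ z : Fin r → A, ∑ y : Fin s ⊕ Fin s → A,
        ind (Function.Injective ((Equiv.sumArrowEquivProdArrow _ _ _).symm (y, z)) ∧
          ∑ i, c i • X (((Equiv.sumArrowEquivProdArrow _ _ _).symm (y, z) i : A) : ι) = 0) *
          ∏ i, w (((Equiv.sumArrowEquivProdArrow _ _ _).symm (y, z) i : A) : ι) ≤
        (∏ i, w (z i)) * (V ^ (2 * s) * K) := by
      intro z
      rw [← (Equiv.sumArrowEquivProdArrow _ _ _).symm.sum_comp, Fintype.sum_prod_type]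
      have en := energy (fun y : Fin s → A => ∑ i, c (Sum.inl (Sum.inl i)) • X (y i))
        (fun y : Fin s → A => -(∑ i, c (Sum.inr i) • X (z i)) -
          ∑ i, c (Sum.inl (Sum.inr i)) • X (y i))
        (fun y => ind (Function.Injective y) * ∏ i, w (y i))
        (fun y => ind (Function.Injective y) * ∏ i, w (y i))
      simp only [sub_right_inj] at en
      have E1 := energy_le X B'' B' A w Wb V s hV hw hS hWb hs hB
        (fun i => c (Sum.inl (Sum.inl i))) (fun i => hc' _)
      have E2 := energy_le X B'' B' A w Wb V s hV hw hS hWb hs hB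
        (fun i => c (Sum.inl (Sum.inr i))) (fun i => hc' _)
      rw [← hK] at E1 E2
      refine le_trans ?_ (mul_le_mul_of_nonneg_left (show ∑ y : Fin s → A, ∑ y' : Fin s → A,
        ind (∑ i, c (Sum.inl (Sum.inl i)) • X (y i) = -(∑ i, c (Sum.inr i) • X (z i)) -
          ∑ i, c (Sum.inl (Sum.inr i)) • X (y' i)) *
        ((ind (Function.Injective y) * ∏ i, w (y i)) *
          (ind (Function.Injective y') * ∏ i, w (y' i))) ≤ V ^ (2 * s) * K by linarith) (hp z))
      rw [Finset.mul_sum]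
      refine Finset.sum_le_sum fun y _ => ?_
      rw [Finset.mul_sum]
      refine Finset.sum_le_sum fun y' _ => ?_
      simp only [Fintype.sum_sum_type, Fintype.prod_sum_type,
        Equiv.sumArrowEquivProdArrow_symm_apply_inl, Equiv.sumArrowEquivProdArrow_symm_apply_inr]
      have hi : ind (Function.Injective ((Equiv.sumArrowEquivProdArrow _ _ _).symm
            ((Equiv.sumArrowEquivProdArrow _ _ _).symm (y, y'), z)) ∧
          ∑ i, c (Sum.inl (Sum.inl i)) • X (y i) + ∑ i, c (Sum.inl (Sum.inr i)) • X (y' i) +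
            ∑ i, c (Sum.inr i) • X (z i) = 0) ≤
          ind (∑ i, c (Sum.inl (Sum.inl i)) • X (y i) = -(∑ i, c (Sum.inr i) • X (z i)) -
            ∑ i, c (Sum.inl (Sum.inr i)) • X (y' i)) * (ind (Function.Injective y) *
            ind (Function.Injective y')) := by
        rw [← ind_and, ← ind_and]
        refine ind_mono fun h => ⟨?_, fun i i' hh => ?_, fun i i' hh => ?_⟩
        · rw [eq_sub_iff_add_eq, eq_neg_iff_add_eq_zero]; exact h.2
        · have := @h.1 (Sum.inl (Sum.inl i)) (Sum.inl (Sum.inl i')) (by simpa using hh)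
          simpa using this
        · have := @h.1 (Sum.inl (Sum.inr i)) (Sum.inl (Sum.inr i')) (by simpa using hh)
          simpa using this
      refine (mul_le_mul_of_nonneg_right hi
        (mul_nonneg (mul_nonneg (hp y) (hp y')) (hp z))).trans (le_of_eq (by ring))
    refine (Finset.sum_le_sum fun z _ => s3 z).trans ?_
    rw [← Finset.sum_mul, sum_tup A w, Fintype.card_fin]
    have b2 : (∑ x ∈ A, w x) ^ r ≤ V ^ r := pow_le_pow_left₀ (Finset.sum_nonneg hw0) hS _
    calc _ ≤ V ^ r * (V ^ (2 * s) * K) := mul_le_mul_of_nonneg_right b2 (by positivity)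
      _ = _ := by ring
  refine (Finset.sum_le_sum fun x _ => s1 x).trans ?_
  rw [Finset.sum_comm]
  refine (Finset.sum_le_card_nsmul _ _ _ s2).trans ?_
  rw [nsmul_eq_mul]
  refine mul_le_mul_of_nonneg_right ?_ (by positivity)
  have c1 : I.card ≤ 2 * B'' + 1 := by
    refine (Finset.card_erase_le).trans ?_
    rw [Int.card_Icc]; omega
  have c2 : 𝒞.card ≤ (2 * B'' + 1) ^ (s + s + r) := by
    rw [h𝒞, Fintype.card_piFinset, Finset.prod_const, Finset.card_univ, hcard]
    exact Nat.pow_le_pow_left c1 _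
  exact_mod_cast c2

omit [DecidableEq ι] in
lemma fam_eq (F : Finset ι → Prop) (u : ℕ) (A : Finset ι) (w : ι → ℝ) (V : ℝ) :
    Fam F u A w V = ∑ j ∈ Finset.range (u + 1),
      ((j.factorial : ℝ) * ∑ C ∈ A.powersetCard j, ind (F C) * ∏ x ∈ C, w x) / V ^ j := by
  classical
  rw [Fam, ← Finset.sum_fiberwise_of_maps_to (g := Finset.card) (t := Finset.range (u + 1))]
  · refine Finset.sum_congr rfl fun j hj => ?_
    simp only [← ite_eq_ind]
    rw [← Finset.sum_filter, Finset.mul_sum, Finset.sum_div]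
    refine Finset.sum_congr ?_ fun C hC => ?_
    · ext C
      have := Finset.mem_range.mp hj
      simp only [Finset.mem_filter, Finset.mem_powerset, Finset.mem_powersetCard]
      constructor
      · rintro ⟨⟨h1, _, h3⟩, h4⟩; exact ⟨⟨h1, h4⟩, h3⟩
      · rintro ⟨⟨h1, h4⟩, h3⟩; exact ⟨⟨h1, by omega, h3⟩, h4⟩
    · rw [(Finset.mem_powersetCard.mp (Finset.mem_filter.mp hC).1).2]
  · intro C hC
    exact Finset.mem_range.mpr (Nat.lt_succ_of_le (Finset.mem_filter.mp hC).2.1)

end SB

theorem bnd (_h : SubStmt) : BndStmt := by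
  intro ι P _ Q X A w Wb V B'' B' u s hV hw hS hWb hB hs
  have hw0 : ∀ x ∈ A, 0 ≤ w x := fun x hx => (hw x hx).1
  have hΦ : 0 ≤ Phi X B' (2 * s) A w V := SB.fam_nonneg _ _ hw0 hV.le
  have hs' : s * Wb ≤ V := by nlinarith [mul_nonneg (Nat.cast_nonneg (α := ℝ) s) hWb]
  rw [Phi, SB.fam_eq]
  refine (Finset.sum_le_card_nsmul _ _ (2 ^ u * Phi X B' (2 * s) A w V + (2 * B'' + 1) ^ u *
      ((s * Wb / V) ^ s + (s + 1) * 64 ^ s * Phi X B' (2 * s) A w V)) fun j hj => ?_).trans
    (by rw [Finset.card_range, nsmul_eq_mul]; push_cast; exact le_rfl)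
  have hj' : j ≤ u := Nat.lt_succ_iff.mp (Finset.mem_range.mp hj)
  rw [div_le_iff₀ (by positivity)]
  by_cases h2 : j ≤ 2 * s
  · have a1 := SB.nondis_le X B' A w V j (2 * s) hV hw0 hS h2
    have a2 : ∑ C ∈ A.powersetCard j, SB.ind (Circ X B'' C) * ∏ x ∈ C, w x ≤
        ∑ U ∈ A.powersetCard j, SB.ind (¬ Dis X B' U) * ∏ x ∈ U, w x :=
      Finset.sum_le_sum fun C hC => mul_le_mul_of_nonneg_right
        (SB.ind_mono fun h h' => h.1 (SB.dis_mono (by omega) h'))
        (Finset.prod_nonneg fun x hx => hw0 x ((Finset.mem_powersetCard.mp hC).1 hx))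
    have a3 : (2 : ℝ) ^ j ≤ 2 ^ u := pow_le_pow_right₀ (by norm_num) hj'
    calc _ ≤ 2 ^ j * V ^ j * Phi X B' (2 * s) A w V :=
          (mul_le_mul_of_nonneg_left a2 (by positivity)).trans a1
      _ ≤ 2 ^ u * V ^ j * Phi X B' (2 * s) A w V := by gcongr
      _ = (2 ^ u * Phi X B' (2 * s) A w V) * V ^ j := by ring
      _ ≤ _ := by
          refine mul_le_mul_of_nonneg_right (le_add_of_nonneg_right ?_) (by positivity)
          positivity
  · obtain ⟨r, rfl⟩ : ∃ r, j = s + s + r := ⟨j - 2 * s, by omega⟩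
    have a1 := SB.long_le X B'' B' A w Wb V s r hV hw hS hWb hs' hB
    have a3 : (2 * (B'' : ℝ) + 1) ^ (s + s + r) ≤ (2 * B'' + 1) ^ u :=
      pow_le_pow_right₀ (by linarith [Nat.cast_nonneg (α := ℝ) B'']) hj'
    calc _ ≤ _ := a1
      _ ≤ (2 * B'' + 1) ^ u * (V ^ (s + s + r) *
        ((s * Wb / V) ^ s + (s + 1) * 64 ^ s * Phi X B' (2 * s) A w V)) := by gcongr
      _ = ((2 * B'' + 1) ^ u *
        ((s * Wb / V) ^ s + (s + 1) * 64 ^ s * Phi X B' (2 * s) A w V)) * V ^ (s + s + r) := by ring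
      _ ≤ _ := by
          refine mul_le_mul_of_nonneg_right (le_add_of_nonneg_left ?_) (by positivity)
          positivity

theorem sub : SubStmt := by
  intro ι _ F A w V j hV hw hS
  have h := SB.sub' F A w V j hV hw hS (fun U => ∃ C ⊆ U, F C) (fun _ h => h)
  rw [Finset.sum_filter]
  convert h

end Crest.Agent.R225.Up
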