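import Crest.Agent.R225.UpA

/-!
# Row 225, S0347: the martingale tree of a window of cells, and amplification
-/

open Finset

namespace Crest.Agent.R225.Up

namespace TREE

open Classical in
/-- cells compatible with the labels of the levels `≥ l` -/
noncomputable def cmp {M : ℕ} (G : ℕ → ℕ) (C : Finset (Fin M → ℤ)) (lab : ℕ → ℕ) (l : ℕ) :
    Finset (Fin M → ℤ) :=
  C.filter (fun j => ∀ l' : Fin M, l ≤ l'.val → ((lab l' : ℕ) : ℤ) ≡ j l' [ZMOD G l'])

theorem mem_cmp {M : ℕ} {G : ℕ → ℕ} {C : Finset (Fin M → ℤ)} {lab : ℕ → ℕ} {l : ℕ}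
    {j : Fin M → ℤ} : j ∈ cmp G C lab l ↔
      j ∈ C ∧ ∀ l' : Fin M, l ≤ l'.val → ((lab l' : ℕ) : ℤ) ≡ j l' [ZMOD G l'] := by
  unfold cmp; simp

theorem agree {M : ℕ} {G : ℕ → ℕ} {C : Finset (Fin M → ℤ)} (hW : Window G C) {j j' : Fin M → ℤ}
    (hj : j ∈ C) (hj' : j' ∈ C) (l : ℕ)
    (h : ∀ l' : Fin M, l ≤ l'.val → j l' ≡ j' l' [ZMOD G l']) :
    ∀ l' : Fin M, l ≤ l'.val → j l' = j' l' := by
  intro l'
  induction l' using WellFoundedGT.induction with
  | ind l' ih =>
    intro hl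
    have h1 := hW j hj j' hj' l' fun l'' h'' => ih l'' h'' (hl.trans (le_of_lt h''))
    have h2 : ((G l' : ℕ) : ℤ) ∣ j l' - j' l' := (h l' hl).symm.dvd
    have h3 := abs_nonneg (j l' - j' l')
    have := Int.eq_zero_of_abs_lt_dvd h2 (by omega)
    omega

theorem card_le {M : ℕ} {G : ℕ → ℕ} {C : Finset (Fin M → ℤ)} (hG : ∀ l, 0 < G l ∧ Even (G l))
    (hW : Window G C) (l : ℕ) : l ≤ M → ∀ S ⊆ C,
    (∀ j ∈ S, ∀ j' ∈ S, ∀ l' : Fin M, l ≤ l'.val → j l' = j' l') →
    S.card ≤ ∏ k ∈ range l, G k / 2 := by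
  classical
  induction l with
  | zero =>
    intro _ S _ h
    rw [prod_range_zero, card_le_one]
    exact fun j hj j' hj' => funext fun l' => h j hj j' hj' l' (Nat.zero_le _)
  | succ l ih =>
    intro hl S hS h
    rw [prod_range_succ]
    refine (card_le_mul_card_image (f := fun j : Fin M → ℤ => j ⟨l, hl⟩) S
      (∏ k ∈ range l, G k / 2) fun a _ => ?_).trans ?_
    · refine ih (by omega) _ ((filter_subset _ _).trans hS) fun j hj j' hj' l' hl' => ?_
      rw [mem_filter] at hj hj'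
      rcases hl'.eq_or_lt with h1 | h1
      · have : l' = ⟨l, hl⟩ := Fin.ext h1.symm
        rw [this, hj.2, hj'.2]
      · exact h j hj.1 j' hj'.1 l' h1
    · gcongr
      rcases S.eq_empty_or_nonempty with rfl | hne
      · simp
      obtain ⟨j0, hj0, hmin⟩ := S.exists_min_image (fun j => j ⟨l, hl⟩) hne
      obtain ⟨g, hg⟩ := (hG l).2
      have hsub : S.image (fun j => j ⟨l, hl⟩) ⊆ Finset.Ico (j0 ⟨l, hl⟩) (j0 ⟨l, hl⟩ + g) := by
        intro a ha
        obtain ⟨j, hj, rfl⟩ := mem_image.1 ha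
        have h1 := hW j (hS hj) j0 (hS hj0) ⟨l, hl⟩ fun l' hl' => h j hj j0 hj0 l' hl'
        have h2 := hmin j hj
        have h3 := le_abs_self (j ⟨l, hl⟩ - j0 ⟨l, hl⟩)
        simp only [hg] at h1
        push_cast at h1
        rw [mem_Ico]; constructor <;> omega
      refine (card_le_card hsub).trans ?_
      simp only [Int.card_Ico, add_sub_cancel_left, Int.toNat_natCast]
      omega

theorem sum_cmp {M : ℕ} {G : ℕ → ℕ} (C : Finset (Fin M → ℤ)) (lab : ℕ → ℕ) {l : ℕ} (hl : l < M)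
    (hG : 0 < G l) :
    ∑ a ∈ range (G l), (cmp G C (Function.update lab l a) l).card = (cmp G C lab (l + 1)).card := by
  classical
  have hG' : (0 : ℤ) < G l := by exact_mod_cast hG
  rw [card_eq_sum_card_fiberwise (s := cmp G C lab (l + 1)) (t := range (G l))
    (f := fun j : Fin M → ℤ => (j ⟨l, hl⟩ % (G l : ℤ)).toNat)]
  · refine sum_congr rfl fun a ha => ?_
    congr 1
    ext j
    have ha' : (a : ℤ) < G l := by exact_mod_cast mem_range.1 ha
    have h0 := Int.emod_nonneg (j ⟨l, hl⟩) hG'.ne'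
    have hiff : ((a : ℤ) ≡ j ⟨l, hl⟩ [ZMOD G l]) ↔ (j ⟨l, hl⟩ % G l).toNat = a := by
      unfold Int.ModEq
      rw [Int.emod_eq_of_lt (by positivity) ha']
      omega
    simp only [mem_filter, mem_cmp]
    constructor
    · rintro ⟨h1, h2⟩
      refine ⟨⟨h1, fun l' hl' => ?_⟩, ?_⟩
      · have := h2 l' (by omega)
        rwa [Function.update_of_ne (by omega)] at this
      · have := h2 ⟨l, hl⟩ le_rfl
        rw [Function.update_self] at this
        exact hiff.1 this
    · rintro ⟨⟨h1, h2⟩, h3⟩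
      refine ⟨h1, fun l' hl' => ?_⟩
      rcases hl'.eq_or_lt with h4 | h4
      · have : l' = ⟨l, hl⟩ := Fin.ext h4.symm
        subst this
        rw [Function.update_self]
        exact hiff.2 h3
      · rw [Function.update_of_ne (by omega)]
        exact h2 l' h4
  · intro j _
    have h0 := Int.emod_nonneg (j ⟨l, hl⟩) hG'.ne'
    have h1 := Int.emod_lt_of_pos (j ⟨l, hl⟩) hG'
    simp only [coe_range, Set.mem_Iio]
    omega

end TREE

theorem tree : TreeStmt := by
  intro M G C hG hW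
  have hpos : ∀ l, (0 : ℝ) < ∏ k ∈ range l, (G k : ℝ) := fun l =>
    prod_pos fun k _ => by exact_mod_cast (hG k).1
  refine ⟨fun lab l => (TREE.cmp G C lab l).card / ∏ k ∈ range l, (G k : ℝ), ⟨?_, ?_, ?_⟩, ?_, ?_⟩
  · intro lab l; positivity
  · intro lab l hl
    have h1 := TREE.card_le hG hW l hl (TREE.cmp G C lab l) (fun j hj => (TREE.mem_cmp.1 hj).1)
      fun j hj j' hj' => TREE.agree hW (TREE.mem_cmp.1 hj).1 (TREE.mem_cmp.1 hj').1 l
        fun l' hl' => ((TREE.mem_cmp.1 hj).2 l' hl').symm.trans ((TREE.mem_cmp.1 hj').2 l' hl')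
    rw [div_le_iff₀ (hpos l)]
    have h2 : ((∏ k ∈ range l, G k / 2 : ℕ) : ℝ) ≤ (1 / 2) ^ l * ∏ k ∈ range l, (G k : ℝ) := by
      have e : (1 / 2 : ℝ) ^ l = ∏ k ∈ range l, (1 / 2 : ℝ) := by simp
      rw [e, ← prod_mul_distrib, Nat.cast_prod]
      refine prod_le_prod (fun _ _ => by positivity) fun k _ => ?_
      have := Nat.cast_div_le (α := ℝ) (m := G k) (n := 2)
      push_cast at this
      linarith
    exact le_trans (by exact_mod_cast h1) h2
  · intro lab l hl
    rw [← sum_div, ← Nat.cast_sum, TREE.sum_cmp C lab hl (hG l).1, prod_range_succ, div_div]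
  · intro lab
    have e : TREE.cmp G C lab M = C := by
      ext j
      rw [TREE.mem_cmp]
      exact ⟨fun h => h.1, fun h => ⟨h, fun l' hl' => absurd l'.2 (by omega)⟩⟩
    simp only [e]
    rw [Finset.prod_range (fun k => (G k : ℝ))]
  · intro lab h
    have hne : (TREE.cmp G C lab 0).Nonempty := by
      rw [← card_pos]
      by_contra h0
      apply h
      simp only [not_lt, Nat.le_zero] at h0
      simp [h0]
    obtain ⟨j, hj⟩ := hne
    exact ⟨j, (TREE.mem_cmp.1 hj).1, fun l => (TREE.mem_cmp.1 hj).2 l (Nat.zero_le _)⟩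

theorem amp : AmpStmt := by
  classical
  intro Ω Γ R _ _ _ _ Rows Good d φ hφ hlt
  have hΓ : (0 : ℝ) < Fintype.card Γ := by exact_mod_cast Fintype.card_pos_iff.2 ⟨0⟩
  have hΩ : (0 : ℝ) < Fintype.card Ω := by exact_mod_cast Fintype.card_pos
  set B : Ω → Finset Γ := fun ω => univ.filter (fun γ => ∃ b ∈ Rows, ¬ Good b ω γ) with hB
  have h1 : ∑ ω, ((B ω).card : ℝ) ≤ ∑ _ω : Ω, Rows.card * φ * Fintype.card Γ := by
    have h2 : ∀ b ∈ Rows, ∑ ω, ∑ γ, (if ¬ Good b ω γ then (1 : ℝ) else 0) ≤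
        φ * (Fintype.card Ω * Fintype.card Γ) := by
      intro b hb
      have h3 := hφ b hb
      unfold prob av at h3
      rw [div_le_iff₀ (by rw [Fintype.card_prod]; push_cast; positivity), Fintype.card_prod,
        Fintype.sum_prod_type] at h3
      push_cast at h3
      refine le_trans (le_of_eq ?_) h3
      exact sum_congr rfl fun ω _ => sum_congr rfl fun γ _ => by congr
    calc ∑ ω, ((B ω).card : ℝ) ≤ ∑ ω, ∑ γ, ∑ b ∈ Rows, (if ¬ Good b ω γ then (1 : ℝ) else 0) := by
          refine sum_le_sum fun ω _ => ?_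
          simp only [hB]
          rw [card_filter]
          push_cast
          refine sum_le_sum fun γ _ => ?_
          split_ifs with h
          · obtain ⟨b, hb, hn⟩ := h
            refine le_trans (by rw [if_pos hn]) (single_le_sum
              (f := fun b => if ¬ Good b ω γ then (1 : ℝ) else 0) (fun _ _ => by positivity) hb)
          · positivity
      _ = ∑ b ∈ Rows, ∑ ω, ∑ γ, (if ¬ Good b ω γ then (1 : ℝ) else 0) := by
          exact (sum_congr rfl fun ω _ => sum_comm).trans sum_comm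
      _ ≤ ∑ _b ∈ Rows, φ * (Fintype.card Ω * Fintype.card Γ) := sum_le_sum h2
      _ = _ := by simp only [sum_const, nsmul_eq_mul, card_univ]; ring
  obtain ⟨ω, -, hω⟩ := exists_le_of_sum_le univ_nonempty h1
  by_contra hcon
  push Not at hcon
  have hsub : (univ : Finset (Fin d → Γ)) ⊆
      (B ω).biUnion fun γ => Fintype.piFinset fun _ => (B ω).image (fun a => γ - a) := by
    intro ξ _
    obtain ⟨γ, hγ⟩ := hcon ω ξ
    have hm : ∀ o : Option (Fin d), γ - o.elim 0 ξ ∈ B ω := fun o => by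
      simp only [hB, mem_filter, mem_univ, true_and]; exact hγ o
    refine mem_biUnion.2 ⟨γ, by simpa using hm none, Fintype.mem_piFinset.2 fun i => ?_⟩
    exact mem_image.2 ⟨γ - ξ i, hm (some i), by simp⟩
  have h2 : Fintype.card Γ ^ d ≤ (B ω).card ^ (d + 1) := by
    have h3 := (card_le_card hsub).trans card_biUnion_le
    rw [card_univ, Fintype.card_fun, Fintype.card_fin] at h3
    refine h3.trans ?_
    rw [pow_succ']
    refine (sum_le_card_nsmul _ _ ((B ω).card ^ d) fun γ _ => ?_).trans (by simp)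
    rw [Fintype.card_piFinset, prod_const, card_univ, Fintype.card_fin]
    exact Nat.pow_le_pow_left card_image_le d
  have h3 : (Fintype.card Γ : ℝ) ^ d ≤ (Rows.card * φ * Fintype.card Γ) ^ (d + 1) :=
    le_trans (by exact_mod_cast h2) (pow_le_pow_left₀ (Nat.cast_nonneg _) hω _)
  have h4 : (0 : ℝ) < (Fintype.card Γ : ℝ) ^ d := by positivity
  rw [mul_pow, pow_succ (Fintype.card Γ : ℝ)] at h3
  nlinarith

end Crest.Agent.R225.Up
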