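import Crest.Agent.R225.UpA

/-! # Row 225, task A2: trigonometric polynomials on `ZMod Q` -/

open Finset

namespace Crest.Agent.R225.Up

namespace TRIG

variable {Q : ℕ} [NeZero Q]

/-- a finite combination of characters of frequencies in `[-B, B]` -/
lemma of_sum {σ : Type*} (s : Finset σ) (c : σ → ℂ) (w : σ → ℤ) (B : ℕ) (f : ZMod Q → ℝ)
    (hw : ∀ i ∈ s, w i ∈ Finset.Icc (-(B : ℤ)) B)
    (hf : ∀ u, (f u : ℂ) = ∑ i ∈ s, c i * ZMod.stdAddChar (((w i : ℤ) : ZMod Q) * u)) :
    Trig Q B f := by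
  classical
  refine ⟨fun v => ∑ i ∈ s.filter (fun i => w i = v), c i, fun u => ?_⟩
  rw [hf u, ← Finset.sum_fiberwise_of_maps_to hw]
  refine Finset.sum_congr rfl fun v _ => ?_
  rw [Finset.sum_mul]
  refine Finset.sum_congr rfl fun i hi => ?_
  rw [(Finset.mem_filter.1 hi).2]

lemma mono {B B' : ℕ} {f : ZMod Q → ℝ} (h : B ≤ B') (hf : Trig Q B f) : Trig Q B' f := by
  obtain ⟨a, ha⟩ := hf
  refine of_sum (Finset.Icc (-(B : ℤ)) B) a id B' f (fun i hi => ?_) ha
  simp only [Finset.mem_Icc, id] at hi ⊢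
  omega

lemma sub_const {B : ℕ} {f : ZMod Q → ℝ} (c : ℝ) (hf : Trig Q B f) :
    Trig Q B (fun u => f u - c) := by
  obtain ⟨a, ha⟩ := hf
  refine ⟨fun w => a w - if w = 0 then (c : ℂ) else 0, fun u => ?_⟩
  simp only [sub_mul, Finset.sum_sub_distrib, ite_mul, zero_mul]
  rw [Finset.sum_ite_eq' (Finset.Icc (-(B : ℤ)) B) 0]
  push_cast
  rw [ha u]
  simp

lemma mul {B : ℕ} {f g : ZMod Q → ℝ} (hf : Trig Q B f) (hg : Trig Q B g) :
    Trig Q (2 * B) (fun u => f u * g u) := by
  obtain ⟨a, ha⟩ := hf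
  obtain ⟨b, hb⟩ := hg
  refine of_sum (Finset.Icc (-(B : ℤ)) B ×ˢ Finset.Icc (-(B : ℤ)) B) (fun p => a p.1 * b p.2)
    (fun p => p.1 + p.2) (2 * B) _ (fun i hi => ?_) (fun u => ?_)
  · simp only [Finset.mem_product, Finset.mem_Icc] at hi ⊢
    push_cast
    omega
  · push_cast
    rw [ha u, hb u, Finset.sum_mul_sum, Finset.sum_product]
    refine Finset.sum_congr rfl fun i _ => Finset.sum_congr rfl fun j _ => ?_
    rw [add_mul, AddChar.map_add_eq_mul]
    ring

lemma marg {ι P : Type} [Fintype P] [DecidableEq P] (X : ι → P → ZMod Q) (x : ι) (p0 : P)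
    (h1 : X x p0 = 1) (f : ZMod Q → ℝ) :
    av (fun θ : P → ZMod Q => f (val X θ x)) = av f := by
  have hs : ∀ s : ZMod Q, ∑ θ : P → ZMod Q, f (val X θ x) = ∑ θ : P → ZMod Q, f (val X θ x + s) := by
    intro s
    refine (Fintype.sum_equiv (Equiv.addRight (Pi.single p0 s)) _ _ fun θ => ?_).symm
    congr 1
    simp only [val, Equiv.coe_addRight, Pi.add_apply, add_mul, Finset.sum_add_distrib]
    congr 1
    rw [Finset.sum_eq_single p0]
    · simp [h1]
    · intro b _ hb
      simp [Pi.single_eq_of_ne hb]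
    · simp
  have h2 : (Fintype.card (ZMod Q) : ℝ) * ∑ θ : P → ZMod Q, f (val X θ x) =
      (Fintype.card (P → ZMod Q) : ℝ) * ∑ u, f u := by
    calc (Fintype.card (ZMod Q) : ℝ) * ∑ θ : P → ZMod Q, f (val X θ x)
        = ∑ s : ZMod Q, ∑ θ : P → ZMod Q, f (val X θ x + s) := by
          rw [Finset.sum_congr rfl fun s _ => (hs s).symm]
          simp
      _ = ∑ θ : P → ZMod Q, ∑ s : ZMod Q, f (val X θ x + s) := Finset.sum_comm
      _ = ∑ θ : P → ZMod Q, ∑ u, f u := by
          refine Finset.sum_congr rfl fun θ _ => ?_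
          exact Fintype.sum_equiv (Equiv.addLeft (val X θ x)) _ _ fun s => rfl
      _ = _ := by simp
  have hq : (0 : ℝ) < Fintype.card (ZMod Q) := by exact_mod_cast Fintype.card_pos
  have hp : (0 : ℝ) < Fintype.card (P → ZMod Q) := by exact_mod_cast Fintype.card_pos
  unfold av
  rw [div_eq_div_iff hp.ne' hq.ne']
  linarith

lemma sum_char {P : Type} [Fintype P] [DecidableEq P] (y : P → ZMod Q) :
    ∑ θ : P → ZMod Q, ZMod.stdAddChar (∑ p, θ p * y p) =
      if y = 0 then (Fintype.card (P → ZMod Q) : ℂ) else 0 := by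
  split_ifs with hy
  · simp [hy]
  · let φ : (P → ZMod Q) →+ ZMod Q :=
      { toFun := fun θ => ∑ p, θ p * y p
        map_zero' := by simp
        map_add' := fun a b => by simp [add_mul, Finset.sum_add_distrib] }
    have hne : (ZMod.stdAddChar (N := Q)).compAddMonoidHom φ ≠ 1 := by
      intro h
      apply hy
      funext p1
      have := DFunLike.congr_fun h (Pi.single p1 1)
      simp only [AddChar.compAddMonoidHom_apply, AddChar.one_apply] at this
      have h3 : φ (Pi.single p1 1) = y p1 := by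
        change ∑ p, (Pi.single p1 (1 : ZMod Q) : P → ZMod Q) p * y p = y p1
        rw [Finset.sum_eq_single p1]
        · simp
        · intro b _ hb
          simp [Pi.single_eq_of_ne hb]
        · simp
      rw [h3] at this
      exact ZMod.injective_stdAddChar (this.trans (AddChar.map_zero_eq_one _).symm)
    exact AddChar.sum_eq_zero_of_ne_one hne

lemma sum_char1 (y : ZMod Q) :
    ∑ u : ZMod Q, ZMod.stdAddChar (y * u) = if y = 0 then (Fintype.card (ZMod Q) : ℂ) else 0 := by
  split_ifs with hy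
  · simp [hy]
  · have hne : (ZMod.stdAddChar (N := Q)).mulShift y ≠ 1 := by
      intro h
      have := DFunLike.congr_fun h 1
      simp only [AddChar.mulShift_apply, mul_one, AddChar.one_apply] at this
      exact hy (ZMod.injective_stdAddChar (this.trans (AddChar.map_zero_eq_one _).symm))
    exact AddChar.sum_eq_zero_of_ne_one hne

omit [NeZero Q] in
lemma cast_eq_zero {B : ℕ} (hB : B < Q) {w : ℤ} (hw : w ∈ Finset.Icc (-(B : ℤ)) B)
    (h : (w : ZMod Q) = 0) : w = 0 := by
  rw [ZMod.intCast_zmod_eq_zero_iff_dvd] at h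
  simp only [Finset.mem_Icc] at hw
  exact Int.eq_zero_of_dvd_of_natAbs_lt_natAbs h (by omega)

lemma av_eq {B : ℕ} (hB : B < Q) {f : ZMod Q → ℝ} {a : ℤ → ℂ}
    (ha : ∀ u : ZMod Q, (f u : ℂ) =
      ∑ w ∈ Finset.Icc (-(B : ℤ)) B, a w * ZMod.stdAddChar ((w : ZMod Q) * u)) :
    ((av f : ℝ) : ℂ) = a 0 := by
  have hq : (Fintype.card (ZMod Q) : ℂ) ≠ 0 := by exact_mod_cast Fintype.card_pos.ne'
  unfold av
  push_cast
  rw [div_eq_iff hq]
  simp only [ha]
  rw [Finset.sum_comm]
  simp only [← Finset.mul_sum, sum_char1]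
  rw [Finset.sum_eq_single 0]
  · simp
  · intro b hb hb0
    rw [if_neg (fun h => hb0 (cast_eq_zero hB hb h)), mul_zero]
  · intro h
    simp at h

lemma char_sum {σ : Type*} (s : Finset σ) (g : σ → ZMod Q) :
    ZMod.stdAddChar (∑ i ∈ s, g i) = ∏ i ∈ s, ZMod.stdAddChar (g i) := by
  classical
  induction s using Finset.induction_on with
  | empty => simp
  | insert a s ha ih => rw [Finset.sum_insert ha, Finset.prod_insert ha, AddChar.map_add_eq_mul, ih]

lemma indep {ι P : Type} [Fintype P] [DecidableEq P] (X : ι → P → ZMod Q) (B : ℕ) (U : Finset ι)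
    (f : ι → ZMod Q → ℝ) (hB : B < Q) (hD : Dis X B U) (hf : ∀ x ∈ U, Trig Q B (f x)) :
    av (fun θ : P → ZMod Q => ∏ x ∈ U, f x (val X θ x)) = ∏ x ∈ U, av (f x) := by
  classical
  have hf' : ∀ x : U, Trig Q B (f x) := fun x => hf x x.2
  choose a ha using hf'
  have hp : (Fintype.card (P → ZMod Q) : ℂ) ≠ 0 := by exact_mod_cast Fintype.card_pos.ne'
  apply Complex.ofReal_injective
  rw [← Finset.prod_coe_sort U (fun x => av (f x))]
  push_cast
  simp only [av_eq hB (ha _)]
  unfold av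
  push_cast
  rw [div_eq_iff hp]
  have h1 : ∀ θ : P → ZMod Q, ∏ x ∈ U, (f x (val X θ x) : ℂ) =
      ∑ c ∈ Fintype.piFinset (fun _ : U => Finset.Icc (-(B : ℤ)) B), (∏ x : U, a x (c x)) *
        ZMod.stdAddChar (∑ p, θ p * (∑ x : U, c x • X x) p) := by
    intro θ
    rw [← Finset.prod_coe_sort U (fun x => (f x (val X θ x) : ℂ))]
    simp only [ha]
    rw [Finset.prod_univ_sum]
    refine Finset.sum_congr rfl fun c _ => ?_
    rw [Finset.prod_mul_distrib, ← char_sum]
    congr 2
    simp only [val, Finset.mul_sum, Finset.sum_apply, Pi.smul_apply]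
    rw [Finset.sum_comm]
    refine Finset.sum_congr rfl fun p _ => Finset.sum_congr rfl fun x _ => ?_
    rw [zsmul_eq_mul]
    ring
  simp only [h1]
  rw [Finset.sum_comm]
  simp only [← Finset.mul_sum, sum_char]
  rw [Finset.sum_eq_single (fun _ => 0)]
  · simp
  · intro c hc hc0
    rw [if_neg, mul_zero]
    intro h
    apply hc0
    have := hD (fun x => if hx : x ∈ U then c ⟨x, hx⟩ else 0) (fun x hx => ?_) ?_
    · funext x
      simpa using this x x.2
    · have := Fintype.mem_piFinset.1 hc ⟨x, hx⟩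
      simp only [Finset.mem_Icc] at this
      simp only [hx, dite_true]
      exact abs_le.2 this
    · rw [← h, ← Finset.sum_coe_sort U]
      refine Finset.sum_congr rfl fun x _ => ?_
      simp
  · intro h
    exact absurd (Fintype.mem_piFinset.2 fun _ => by simp) h

end TRIG

theorem trig : TrigStmt := fun _ _ =>
  ⟨fun _ _ _ h hf => TRIG.mono h hf, fun _ _ c hf => TRIG.sub_const c hf,
    fun _ _ _ hf hg => TRIG.mul hf hg, fun _ _ _ _ X x p0 h f => TRIG.marg X x p0 h f,
    fun _ _ _ _ X B U f hB hD hf => TRIG.indep X B U f hB hD hf⟩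

end Crest.Agent.R225.Up
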