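import Crest.Agent.R225.UpEn1

/-!
# Row 225, task C3: walks in the graph of popular differences
-/

open Finset MeasureTheory
open scoped ENNReal

namespace Crest.Agent.R225.Up

namespace Walk

variable {κ : Type} [Fintype κ]

theorem cs {ω u : (κ → ℝ) → ℝ≥0∞} (hω : Measurable ω) (hu : Measurable u) :
    (∫⁻ z, ω z * u z) ^ 2 ≤ (∫⁻ z, ω z) * ∫⁻ z, ω z * u z ^ 2 := by
  have h := ENNReal.lintegral_mul_le_Lp_mul_Lq (volume.withDensity ω) Real.HolderConjugate.two_two
    (f := fun _ => 1) (g := u) aemeasurable_const hu.aemeasurable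
  rw [lintegral_withDensity_eq_lintegral_mul _ hω (by fun_prop),
    lintegral_withDensity_eq_lintegral_mul _ hω (by fun_prop),
    lintegral_withDensity_eq_lintegral_mul _ hω (by fun_prop)] at h
  simp only [Pi.mul_apply, one_mul, ENNReal.rpow_two, one_pow, mul_one] at h
  refine le_trans (pow_le_pow_left' h 2) (le_of_eq ?_)
  have e : ∀ x : ℝ≥0∞, (x ^ (1 / 2 : ℝ)) ^ 2 = x := fun x => by
    rw [← ENNReal.rpow_two, ← ENNReal.rpow_mul]; norm_num
  rw [mul_pow, e, e]

/-- iterated kernel -/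
noncomputable def Kr (K0 : (κ → ℝ) → (κ → ℝ) → ℝ≥0∞) (ω : (κ → ℝ) → ℝ≥0∞) :
    ℕ → (κ → ℝ) → (κ → ℝ) → ℝ≥0∞
  | 0 => K0
  | i + 1 => fun x y => ∫⁻ z, Kr K0 ω i x z * ω z * Kr K0 ω i z y

theorem Kr_succ (K0 : (κ → ℝ) → (κ → ℝ) → ℝ≥0∞) (ω : (κ → ℝ) → ℝ≥0∞) (i : ℕ) (x y : κ → ℝ) :
    Kr K0 ω (i + 1) x y = ∫⁻ z, Kr K0 ω i x z * ω z * Kr K0 ω i z y := rfl

variable {K0 : (κ → ℝ) → (κ → ℝ) → ℝ≥0∞} {ω : (κ → ℝ) → ℝ≥0∞}

theorem Kr_meas (h0 : Measurable (Function.uncurry K0)) (hω : Measurable ω) (i : ℕ) :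
    Measurable (Function.uncurry (Kr K0 ω i)) := by
  induction i with
  | zero => exact h0
  | succ i ih =>
    have : Measurable (fun p : ((κ → ℝ) × (κ → ℝ)) × (κ → ℝ) =>
        Kr K0 ω i p.1.1 p.2 * ω p.2 * Kr K0 ω i p.2 p.1.2) := by fun_prop
    exact this.lintegral_prod_right'

theorem Kr_symm (hs : ∀ x y, K0 x y = K0 y x) (i : ℕ) (x y : κ → ℝ) :
    Kr K0 ω i x y = Kr K0 ω i y x := by
  induction i generalizing x y with
  | zero => exact hs x y
  | succ i ih =>
    rw [Kr_succ, Kr_succ]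
    refine lintegral_congr fun z => ?_
    rw [ih x z, ih z y]; ring

/-- total weight of walks -/
noncomputable def Pw (K0 : (κ → ℝ) → (κ → ℝ) → ℝ≥0∞) (ω : (κ → ℝ) → ℝ≥0∞) (i : ℕ) : ℝ≥0∞ :=
  ∫⁻ x, ω x * ∫⁻ y, Kr K0 ω i x y * ω y

theorem Pw_step (h0 : Measurable (Function.uncurry K0)) (hω : Measurable ω)
    (hs : ∀ x y, K0 x y = K0 y x) (i : ℕ) :
    Pw K0 ω i ^ 2 ≤ (∫⁻ z, ω z) * Pw K0 ω (i + 1) := by
  have hK := Kr_meas h0 hω i
  have hu : Measurable fun x => ∫⁻ y, Kr K0 ω i x y * ω y := by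
    have : Measurable (fun p : (κ → ℝ) × (κ → ℝ) => Kr K0 ω i p.1 p.2 * ω p.2) := by fun_prop
    exact this.lintegral_prod_right'
  refine le_trans (cs hω hu) (le_of_eq ?_)
  congr 1
  set u := fun x => ∫⁻ y, Kr K0 ω i x y * ω y with hudef
  have h1 : ∀ x, ∫⁻ y, Kr K0 ω (i + 1) x y * ω y = ∫⁻ z, Kr K0 ω i x z * ω z * u z := by
    intro x
    have : ∀ y, Kr K0 ω (i + 1) x y * ω y =
        ∫⁻ z, Kr K0 ω i x z * ω z * Kr K0 ω i z y * ω y := by
      intro y
      rw [Kr_succ, lintegral_mul_const _ (by fun_prop)]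
    simp only [this]
    rw [lintegral_lintegral_swap (by fun_prop)]
    refine lintegral_congr fun z => ?_
    rw [hudef, ← lintegral_const_mul _ (by fun_prop)]
    refine lintegral_congr fun y => ?_
    ring
  have h2 : ∀ x, ω x * ∫⁻ z, Kr K0 ω i x z * ω z * u z =
      ∫⁻ z, ω x * (Kr K0 ω i x z * ω z * u z) := by
    intro x
    rw [lintegral_const_mul _ (by fun_prop)]
  rw [Pw]
  simp only [h1, h2]
  rw [lintegral_lintegral_swap (by fun_prop)]
  refine lintegral_congr fun z => ?_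
  have h3 : ∀ x, ω x * (Kr K0 ω i x z * ω z * u z) = (ω z * u z) * (Kr K0 ω i z x * ω x) := by
    intro x; rw [Kr_symm hs i x z]; ring
  simp only [h3]
  rw [lintegral_const_mul _ (by fun_prop)]
  change _ = ω z * u z * u z
  ring

theorem Pw_iter (h0 : Measurable (Function.uncurry K0)) (hω : Measurable ω)
    (hs : ∀ x y, K0 x y = K0 y x) {a : ℝ≥0∞} (ha : ∫⁻ z, ω z ≤ a) (i : ℕ) :
    a * Pw K0 ω 0 ^ (2 ^ i) ≤ a ^ (2 ^ i) * Pw K0 ω i ∨ a = 0 ∨ a = ⊤ := by
  by_cases ha0 : a = 0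
  · exact Or.inr (Or.inl ha0)
  by_cases hat : a = ⊤
  · exact Or.inr (Or.inr hat)
  left
  induction i with
  | zero => simp
  | succ i ih =>
    rw [← ENNReal.mul_le_mul_iff_right ha0 hat]
    calc a * (a * Pw K0 ω 0 ^ (2 ^ (i + 1))) = (a * Pw K0 ω 0 ^ (2 ^ i)) ^ 2 := by ring
      _ ≤ (a ^ (2 ^ i) * Pw K0 ω i) ^ 2 := by gcongr
      _ = a ^ (2 ^ (i + 1)) * Pw K0 ω i ^ 2 := by ring
      _ ≤ a ^ (2 ^ (i + 1)) * (a * Pw K0 ω (i + 1)) := by
        gcongr
        exact le_trans (Pw_step h0 hω hs i) (by gcongr)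
      _ = _ := by ring

theorem Kr_le {χ : (κ → ℝ) → ℝ≥0∞} (hχ : Measurable χ) {σ : ℝ} (hσ : σ = 1 ∨ σ = -1)
    (hK : ∀ x y, K0 x y = χ (y - σ • x)) (hs : ∀ x y, K0 x y = K0 y x) {b : ℝ≥0∞}
    (hb : ∀ x, ω x ≤ b) (i : ℕ) (x y : κ → ℝ) :
    Kr K0 ω (i + 1) x y ≤ b ^ (2 * 2 ^ i - 1) * cpw χ i (y - x) := by
  induction i generalizing x y with
  | zero =>
    rw [Kr_succ, En.cpw_zero]
    have h1 : ∫⁻ w, χ w * χ (w + (y - x)) = ∫⁻ z, χ (x - σ • z) * χ (y - σ • z) := by
      rw [← lintegral_sub_left_eq_self (fun w => χ w * χ (w + (y - x))) x]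
      rcases hσ with rfl | rfl
      · refine lintegral_congr fun z => ?_
        congr 2 <;> module
      · rw [← lintegral_neg_eq_self]
        refine lintegral_congr fun z => ?_
        congr 2 <;> module
    rw [h1, ← lintegral_const_mul _ (by fun_prop)]
    refine lintegral_mono fun z => ?_
    change K0 x z * ω z * K0 z y ≤ _
    rw [hs x z, hK, hK]
    calc χ (x - σ • z) * ω z * χ (y - σ • z) ≤ χ (x - σ • z) * b * χ (y - σ • z) := by
          gcongr; exact hb z
      _ = _ := by norm_num; ring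
  | succ i ih =>
    have hm := En.meas hχ i
    rw [Kr_succ, En.cpw_succ, ← lintegral_sub_right_eq_self _ x,
      ← lintegral_sub_right_eq_self (fun w => cpw χ i w * cpw χ i (y - x - w)) x,
      lintegral_sub_right_eq_self (fun z => Kr K0 ω (i + 1) x z * ω z * Kr K0 ω (i + 1) z y) x,
      ← lintegral_const_mul _ (by fun_prop)]
    refine lintegral_mono fun z => ?_
    have e : 2 * 2 ^ (i + 1) - 1 = (2 * 2 ^ i - 1) + 1 + (2 * 2 ^ i - 1) := by
      have : 1 ≤ 2 ^ i := Nat.one_le_two_pow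
      omega
    calc Kr K0 ω (i + 1) x z * ω z * Kr K0 ω (i + 1) z y
        ≤ (b ^ (2 * 2 ^ i - 1) * cpw χ i (z - x)) * b * (b ^ (2 * 2 ^ i - 1) * cpw χ i (y - z)) := by
          gcongr
          exacts [ih _ _, hb _, ih _ _]
      _ = _ := by
          rw [e, show y - x - (z - x) = y - z by abel]; ring

end Walk

open Walk in
theorem walk (hEn : EnStmt) : WalkStmt := by
  intro κ _ ω a b θ σ j hω ha hb hθ hσ hA hB hC
  have hm := hω.1
  set G : (κ → ℝ) → ℝ≥0∞ := fun β => ∫⁻ x, ω x * ω (β + σ • x) with hG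
  have hGm : Measurable G := by
    have : Measurable (fun p : (κ → ℝ) × (κ → ℝ) => ω p.2 * ω (p.1 + σ • p.2)) := by fun_prop
    exact this.lintegral_prod_right'
  have hGlc : ∀ z z', G z * G z' ≤ G ((1 / 2 : ℝ) • (z + z')) ^ 2 := by
    intro z z'
    refine hasPL_fun κ _ _ _ (by fun_prop) (by fun_prop) (by fun_prop) fun x y => ?_
    calc ω x * ω (z + σ • x) * (ω y * ω (z' + σ • y))
        = (ω x * ω y) * (ω (z + σ • x) * ω (z' + σ • y)) := by ring
      _ ≤ _ := mul_le_mul' (hω.2 _ _) (hω.2 _ _)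
      _ = _ := by
        rw [mul_pow]; congr 3; module
  set a' := ENNReal.ofReal a with ha'
  set b' := ENNReal.ofReal b with hb'
  set θ' := ENNReal.ofReal θ with hθ'
  have ha0 : a' ≠ 0 := by simpa [ha'] using ha
  have hb0 : b' ≠ 0 := by simpa [hb'] using hb
  have hθ0 : θ' ≠ 0 := by simpa [hθ'] using hθ
  have hat : a' ≠ ⊤ := ENNReal.ofReal_ne_top
  have hbt : b' ≠ ⊤ := ENNReal.ofReal_ne_top
  have hθt : θ' ≠ ⊤ := ENNReal.ofReal_ne_top
  have hGb : ∀ β, G β ≤ a' * b' := by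
    intro β
    calc G β ≤ ∫⁻ x, ω x * b' := lintegral_mono fun x => by gcongr; exact hB _
      _ = (∫⁻ x, ω x) * b' := lintegral_mul_const _ hm
      _ ≤ _ := by gcongr
  have hGi : ∫⁻ β, G β ≤ a' * a' := by
    rw [hG]
    simp only
    rw [lintegral_lintegral_swap (by fun_prop)]
    have : ∀ x : κ → ℝ, ∫⁻ β, ω x * ω (β + σ • x) = ω x * ∫⁻ z, ω z := by
      intro x
      rw [lintegral_const_mul _ (by fun_prop), lintegral_add_right_eq_self]
    simp only [this]
    rw [lintegral_mul_const _ hm]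
    gcongr
  set Z : Set (κ → ℝ) := {β | θ' * a' * b' ≤ G β} with hZ
  have hZm : MeasurableSet Z := measurableSet_le measurable_const hGm
  have hZ1 : θ' * a' * b' * volume Z ≤ ∫⁻ β in Z, G β := by
    rw [← setLIntegral_const]
    exact setLIntegral_mono' hZm fun z hz => hz
  have hZt : volume Z ≠ ⊤ := by
    intro h
    have h1 := le_trans hZ1 (le_trans (setLIntegral_le_lintegral _ _) hGi)
    rw [h, ENNReal.mul_top (by positivity)] at h1
    exact ENNReal.mul_ne_top hat hat (top_le_iff.1 h1)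
  set χ : (κ → ℝ) → ℝ≥0∞ := Z.indicator 1 with hχ
  have hχm : Measurable χ := measurable_one.indicator hZm
  have hχlc : LC χ := by
    refine ⟨hχm, fun x y => ?_⟩
    by_cases hx : x ∈ Z
    · by_cases hy : y ∈ Z
      · have : (1 / 2 : ℝ) • (x + y) ∈ Z := by
          refine En.le_of_sq two_ne_zero (le_trans ?_ (hGlc x y))
          rw [sq]
          exact mul_le_mul' hx hy
        rw [hχ, Set.indicator_of_mem this, Set.indicator_of_mem hx, Set.indicator_of_mem hy]
        simp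
      · simp [hχ, hy]
    · simp [hχ, hx]
  set K0 : (κ → ℝ) → (κ → ℝ) → ℝ≥0∞ := fun x y => χ (y - σ • x) with hK0
  have hK0m : Measurable (Function.uncurry K0) := by
    change Measurable fun p : (κ → ℝ) × (κ → ℝ) => χ (p.2 - σ • p.1)
    fun_prop
  have hs : ∀ x y, K0 x y = K0 y x := by
    intro x y
    rcases hσ with rfl | rfl
    · have hev : ∀ β, G (-β) = G β := by
        intro β
        rw [hG]
        simp only [one_smul]
        rw [← lintegral_add_right_eq_self _ β]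
        refine lintegral_congr fun x => ?_
        rw [mul_comm, add_comm β x]; congr 2; abel
      have : (y - x ∈ Z) ↔ (x - y ∈ Z) := by
        simp only [hZ, Set.mem_ofPred_eq]
        rw [← hev (y - x), neg_sub]
      simp only [hK0, one_smul, hχ]
      by_cases h : y - x ∈ Z
      · rw [Set.indicator_of_mem h, Set.indicator_of_mem (this.1 h)]; rfl
      · rw [Set.indicator_of_notMem h, Set.indicator_of_notMem (fun h' => h (this.2 h'))]
    · simp only [hK0]; congr 1; module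
  have hP0 : Pw K0 ω 0 = ∫⁻ β in Z, G β := by
    rw [Pw, ← lintegral_indicator hZm]
    have h1 : ∀ x, ω x * ∫⁻ y, Kr K0 ω 0 x y * ω y = ∫⁻ β, χ β * (ω x * ω (β + σ • x)) := by
      intro x
      rw [← lintegral_add_right_eq_self (fun y => Kr K0 ω 0 x y * ω y) (σ • x),
        ← lintegral_const_mul _ (by change Measurable fun y => χ (y + σ • x - σ • x) * _; fun_prop)]
      refine lintegral_congr fun β => ?_
      change ω x * (χ (β + σ • x - σ • x) * _) = _
      rw [add_sub_cancel_right]; ring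
    simp only [h1]
    rw [lintegral_lintegral_swap (by fun_prop)]
    refine lintegral_congr fun β => ?_
    rw [lintegral_const_mul _ (by fun_prop)]
    by_cases h : β ∈ Z <;> simp [hχ, h, hG]
  have h4 : 2 ^ (2 * j) = 4 ^ j := by rw [pow_mul]; norm_num
  have h4' : 2 ^ (2 * j + 1) = 2 * 4 ^ j := by rw [pow_succ, h4, mul_comm]
  have hpos : 1 ≤ 2 * 4 ^ j := Nat.one_le_iff_ne_zero.2 (by positivity)
  obtain ⟨n, hn⟩ := Nat.exists_eq_add_of_le' hpos
  have hn1 : 2 * 4 ^ j - 1 = n := by omega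
  have hn2 : 4 * 4 ^ j = 2 * (n + 1) := by omega
  have hE : ∀ z, cpw χ (2 * j) z ≤ θ' ^ (2 * (n + 1)) * volume Z ^ n := by
    intro z
    refine le_trans (hEn κ χ (volume Z).toReal 1 j hχlc ENNReal.toReal_nonneg zero_le_one ?_ ?_ z) ?_
    · rw [hχ, lintegral_indicator_one hZm, ENNReal.ofReal_toReal hZt]
    · intro x; by_cases h : x ∈ Z <;> simp [hχ, h]
    · rw [hn1, mul_one, ← hn2]
      refine le_trans (ENNReal.ofReal_le_ofReal
        (mul_le_mul_of_nonneg_right hC (by positivity))) (le_of_eq ?_)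
      rw [ENNReal.ofReal_mul (by positivity), ENNReal.ofReal_pow hθ.le,
        ENNReal.ofReal_pow ENNReal.toReal_nonneg, ENNReal.ofReal_toReal hZt]
  have hPN : Pw K0 ω (2 * j + 1) ≤ a' * (b' ^ n * (θ' ^ (2 * (n + 1)) * volume Z ^ n) * a') := by
    rw [Pw]
    calc ∫⁻ x, ω x * ∫⁻ y, Kr K0 ω (2 * j + 1) x y * ω y
        ≤ ∫⁻ x, ω x * ∫⁻ y, (b' ^ n * (θ' ^ (2 * (n + 1)) * volume Z ^ n)) * ω y := by
          gcongr with x y
          refine le_trans (Kr_le hχm hσ (fun _ _ => rfl) hs hB (2 * j) x y) ?_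
          rw [h4, hn1]
          gcongr
          exact hE _
      _ ≤ _ := by
          rw [lintegral_const_mul _ hm, lintegral_mul_const _ hm]
          gcongr
  have hit := (Pw_iter hK0m hm hs hA (2 * j + 1)).resolve_right (by simp only [not_or]; exact ⟨ha0, hat⟩)
  rw [h4', hn, hP0] at hit
  have hkey : b' * volume Z ≤ θ' ^ (n + 1) * a' := by
    by_cases hZ0 : volume Z = 0
    · simp [hZ0]
    have h5 : a' * (θ' * a' * b' * volume Z) ^ (n + 1) ≤
        a' ^ (n + 1) * (a' * (b' ^ n * (θ' ^ (2 * (n + 1)) * volume Z ^ n) * a')) :=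
      le_trans (by gcongr) (le_trans hit (by gcongr))
    have h6 : a' ^ (n + 2) * θ' ^ (n + 1) * b' ^ n * volume Z ^ n ≠ 0 := by positivity
    have h7 : a' ^ (n + 2) * θ' ^ (n + 1) * b' ^ n * volume Z ^ n ≠ ⊤ := by finiteness
    rw [← ENNReal.mul_le_mul_iff_right h6 h7]
    refine le_trans (le_of_eq ?_) (le_trans h5 (le_of_eq ?_)) <;> ring
  change ∫⁻ β, G β ^ (2 * 4 ^ j + 1) ≤ _
  rw [hn]
  calc ∫⁻ β, G β ^ (n + 1 + 1)
      ≤ ∫⁻ β, ((θ' * a' * b') ^ (n + 1) * G β + (a' * b') ^ (n + 2) * χ β) := by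
        refine lintegral_mono fun β => ?_
        by_cases h : β ∈ Z
        · refine le_trans ?_ le_add_self
          rw [hχ, Set.indicator_of_mem h, Pi.one_apply, mul_one]
          exact pow_le_pow_left' (hGb β) _
        · refine le_trans ?_ le_self_add
          rw [pow_succ]
          gcongr
          exact (not_le.1 h).le
    _ = (θ' * a' * b') ^ (n + 1) * (∫⁻ β, G β) + (a' * b') ^ (n + 2) * volume Z := by
        rw [lintegral_add_left (by fun_prop), lintegral_const_mul _ hGm,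
          lintegral_const_mul _ hχm, hχ, lintegral_indicator_one hZm]
    _ = (θ' * a' * b') ^ (n + 1) * (∫⁻ β, G β) + a' ^ (n + 2) * b' ^ (n + 1) * (b' * volume Z) := by
        ring
    _ ≤ (θ' * a' * b') ^ (n + 1) * (a' * a') + a' ^ (n + 2) * b' ^ (n + 1) * (θ' ^ (n + 1) * a') := by
        gcongr
    _ = _ := by
        rw [ENNReal.ofReal_mul (by positivity), ENNReal.ofReal_mul (by positivity),
          ENNReal.ofReal_mul (by positivity), ENNReal.ofReal_pow hθ.le, ENNReal.ofReal_pow ha.le,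
          ENNReal.ofReal_pow hb.le, ENNReal.ofReal_ofNat]
        ring

end Crest.Agent.R225.Up
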