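import Crest.Agent.R225.UpD

/-! # Row 225, task D5: wide cells carry little volume -/

open Finset MeasureTheory
open scoped ENNReal

namespace Crest.Agent.R225.Up

namespace WID

lemma third {lam : ℝ} {n : ℕ} (h0 : 0 ≤ lam) (h : lam * (n + 1) ≤ 1) : 1 ≤ 3 * (1 - lam) ^ n := by
  rcases Nat.eq_zero_or_pos n with rfl | hn
  · norm_num
  have hn' : (0 : ℝ) < n := by exact_mod_cast hn
  have h1 : (1 + 1 / (n : ℝ)) ^ n ≤ 3 := by
    calc (1 + 1 / (n : ℝ)) ^ n ≤ (Real.exp (1 / n)) ^ n := by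
          gcongr
          linarith [Real.add_one_le_exp (1 / (n : ℝ))]
      _ = Real.exp 1 := by
          rw [← Real.exp_nat_mul]
          congr 1
          field_simp
      _ ≤ 3 := Real.exp_one_lt_three.le
  have h2 : 1 ≤ (1 + 1 / (n : ℝ)) * (1 - lam) := by
    have : (1 + 1 / (n : ℝ)) * (1 - lam) = (n + 1 - lam * (n + 1)) / n := by field_simp
    rw [this, le_div_iff₀ hn']
    linarith
  have h3 : 0 ≤ 1 - lam := by nlinarith
  calc (1 : ℝ) ≤ ((1 + 1 / (n : ℝ)) * (1 - lam)) ^ n := one_le_pow₀ h2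
    _ = (1 + 1 / (n : ℝ)) ^ n * (1 - lam) ^ n := mul_pow _ _ _
    _ ≤ _ := by gcongr

variable {I : Type} [Fintype I] [DecidableEq I]

lemma vol_le (J : Finset I) {lam : ℝ} (h0 : 0 ≤ lam) (h : lam * (J.card + 1) ≤ 1) (p : I → ℝ)
    (X Y : Set (I → ℝ))
    (hXY : ∀ z ∈ X, (fun i => if i ∈ J then (1 - lam) * z i + lam * p i else z i) ∈ Y) :
    volume X ≤ 3 * volume Y := by
  let D : Matrix I I ℝ := Matrix.diagonal (fun i => if i ∈ J then 1 - lam else 1)
  let c : I → ℝ := fun i => if i ∈ J then lam * p i else 0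
  have hdet : LinearMap.det (Matrix.toLin' D) = (1 - lam) ^ J.card := by
    rw [LinearMap.det_toLin', Matrix.det_diagonal, ← Finset.prod_filter_mul_prod_filter_not univ
      (fun i => i ∈ J)]
    rw [Finset.prod_congr rfl (g := fun _ => 1 - lam) (fun i hi => if_pos (Finset.mem_filter.1 hi).2),
      Finset.prod_eq_one (fun i hi => if_neg (Finset.mem_filter.1 hi).2)]
    simp
  have h3 := third h0 h
  have hpos : 0 < (1 - lam) ^ J.card := by linarith
  have hsub : X ⊆ (Matrix.toLin' D) ⁻¹' ((fun z => z + c) ⁻¹' Y) := by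
    intro z hz
    have := hXY z hz
    simp only [Set.mem_preimage, Matrix.toLin'_apply]
    convert this using 1
    funext i
    simp only [D, c, Pi.add_apply, Matrix.mulVec_diagonal]
    split_ifs <;> simp
  refine (measure_mono hsub).trans ?_
  rw [Measure.addHaar_preimage_linearMap _ (by rw [hdet]; exact hpos.ne'), measure_preimage_add_right,
    hdet]
  gcongr
  rw [abs_of_pos (inv_pos.2 hpos), show (3 : ℝ≥0∞) = ENNReal.ofReal 3 by simp]
  refine ENNReal.ofReal_le_ofReal ?_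
  rw [inv_le_comm₀ hpos (by norm_num)]
  linarith

lemma cn_off (ρ u : I → ℝ) (J : Finset I) (hu : ∀ i ∈ J, u i = 0) :
    cn ρ u = ∑ i ∈ Jᶜ, |u i| / ρ i := by
  unfold cn
  rw [← Finset.sum_add_sum_compl J, Finset.sum_eq_zero, zero_add]
  intro i hi
  simp [hu i hi]

lemma cn_on (ρ u : I → ℝ) (J : Finset I) (hu : ∀ i, i ∉ J → u i = 0) :
    cn ρ u = ∑ i ∈ J, |u i| / ρ i := by
  unfold cn
  rw [← Finset.sum_add_sum_compl J, Finset.sum_eq_zero (s := Jᶜ), add_zero]
  intro i hi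
  simp [hu i (Finset.mem_compl.1 hi)]

/-- one wide cell -/
lemma one (hE : EroStmt) (K : Set (I → ℝ)) (ρ : I → ℝ) (J : Finset I) (C : Set (I → ℝ)) (T β' : ℝ)
    (hK : IsCompact K) (hc : Convex ℝ K) (hρ : ∀ i, 0 < ρ i) (hT : 0 < T) (hβ : 0 < β')
    (hcyl : ∀ x ∈ C, ∀ y : I → ℝ, (∀ i, i ∉ J → y i = x i) → y ∈ C)
    (hdiam : ∀ x ∈ C, ∀ y ∈ C, ∑ i ∈ Jᶜ, |x i - y i| / ρ i ≤ 1 / 2)
    (hJ : ∑ i ∈ J, β' / ρ i ≤ 1 / 2)
    (hw : ∃ p ∈ ero K ρ 1 ∩ C, ∃ p' ∈ ero K ρ 1 ∩ C, ∃ i ∈ J, T * (J.card + 1) ≤ |p i - p' i|) :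
    ∃ k ∈ Fintype.piFinset (fun i => if i ∈ J then Finset.Icc ⌊-T / β'⌋ ⌊T / β'⌋ else {0}),
      T - β' ≤ ‖fun i => β' * (k i : ℝ)‖ ∧
      volume (ero K ρ 1 ∩ C) ≤
        3 * volume ({y | y ∈ K ∧ (y + fun i => β' * (k i : ℝ)) ∈ K} ∩ C) := by
  obtain ⟨p, hp, p', hp', i0, hi0, hw⟩ := hw
  obtain ⟨hE1, hE2⟩ := hE I K ρ hρ hK hc
  let Δ : I → ℝ := fun i => if i ∈ J then p' i - p i else 0
  have hΔ : T * (J.card + 1) ≤ ‖Δ‖ := by
    refine hw.trans (le_trans (le_of_eq ?_) (norm_le_pi_norm Δ i0))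
    simp [Δ, hi0, abs_sub_comm]
  have hΔ0 : 0 < ‖Δ‖ := lt_of_lt_of_le (by positivity) hΔ
  set lam := T / ‖Δ‖ with hlam
  have hl0 : 0 < lam := by positivity
  have hl1 : lam * (J.card + 1) ≤ 1 := by
    rw [hlam, div_mul_eq_mul_div, div_le_one hΔ0]
    exact hΔ
  have hl2 : lam ≤ 1 := by nlinarith [(Nat.cast_nonneg J.card : (0 : ℝ) ≤ J.card)]
  have hn : ‖lam • Δ‖ = T := by
    rw [norm_smul, Real.norm_eq_abs, abs_of_pos hl0, hlam]
    field_simp
  let k : I → ℤ := fun i => ⌊lam * Δ i / β'⌋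
  have hk : ∀ i, |β' * (k i : ℝ) - lam * Δ i| ≤ β' := by
    intro i
    have h1 := Int.floor_le (lam * Δ i / β')
    have h2 := Int.lt_floor_add_one (lam * Δ i / β')
    rw [le_div_iff₀ hβ] at h1
    rw [div_lt_iff₀ hβ] at h2
    rw [abs_le]
    constructor <;> simp only [k] <;> nlinarith
  refine ⟨k, ?_, ?_, ?_⟩
  · refine Fintype.mem_piFinset.2 fun i => ?_
    split_ifs with hi
    · have h1 : |lam * Δ i| ≤ T := by
        rw [← hn]
        exact norm_le_pi_norm (lam • Δ) i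
      rw [abs_le] at h1
      refine Finset.mem_Icc.2 ⟨Int.floor_mono ?_, Int.floor_mono ?_⟩ <;> gcongr
      exacts [h1.1, h1.2]
    · simp [k, Δ, hi]
  · have h1 : ‖(fun i => β' * (k i : ℝ)) - lam • Δ‖ ≤ β' :=
      (pi_norm_le_iff_of_nonneg hβ.le).2 fun i => hk i
    have h2 := norm_sub_norm_le (lam • Δ) (fun i => β' * (k i : ℝ))
    rw [norm_sub_rev] at h2
    linarith
  · refine vol_le J hl0.le hl1 p _ _ fun z hz => ?_
    have key : ∀ q ∈ ero K ρ 1 ∩ C,
        (fun i => if i ∈ J then (1 - lam) * z i + lam * q i else z i) ∈ ero K ρ (1 - 1 / 2) := by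
      intro q hq
      have h1 : (1 - lam) • z + lam • q ∈ ero K ρ 1 :=
        (hE1 1 zero_le_one).2.2 hz.1 hq.1 (by linarith) hl0.le (by ring)
      have h2 := hE2 1 (1 / 2) _ (fun i => if i ∈ J then 0 else lam * (z i - q i)) h1 (by
        rw [cn_off ρ _ J (fun i hi => if_pos hi)]
        refine le_trans (Finset.sum_le_sum fun i hi => ?_) (hdiam z hz.2 q hq.2)
        rw [if_neg (Finset.mem_compl.1 hi), abs_mul, abs_of_pos hl0]
        have := hρ i
        gcongr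
        nlinarith [abs_nonneg (z i - q i)])
      convert h2 using 1
      funext i
      simp only [Pi.add_apply, Pi.smul_apply, smul_eq_mul]
      split_ifs <;> ring
    refine ⟨⟨(hE1 _ (by norm_num)).1 (key p hp), ?_⟩, hcyl z hz.2 _ fun i hi => if_neg hi⟩
    have h3 := hE2 _ (1 / 2) _ (fun i => β' * (k i : ℝ) - lam * Δ i) (key p' hp') (by
      rw [cn_on ρ _ J (fun i hi => by simp [k, Δ, hi])]
      refine le_trans (Finset.sum_le_sum fun i _ => ?_) hJ
      have := hρ i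
      gcongr
      exact hk i)
    have h4 := (hE1 _ (by norm_num)).1 h3
    convert h4 using 1
    funext i
    simp only [Pi.add_apply, Δ]
    split_ifs <;> ring

end WID

theorem width (hE : EroStmt) : WidthStmt := by
  classical
  intro I σ _ _ K Sl ρ J 𝒮 Cell T β' Hb hK hc hρ hT hβ hm hdisj hcyl hdiam hJ hw hH
  set P := Fintype.piFinset (fun i => if i ∈ J then Finset.Icc ⌊-T / β'⌋ ⌊T / β'⌋ else {0}) with hP
  have h1 : ∀ s, ∃ k : I → ℤ, s ∈ 𝒮 → k ∈ P ∧ T - β' ≤ ‖fun i => β' * (k i : ℝ)‖ ∧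
      volume (ero K ρ 1 ∩ Cell s) ≤
        3 * volume ({y | y ∈ K ∧ (y + fun i => β' * (k i : ℝ)) ∈ K} ∩ Cell s) := by
    intro s
    by_cases hs : s ∈ 𝒮
    · obtain ⟨k, h1, h2⟩ := WID.one hE K ρ J (Cell s) T β' hK hc hρ hT hβ (hcyl s hs) (hdiam s hs) hJ
        (hw s hs)
      exact ⟨k, fun _ => ⟨h1, h2⟩⟩
    · exact ⟨0, fun h => absurd h hs⟩
  choose k hk using h1
  rw [← Finset.sum_fiberwise_of_maps_to (fun s hs => (hk s hs).1)]
  have h2 : ∀ κ ∈ P, ∑ s ∈ 𝒮.filter (fun s => k s = κ), volume (ero K ρ 1 ∩ Cell s) ≤ 3 * Hb := by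
    intro κ _
    rcases (𝒮.filter (fun s => k s = κ)).eq_empty_or_nonempty with h | ⟨s0, hs0⟩
    · simp [h]
    obtain ⟨hs1, rfl⟩ := Finset.mem_filter.1 hs0
    set G := {y | y ∈ K ∧ (y + fun i => β' * (k s0 i : ℝ)) ∈ K} with hG
    have hGm : MeasurableSet G :=
      hK.measurableSet.inter (hK.measurableSet.preimage (measurable_add_const _))
    calc _ ≤ ∑ s ∈ 𝒮.filter (fun s => k s = k s0), 3 * volume (G ∩ Cell s) := by
          refine Finset.sum_le_sum fun s hs => ?_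
          obtain ⟨hs, e⟩ := Finset.mem_filter.1 hs
          have := (hk s hs).2.2
          rwa [e] at this
      _ = 3 * volume (⋃ s ∈ 𝒮.filter (fun s => k s = k s0), G ∩ Cell s) := by
          rw [← Finset.mul_sum, measure_biUnion_finset]
          · intro a ha b hb hab
            exact (hdisj a (Finset.mem_filter.1 ha).1 b (Finset.mem_filter.1 hb).1 hab).mono
              Set.inter_subset_right Set.inter_subset_right
          · intro a ha
            exact hGm.inter (hm a (Finset.mem_filter.1 ha).1).1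
      _ ≤ 3 * volume (G ∩ Sl) := by
          gcongr
          refine Set.iUnion₂_subset fun a ha => ?_
          exact Set.inter_subset_inter_right _ (hm a (Finset.mem_filter.1 ha).1).2
      _ ≤ 3 * Hb := by
          gcongr
          exact hH _ (hk s0 hs1).2.1
  refine (Finset.sum_le_sum h2).trans ?_
  rw [Finset.sum_const, nsmul_eq_mul, ← mul_assoc]
  gcongr
  have hcard : (P.card : ℝ) ≤ (2 * T / β' + 3) ^ J.card := by
    rw [hP, Fintype.card_piFinset, ← Finset.prod_mul_prod_compl J,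
      Finset.prod_eq_one (s := Jᶜ) (fun i hi => by simp [Finset.mem_compl.1 hi]), mul_one,
      Finset.prod_congr rfl (g := fun _ => (Finset.Icc ⌊-T / β'⌋ ⌊T / β'⌋).card)
        (fun i hi => by rw [if_pos hi]), Finset.prod_const]
    push_cast
    gcongr
    rw [Int.card_Icc]
    have h3 := Int.floor_le (T / β')
    have h4 := Int.lt_floor_add_one (-T / β')
    have h5 : ⌊-T / β'⌋ ≤ ⌊T / β'⌋ := Int.floor_mono (by gcongr; linarith)
    have h6 : (((⌊T / β'⌋ + 1 - ⌊-T / β'⌋).toNat : ℤ) : ℝ) = (⌊T / β'⌋ + 1 - ⌊-T / β'⌋ : ℤ) := by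
      rw [Int.toNat_of_nonneg (by omega)]
    push_cast at h6
    rw [h6]
    have : 2 * T / β' = T / β' - -T / β' := by ring
    linarith
  calc (P.card : ℝ≥0∞) * 3 = ENNReal.ofReal (3 * P.card) := by
        rw [ENNReal.ofReal_mul (by norm_num)]
        simp [mul_comm]
    _ ≤ _ := ENNReal.ofReal_le_ofReal (by linarith)

end Crest.Agent.R225.Up
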