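import Crest.Agent.R225.UpMq

/-!
# Row 225, part C6: assembly of `Wt`
-/

open Finset MeasureTheory
open scoped ENNReal

namespace Crest.Agent.R225.Up

theorem wt (hEn : EnStmt) (hWalk : WalkStmt) (hDisc : DiscStmt) (h1 : Mq1Stmt) (h2 : Mq2Stmt) :
    WtStmt := by
  intro q _ K R _ _ _ _ S w ω b wmin τ Θ Λ θ ϱ ε2 D j hS hb ha hwm hlow hLC hMaj hτ hint hbd hΘ hΛ hθ
    hϱ hϱ1 hD hD2 hD4 c1 c2 c3 c4
  classical
  set a := ∑ x ∈ S, w x with ha'
  have hDq : D < q := by omega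
  obtain ⟨m1, m2, m3⟩ := h1 q K R S w b D hS hDq
  have hτ1 : 1 ≤ τ := by linarith [Nat.cast_nonneg (α := ℝ) j]
  obtain ⟨-, d2, d3, d4⟩ := hDisc (K ⊕ R) τ _ ω hLC.1 hMaj hτ1
  have e4 : 2 ^ (2 * j) = 4 ^ j := by rw [pow_mul]; norm_num
  have hw : ∀ x, 0 ≤ w x := fun x => (hS.bd x).1
  have hC : 0 ≤ enC j (Fintype.card (K ⊕ R)) := by unfold enC; positivity
  have hm : 1 ≤ 4 ^ j := Nat.one_le_pow _ _ (by norm_num)
  refine ⟨fun γ => ⟨MQ.push_nonneg hS γ, ?_⟩, ?_, fun γ h => ?_, hwm, fun γ h => ?_, hϱ, hϱ1,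
    le_trans (by positivity) c3, ?_, fun v => ?_, fun c hc => ?_⟩
  · rw [push]
    refine (Finset.sum_le_card_nsmul _ _ b fun x _ => (hS.bd x).2).trans ?_
    rw [nsmul_eq_mul]
    refine mul_le_of_le_one_left hb.le ?_
    rw [Nat.cast_le_one, Finset.card_le_one]
    intro x hx y hy
    simp only [Finset.mem_filter] at hx hy
    exact m1 x hx.1 y hy.1 (hx.2.trans hy.2.symm)
  · simpa using MQ.sum_push (q := q) (S := S) (w := w) (fun _ => 1)
  · obtain ⟨x, hx, -⟩ := Finset.exists_ne_zero_of_sum_ne_zero h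
    simp only [Finset.mem_filter] at hx
    rw [← hx.2]
    rfl
  · obtain ⟨x, hx, hx0⟩ := Finset.exists_ne_zero_of_sum_ne_zero h
    exact (hlow x hx0).trans (Finset.single_le_sum (fun y _ => hw y) hx)
  · rw [e4]
    have k1 := hEn (K ⊕ R) ω (Θ * a) (Λ * b) j hLC (by positivity) (by positivity) hint hbd 0
    have k2 := d2 (2 * j) (by push_cast; linarith)
    refine (m2 (2 * j) _ (by rw [e4]; exact hD4) (by positivity) (k2.trans k1)).trans ?_
    calc _ = (enC j (Fintype.card (K ⊕ R)) * Θ ^ (2 * 4 ^ j - 1) * Λ) *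
          (a ^ (2 * 4 ^ j - 1) * b) := by rw [mul_pow]; ring
      _ ≤ ϱ ^ (2 * 4 ^ j - 2) * (a ^ (2 * 4 ^ j - 1) * b) := by gcongr
      _ = _ := by ring
  · rw [e4]
    have hp : 0 ≤ pi0 q R := by unfold pi0; positivity
    calc _ ≤ pi0 q R * ((2 * D + 1) ^ Fintype.card R * b) := mul_le_mul_of_nonneg_left (m3 v) hp
      _ = b * ((2 * D + 1) / (q : ℝ)) ^ Fintype.card R := by
          rw [pi0, div_pow, div_pow]; ring
      _ ≤ _ := by gcongr
  · rw [e4]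
    have k := h2 q K R S w b (2 * θ ^ (2 * 4 ^ j) * (Θ * a) ^ (2 * 4 ^ j + 2) * (Λ * b) ^ (2 * 4 ^ j))
      (Θ * a / 2 ^ Fintype.card (K ⊕ R)) D (2 * 4 ^ j) hS hD hD2 (by positivity) (by positivity)
      (fun σ hσ => (d3 σ _ hσ).trans (hWalk (K ⊕ R) ω (Θ * a) (Λ * b) θ σ j hLC (by positivity)
        (by positivity) hθ (by rcases hσ with rfl | rfl <;> simp) hint hbd c2))
      (fun s o hs => by
        have k1 := (d4 s o hs).trans hint
        rw [ENNReal.ofReal_div_of_pos (by positivity), ENNReal.le_div_iff_mul_le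
          (Or.inl (by simp)) (Or.inl ENNReal.ofReal_ne_top), mul_comm]
        refine le_trans (le_of_eq ?_) k1
        rw [ENNReal.ofReal_pow (by norm_num)]
        simp) c hc
    refine k.trans ?_
    calc _ = (2 * θ ^ (2 * 4 ^ j) * Θ ^ (2 * 4 ^ j + 2) * Λ ^ (2 * 4 ^ j) +
          (Θ / 2 ^ Fintype.card (K ⊕ R)) ^ (2 * 4 ^ j)) *
          (a ^ (2 * 4 ^ j + 2) * b ^ (2 * 4 ^ j)) := by
          simp only [mul_pow, div_pow, ← ha']; ring
      _ ≤ ε2 * (a ^ (2 * 4 ^ j + 2) * b ^ (2 * 4 ^ j)) := by gcongr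
      _ = _ := by ring

end Crest.Agent.R225.Up
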